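import Vale.Agent.P268.Z.Crit

/-!
# P268: the final statements, deduced from the algebraic part `Star`
-/

open Set Filter Metric Topology Matrix

namespace Vale.Agent.P268.Z

/-- Output of the algebraic part (to be proved from the blocks). -/
def Star : Prop :=
  ∃ (m n : ℕ) (F : Fin m → List ℕ) (G : Fin n → List ℕ),
    2 ≤ m ∧ 2 ≤ n ∧ (∀ i, F i ≠ []) ∧ (∀ i, G i ≠ []) ∧
    (∀ i, ∀ a ∈ F i, 2 ≤ a) ∧ (∀ i, ∀ a ∈ G i, 2 ≤ a) ∧
    (∀ i, ∃ (l : List ℕ) (x : ℕ), F i = l ++ [x] ∧ 3 ≤ x) ∧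
    (∃ i, F i = [3]) ∧ (∃ i, G i = [2]) ∧
    ∑ i, (F i).length = ∑ i, (G i).length ∧ 4 ≤ ∑ i, (F i).length ∧
    Congruent (seifert F) (seifert G)

/-! ### Reindexing -/

theorem congruent_of_equiv {α β : Type} [Fintype α] [Fintype β] [DecidableEq α] [DecidableEq β]
    {A : Matrix α α ℤ} {B : Matrix β β ℤ} (f : α ≃ β) (h : ∀ x y, A x y = B (f x) (f y)) :
    Congruent A B := by
  have hPQ : ((1 : Matrix β β ℤ).submatrix id f) * ((1 : Matrix β β ℤ).submatrix f id) = 1 := by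
    rw [Matrix.submatrix_mul_equiv]
    simp
  have hQP : ((1 : Matrix β β ℤ).submatrix f id) * ((1 : Matrix β β ℤ).submatrix id f) = 1 := by
    have h1 := Matrix.submatrix_mul_equiv (1 : Matrix β β ℤ) (1 : Matrix β β ℤ) f
      (Equiv.refl β) f
    simp only [Equiv.coe_refl, mul_one, Matrix.submatrix_one_equiv] at h1
    exact h1
  refine ⟨(1 : Matrix β β ℤ).submatrix id f, (1 : Matrix β β ℤ).submatrix f id, hQP, hPQ, ?_⟩
  ext x y
  rw [Matrix.transpose_submatrix, Matrix.transpose_one, Matrix.mul_assoc, Matrix.mul_apply]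
  simp [Matrix.mul_apply, Matrix.one_apply, h]

theorem Congruent.refl {α : Type} [Fintype α] [DecidableEq α] (A : Matrix α α ℤ) :
    Congruent A A := congruent_of_equiv (Equiv.refl α) fun _ _ => rfl

theorem Congruent.symm {α β : Type} [Fintype α] [Fintype β] [DecidableEq α] [DecidableEq β]
    {A : Matrix α α ℤ} {B : Matrix β β ℤ} (h : Congruent A B) : Congruent B A := by
  obtain ⟨P, Q, hQP, hPQ, hAB⟩ := h
  refine ⟨Q, P, hPQ, hQP, ?_⟩
  rw [← hAB, ← Matrix.mul_assoc, ← Matrix.mul_assoc, ← Matrix.transpose_mul, hPQ,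
    Matrix.transpose_one, Matrix.one_mul, Matrix.mul_assoc, hPQ, Matrix.mul_one]

theorem Congruent.trans {α β γ : Type} [Fintype α] [Fintype β] [Fintype γ] [DecidableEq α]
    [DecidableEq β] [DecidableEq γ] {A : Matrix α α ℤ} {B : Matrix β β ℤ} {C : Matrix γ γ ℤ}
    (h : Congruent A B) (h' : Congruent B C) : Congruent A C := by
  obtain ⟨P, Q, hQP, hPQ, hAB⟩ := h
  obtain ⟨P', Q', hQP', hPQ', hBC⟩ := h'
  refine ⟨P' * P, Q * Q', ?_, ?_, ?_⟩
  · rw [Matrix.mul_assoc, ← Matrix.mul_assoc Q', hQP', Matrix.one_mul, hQP]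
  · rw [Matrix.mul_assoc, ← Matrix.mul_assoc P, hPQ, Matrix.one_mul, hPQ']
  · rw [Matrix.transpose_mul, ← hAB, ← hBC]
    simp only [Matrix.mul_assoc]

/-- Reindexing the summands. -/
theorem congruent_seifert_equiv {ι κ : Type} [Fintype ι] [DecidableEq ι] [Fintype κ]
    [DecidableEq κ] (e : ι ≃ κ) (F : κ → List ℕ) :
    Congruent (seifert fun i => F (e i)) (seifert F) := by
  refine congruent_of_equiv (Equiv.piCongrLeft (fun k => Fin (mu (F k))) e) fun x y => ?_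
  rw [seifert, seifert, ← Equiv.prod_comp e]
  simp only [Equiv.piCongrLeft_apply_apply]

/-- `Star` from families over arbitrary finite index types. -/
theorem Star.of_fintype {ι κ : Type} [Fintype ι] [DecidableEq ι] [Fintype κ] [DecidableEq κ]
    (F : ι → List ℕ) (G : κ → List ℕ) (hι : 2 ≤ Fintype.card ι) (hκ : 2 ≤ Fintype.card κ)
    (hF0 : ∀ i, F i ≠ []) (hG0 : ∀ i, G i ≠ [])
    (hF : ∀ i, ∀ a ∈ F i, 2 ≤ a) (hG : ∀ i, ∀ a ∈ G i, 2 ≤ a)
    (hF3 : ∀ i, ∃ (l : List ℕ) (x : ℕ), F i = l ++ [x] ∧ 3 ≤ x)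
    (h3 : ∃ i, F i = [3]) (h2 : ∃ i, G i = [2])
    (hN : ∑ i, (F i).length = ∑ i, (G i).length) (h4 : 4 ≤ ∑ i, (F i).length)
    (hFG : Congruent (seifert F) (seifert G)) : Star := by
  let e := (Fintype.equivFin ι).symm
  let e' := (Fintype.equivFin κ).symm
  refine ⟨Fintype.card ι, Fintype.card κ, fun i => F (e i), fun i => G (e' i), hι, hκ,
    fun i => hF0 _, fun i => hG0 _, fun i => hF _, fun i => hG _, fun i => hF3 _, ?_, ?_, ?_, ?_,
    ?_⟩
  · obtain ⟨i, hi⟩ := h3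
    exact ⟨e.symm i, by simpa using hi⟩
  · obtain ⟨i, hi⟩ := h2
    exact ⟨e'.symm i, by simpa using hi⟩
  · rw [Equiv.sum_comp e (fun i => (F i).length), Equiv.sum_comp e' (fun i => (G i).length), hN]
  · rw [Equiv.sum_comp e (fun i => (F i).length)]
    exact h4
  · exact (congruent_seifert_equiv e F).trans (hFG.trans (congruent_seifert_equiv e' G).symm)

/-! ### The final statements -/

/-- The pair: two sums of chain polynomials in the same number `N ≥ 4` of variables, both with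
isolated critical point and reduced, of multiplicities `3` and `2`, with congruent Seifert
matrices. -/
theorem pair_of_star (h : Star) :
    ∃ (m n N : ℕ) (F : Fin m → List ℕ) (G : Fin n → List ℕ) (e : Vars F ≃ Fin N)
      (e' : Vars G ≃ Fin N),
      4 ≤ N ∧ (∀ i, ∀ a ∈ F i, 2 ≤ a) ∧ (∀ i, ∀ a ∈ G i, 2 ≤ a) ∧
      Red (fun z : Fin N → ℂ => sumFun F (z ∘ e)) ∧
      Red (fun z : Fin N → ℂ => sumFun G (z ∘ e')) ∧
      (∀ z, fderiv ℂ (fun z : Fin N → ℂ => sumFun F (z ∘ e)) z = 0 → z = 0) ∧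
      (∀ z, fderiv ℂ (fun z : Fin N → ℂ => sumFun G (z ∘ e')) z = 0 → z = 0) ∧
      mult (fun z : Fin N → ℂ => sumFun F (z ∘ e)) = 3 ∧
      mult (fun z : Fin N → ℂ => sumFun G (z ∘ e')) = 2 ∧
      Congruent (seifert F) (seifert G) := by
  obtain ⟨m, n, F, G, hm, hn, hF0, hG0, hF, hG, hF3, h3, h2, hN, h4, hFG⟩ := h
  have hcF : Fintype.card (Vars F) = ∑ i, (F i).length := by simp [Vars]
  have hcG : Fintype.card (Vars G) = ∑ i, (F i).length := by simp [Vars, hN]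
  refine ⟨m, n, ∑ i, (F i).length, F, G, Fintype.equivFinOfCardEq hcF,
    Fintype.equivFinOfCardEq hcG, h4, hF, hG, ?_, ?_, sumFun_crit F _ hF, sumFun_crit G _ hG,
    mult_eq_three F _ hF hF3 h3, mult_eq_two G _ hG h2, hFG⟩
  · exact red_sumFun F _ hF (i := ⟨0, by omega⟩) (i' := ⟨1, by omega⟩) (by simp) (hF0 _) (hF0 _)
  · exact red_sumFun G _ hG (i := ⟨0, by omega⟩) (i' := ⟨1, by omega⟩) (by simp) (hG0 _) (hG0 _)

/-- The disproof of Zariski's multiplicity conjecture, from `Star` and the published topological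
classification of the germs in question. -/
theorem zariski_of_star (h : Star)
    (top : ∀ (m n N : ℕ) (F : Fin m → List ℕ) (G : Fin n → List ℕ) (e : Vars F ≃ Fin N)
      (e' : Vars G ≃ Fin N), 4 ≤ N → (∀ i, ∀ a ∈ F i, 2 ≤ a) → (∀ i, ∀ a ∈ G i, 2 ≤ a) →
      Congruent (seifert F) (seifert G) →
      AmbHomeo (fun z : Fin N → ℂ => sumFun F (z ∘ e)) (fun z => sumFun G (z ∘ e'))) :
    ∃ (N : ℕ) (f g : (Fin N → ℂ) → ℂ), Red f ∧ Red g ∧ AmbHomeo f g ∧ mult f ≠ mult g := by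
  obtain ⟨m, n, N, F, G, e, e', h4, hF, hG, hrF, hrG, -, -, hmF, hmG, hFG⟩ := pair_of_star h
  exact ⟨N, _, _, hrF, hrG, top m n N F G e e' h4 hF hG hFG, by rw [hmF, hmG]; decide⟩

end Vale.Agent.P268.Z
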