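import Mathlib

/-!
# P268: chain polynomials and their Seifert matrices (statement level definitions)

A chain is a list `c = [a_m, …, a_1]` (LAST exponent first).  It stands for the chain polynomial
`x_1 ^ a_1 + x_1 * x_2 ^ a_2 + … + x_{m-1} * x_m ^ a_m`.
-/

namespace Vale.Agent.P268.Z

open Matrix

/-- Milnor number of the chain polynomial `c = [a_m, …, a_1]`:
`mu [] = 1` and `mu (a :: c) = a * c.prod - mu c`. -/
def mu : List ℕ → ℕ
  | [] => 1
  | a :: c => a * c.prod - mu c

/-- The power series `q_c`: `q [] = 1`, `q (a :: c) = (1 - X ^ c.prod) / q c`. -/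
noncomputable def qser : List ℕ → PowerSeries ℤ
  | [] => 1
  | _ :: c => (1 - PowerSeries.X ^ c.prod) * PowerSeries.invOfUnit (qser c) 1

/-- The Seifert matrix of the chain polynomial `c`: upper triangular Toeplitz. -/
noncomputable def chainSeifert (c : List ℕ) : Matrix (Fin (mu c)) (Fin (mu c)) ℤ :=
  fun i j => if (i : ℕ) ≤ j then PowerSeries.coeff ((j : ℕ) - i) (qser c) else 0

/-- The Seifert matrix of a sum (in disjoint variables) of chain polynomials: the tensor
(Kronecker) product of the Seifert matrices of the summands. -/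
noncomputable def seifert {ι : Type} [Fintype ι] (F : ι → List ℕ) :
    Matrix ((i : ι) → Fin (mu (F i))) ((i : ι) → Fin (mu (F i))) ℤ :=
  fun x y => ∏ i, chainSeifert (F i) (x i) (y i)

/-- Two integral bilinear forms (given by square matrices) are isomorphic over `ℤ`. -/
def Congruent {α β : Type} [Fintype α] [Fintype β] [DecidableEq α] [DecidableEq β]
    (A : Matrix α α ℤ) (B : Matrix β β ℤ) : Prop :=
  ∃ (P : Matrix β α ℤ) (Q : Matrix α β ℤ), Q * P = 1 ∧ P * Q = 1 ∧ Pᵀ * B * P = A

/-- The variables of a sum of chain polynomials. -/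
abbrev Vars {ι : Type} (F : ι → List ℕ) : Type := Σ i, Fin (F i).length

/-- The chain polynomial as a function: variable `j` has exponent `c.get j` and is multiplied by
variable `j + 1` if there is one. -/
noncomputable def chainFun (c : List ℕ) (x : Fin c.length → ℂ) : ℂ :=
  ∑ j : Fin c.length, x j ^ (c.get j) * (if h : (j : ℕ) + 1 < c.length then x ⟨j + 1, h⟩ else 1)

/-- The sum of the chain polynomials `F i` in disjoint variables. -/
noncomputable def sumFun {ι : Type} [Fintype ι] (F : ι → List ℕ) (x : Vars F → ℂ) : ℂ :=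
  ∑ i, chainFun (F i) (fun j => x ⟨i, j⟩)

end Vale.Agent.P268.Z
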