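import Vale.Agent.P268.Z.ADefs

/-!
# P268, part A: Euclid chains
-/

namespace Vale.Agent.P268.Z

/-- The Euclid chain with last weight `v / u` (empty if `v = 0`). -/
def eu (u : ℕ) (v : ℕ) : List ℕ :=
  if h : v = 0 then [] else (u / v) :: eu u (u % v)
termination_by v
decreasing_by exact Nat.mod_lt _ (Nat.pos_of_ne_zero h)

theorem eu_zero (u : ℕ) : eu u 0 = [] := by
  rw [eu]
  simp

theorem eu_pos {u v : ℕ} (h : v ≠ 0) : eu u v = (u / v) :: eu u (u % v) := by
  rw [eu]
  simp [h]

theorem eu_ne_nil {u v : ℕ} (h : v ≠ 0) : eu u v ≠ [] := by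
  rw [eu_pos h]
  simp

theorem eu_prod_pos {u : ℕ} (v : ℕ) (hv : v ≤ u) : 0 < (eu u v).prod := by
  induction v using Nat.strong_induction_on with
  | _ v ih =>
    rcases Nat.eq_zero_or_pos v with h | h
    · subst h; simp [eu_zero]
    · rw [eu_pos h.ne']
      simp only [List.prod_cons]
      have h1 : u % v < v := Nat.mod_lt _ h
      exact Nat.mul_pos (Nat.div_pos hv h) (ih _ h1 (by omega))

/-- The Milnor number of a Euclid chain. -/
theorem mu_eu {u : ℕ} (hu : 0 < u) (v : ℕ) (hv : v ≤ u) :
    (mu (eu u v) : ℚ) = (eu u v).prod * (1 - v / u) := by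
  induction v using Nat.strong_induction_on with
  | _ v ih =>
    rcases Nat.eq_zero_or_pos v with h | h
    · subst h; simp [eu_zero, mu]
    · have h1 : u % v < v := Nat.mod_lt _ h
      have h2 := ih _ h1 (by omega)
      have ha : 1 ≤ u / v := Nat.div_pos hv h
      have hp := eu_prod_pos (u := u) (u % v) (by omega)
      have huq : (0 : ℚ) < u := by exact_mod_cast hu
      have hdm : (v : ℚ) * ((u / v : ℕ) : ℚ) + ((u % v : ℕ) : ℚ) = u := by
        exact_mod_cast Nat.div_add_mod u v
      rw [eu_pos h.ne']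
      simp only [mu, List.prod_cons]
      set c := eu u (u % v) with hc
      have hle : mu c ≤ (u / v) * c.prod := by
        have h3 : (mu c : ℚ) ≤ c.prod := by
          rw [h2]
          have h4 : (0 : ℚ) ≤ ((u % v : ℕ) : ℚ) / u := by positivity
          have h5 : (0 : ℚ) < (c.prod : ℚ) := by exact_mod_cast hp
          nlinarith
        have h4 : mu c ≤ c.prod := by exact_mod_cast h3
        calc mu c ≤ 1 * c.prod := by omega
          _ ≤ (u / v) * c.prod := Nat.mul_le_mul_right _ ha
      push_cast [Nat.cast_sub hle]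
      rw [h2]
      have hv' : ((u % v : ℕ) : ℚ) = u - v * ((u / v : ℕ) : ℚ) := by linarith
      rw [hv']
      push_cast
      field_simp
      ring

theorem weights_eu {u : ℕ} (hu : 0 < u) {v : ℕ} (h : v ≠ 0) (hv : v ≤ u) :
    weights (eu u v) = (v / u : ℚ) :: weights (eu u (u % v)) := by
  rw [eu_pos h]
  simp only [weights]
  congr 1
  have h1 : u % v < v := Nat.mod_lt _ (Nat.pos_of_ne_zero h)
  rw [mu_eu hu (u % v) (by omega)]
  have ha : 1 ≤ u / v := Nat.div_pos hv (Nat.pos_of_ne_zero h)
  have hp := eu_prod_pos (u := u) (u % v) (by omega)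
  have huq : (0 : ℚ) < u := by exact_mod_cast hu
  have hdm : (v : ℚ) * ((u / v : ℕ) : ℚ) + ((u % v : ℕ) : ℚ) = u := by
    exact_mod_cast Nat.div_add_mod u v
  have h5 : ((eu u (u % v)).prod : ℚ) ≠ 0 := by
    have : (0 : ℚ) < ((eu u (u % v)).prod : ℚ) := by exact_mod_cast hp
    exact this.ne'
  have h6 : ((u / v : ℕ) : ℚ) ≠ 0 := by
    have : (0 : ℚ) < ((u / v : ℕ) : ℚ) := by exact_mod_cast ha
    exact this.ne'
  have hv' : ((u % v : ℕ) : ℚ) = u - v * ((u / v : ℕ) : ℚ) := by linarith
  rw [hv']
  field_simp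
  ring

/-- All weights of a Euclid chain of a weight less than one half are of the same kind. -/
theorem weights_eu_mem {u : ℕ} (v : ℕ) (hv : 2 * v < u) :
    ∀ w ∈ weights (eu u v), ∃ v' : ℕ, 0 < v' ∧ 2 * v' < u ∧ w = (v' / u : ℚ) := by
  induction v using Nat.strong_induction_on with
  | _ v ih =>
    rcases Nat.eq_zero_or_pos v with h | h
    · subst h; simp [eu_zero, weights]
    · intro w hw
      rw [weights_eu (by omega) h.ne' (by omega)] at hw
      rcases List.mem_cons.mp hw with h1 | h1
      · exact ⟨v, h, hv, h1⟩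
      · have h2 : u % v < v := Nat.mod_lt _ h
        exact ih _ h2 (by omega) w h1

/-- All exponents of a Euclid chain of a weight less than one half are at least two. -/
theorem two_le_eu {u : ℕ} (v : ℕ) (hv : 2 * v < u) : ∀ a ∈ eu u v, 2 ≤ a := by
  induction v using Nat.strong_induction_on with
  | _ v ih =>
    rcases Nat.eq_zero_or_pos v with h | h
    · subst h; simp [eu_zero]
    · intro a ha
      rw [eu_pos h.ne'] at ha
      rcases List.mem_cons.mp ha with h1 | h1
      · rw [h1, Nat.le_div_iff_mul_le h]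
        omega
      · have h2 : u % v < v := Nat.mod_lt _ h
        exact ih _ h2 (by omega) a h1

/-- The first exponent (last entry) of a Euclid chain of a weight less than one half with odd
denominator is at least three. -/
theorem eu_last {u : ℕ} (hu : Odd u) (v : ℕ) (h0 : v ≠ 0) (hv : 2 * v < u) :
    ∃ (l : List ℕ) (x : ℕ), eu u v = l ++ [x] ∧ 3 ≤ x := by
  induction v using Nat.strong_induction_on with
  | _ v ih =>
    have h : 0 < v := Nat.pos_of_ne_zero h0
    rw [eu_pos h0]
    rcases Nat.eq_zero_or_pos (u % v) with h1 | h1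
    · refine ⟨[], u / v, by simp [h1, eu_zero], ?_⟩
      have hd : v ∣ u := Nat.dvd_of_mod_eq_zero h1
      obtain ⟨a, ha⟩ := hd
      have hodd : Odd a := by
        rw [ha] at hu
        exact (Nat.odd_mul.mp hu).2
      have h2 : u / v = a := by
        rw [ha]
        exact Nat.mul_div_cancel_left a h
      rw [h2]
      obtain ⟨b, hb⟩ := hodd
      have : 2 < a := by
        by_contra h3
        have h4 : a ≤ 2 := by omega
        have : u ≤ v * 2 := by rw [ha]; exact Nat.mul_le_mul_left v h4
        omega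
      omega
    · have h2 : u % v < v := Nat.mod_lt _ h
      obtain ⟨l, x, hl, hx⟩ := ih _ h2 h1.ne' (by omega)
      exact ⟨(u / v) :: l, x, by rw [hl]; rfl, hx⟩

end Vale.Agent.P268.Z
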