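import Mathlib

/-!
# P268: unimodular forms with a commutative group action, in matrix terms

`GForm R G e ι`: Gram matrix `g` over `R` (index type `ι`), action `ρ : G →* Matrix ι ι R` by
isometries, `gᵀ = e • g` with a sign `e : ℤˣ` (cast to `R`), `g` invertible.
-/

namespace Vale.Agent.P268.Z

open Matrix

section Rep

variable {R : Type} [CommRing R] {S : Type} [CommRing S] {G : Type} [CommGroup G]
  {H : Type} [CommGroup H]
  {ι κ ν : Type} [Fintype ι] [DecidableEq ι] [Fintype κ] [DecidableEq κ]
  [Fintype ν] [DecidableEq ν]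

/-- Isomorphism of representations (matrix form). -/
def RepIso (ρ : G →* Matrix ι ι R) (σ : G →* Matrix κ κ R) : Prop :=
  ∃ (P : Matrix κ ι R) (Q : Matrix ι κ R), Q * P = 1 ∧ P * Q = 1 ∧ ∀ a, P * ρ a = σ a * P

/-- Direct sum of representations. -/
def repSum (ρ : G →* Matrix ι ι R) (σ : G →* Matrix κ κ R) : G →* Matrix (ι ⊕ κ) (ι ⊕ κ) R where
  toFun a := fromBlocks (ρ a) 0 0 (σ a)
  map_one' := by simp [fromBlocks_one]
  map_mul' a b := by simp [fromBlocks_multiply]

/-- Tensor product (diagonal action). -/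
def repTensor (ρ : G →* Matrix ι ι R) (σ : G →* Matrix κ κ R) :
    G →* Matrix (ι × κ) (ι × κ) R where
  toFun a := kroneckerMap (· * ·) (ρ a) (σ a)
  map_one' := by simp
  map_mul' a b := by simp [Matrix.mul_kronecker_mul]

/-- `n` copies of a representation: index type `ν × ι` for a finite type `ν`. -/
def repCopies (ν : Type) [Fintype ν] [DecidableEq ν] (ρ : G →* Matrix ι ι R) :
    G →* Matrix (ν × ι) (ν × ι) R :=
  repTensor (1 : G →* Matrix ν ν R) ρ

/-- The plain dual `a ↦ (ρ a)ᵀ` (a representation because `G` is commutative). -/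
def repSharp (ρ : G →* Matrix ι ι R) : G →* Matrix ι ι R where
  toFun a := (ρ a)ᵀ
  map_one' := by simp
  map_mul' a b := by rw [mul_comm a b, map_mul, transpose_mul]

/-- Twist by inversion. -/
def repBar (ρ : G →* Matrix ι ι R) : G →* Matrix ι ι R := ρ.comp invMonoidHom

/-- The contragredient representation `a ↦ (ρ a⁻¹)ᵀ`. -/
def repDual (ρ : G →* Matrix ι ι R) : G →* Matrix ι ι R := repSharp (repBar ρ)

/-- Base change. -/
def repMap (f : R →+* S) (ρ : G →* Matrix ι ι R) : G →* Matrix ι ι S :=
  (f.mapMatrix : Matrix ι ι R →+* Matrix ι ι S).toMonoidHom.comp ρ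

/-- The regular representation on `R[G]` (index type `G`). -/
def repReg (R : Type) [CommRing R] (G : Type) [CommGroup G] [Fintype G] [DecidableEq G] :
    G →* Matrix G G R where
  toFun a := Matrix.of fun x y => if x = a * y then 1 else 0
  map_one' := by
    ext x y
    simp [Matrix.one_apply]
  map_mul' a b := by
    ext x y
    simp only [Matrix.mul_apply, Matrix.of_apply, mul_assoc]
    rw [Finset.sum_eq_single (b * y)]
    · simp
    · intro z _ hz
      simp [hz]
    · simp

end Rep

/-- A unimodular `e`-symmetric form over `R` with an isometric action of the group `G`. -/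
structure GForm (R : Type) [CommRing R] (G : Type) [CommGroup G] (e : ℤˣ)
    (ι : Type) [Fintype ι] [DecidableEq ι] where
  /-- the Gram matrix -/
  g : Matrix ι ι R
  /-- the action -/
  ρ : G →* Matrix ι ι R
  symm : gᵀ = ((e : ℤ) : R) • g
  inv : ∀ a, (ρ a)ᵀ * g * ρ a = g
  unimod : IsUnit g.det

namespace GForm

variable {R : Type} [CommRing R] {S : Type} [CommRing S] {G : Type} [CommGroup G]
  {H : Type} [CommGroup H] {e e' : ℤˣ}
  {ι κ ν : Type} [Fintype ι] [DecidableEq ι] [Fintype κ] [DecidableEq κ]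
  [Fintype ν] [DecidableEq ν]

/-- Isometry of forms with group action. -/
def Iso (A : GForm R G e ι) (B : GForm R G e' κ) : Prop :=
  ∃ (P : Matrix κ ι R) (Q : Matrix ι κ R), Q * P = 1 ∧ P * Q = 1 ∧
    Pᵀ * B.g * P = A.g ∧ ∀ a, P * A.ρ a = B.ρ a * P

/-- Orthogonal sum. -/
def add (A : GForm R G e ι) (B : GForm R G e κ) : GForm R G e (ι ⊕ κ) where
  g := fromBlocks A.g 0 0 B.g
  ρ := repSum A.ρ B.ρ
  symm := by
    rw [fromBlocks_transpose, A.symm, B.symm]
    simp [fromBlocks_smul]
  inv a := by
    simp [repSum, fromBlocks_transpose, fromBlocks_multiply, A.inv, B.inv]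
  unimod := by
    rw [det_fromBlocks_zero₁₂]
    exact A.unimod.mul B.unimod

/-- Tensor product with the diagonal action. -/
def mul (A : GForm R G e ι) (B : GForm R G e' κ) : GForm R G (e * e') (ι × κ) where
  g := kroneckerMap (· * ·) A.g B.g
  ρ := repTensor A.ρ B.ρ
  symm := by
    rw [← kroneckerMap_transpose, A.symm, B.symm]
    ext ⟨i, j⟩ ⟨i', j'⟩
    simp only [kroneckerMap_apply, Matrix.smul_apply, smul_eq_mul, Units.val_mul, Int.cast_mul]
    ring
  inv a := by
    simp only [repTensor, MonoidHom.coe_mk, OneHom.coe_mk, ← kroneckerMap_transpose]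
    rw [← Matrix.mul_kronecker_mul, ← Matrix.mul_kronecker_mul, A.inv, B.inv]
  unimod := by
    rw [det_kronecker]
    exact (A.unimod.pow _).mul (B.unimod.pow _)

/-- Pull back the action along a homomorphism. -/
def comap (φ : H →* G) (A : GForm R G e ι) : GForm R H e ι where
  g := A.g
  ρ := A.ρ.comp φ
  symm := A.symm
  inv a := A.inv (φ a)
  unimod := A.unimod

/-- External tensor product: a form with an action of `G × H`. -/
def ext (A : GForm R G e ι) (B : GForm R H e' κ) : GForm R (G × H) (e * e') (ι × κ) :=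
  (A.comap (MonoidHom.fst G H)).mul (B.comap (MonoidHom.snd G H))

/-- Base change. -/
def map (f : R →+* S) (A : GForm R G e ι) : GForm S G e ι where
  g := f.mapMatrix A.g
  ρ := repMap f A.ρ
  symm := by
    ext i j
    have := congrArg f (congrFun (congrFun A.symm i) j)
    simpa using this
  inv a := by
    have h := congrArg f.mapMatrix (A.inv a)
    rw [map_mul, map_mul] at h
    exact h
  unimod := by
    rw [← RingHom.map_det]
    exact A.unimod.map f

/-- The hyperbolic form on `P ⊕ P*`, where `P` is a representation. -/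
def hyp (e : ℤˣ) (ρ : G →* Matrix ι ι R) : GForm R G e (ι ⊕ ι) where
  g := fromBlocks 0 1 (((e : ℤ) : R) • 1) 0
  ρ := repSum ρ (repDual ρ)
  symm := by
    rw [fromBlocks_transpose, fromBlocks_smul, smul_smul, ← Int.cast_mul, ← Units.val_mul,
      Int.units_mul_self]
    simp
  inv a := by
    have h1 : ρ a⁻¹ * ρ a = 1 := by rw [← map_mul]; simp
    have h2 : (ρ a)ᵀ * (ρ a⁻¹)ᵀ = 1 := by rw [← transpose_mul, h1, transpose_one]
    simp [repSum, repDual, repSharp, repBar, fromBlocks_transpose, fromBlocks_multiply, h1, h2]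
  unimod := by
    rw [← Matrix.isUnit_iff_isUnit_det]
    refine IsUnit.of_mul_eq_one (fromBlocks 0 (((e : ℤ) : R) • 1) 1 0) ?_
    rw [fromBlocks_multiply]
    simp [smul_smul, ← Int.cast_mul, ← Units.val_mul, Int.units_mul_self, fromBlocks_one]

end GForm

section Pi

variable {R : Type} [CommRing R] {ν : Type} [Fintype ν] [DecidableEq ν] {ι : ν → Type}
  [∀ k, Fintype (ι k)] [∀ k, DecidableEq (ι k)]

/-- Tensor product of a finite family of matrices. -/
def piMat {κ : ν → Type} (M : ∀ k, Matrix (ι k) (κ k) R) :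
    Matrix ((k : ν) → ι k) ((k : ν) → κ k) R :=
  Matrix.of fun x y => ∏ k, M k (x k) (y k)

theorem piMat_apply {κ : ν → Type} (M : ∀ k, Matrix (ι k) (κ k) R) (x y) :
    piMat M x y = ∏ k, M k (x k) (y k) := rfl

theorem piMat_mul {κ μ : ν → Type} [∀ k, Fintype (κ k)] [∀ k, DecidableEq (κ k)]
    (M : ∀ k, Matrix (ι k) (κ k) R) (N : ∀ k, Matrix (κ k) (μ k) R) :
    piMat (fun k => M k * N k) = piMat M * piMat N := by
  ext x y
  simp only [piMat_apply, Matrix.mul_apply, Finset.prod_univ_sum, ← Finset.prod_mul_distrib]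
  rw [Fintype.piFinset_univ]

theorem piMat_one : piMat (fun k => (1 : Matrix (ι k) (ι k) R)) = 1 := by
  ext x y
  simp only [piMat_apply, Matrix.one_apply]
  split_ifs with h
  · subst h; simp
  · obtain ⟨k, hk⟩ := Function.ne_iff.mp h
    exact Finset.prod_eq_zero (Finset.mem_univ k) (by simp [hk])

theorem piMat_transpose {κ : ν → Type} (M : ∀ k, Matrix (ι k) (κ k) R) :
    (piMat M)ᵀ = piMat (fun k => (M k)ᵀ) := rfl

variable {G : Type} [CommGroup G]

/-- Tensor product of a finite family of representations (diagonal action). -/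
def repPi (ρ : ∀ k, G →* Matrix (ι k) (ι k) R) :
    G →* Matrix ((k : ν) → ι k) ((k : ν) → ι k) R where
  toFun a := piMat fun k => ρ k a
  map_one' := by simp only [map_one, piMat_one]
  map_mul' a b := by simp only [map_mul, piMat_mul]

/-- Tensor product of a finite family of forms. -/
def GForm.pi {e : ν → ℤˣ} (A : ∀ k, GForm R G (e k) (ι k)) :
    GForm R G (∏ k, e k) ((k : ν) → ι k) where
  g := piMat fun k => (A k).g
  ρ := repPi fun k => (A k).ρ
  symm := by
    rw [piMat_transpose]
    ext x y
    simp only [piMat_apply, (A _).symm, Matrix.smul_apply, smul_eq_mul, Finset.prod_mul_distrib,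
      Units.coe_prod, Int.cast_prod]
  inv a := by
    change (piMat fun k => (A k).ρ a)ᵀ * (piMat fun k => (A k).g) * (piMat fun k => (A k).ρ a) = _
    rw [piMat_transpose, ← piMat_mul, ← piMat_mul]
    simp only [(A _).inv]
  unimod := by
    rw [← Matrix.isUnit_iff_isUnit_det]
    refine IsUnit.of_mul_eq_one (piMat fun k => (A k).g⁻¹) ?_
    rw [← piMat_mul, ← piMat_one]
    congr 1
    ext k : 1
    exact Matrix.mul_nonsing_inv _ (A k).unimod

/-- Tensor power: index type `ν → ι`. -/
abbrev GForm.pow {ι : Type} [Fintype ι] [DecidableEq ι] {e : ℤˣ} (ν : Type) [Fintype ν]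
    [DecidableEq ν] (A : GForm R G e ι) : GForm R G (∏ _k : ν, e) (ν → ι) :=
  GForm.pi fun _ => A

end Pi

end Vale.Agent.P268.Z

namespace Vale.Agent.P268.Z

open Matrix

section More

variable {R : Type} [CommRing R] {G : Type} [CommGroup G] {H : Type} [CommGroup H] {e : ℤˣ}
  {ι κ : Type} [Fintype ι] [DecidableEq ι] [Fintype κ] [DecidableEq κ]

/-- External tensor product of representations. -/
def repExt (ρ : G →* Matrix ι ι R) (σ : H →* Matrix κ κ R) :
    G × H →* Matrix (ι × κ) (ι × κ) R :=
  repTensor (ρ.comp (MonoidHom.fst G H)) (σ.comp (MonoidHom.snd G H))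

/-- The same form, with the action composed with inversion. -/
def GForm.bar (A : GForm R G e ι) : GForm R G e ι := A.comap invMonoidHom

/-- The negative of a form. -/
def GForm.neg (A : GForm R G e ι) : GForm R G e ι where
  g := -A.g
  ρ := A.ρ
  symm := by rw [transpose_neg, A.symm, smul_neg]
  inv a := by rw [Matrix.mul_neg, Matrix.neg_mul, A.inv]
  unimod := by
    rw [det_neg]
    exact ((isUnit_one.neg).pow _).mul A.unimod

end More

end Vale.Agent.P268.Z
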