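import Vale.Agent.P268.Z.Seif

/-!
# P268, block A0: chain algebra

`pq c = (p_c, p_{tail c})` with `p_c * p_{tail c} = X ^ c.prod - 1`;
`qser c = (-1) ^ c.length • p_{tail c}`; spectral decomposition of the Seifert matrix and of the
monodromy over `ℂ`.
-/

namespace Vale.Agent.P268.Z

open Matrix Polynomial

/-- `(p_c, p_{tail c})` -/
noncomputable def pq : List ℕ → ℤ[X] × ℤ[X]
  | [] => (X - 1, 1)
  | a :: c => ((∑ i ∈ Finset.range a, (X ^ c.prod) ^ i) * (pq c).2, (pq c).1)

/-- the Milnor number of the tail (`0` for the empty chain) -/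
def dl : List ℕ → ℕ
  | [] => 0
  | _ :: c => mu c

/-- all exponents are positive -/
def Pos (c : List ℕ) : Prop := ∀ a ∈ c, 0 < a

theorem Pos.tail {a : ℕ} {c : List ℕ} (h : Pos (a :: c)) : Pos c :=
  fun b hb => h b (List.mem_cons_of_mem _ hb)

theorem Pos.head {a : ℕ} {c : List ℕ} (h : Pos (a :: c)) : 0 < a := h a List.mem_cons_self

theorem Pos.prod {c : List ℕ} (h : Pos c) : 0 < c.prod := by
  induction c with
  | nil => simp
  | cons a c ih => rw [List.prod_cons]; exact Nat.mul_pos h.head (ih h.tail)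

theorem pq_mul (c : List ℕ) : (pq c).1 * (pq c).2 = X ^ c.prod - 1 := by
  induction c with
  | nil => simp [pq]
  | cons a c ih =>
    simp only [pq, List.prod_cons]
    rw [mul_assoc, mul_comm (pq c).2, ih, geom_sum_mul, ← pow_mul, mul_comm a]

theorem monic_X_pow_sub_one {n : ℕ} (hn : 0 < n) : (X ^ n - 1 : ℤ[X]).Monic := by
  have := monic_X_pow_sub_C (1 : ℤ) hn.ne'
  simpa using this

theorem pq_monic {c : List ℕ} (h : Pos c) : (pq c).1.Monic ∧ (pq c).2.Monic := by
  induction c with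
  | nil =>
    refine ⟨?_, monic_one⟩
    simpa [pq] using monic_X_sub_C (1 : ℤ)
  | cons a c ih =>
    have h2 : (pq (a :: c)).2.Monic := (ih h.tail).1
    refine ⟨?_, h2⟩
    have hm : ((pq (a :: c)).1 * (pq (a :: c)).2).Monic := by
      rw [pq_mul]; exact monic_X_pow_sub_one h.prod
    exact h2.of_mul_monic_right hm

theorem natDegree_X_pow_sub_one' {n : ℕ} : (X ^ n - 1 : ℤ[X]).natDegree = n := by
  have := natDegree_X_pow_sub_C (n := n) (r := (1 : ℤ))
  simpa using this

theorem pq_deg {c : List ℕ} (h : Pos c) :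
    (pq c).1.natDegree = mu c ∧ (pq c).2.natDegree = dl c ∧ mu c + dl c = c.prod := by
  induction c with
  | nil =>
    refine ⟨?_, by simp [pq, dl], by simp [mu, dl]⟩
    simpa [pq, mu] using natDegree_X_sub_C (1 : ℤ)
  | cons a c ih =>
    have ih := ih h.tail
    have h2 : (pq (a :: c)).2.natDegree = dl (a :: c) := ih.1
    have hsum : (pq (a :: c)).1.natDegree + (pq (a :: c)).2.natDegree = (a :: c).prod := by
      rw [← (pq_monic h).1.natDegree_mul (pq_monic h).2, pq_mul, natDegree_X_pow_sub_one']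
    have h1 : (pq (a :: c)).1.natDegree = mu (a :: c) := by
      rw [h2] at hsum
      simp only [mu, dl, List.prod_cons] at *
      omega
    exact ⟨h1, h2, by rw [← h1, ← h2, hsum]⟩

theorem constCoeff_qser {c : List ℕ} (h : Pos c) :
    PowerSeries.constantCoeff (qser c) = 1 := by
  induction c with
  | nil => simp [qser]
  | cons a c ih =>
    simp only [qser, map_mul, map_sub, map_one, map_pow, PowerSeries.constantCoeff_X,
      PowerSeries.constantCoeff_invOfUnit]
    rw [zero_pow h.tail.prod.ne']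
    simp

theorem qser_eq {c : List ℕ} (h : Pos c) :
    qser c = (-1) ^ c.length * ((pq c).2 : PowerSeries ℤ) := by
  induction c with
  | nil => simp [qser, pq]
  | cons a c ih =>
    have hq := ih h.tail
    have h1 : qser c * PowerSeries.invOfUnit (qser c) 1 = 1 :=
      PowerSeries.mul_invOfUnit _ _ (by rw [constCoeff_qser h.tail]; rfl)
    have h2 : (1 - PowerSeries.X ^ c.prod : PowerSeries ℤ) =
        ((-1) ^ (a :: c).length * ((pq c).1 : PowerSeries ℤ)) * qser c := by
      have h3 := congrArg (fun f : ℤ[X] => (f : PowerSeries ℤ)) (pq_mul c)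
      simp only [Polynomial.coe_mul, Polynomial.coe_sub, Polynomial.coe_pow, Polynomial.coe_X,
        Polynomial.coe_one] at h3
      rw [hq, List.length_cons, pow_succ]
      have h4 : ((-1 : PowerSeries ℤ) ^ c.length) * (-1) ^ c.length = 1 := by
        rw [← mul_pow]; simp
      linear_combination h3 + (((pq c).1 : PowerSeries ℤ) * ((pq c).2 : PowerSeries ℤ)) * h4
    have h5 : (pq (a :: c)).2 = (pq c).1 := rfl
    rw [h5]
    simp only [qser]
    rw [h2, mul_assoc, h1, mul_one]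

theorem coeff_qser {c : List ℕ} (h : Pos c) (n : ℕ) :
    PowerSeries.coeff n (qser c) = (-1) ^ c.length * (pq c).2.coeff n := by
  rw [qser_eq h]
  have : ((-1 : PowerSeries ℤ) ^ c.length) = PowerSeries.C ((-1 : ℤ) ^ c.length) := by simp
  rw [this, PowerSeries.coeff_C_mul, Polynomial.coeff_coe]

theorem mu_eq_zero_of_prod {a : ℕ} {c : List ℕ} (h : c.prod = 0) : mu (a :: c) = 0 := by
  simp [mu, h]

theorem Pos_of_prod {c : List ℕ} (h : c.prod ≠ 0) : Pos c := by
  intro a ha
  rcases Nat.eq_zero_or_pos a with h0 | h0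
  · subst h0
    exact absurd (List.prod_eq_zero ha) h
  · exact h0

/-- basic facts on chains -/
theorem chainSeifert_det (c : List ℕ) : (chainSeifert c).det = 1 := by
  have key : ∀ c : List ℕ, PowerSeries.constantCoeff (qser c) = 1 →
      (chainSeifert c).det = 1 := by
    intro c hc
    rw [Matrix.det_of_isUpperTriangular]
    · refine Finset.prod_eq_one fun i _ => ?_
      simp only [chainSeifert, le_refl, if_true, Nat.sub_self]
      rw [PowerSeries.coeff_zero_eq_constantCoeff]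
      exact hc
    · intro i j hij
      have : ¬ ((i : ℕ) ≤ j) := not_le.mpr hij
      simp [chainSeifert, this]
  cases c with
  | nil => exact key _ (by simp [qser])
  | cons a c =>
    by_cases h : c.prod = 0
    · have h0 : mu (a :: c) = 0 := mu_eq_zero_of_prod h
      have : IsEmpty (Fin (mu (a :: c))) := by rw [h0]; infer_instance
      exact Matrix.det_isEmpty
    · have hp := Pos_of_prod h
      refine key _ ?_
      simp only [qser, map_mul, map_sub, map_one, map_pow, PowerSeries.constantCoeff_X,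
        PowerSeries.constantCoeff_invOfUnit]
      rw [zero_pow h]
      simp

/-! ## roots over `ℂ` -/

/-- `p_c` over `ℂ` -/
noncomputable def pC (c : List ℕ) : ℂ[X] := (pq c).1.map (Int.castRingHom ℂ)

/-- `p_{tail c}` over `ℂ` -/
noncomputable def qC (c : List ℕ) : ℂ[X] := (pq c).2.map (Int.castRingHom ℂ)

theorem qC_cons (a : ℕ) (c : List ℕ) : qC (a :: c) = pC c := rfl

theorem pqC_mul (c : List ℕ) : pC c * qC c = X ^ c.prod - 1 := by
  rw [pC, qC, ← Polynomial.map_mul, pq_mul]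
  simp

theorem pqC_sep {c : List ℕ} (h : Pos c) : (pC c * qC c).Separable := by
  rw [pqC_mul, X_pow_sub_one_separable_iff]
  exact_mod_cast h.prod.ne'

theorem pC_ne {c : List ℕ} (h : Pos c) : pC c ≠ 0 :=
  (((pq_monic h).1.map _).ne_zero)

theorem qC_ne {c : List ℕ} (h : Pos c) : qC c ≠ 0 :=
  (((pq_monic h).2.map _).ne_zero)

/-- the roots of `p_c` -/
noncomputable def Zr (c : List ℕ) : Finset ℂ := (pC c).roots.toFinset

theorem mem_Zr {c : List ℕ} (h : Pos c) {z : ℂ} : z ∈ Zr c ↔ (pC c).eval z = 0 := by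
  rw [Zr, Multiset.mem_toFinset, mem_roots (pC_ne h), IsRoot.def]

theorem Zr_pow {c : List ℕ} (h : Pos c) {z : ℂ} (hz : z ∈ Zr c) : z ^ c.prod = 1 := by
  have h1 := congrArg (Polynomial.eval z) (pqC_mul c)
  rw [eval_mul, (mem_Zr h).mp hz, zero_mul] at h1
  simp only [eval_sub, eval_pow, eval_X, eval_one] at h1
  exact (sub_eq_zero.mp h1.symm)

theorem Zr_ne_zero {c : List ℕ} (h : Pos c) {z : ℂ} (hz : z ∈ Zr c) : z ≠ 0 := by
  rintro rfl
  have := Zr_pow h hz
  rw [zero_pow h.prod.ne'] at this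
  exact zero_ne_one this

theorem pC_roots_nodup {c : List ℕ} (h : Pos c) : (pC c).roots.Nodup :=
  nodup_roots (pqC_sep h).of_mul_left

theorem card_Zr {c : List ℕ} (h : Pos c) : (Zr c).card = mu c := by
  rw [Zr, Multiset.toFinset_card_of_nodup (pC_roots_nodup h),
    splits_iff_card_roots.mp (IsAlgClosed.splits (pC c)), pC,
    (pq_monic h).1.natDegree_map, (pq_deg h).1]

/-- dichotomy: a `c.prod`-th root of unity is a root of exactly one of the two factors -/
theorem root_or {c : List ℕ} {z : ℂ} (hz : z ^ c.prod = 1) :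
    (pC c).eval z = 0 ∨ (qC c).eval z = 0 := by
  have h1 := congrArg (Polynomial.eval z) (pqC_mul c)
  rw [eval_mul] at h1
  simp only [eval_sub, eval_pow, eval_X, eval_one, hz, sub_self] at h1
  exact mul_eq_zero.mp h1

theorem qC_eval_ne {c : List ℕ} (h : Pos c) {z : ℂ} (hz : z ∈ Zr c) : (qC c).eval z ≠ 0 := by
  intro h0
  obtain ⟨a, b, hab⟩ := (pqC_sep h).isCoprime
  have := congrArg (Polynomial.eval z) hab
  simp only [eval_add, eval_mul, (mem_Zr h).mp hz, h0, mul_zero, add_zero, eval_one] at this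
  exact zero_ne_one this

/-! ## sums over roots of unity -/

theorem sum_pow_nthRoots {b : ℕ} (hb : 0 < b) (n : ℕ) :
    ∑ z ∈ nthRootsFinset b (1 : ℂ), z ^ n = if b ∣ n then (b : ℂ) else 0 := by
  have hω := Complex.isPrimitiveRoot_exp b hb.ne'
  set ω := Complex.exp (2 * Real.pi * Complex.I / b) with hωdef
  have himg : nthRootsFinset b (1 : ℂ) = (Finset.range b).image (fun i => ω ^ i) := by
    symm
    apply Finset.eq_of_subset_of_card_le
    · intro z hz
      obtain ⟨i, _, rfl⟩ := Finset.mem_image.mp hz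
      rw [mem_nthRootsFinset hb, ← pow_mul, mul_comm, pow_mul, hω.pow_eq_one, one_pow]
    · rw [hω.card_nthRootsFinset, Finset.card_image_of_injOn, Finset.card_range]
      intro i hi j hj hij
      exact hω.pow_inj (Finset.mem_range.mp hi) (Finset.mem_range.mp hj) hij
  rw [himg, Finset.sum_image]
  · have h1 : ∀ i ∈ Finset.range b, (ω ^ i) ^ n = (ω ^ n) ^ i := fun i _ => by
      rw [← pow_mul, ← pow_mul, mul_comm]
    rw [Finset.sum_congr rfl h1]
    split_ifs with hd
    · have : ω ^ n = 1 := (hω.pow_eq_one_iff_dvd n).mpr hd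
      simp [this]
    · have h2 : ω ^ n ≠ 1 := fun h => hd ((hω.pow_eq_one_iff_dvd n).mp h)
      have h3 := geom_sum_mul (ω ^ n) b
      rw [← pow_mul, mul_comm n b, pow_mul, hω.pow_eq_one, one_pow, sub_self] at h3
      exact (mul_eq_zero.mp h3).resolve_right (sub_ne_zero.mpr h2)
  · intro i hi j hj hij
    exact hω.pow_inj (Finset.mem_range.mp hi) (Finset.mem_range.mp hj) hij

/-- A sum over `Zr c` weighted by `q` is a sum over all roots of unity. -/
theorem sum_Zr_q {c : List ℕ} (h : Pos c) (f : ℂ → ℂ) :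
    ∑ z ∈ Zr c, (qC c).eval z * f z =
      ∑ z ∈ nthRootsFinset c.prod (1 : ℂ), (qC c).eval z * f z := by
  apply Finset.sum_subset
  · intro z hz
    rw [mem_nthRootsFinset h.prod]
    exact Zr_pow h hz
  · intro z hz hz'
    rw [mem_nthRootsFinset h.prod] at hz
    rcases root_or hz with h1 | h1
    · exact absurd ((mem_Zr h).mpr h1) hz'
    · rw [h1, zero_mul]

/-! ## reversal -/

theorem reverse_X_pow_sub_one {n : ℕ} (hn : 0 < n) :
    (X ^ n - 1 : ℤ[X]).reverse = -(X ^ n - 1) := by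
  rw [Polynomial.reverse, natDegree_X_pow_sub_one']
  ext k
  rw [coeff_reflect]
  simp only [coeff_sub, coeff_neg, coeff_X_pow, coeff_one]
  rcases Nat.lt_or_ge n k with hk | hk
  · have h1 : Polynomial.revAt n k = k := Polynomial.revAt_eq_self_of_lt hk
    rw [h1]
    have : k ≠ n := by omega
    have h' : k ≠ 0 := by omega
    simp [this, h']
  · rw [Polynomial.revAt_le hk]
    by_cases h0 : k = 0
    · subst h0
      have : n ≠ 0 := by omega
      have h' : (0 : ℕ) ≠ n := by omega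
      simp [this, h']
    · by_cases h1 : k = n
      · subst h1
        have : k ≠ 0 := by omega
        have h' : (0 : ℕ) ≠ k := by omega
        simp [this, h']
      · have h2 : n - k ≠ n := by omega
        have h3 : n - k ≠ 0 := by omega
        simp [h0, h1, h2, h3]

theorem pq_reverse {c : List ℕ} (h : Pos c) :
    (pq c).1.reverse = -((-1) ^ c.length * (pq c).1) ∧
      (pq c).2.reverse = (-1) ^ c.length * (pq c).2 := by
  have key : ∀ c : List ℕ, Pos c → (pq c).2.reverse = (-1) ^ c.length * (pq c).2 →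
      (pq c).1.reverse = -((-1) ^ c.length * (pq c).1) := by
    intro c h hq
    have h1 := congrArg Polynomial.reverse (pq_mul c)
    rw [reverse_mul_of_domain, hq, reverse_X_pow_sub_one h.prod, ← pq_mul] at h1
    have hne : (pq c).2 ≠ 0 := (pq_monic h).2.ne_zero
    have hs : ((-1 : ℤ[X]) ^ c.length) * (-1) ^ c.length = 1 := by rw [← mul_pow]; simp
    apply mul_right_cancel₀ hne
    linear_combination ((-1 : ℤ[X]) ^ c.length) * h1 - ((pq c).1.reverse * (pq c).2) * hs
  induction c with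
  | nil =>
    have h0 : (pq []).2.reverse = (-1) ^ ([] : List ℕ).length * (pq []).2 := by
      have h1 : (1 : ℤ[X]).reverse = 1 := by
        rw [← Polynomial.C_1, Polynomial.reverse_C]
      simp [pq, h1]
    exact ⟨key _ h h0, h0⟩
  | cons a c ih =>
    have h0 : (pq (a :: c)).2.reverse = (-1) ^ (a :: c).length * (pq (a :: c)).2 := by
      have := (ih h.tail).1
      change (pq c).1.reverse = _ * (pq c).1
      rw [this, List.length_cons, pow_succ]
      ring
    exact ⟨key _ h h0, h0⟩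

theorem qC_inv {c : List ℕ} (h : Pos c) {z : ℂ} (hz : z ≠ 0) :
    (qC c).eval z⁻¹ * z ^ dl c = (-1) ^ c.length * (qC c).eval z := by
  let _ : Invertible z := invertibleOfNonzero hz
  have h1 := eval₂_reverse_mul_pow (Int.castRingHom ℂ) z (pq c).2
  rw [(pq_reverse h).2, (pq_deg h).2.1, invOf_eq_inv] at h1
  rw [qC, eval_map, eval_map, ← h1]
  simp only [eval₂_mul, eval₂_pow, eval₂_neg, eval₂_one]
  have hs : ((-1 : ℂ) ^ c.length) * (-1) ^ c.length = 1 := by rw [← mul_pow]; simp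
  linear_combination (-(eval₂ (Int.castRingHom ℂ) z⁻¹ (pq c).2 * z ^ dl c)) * hs

theorem pC_inv {c : List ℕ} (h : Pos c) {z : ℂ} (hz : z ≠ 0) :
    (pC c).eval z⁻¹ * z ^ mu c = -((-1) ^ c.length * (pC c).eval z) := by
  let _ : Invertible z := invertibleOfNonzero hz
  have h1 := eval₂_reverse_mul_pow (Int.castRingHom ℂ) z (pq c).1
  rw [(pq_reverse h).1, (pq_deg h).1, invOf_eq_inv] at h1
  rw [pC, eval_map, eval_map, ← h1]
  simp only [eval₂_mul, eval₂_pow, eval₂_neg, eval₂_one]
  have hs : ((-1 : ℂ) ^ c.length) * (-1) ^ c.length = 1 := by rw [← mul_pow]; simp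
  linear_combination (-(eval₂ (Int.castRingHom ℂ) z⁻¹ (pq c).1 * z ^ mu c)) * hs

theorem Zr_inv {c : List ℕ} (h : Pos c) {z : ℂ} (hz : z ∈ Zr c) : z⁻¹ ∈ Zr c := by
  have h0 := Zr_ne_zero h hz
  have h1 := pC_inv h h0
  rw [(mem_Zr h).mp hz, mul_zero, neg_zero] at h1
  exact (mem_Zr h).mpr ((mul_eq_zero.mp h1).resolve_right (pow_ne_zero _ h0))

theorem Zr_norm {c : List ℕ} (h : Pos c) {z : ℂ} (hz : z ∈ Zr c) : ‖z‖ = 1 :=
  Complex.norm_eq_one_of_pow_eq_one (Zr_pow h hz) h.prod.ne'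

theorem Zr_star {c : List ℕ} (h : Pos c) {z : ℂ} (hz : z ∈ Zr c) : star z = z⁻¹ := by
  have h1 := Zr_norm h hz
  rw [Complex.inv_def, Complex.normSq_eq_norm_sq, h1]
  simp

/-! ## the spectral form of the Seifert matrix -/

/-- the coefficient `(-1) ^ length * q(z) / b` -/
noncomputable def dq (c : List ℕ) (z : ℂ) : ℂ := (-1) ^ c.length * (qC c).eval z / (c.prod : ℂ)

theorem dq_ne {c : List ℕ} (h : Pos c) {z : ℂ} (hz : z ∈ Zr c) : dq c z ≠ 0 := by
  have h1 : (c.prod : ℂ) ≠ 0 := by exact_mod_cast h.prod.ne'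
  exact div_ne_zero (mul_ne_zero (pow_ne_zero _ (by norm_num)) (qC_eval_ne h hz)) h1

theorem dq_inv {c : List ℕ} (h : Pos c) {z : ℂ} (hz : z ≠ 0) :
    dq c z⁻¹ * z ^ dl c = (-1) ^ c.length * dq c z := by
  rw [dq, dq, div_mul_eq_mul_div, mul_assoc, qC_inv h hz]
  ring

theorem seifert_spec {c : List ℕ} (h : Pos c) (i j : Fin (mu c)) :
    ((chainSeifert c i j : ℤ) : ℂ) =
      ∑ z ∈ Zr c, dq c z * z ^ (i : ℕ) * z⁻¹ ^ (j : ℕ) := by
  have hb := h.prod
  have hbC : (c.prod : ℂ) ≠ 0 := by exact_mod_cast hb.ne'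
  obtain ⟨hd1, hd2, hd3⟩ := pq_deg h
  have hj : (j : ℕ) < c.prod := by have := j.2; omega
  have hi : (i : ℕ) < c.prod := by have := i.2; omega
  have h1 : ∀ z ∈ Zr c, dq c z * z ^ (i : ℕ) * z⁻¹ ^ (j : ℕ) =
      ((-1) ^ c.length / (c.prod : ℂ)) * ((qC c).eval z * z ^ ((i : ℕ) + (c.prod - j))) := by
    intro z hz
    have h0 := Zr_ne_zero h hz
    have h2 : z⁻¹ ^ (j : ℕ) = z ^ (c.prod - (j : ℕ)) := by
      rw [inv_pow]
      apply inv_eq_of_mul_eq_one_right
      rw [← pow_add, Nat.add_sub_cancel' hj.le, Zr_pow h hz]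
    rw [h2, pow_add, dq]
    ring
  rw [Finset.sum_congr rfl h1, ← Finset.mul_sum, sum_Zr_q h]
  have h2 : ∀ z : ℂ, (qC c).eval z = ∑ k ∈ Finset.range (dl c + 1), (qC c).coeff k * z ^ k := by
    intro z
    rw [eval_eq_sum_range, qC, (pq_monic h).2.natDegree_map, hd2]
  simp only [h2, Finset.sum_mul]
  rw [Finset.sum_comm]
  have h3 : ∀ k ∈ Finset.range (dl c + 1),
      ∑ z ∈ nthRootsFinset c.prod (1 : ℂ), (qC c).coeff k * z ^ k * z ^ ((i : ℕ) + (c.prod - j)) =
        if (i : ℕ) + k = j then (c.prod : ℂ) * (qC c).coeff k else 0 := by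
    intro k hk
    have hk' : k < dl c + 1 := Finset.mem_range.mp hk
    have h4 : ∀ z ∈ nthRootsFinset c.prod (1 : ℂ),
        (qC c).coeff k * z ^ k * z ^ ((i : ℕ) + (c.prod - j)) =
          (qC c).coeff k * z ^ (k + ((i : ℕ) + (c.prod - j))) := by
      intro z _
      rw [pow_add z k]
      ring
    rw [Finset.sum_congr rfl h4, ← Finset.mul_sum, sum_pow_nthRoots hb]
    have h5 : c.prod ∣ k + ((i : ℕ) + (c.prod - j)) ↔ (i : ℕ) + k = j := by
      have hi2 := i.2
      have hj2 := j.2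
      constructor
      · rintro ⟨t, ht⟩
        have ht1 : t = 1 := by
          have ht0 : t ≠ 0 := by
            rintro rfl
            omega
          have ht2 : t < 2 := by
            by_contra hcon
            have : c.prod * 2 ≤ c.prod * t := Nat.mul_le_mul_left _ (by omega)
            omega
          omega
        subst ht1
        omega
      · intro he
        exact ⟨1, by omega⟩
    simp only [h5]
    split_ifs <;> ring
  rw [Finset.sum_congr rfl h3]
  by_cases hij : (i : ℕ) ≤ j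
  · have h6 : chainSeifert c i j = (-1) ^ c.length * (pq c).2.coeff ((j : ℕ) - i) := by
      rw [chainSeifert, if_pos hij, coeff_qser h]
    have h7 : ∀ k, ((i : ℕ) + k = j) ↔ (k = (j : ℕ) - i) := fun k => by omega
    simp only [h7]
    rw [Finset.sum_ite_eq' (Finset.range (dl c + 1)), h6]
    split_ifs with h8
    · rw [qC, coeff_map, Int.cast_mul, Int.cast_pow, Int.cast_neg, Int.cast_one, eq_intCast,
        div_mul_eq_mul_div, eq_div_iff hbC]
      ring
    · have h9 : (pq c).2.coeff ((j : ℕ) - i) = 0 := by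
        apply coeff_eq_zero_of_natDegree_lt
        rw [hd2]
        simp only [Finset.mem_range, not_lt] at h8
        omega
      rw [h9]
      simp
  · have h6 : chainSeifert c i j = 0 := by rw [chainSeifert, if_neg hij]
    rw [h6, Finset.sum_eq_zero]
    · simp
    · intro k _
      rw [if_neg (by omega)]

/-! ## the Vandermonde matrix and the monodromy -/

/-- the Seifert matrix over `ℂ` -/
noncomputable def LC (c : List ℕ) : Matrix (Fin (mu c)) (Fin (mu c)) ℂ :=
  (chainSeifert c).map (Int.cast : ℤ → ℂ)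

/-- `V z i = z ^ i` -/
noncomputable def Vm (c : List ℕ) : Matrix (Zr c) (Fin (mu c)) ℂ := fun z i => (z : ℂ) ^ (i : ℕ)

/-- `V⁻ z i = z⁻¹ ^ i` -/
noncomputable def Vb (c : List ℕ) : Matrix (Zr c) (Fin (mu c)) ℂ :=
  fun z i => (z : ℂ)⁻¹ ^ (i : ℕ)

/-- the inverse of `Vm` -/
noncomputable def Wm (c : List ℕ) : Matrix (Fin (mu c)) (Zr c) ℂ :=
  ((LC c)ᵀ)⁻¹ * ((Vb c)ᵀ * diagonal fun z : Zr c => dq c z)

theorem LC_det (c : List ℕ) : (LC c).det = 1 := by
  have h := congrArg (Int.castRingHom ℂ) (chainSeifert_det c)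
  rw [RingHom.map_det, map_one] at h
  exact h

theorem LC_eq {c : List ℕ} (h : Pos c) :
    LC c = (Vm c)ᵀ * (diagonal (fun z : Zr c => dq c z) * Vb c) := by
  ext i j
  rw [LC, Matrix.map_apply, seifert_spec h, Matrix.mul_apply, ← Finset.sum_coe_sort (Zr c)]
  refine Finset.sum_congr rfl fun z _ => ?_
  rw [Matrix.diagonal_mul, Matrix.transpose_apply, Vm, Vb]
  ring

theorem LC_transpose {c : List ℕ} (h : Pos c) :
    (LC c)ᵀ = (Vb c)ᵀ * diagonal (fun z : Zr c => dq c z) * Vm c := by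
  rw [LC_eq h, transpose_mul, transpose_mul, diagonal_transpose, transpose_transpose]

theorem Wm_mul_Vm {c : List ℕ} (h : Pos c) : Wm c * Vm c = 1 := by
  rw [Wm, Matrix.mul_assoc, ← LC_transpose h]
  apply Matrix.nonsing_inv_mul
  rw [det_transpose, LC_det]
  exact isUnit_one

theorem Vm_mul_Wm {c : List ℕ} (h : Pos c) : Vm c * Wm c = 1 := by
  rw [Matrix.mul_eq_one_comm_of_card_eq]
  · exact Wm_mul_Vm h
  · rw [Fintype.card_coe, card_Zr h, Fintype.card_fin]

/-- inversion on the roots -/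
noncomputable def zinv {c : List ℕ} (h : Pos c) : Zr c ≃ Zr c where
  toFun z := ⟨(z : ℂ)⁻¹, Zr_inv h z.2⟩
  invFun z := ⟨(z : ℂ)⁻¹, Zr_inv h z.2⟩
  left_inv z := by ext; simp
  right_inv z := by ext; simp

theorem Vb_mul_Wm {c : List ℕ} (h : Pos c) (z z' : Zr c) :
    (Vb c * Wm c) z z' = if zinv h z = z' then 1 else 0 := by
  have h1 : (Vb c * Wm c) z z' = (Vm c * Wm c) (zinv h z) z' := by
    rw [Matrix.mul_apply, Matrix.mul_apply]
    rfl
  rw [h1, Vm_mul_Wm h, Matrix.one_apply]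

/-- eigenvalues of the monodromy -/
noncomputable def ev (c : List ℕ) (z : Zr c) : ℂ := (z : ℂ) ^ dl c

theorem LC_mul_H {c : List ℕ} (h : Pos c) :
    LC c * (Wm c * diagonal (ev c) * Vm c) = ((-1 : ℂ) ^ c.length) • (LC c)ᵀ := by
  have hs : ((-1 : ℂ) ^ c.length) * (-1) ^ c.length = 1 := by rw [← mul_pow]; simp
  have h1 : LC c * (Wm c * diagonal (ev c) * Vm c) =
      (Vm c)ᵀ * (diagonal (fun z : Zr c => dq c z) * ((Vb c * Wm c) * (diagonal (ev c) * Vm c))) := by
    conv_lhs => rw [LC_eq h]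
    simp only [Matrix.mul_assoc]
  rw [h1]
  ext i j
  rw [Matrix.mul_apply, Matrix.smul_apply, Matrix.transpose_apply, LC, Matrix.map_apply,
    seifert_spec h, ← Finset.sum_coe_sort (Zr c), smul_eq_mul, Finset.mul_sum]
  refine Eq.trans ?_ (Equiv.sum_comp (zinv h) _)
  refine Finset.sum_congr rfl fun z _ => ?_
  rw [Matrix.diagonal_mul, Matrix.mul_apply]
  have h2 : ∑ z', (Vb c * Wm c) z z' * (diagonal (ev c) * Vm c) z' j =
      (z : ℂ)⁻¹ ^ dl c * (z : ℂ)⁻¹ ^ (j : ℕ) := by
    rw [Finset.sum_eq_single (zinv h z)]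
    · rw [Vb_mul_Wm h, if_pos rfl, one_mul, Matrix.diagonal_mul]
      rfl
    · intro z' _ hz'
      rw [Vb_mul_Wm h, if_neg hz'.symm, zero_mul]
    · intro hn
      exact absurd (Finset.mem_univ _) hn
  rw [h2]
  have hz0 := Zr_ne_zero h z.2
  have h3 := dq_inv h hz0
  have h4 : dq c (z : ℂ)⁻¹ = (-1) ^ c.length * dq c z * (z : ℂ)⁻¹ ^ dl c := by
    rw [← h3, mul_assoc, ← mul_pow, mul_inv_cancel₀ hz0, one_pow, mul_one]
  change (z : ℂ) ^ (i : ℕ) * (dq c z * ((z : ℂ)⁻¹ ^ dl c * (z : ℂ)⁻¹ ^ (j : ℕ))) =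
    (-1) ^ c.length * (dq c (z : ℂ)⁻¹ * (z : ℂ)⁻¹ ^ (j : ℕ) * ((z : ℂ)⁻¹)⁻¹ ^ (i : ℕ))
  rw [h4, inv_inv]
  linear_combination (-((z : ℂ) ^ (i : ℕ) * (dq c z * ((z : ℂ)⁻¹ ^ dl c * (z : ℂ)⁻¹ ^ (j : ℕ))))) * hs

theorem mono_spec {c : List ℕ} (h : Pos c) :
    (mono (sgn c) (chainSeifert c)).map (Int.cast : ℤ → ℂ) =
      Wm c * diagonal (ev c) * Vm c := by
  have hdet : IsUnit (chainSeifert c).det := by rw [chainSeifert_det]; exact isUnit_one
  have h1 : chainSeifert c * mono (sgn c) (chainSeifert c) =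
      ((sgn c : ℤˣ) : ℤ) • (chainSeifert c)ᵀ := by
    rw [mono, Matrix.mul_smul, ← Matrix.mul_assoc, Matrix.mul_nonsing_inv _ hdet, Matrix.one_mul]
    simp
  have h2 := congrArg (fun M => M.map (Int.castRingHom ℂ)) h1
  simp only [Matrix.map_mul] at h2
  have h3 : LC c * (mono (sgn c) (chainSeifert c)).map (Int.cast : ℤ → ℂ) =
      ((-1 : ℂ) ^ c.length) • (LC c)ᵀ := by
    have h4 : (((sgn c : ℤˣ) : ℤ) • (chainSeifert c)ᵀ).map (Int.castRingHom ℂ) =
        ((-1 : ℂ) ^ c.length) • (LC c)ᵀ := by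
      ext i j
      have h5 : (((sgn c : ℤˣ) : ℤ) : ℂ) = (-1 : ℂ) ^ c.length := by simp [sgn]
      rw [Matrix.map_apply, Matrix.smul_apply, Matrix.smul_apply, Matrix.transpose_apply,
        Matrix.transpose_apply, LC, Matrix.map_apply, smul_eq_mul, smul_eq_mul, map_mul,
        eq_intCast, eq_intCast, h5]
    rw [← h4, ← h2]
    rfl
  rw [← LC_mul_H h] at h3
  have hu : IsUnit (LC c).det := by rw [LC_det]; exact isUnit_one
  have h5 := congrArg (fun M => (LC c)⁻¹ * M) h3
  simp only [← Matrix.mul_assoc, Matrix.nonsing_inv_mul _ hu, Matrix.one_mul] at h5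
  exact h5

theorem H_pow {c : List ℕ} (h : Pos c) (k : ℕ) :
    (Wm c * diagonal (ev c) * Vm c) ^ k = Wm c * diagonal (fun z => ev c z ^ k) * Vm c := by
  induction k with
  | zero => simp [Wm_mul_Vm h]
  | succ k ih =>
    rw [pow_succ, ih]
    have h1 : Wm c * diagonal (fun z => ev c z ^ k) * Vm c * (Wm c * diagonal (ev c) * Vm c) =
        Wm c * (diagonal (fun z => ev c z ^ k) * (Vm c * Wm c) * diagonal (ev c)) * Vm c := by
      simp only [Matrix.mul_assoc]
    rw [h1, Vm_mul_Wm h, Matrix.mul_one, diagonal_mul_diagonal]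
    simp only [pow_succ]

theorem mono_pow_spec {c : List ℕ} (h : Pos c) (k : ℕ) :
    ((mono (sgn c) (chainSeifert c)) ^ k).map (Int.cast : ℤ → ℂ) =
      Wm c * diagonal (fun z => ev c z ^ k) * Vm c := by
  rw [← H_pow h, ← mono_spec h]
  exact map_pow (Int.castRingHom ℂ).mapMatrix _ k

theorem chain_order' (D : ℕ) {c : List ℕ} (h : Pos c) (hd : c.prod ∣ dl c * D) :
    (mono (sgn c) (chainSeifert c)) ^ D = 1 := by
  have h1 := mono_pow_spec h D
  have h2 : (fun z => ev c z ^ D) = fun _ => (1 : ℂ) := by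
    funext z
    obtain ⟨t, ht⟩ := hd
    rw [ev, ← pow_mul, ht, pow_mul, Zr_pow h z.2, one_pow]
  rw [h2, diagonal_one, Matrix.mul_one, Wm_mul_Vm h] at h1
  ext i j
  have h3 := congrFun (congrFun h1 i) j
  rw [Matrix.map_apply, Matrix.one_apply] at h3
  rw [Matrix.one_apply]
  split_ifs with hij
  · rw [if_pos hij] at h3; exact_mod_cast h3
  · rw [if_neg hij] at h3; exact_mod_cast h3

theorem trace_mono_pow {c : List ℕ} (h : Pos c) (k : ℕ) :
    ((((mono (sgn c) (chainSeifert c)) ^ k).trace : ℤ) : ℂ) = ∑ z ∈ Zr c, z ^ (dl c * k) := by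
  have h1 := congrArg Matrix.trace (mono_pow_spec h k)
  have h2 : (((mono (sgn c) (chainSeifert c)) ^ k).map (Int.cast : ℤ → ℂ)).trace =
      ((((mono (sgn c) (chainSeifert c)) ^ k).trace : ℤ) : ℂ) := by
    simp [Matrix.trace]
  rw [← h2, h1, Matrix.trace_mul_comm, ← Matrix.mul_assoc, Vm_mul_Wm h, Matrix.one_mul,
    Matrix.trace_diagonal, ← Finset.sum_coe_sort (Zr c)]
  refine Finset.sum_congr rfl fun z _ => ?_
  rw [ev, pow_mul]

/-! ## power sums of the roots -/

/-- power sums of the roots of `p_c` -/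
def Ssum : List ℕ → ℕ → ℤ
  | [], _ => 1
  | a :: c, n => (if (a :: c).prod ∣ n then ((a :: c).prod : ℤ) else 0) - Ssum c n

theorem Zr_union {a : ℕ} {c : List ℕ} (h : Pos (a :: c)) :
    nthRootsFinset (a :: c).prod (1 : ℂ) = Zr (a :: c) ∪ Zr c := by
  ext z
  rw [Finset.mem_union, mem_nthRootsFinset h.prod]
  constructor
  · intro hz
    rcases root_or hz with h1 | h1
    · exact Or.inl ((mem_Zr h).mpr h1)
    · exact Or.inr ((mem_Zr h.tail).mpr h1)
  · rintro (hz | hz)
    · exact Zr_pow h hz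
    · rw [List.prod_cons, mul_comm, pow_mul, Zr_pow h.tail hz, one_pow]

theorem Zr_disjoint {a : ℕ} {c : List ℕ} (h : Pos (a :: c)) : Disjoint (Zr (a :: c)) (Zr c) := by
  rw [Finset.disjoint_left]
  intro z hz hz'
  exact qC_eval_ne h hz ((mem_Zr h.tail).mp hz')

theorem Zr_nil : Zr [] = {1} := by
  ext z
  rw [mem_Zr (by intro a ha; simp at ha), Finset.mem_singleton]
  simp [pC, pq, sub_eq_zero]

theorem sum_Zr_pow {c : List ℕ} (h : Pos c) (n : ℕ) :
    ∑ z ∈ Zr c, z ^ n = ((Ssum c n : ℤ) : ℂ) := by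
  induction c with
  | nil => simp [Zr_nil, Ssum]
  | cons a c ih =>
    have h1 := sum_pow_nthRoots h.prod n
    rw [Zr_union h, Finset.sum_union (Zr_disjoint h), ih h.tail] at h1
    rw [Ssum, Int.cast_sub]
    split_ifs at h1 ⊢ with hd
    · rw [Int.cast_natCast]
      linear_combination h1
    · rw [Int.cast_zero]
      linear_combination h1

theorem Ssum_congr {c : List ℕ} {n n' : ℕ} (h : c.prod ∣ n + n') : Ssum c n = Ssum c n' := by
  induction c with
  | nil => rfl
  | cons a c ih =>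
    have h1 : c.prod ∣ n + n' := dvd_trans (by rw [List.prod_cons]; exact dvd_mul_left _ _) h
    have h2 : (a :: c).prod ∣ n ↔ (a :: c).prod ∣ n' :=
      ⟨fun h' => (Nat.dvd_add_right h').mp h, fun h' => (Nat.dvd_add_left h').mp h⟩
    simp only [Ssum, ih h1, h2]

theorem Ssum_dvd {c : List ℕ} (hp : Pos c) {n : ℕ} (h : c.prod ∣ n) : Ssum c n = mu c := by
  induction c with
  | nil => simp [Ssum, mu]
  | cons a c ih =>
    have h1 : c.prod ∣ n := dvd_trans (by rw [List.prod_cons]; exact dvd_mul_left _ _) h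
    have h2 := (pq_deg hp).2.2
    rw [Ssum, if_pos h, ih hp.tail h1]
    simp only [dl] at h2
    omega

theorem mu_pos {c : List ℕ} (h : ∀ a ∈ c, 2 ≤ a) : 0 < mu c := by
  cases c with
  | nil => simp [mu]
  | cons a c =>
    have hp : Pos (a :: c) := fun b hb => lt_of_lt_of_le two_pos (h b hb)
    have h1 := (pq_deg hp.tail).2.2
    have h2 := hp.tail.prod
    have h3 : 2 * c.prod ≤ a * c.prod := Nat.mul_le_mul_right _ (h a List.mem_cons_self)
    simp only [mu]
    omega

theorem den_mul_div_eq_one {k m n : ℕ} (hn : 0 < n) :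
    ((k : ℚ) * ((m : ℚ) / n)).den = 1 ↔ n ∣ m * k := by
  have hnQ : (n : ℚ) ≠ 0 := by exact_mod_cast hn.ne'
  constructor
  · intro h
    have h1 : (((k : ℚ) * ((m : ℚ) / n)).num : ℚ) = (k : ℚ) * ((m : ℚ) / n) :=
      (Rat.den_eq_one_iff _).mp h
    set z := ((k : ℚ) * ((m : ℚ) / n)).num with hz
    have h2 : (z : ℚ) * n = (m : ℚ) * k := by
      rw [h1]; field_simp
    have h3 : z * n = (m : ℤ) * k := by exact_mod_cast h2
    have h4 : (n : ℤ) ∣ ((m * k : ℕ) : ℤ) := ⟨z, by push_cast; rw [← h3]; ring⟩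
    exact_mod_cast h4
  · rintro ⟨t, ht⟩
    have h1 : (k : ℚ) * ((m : ℚ) / n) = (t : ℚ) := by
      have h2 : (m : ℚ) * k = n * t := by exact_mod_cast ht
      rw [← mul_div_assoc, div_eq_iff hnQ]
      linear_combination h2
    rw [h1]
    exact Rat.den_natCast t

end Vale.Agent.P268.Z
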