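import Vale.Agent.P268.Z.A0

/-!
# P268, block A0: multiplication by `X` on `ℤ[X]/(p_c)`

`cf c f` = coordinates of `f` in `ℤ[X]/(p_c)` in the basis `1, X, …, X ^ (mu c - 1)`,
`Tc c` = matrix of multiplication by `X`, `mono (sgn c) (chainSeifert c) = Tc c ^ dl c`.
-/

namespace Vale.Agent.P268.Z

open Matrix Polynomial

/-- coordinates of `f` modulo `p_c` -/
noncomputable def cf (c : List ℕ) (f : ℤ[X]) : Fin (mu c) → ℤ :=
  fun i => (f %ₘ (pq c).1).coeff i

/-- the matrix of multiplication by `X` on `ℤ[X]/(p_c)` -/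
noncomputable def Tc (c : List ℕ) : Matrix (Fin (mu c)) (Fin (mu c)) ℤ :=
  fun i j => cf c (X ^ ((j : ℕ) + 1)) i

theorem cf_add (c : List ℕ) (f g : ℤ[X]) : cf c (f + g) = cf c f + cf c g := by
  ext i
  simp [cf, add_modByMonic]

theorem cf_smul (c : List ℕ) (a : ℤ) (f : ℤ[X]) : cf c (a • f) = a • cf c f := by
  ext i
  rw [cf, smul_modByMonic, coeff_smul]
  rfl

theorem cf_sum (c : List ℕ) {α : Type} (s : Finset α) (f : α → ℤ[X]) :
    cf c (∑ a ∈ s, f a) = ∑ a ∈ s, cf c (f a) := by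
  classical
  induction s using Finset.induction_on with
  | empty => ext i; simp [cf]
  | insert a s ha ih => rw [Finset.sum_insert ha, Finset.sum_insert ha, cf_add, ih]

theorem cf_eq_zero {c : List ℕ} (h : Pos c) {f : ℤ[X]} : cf c f = 0 ↔ (pq c).1 ∣ f := by
  have hm := (pq_monic h).1
  rw [← modByMonic_eq_zero_iff_dvd hm]
  constructor
  · intro h0
    ext n
    rw [coeff_zero]
    by_cases hn : n < mu c
    · exact congrFun h0 ⟨n, hn⟩
    · apply coeff_eq_zero_of_degree_lt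
      refine lt_of_lt_of_le (degree_modByMonic_lt f hm) ?_
      rw [degree_eq_natDegree hm.ne_zero, (pq_deg h).1]
      exact_mod_cast not_lt.mp hn
  · intro h0
    ext i
    simp [cf, h0]

theorem cf_congr {c : List ℕ} (h : Pos c) {f g : ℤ[X]} (hfg : (pq c).1 ∣ f - g) :
    cf c f = cf c g := by
  have h1 := (cf_eq_zero h).mpr hfg
  have h2 : f = g + (f - g) := by ring
  rw [h2, cf_add, h1, add_zero]

/-- `f` is congruent to the polynomial with coefficients `cf c f`. -/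
theorem mod_eq_sum {c : List ℕ} (h : Pos c) (f : ℤ[X]) :
    f %ₘ (pq c).1 = ∑ j : Fin (mu c), cf c f j • (X : ℤ[X]) ^ (j : ℕ) := by
  have hm := (pq_monic h).1
  have hlt : (f %ₘ (pq c).1).degree < mu c := by
    have := degree_modByMonic_lt f hm
    rwa [degree_eq_natDegree hm.ne_zero, (pq_deg h).1] at this
  ext n
  simp only [finsetSum_coeff, coeff_smul, coeff_X_pow, smul_eq_mul]
  by_cases hn : n < mu c
  · rw [Finset.sum_eq_single ⟨n, hn⟩]
    · simp [cf]
    · intro j _ hj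
      have : n ≠ (j : ℕ) := fun h' => hj (Fin.ext h'.symm)
      simp [this]
    · simp
  · rw [Finset.sum_eq_zero]
    · apply coeff_eq_zero_of_degree_lt
      exact lt_of_lt_of_le hlt (by exact_mod_cast not_lt.mp hn)
    · intro j _
      have : n ≠ (j : ℕ) := by have := j.2; omega
      simp [this]

theorem cf_basis {c : List ℕ} (h : Pos c) (j : Fin (mu c)) :
    cf c (X ^ (j : ℕ)) = Pi.single j 1 := by
  have hm := (pq_monic h).1
  ext i
  have h1 : (X ^ (j : ℕ) : ℤ[X]) %ₘ (pq c).1 = X ^ (j : ℕ) := by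
    rw [modByMonic_eq_self_iff hm, degree_eq_natDegree hm.ne_zero, (pq_deg h).1, degree_X_pow]
    exact_mod_cast j.2
  rw [cf, h1, coeff_X_pow, Pi.single_apply]
  by_cases hij : i = j
  · subst hij; simp
  · have : (i : ℕ) ≠ j := fun h' => hij (Fin.ext h')
    simp [hij, this]

/-- `Tc c` is multiplication by `X`. -/
theorem Tc_mulVec {c : List ℕ} (h : Pos c) (f : ℤ[X]) : Tc c *ᵥ cf c f = cf c (X * f) := by
  have h1 : cf c (X * f) = cf c (X * ∑ j : Fin (mu c), cf c f j • (X : ℤ[X]) ^ (j : ℕ)) := by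
    apply cf_congr h
    rw [← mod_eq_sum h, ← mul_sub]
    refine Dvd.dvd.mul_left ?_ _
    rw [modByMonic_eq_sub_mul_div]
    exact ⟨f /ₘ (pq c).1, by ring⟩
  rw [h1, Finset.mul_sum, cf_sum]
  ext i
  rw [Finset.sum_apply, Matrix.mulVec, dotProduct]
  refine Finset.sum_congr rfl fun j _ => ?_
  rw [mul_smul_comm, cf_smul, ← pow_succ', Pi.smul_apply, smul_eq_mul, Tc, mul_comm]

theorem Tc_pow_mulVec {c : List ℕ} (h : Pos c) (k : ℕ) (f : ℤ[X]) :
    (Tc c ^ k) *ᵥ cf c f = cf c (X ^ k * f) := by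
  induction k with
  | zero => simp
  | succ k ih =>
    rw [pow_succ', ← Matrix.mulVec_mulVec, ih, Tc_mulVec h, ← mul_assoc, ← pow_succ']

theorem Tc_pow_apply {c : List ℕ} (h : Pos c) (k : ℕ) (i j : Fin (mu c)) :
    (Tc c ^ k) i j = cf c (X ^ (k + j)) i := by
  have h1 := congrFun (Tc_pow_mulVec h k (X ^ (j : ℕ))) i
  rw [cf_basis h, Matrix.mulVec_single_one, ← pow_add] at h1
  exact h1

theorem Tc_pow_prod {c : List ℕ} (h : Pos c) : Tc c ^ c.prod = 1 := by
  ext i j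
  rw [Tc_pow_apply h, Matrix.one_apply]
  have h1 : cf c (X ^ (c.prod + (j : ℕ))) = cf c (X ^ (j : ℕ)) := by
    apply cf_congr h
    have h2 : (X ^ (c.prod + (j : ℕ)) - X ^ (j : ℕ) : ℤ[X]) =
        (pq c).1 * ((pq c).2 * X ^ (j : ℕ)) := by
      rw [← mul_assoc, pq_mul, pow_add]; ring
    exact ⟨_, h2⟩
  rw [h1, cf_basis h, Pi.single_apply]

theorem eval_cf {c : List ℕ} (h : Pos c) {z : ℂ} (hz : z ∈ Zr c) (f : ℤ[X]) :
    ∑ i : Fin (mu c), z ^ (i : ℕ) * ((cf c f i : ℤ) : ℂ) = f.aeval z := by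
  have hm := (pq_monic h).1
  have h1 : (f %ₘ (pq c).1).aeval z = f.aeval z := by
    rw [modByMonic_eq_sub_mul_div, map_sub, map_mul]
    have h2 : (pq c).1.aeval z = 0 := by
      have := (mem_Zr h).mp hz
      rw [pC, eval_map] at this
      rw [aeval_def]
      exact this
    rw [h2, zero_mul, sub_zero]
  rw [← h1, mod_eq_sum h, map_sum]
  refine Finset.sum_congr rfl fun i _ => ?_
  rw [map_smul, map_pow, aeval_X, zsmul_eq_mul, mul_comm]

theorem Vm_mul_Tc {c : List ℕ} (h : Pos c) :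
    Vm c * (Tc c).map (Int.cast : ℤ → ℂ) = diagonal (fun z : Zr c => (z : ℂ)) * Vm c := by
  ext z j
  rw [Matrix.mul_apply, Matrix.diagonal_mul]
  have h1 := eval_cf h z.2 (X ^ ((j : ℕ) + 1))
  rw [map_pow, aeval_X] at h1
  rw [Vm, ← pow_succ']
  exact h1

theorem Tc_spec {c : List ℕ} (h : Pos c) :
    (Tc c).map (Int.cast : ℤ → ℂ) = Wm c * diagonal (fun z : Zr c => (z : ℂ)) * Vm c := by
  rw [Matrix.mul_assoc, ← Vm_mul_Tc h, ← Matrix.mul_assoc, Wm_mul_Vm h, Matrix.one_mul]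

theorem Tc_pow_spec {c : List ℕ} (h : Pos c) (k : ℕ) :
    ((Tc c) ^ k).map (Int.cast : ℤ → ℂ) =
      Wm c * diagonal (fun z : Zr c => (z : ℂ) ^ k) * Vm c := by
  have h0 : ((Tc c) ^ k).map (Int.cast : ℤ → ℂ) = ((Tc c).map (Int.cast : ℤ → ℂ)) ^ k :=
    map_pow (Int.castRingHom ℂ).mapMatrix _ k
  rw [h0, Tc_spec h]
  induction k with
  | zero => simp [Wm_mul_Vm h]
  | succ k ih =>
    have h0' : ((Tc c) ^ k).map (Int.cast : ℤ → ℂ) = ((Tc c).map (Int.cast : ℤ → ℂ)) ^ k :=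
      map_pow (Int.castRingHom ℂ).mapMatrix _ k
    rw [pow_succ, ih h0']
    have h1 : Wm c * diagonal (fun z : Zr c => (z : ℂ) ^ k) * Vm c *
          (Wm c * diagonal (fun z : Zr c => (z : ℂ)) * Vm c) =
        Wm c * (diagonal (fun z : Zr c => (z : ℂ) ^ k) * (Vm c * Wm c) *
          diagonal (fun z : Zr c => (z : ℂ))) * Vm c := by
      simp only [Matrix.mul_assoc]
    rw [h1, Vm_mul_Wm h, Matrix.mul_one, diagonal_mul_diagonal]
    simp only [pow_succ]

/-- The monodromy of a chain is `T ^ (mu tail)`. -/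
theorem mono_eq_Tc_pow {c : List ℕ} (h : Pos c) :
    mono (sgn c) (chainSeifert c) = Tc c ^ dl c := by
  have h1 := Tc_pow_spec h (dl c)
  have h2 := mono_spec h
  have h3 : (mono (sgn c) (chainSeifert c)).map (Int.cast : ℤ → ℂ) =
      ((Tc c) ^ dl c).map (Int.cast : ℤ → ℂ) := by
    rw [h1, h2]
    rfl
  ext i j
  have h4 := congrFun (congrFun h3 i) j
  rw [Matrix.map_apply, Matrix.map_apply] at h4
  exact_mod_cast h4

/-- `T` is an isometry of the Seifert form. -/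
theorem Tc_isom {c : List ℕ} (h : Pos c) :
    (Tc c)ᵀ * chainSeifert c * Tc c = chainSeifert c := by
  have key : ((Tc c).map (Int.cast : ℤ → ℂ))ᵀ * LC c * (Tc c).map (Int.cast : ℤ → ℂ) = LC c := by
    have h1 := Vm_mul_Tc h
    have h2 : Vb c * (Tc c).map (Int.cast : ℤ → ℂ) =
        diagonal (fun z : Zr c => (z : ℂ)⁻¹) * Vb c := by
      ext z j
      rw [Matrix.mul_apply, Matrix.diagonal_mul]
      have h3 := eval_cf h (Zr_inv h z.2) (X ^ ((j : ℕ) + 1))
      rw [map_pow, aeval_X] at h3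
      rw [Vb, ← pow_succ']
      exact h3
    rw [LC_eq h]
    have h4 : ((Tc c).map (Int.cast : ℤ → ℂ))ᵀ *
        ((Vm c)ᵀ * (diagonal (fun z : Zr c => dq c z) * Vb c)) * (Tc c).map (Int.cast : ℤ → ℂ) =
        (Vm c * (Tc c).map (Int.cast : ℤ → ℂ))ᵀ * (diagonal (fun z : Zr c => dq c z) *
          (Vb c * (Tc c).map (Int.cast : ℤ → ℂ))) := by
      rw [transpose_mul]
      simp only [Matrix.mul_assoc]
    rw [h4, h1, h2, transpose_mul, diagonal_transpose, Matrix.mul_assoc]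
    congr 1
    rw [← Matrix.mul_assoc, ← Matrix.mul_assoc, diagonal_mul_diagonal, diagonal_mul_diagonal]
    congr 2
    funext z
    have hz0 := Zr_ne_zero h z.2
    field_simp
  ext i j
  have h5 := congrFun (congrFun key i) j
  have h6 : (((Tc c)ᵀ * chainSeifert c * Tc c) i j : ℂ) =
      (((Tc c).map (Int.cast : ℤ → ℂ))ᵀ * LC c * (Tc c).map (Int.cast : ℤ → ℂ)) i j := by
    have h7 : ((Tc c)ᵀ * chainSeifert c * Tc c).map (Int.castRingHom ℂ) =
        ((Tc c).map (Int.cast : ℤ → ℂ))ᵀ * LC c * (Tc c).map (Int.cast : ℤ → ℂ) := by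
      rw [Matrix.map_mul, Matrix.map_mul]
      rfl
    rw [← h7]
    rfl
  rw [h5] at h6
  have h8 : LC c i j = ((chainSeifert c i j : ℤ) : ℂ) := rfl
  rw [h8] at h6
  exact_mod_cast h6

end Vale.Agent.P268.Z
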