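import Vale.Agent.P268.Z.ADefs
import Vale.Agent.P268.Z.A0

/-!
# P268, block A0: order and trace of the monodromy of a chain
-/

namespace Vale.Agent.P268.Z

open Matrix

theorem pos_of_two {c : List ℕ} (h : ∀ a ∈ c, 2 ≤ a) : Pos c :=
  fun b hb => lt_of_lt_of_le two_pos (h b hb)

theorem chain_order (D : ℕ) (c : List ℕ) (hc : c ≠ []) (h2 : ∀ a ∈ c, 2 ≤ a)
    (hw : ∀ w ∈ weights c, ∃ z : ℤ, (D : ℚ) * w = z) :
    (mono (sgn c) (chainSeifert c)) ^ D = 1 := by
  cases c with
  | nil => exact absurd rfl hc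
  | cons a c =>
    have hp := pos_of_two h2
    apply chain_order' D hp
    obtain ⟨z, hz⟩ := hw _ List.mem_cons_self
    have h3 : ((D : ℚ) * ((mu c : ℚ) / ((a :: c).prod : ℕ))).den = 1 := by
      have h4 : ((a :: c).prod : ℚ) = (a : ℚ) * c.prod := by
        rw [List.prod_cons]; push_cast; ring
      rw [h4, hz]
      exact Rat.den_intCast z
    exact (den_mul_div_eq_one hp.prod).mp h3

theorem Ssum_prod {c : List ℕ} (h2 : ∀ a ∈ c, 2 ≤ a) (k : ℕ) :
    ((Ssum c (dl c * k) : ℤ) : ℚ) = ((weights c).map (psi k)).prod := by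
  induction c with
  | nil => simp [Ssum, weights]
  | cons a c ih =>
    have hp := pos_of_two h2
    have h2' : ∀ a ∈ c, 2 ≤ a := fun b hb => h2 b (List.mem_cons_of_mem _ hb)
    have ih := ih h2'
    have hm := (pq_deg hp).2.2
    have hm' := (pq_deg hp.tail).2.2
    have hmu := mu_pos h2'
    have hmuQ : (mu c : ℚ) ≠ 0 := by exact_mod_cast hmu.ne'
    have h4 : (((a :: c).prod : ℕ) : ℚ) = (a : ℚ) * (c.prod : ℕ) := by
      rw [List.prod_cons, Nat.cast_mul]
    have hprodQ : (((a :: c).prod : ℕ) : ℚ) ≠ 0 := by exact_mod_cast hp.prod.ne'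
    rw [weights, List.map_cons, List.prod_cons, ← ih, psi, ← h4]
    have hdl : dl (a :: c) = mu c := rfl
    rw [hdl] at hm ⊢
    have hdvd : c.prod ∣ (a :: c).prod := by rw [List.prod_cons]; exact dvd_mul_left _ _
    have hsum : mu c * k + dl c * k = c.prod * k := by rw [← add_mul, hm']
    by_cases hd : (a :: c).prod ∣ mu c * k
    · rw [if_pos ((den_mul_div_eq_one hp.prod).mpr hd), Ssum_dvd hp hd]
      have h5 : c.prod ∣ dl c * k := by
        have h6 : c.prod ∣ mu c * k := dvd_trans hdvd hd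
        exact (Nat.dvd_add_right h6).mp (hsum ▸ dvd_mul_right _ _)
      rw [Ssum_dvd hp.tail h5]
      have h7 : (mu (a :: c) : ℚ) = ((a :: c).prod : ℕ) - mu c := by
        rw [← hm, Nat.cast_add]; ring
      rw [Int.cast_natCast, Int.cast_natCast, h7, one_div_div, sub_mul,
        div_mul_cancel₀ _ hmuQ, one_mul]
    · rw [if_neg (fun h => hd ((den_mul_div_eq_one hp.prod).mp h)), Ssum, if_neg hd,
        Ssum_congr (n := mu c * k) (n' := dl c * k) (hsum ▸ dvd_mul_right _ _)]
      push_cast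
      ring

theorem chain_trace (c : List ℕ) (h2 : ∀ a ∈ c, 2 ≤ a) (k : ℕ) :
    (((mono (sgn c) (chainSeifert c)) ^ k).trace : ℚ) =
      ((weights c).map fun w => if ((k : ℚ) * w).den = 1 then 1 / w - 1 else -1).prod := by
  have hp := pos_of_two h2
  have h1 := trace_mono_pow hp k
  rw [sum_Zr_pow hp] at h1
  have h3 : ((mono (sgn c) (chainSeifert c)) ^ k).trace = Ssum c (dl c * k) := by
    exact_mod_cast h1
  rw [h3, Ssum_prod h2]
  rfl

/-- `ChainOK` from the weights. -/
theorem chainOK_of_weights (D : ℕ) (c : List ℕ) (hc : c ≠ []) (h2 : ∀ a ∈ c, 2 ≤ a)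
    (hw : ∀ w ∈ weights c, ∃ z : ℤ, (D : ℚ) * w = z) : ChainOK D c where
  ne := hc
  two := h2
  det := by rw [chainSeifert_det]; exact isUnit_one
  ord := chain_order D c hc h2 hw

end Vale.Agent.P268.Z
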