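import Vale.Agent.P268.Z.ADefs

/-!
# P268, block A1: the abstract spectral lemma

If the complexification of the integral unimodular matrix `L` is `Vᴴ * diagonal w * V` with `V`
invertible and compatible with complex conjugation, then `ofSeifert` of `L` has spectral data.
-/

namespace Vale.Agent.P268.Z

open Matrix

section

variable {ι X : Type} [Fintype ι] [DecidableEq ι] [Fintype X] [DecidableEq X]

/-- uniqueness of the inverse gives compatibility with the conjugation -/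
theorem inv_bar {V : Matrix X ι ℂ} {W : Matrix ι X ℂ} (hVW : V * W = 1) (hWV : W * V = 1)
    (bar : X → X) (hbar : ∀ x, bar (bar x) = x) (hV : ∀ x i, V (bar x) i = star (V x i)) :
    ∀ i x, W i (bar x) = star (W i x) := by
  have h1 : V * (Matrix.of fun i x => star (W i (bar x))) = 1 := by
    ext x y
    rw [Matrix.mul_apply]
    have h2 : ∑ i, V x i * (Matrix.of fun i x => star (W i (bar x))) i y =
        star (∑ i, V (bar x) i * W i (bar y)) := by
      rw [star_sum]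
      refine Finset.sum_congr rfl fun i _ => ?_
      rw [star_mul', hV, star_star, Matrix.of_apply]
    rw [h2, ← Matrix.mul_apply, hVW, Matrix.one_apply, Matrix.one_apply]
    by_cases h : x = y
    · subst h; simp
    · have : bar x ≠ bar y := fun h' => h (by rw [← hbar x, h', hbar y])
      simp [h, this]
  have h3 : W = Matrix.of fun i x => star (W i (bar x)) := by
    calc W = W * (V * (Matrix.of fun i x => star (W i (bar x)))) := by rw [h1, Matrix.mul_one]
      _ = (W * V) * (Matrix.of fun i x => star (W i (bar x))) := by rw [Matrix.mul_assoc]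
      _ = _ := by rw [hWV, Matrix.one_mul]
  intro i x
  have := congrFun (congrFun h3 i) x
  rw [Matrix.of_apply] at this
  rw [this, star_star]

/-- `Lᵀ = e • L * mono e L`. -/
theorem mul_mono_eq {R : Type} [CommRing R] (e : ℤˣ) (L : Matrix ι ι R) (hL : IsUnit L.det) :
    L * mono e L = ((e : ℤ) : R) • Lᵀ := by
  rw [mono, Matrix.mul_smul, ← Matrix.mul_assoc, Matrix.mul_nonsing_inv _ hL, one_mul]

theorem cycRep_gen {R : Type} [CommRing R] (D : ℕ) [NeZero D] (T : Matrix ι ι R)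
    (h : T ^ D = 1) : cycRep D T h (Cyc.gen D) = T := by
  change T ^ (Multiplicative.toAdd (Cyc.gen D)).val = T
  have h1 : Multiplicative.toAdd (Cyc.gen D) = (1 : ZMod D) := rfl
  rw [h1]
  by_cases hD : D = 1
  · subst hD
    have : T = 1 := by simpa using h
    rw [this, one_pow]
  · have : Fact (1 < D) := ⟨by have := NeZero.ne D; omega⟩
    rw [ZMod.val_one, pow_one]

variable (D : ℕ) [NeZero D] (e : ℤˣ) (L : Matrix ι ι ℤ) (V : Matrix X ι ℂ) (W : Matrix ι X ℂ)
  (w : X → ℂ)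

/-- the phase -/
noncomputable def phs (w : X → ℂ) (x : X) : ℂ := w x / (‖w x‖ : ℂ)

/-- the eigenvalue of the monodromy -/
noncomputable def eig (e : ℤˣ) (w : X → ℂ) (x : X) : ℂ := ((e : ℤ) : ℂ) * star (phs w x) ^ 2

/-- the normalized eigenvectors -/
noncomputable def nrm (W : Matrix ι X ℂ) (w : X → ℂ) : Matrix ι X ℂ :=
  W * diagonal fun x => (((Real.sqrt ‖w x‖)⁻¹ : ℝ) : ℂ)

noncomputable def nrmInv (V : Matrix X ι ℂ) (w : X → ℂ) : Matrix X ι ℂ :=
  (diagonal fun x => ((Real.sqrt ‖w x‖ : ℝ) : ℂ)) * V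

omit [Fintype X] [DecidableEq X] in
theorem phs_norm {w : X → ℂ} {x : X} (h : w x ≠ 0) : ‖phs w x‖ = 1 := by
  rw [phs, norm_div, Complex.norm_real, norm_norm, div_self (norm_ne_zero_iff.mpr h)]

omit [Fintype X] [DecidableEq X] in
theorem phs_mul_star {w : X → ℂ} {x : X} (h : w x ≠ 0) : phs w x * star (phs w x) = 1 := by
  rw [Complex.star_def, Complex.mul_conj, Complex.normSq_eq_norm_sq, phs_norm h]
  simp

omit [Fintype X] [DecidableEq X] in
theorem eig_mul {e : ℤˣ} {w : X → ℂ} {x : X} (h : w x ≠ 0) :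
    w x * eig e w x = ((e : ℤ) : ℂ) * star (w x) := by
  have h1 : w x = phs w x * (‖w x‖ : ℂ) := by
    rw [phs, div_mul_cancel₀]
    exact_mod_cast norm_ne_zero_iff.mpr h
  have h2 : star (w x) = star (phs w x) * (‖w x‖ : ℂ) := by
    conv_lhs => rw [h1]
    rw [star_mul']
    congr 1
    simp
  rw [h2, eig]
  calc w x * (((e : ℤ) : ℂ) * star (phs w x) ^ 2)
      = (phs w x * (‖w x‖ : ℂ)) * (((e : ℤ) : ℂ) * star (phs w x) ^ 2) := by rw [← h1]
    _ = ((e : ℤ) : ℂ) * ((phs w x * star (phs w x)) * star (phs w x) * (‖w x‖ : ℂ)) := by ring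
    _ = _ := by rw [phs_mul_star h, one_mul]

variable {D e L V W w}

omit [DecidableEq ι] in
theorem nrm_hQP (hw : ∀ x, w x ≠ 0) (hVW : V * W = 1) : nrmInv V w * nrm W w = 1 := by
  rw [nrmInv, nrm, Matrix.mul_assoc, ← Matrix.mul_assoc V, hVW, Matrix.one_mul, diagonal_mul_diagonal,
    ← diagonal_one]
  congr 1
  ext x
  rw [← Complex.ofReal_mul, mul_inv_cancel₀, Complex.ofReal_one]
  exact (Real.sqrt_pos.mpr (norm_pos_iff.mpr (hw x))).ne'

omit [Fintype ι] in
theorem nrm_hPQ (hw : ∀ x, w x ≠ 0) (hWV : W * V = 1) : nrm W w * nrmInv V w = 1 := by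
  rw [nrmInv, nrm, Matrix.mul_assoc, ← Matrix.mul_assoc (diagonal _) (diagonal _),
    diagonal_mul_diagonal]
  have : (fun x => (((Real.sqrt ‖w x‖)⁻¹ : ℝ) : ℂ) * ((Real.sqrt ‖w x‖ : ℝ) : ℂ)) =
      fun _ => (1 : ℂ) := by
    ext x
    rw [← Complex.ofReal_mul, inv_mul_cancel₀, Complex.ofReal_one]
    exact (Real.sqrt_pos.mpr (norm_pos_iff.mpr (hw x))).ne'
  rw [this, diagonal_one, Matrix.one_mul, hWV]

omit [DecidableEq ι] in
theorem V_nrm (hVW : V * W = 1) :
    V * nrm W w = diagonal fun x => (((Real.sqrt ‖w x‖)⁻¹ : ℝ) : ℂ) := by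
  rw [nrm, ← Matrix.mul_assoc, hVW, Matrix.one_mul]

theorem nrm_gram (hw : ∀ x, w x ≠ 0) (hVW : V * W = 1)
    (hL : L.map (Int.cast : ℤ → ℂ) = Vᴴ * diagonal w * V) :
    (nrm W w)ᴴ * L.map (Int.cast : ℤ → ℂ) * nrm W w = diagonal (phs w) := by
  have h1 : (nrm W w)ᴴ * Vᴴ = diagonal fun x => (((Real.sqrt ‖w x‖)⁻¹ : ℝ) : ℂ) := by
    rw [← conjTranspose_mul, V_nrm hVW, diagonal_conjTranspose]
    congr 1
    ext x
    simp
  calc (nrm W w)ᴴ * L.map (Int.cast : ℤ → ℂ) * nrm W w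
      = ((nrm W w)ᴴ * Vᴴ) * diagonal w * (V * nrm W w) := by
        rw [hL]; simp only [Matrix.mul_assoc]
    _ = _ := by
        rw [h1, V_nrm hVW, diagonal_mul_diagonal, diagonal_mul_diagonal]
        congr 1
        ext x
        have h2 : (0 : ℝ) < ‖w x‖ := norm_pos_iff.mpr (hw x)
        have h3 : Real.sqrt ‖w x‖ ≠ 0 := (Real.sqrt_pos.mpr h2).ne'
        have h4 : ((Real.sqrt ‖w x‖ : ℝ) : ℂ) * ((Real.sqrt ‖w x‖ : ℝ) : ℂ) = (‖w x‖ : ℂ) := by
          rw [← Complex.ofReal_mul, Real.mul_self_sqrt h2.le]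
        have h5 : ((Real.sqrt ‖w x‖ : ℝ) : ℂ) ≠ 0 := by exact_mod_cast h3
        rw [phs, ← h4, Complex.ofReal_inv]
        field_simp

theorem nrm_eig (hw : ∀ x, w x ≠ 0) (hVW : V * W = 1) (hdet : IsUnit L.det)
    (hL : L.map (Int.cast : ℤ → ℂ) = Vᴴ * diagonal w * V) :
    (mono e L).map (Int.cast : ℤ → ℂ) * nrm W w = nrm W w * diagonal (eig e w) := by
  have hdetC : IsUnit (L.map (Int.cast : ℤ → ℂ)).det := by
    have : (L.map (Int.cast : ℤ → ℂ)).det = ((L.det : ℤ) : ℂ) := by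
      have := RingHom.map_det (Int.castRingHom ℂ) L
      simpa using this.symm
    rw [this]
    exact hdet.map (Int.castRingHom ℂ)
  have h1 : L.map (Int.cast : ℤ → ℂ) * (mono e L).map (Int.cast : ℤ → ℂ) =
      ((e : ℤ) : ℂ) • (L.map (Int.cast : ℤ → ℂ))ᴴ := by
    have h2 := congrArg (fun M : Matrix ι ι ℤ => M.map (Int.cast : ℤ → ℂ)) (mul_mono_eq e L hdet)
    have h3 : (L * mono e L).map (Int.cast : ℤ → ℂ) =
        L.map (Int.cast : ℤ → ℂ) * (mono e L).map (Int.cast : ℤ → ℂ) := by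
      have := Matrix.map_mul (f := Int.castRingHom ℂ) (L := L) (M := mono e L)
      simpa using this
    rw [← h3]
    refine h2.trans ?_
    ext i j
    rw [Matrix.map_apply, Matrix.smul_apply, Matrix.smul_apply, Matrix.conjTranspose_apply,
      Matrix.map_apply, Matrix.transpose_apply, smul_eq_mul, smul_eq_mul, Int.cast_mul,
      Int.cast_id]
    simp
  have h4 : (L.map (Int.cast : ℤ → ℂ))ᴴ = Vᴴ * diagonal (star w) * V := by
    rw [hL, conjTranspose_mul, conjTranspose_mul, conjTranspose_conjTranspose,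
      diagonal_conjTranspose, Matrix.mul_assoc]
  have h5 : L.map (Int.cast : ℤ → ℂ) * ((mono e L).map (Int.cast : ℤ → ℂ) * nrm W w) =
      L.map (Int.cast : ℤ → ℂ) * (nrm W w * diagonal (eig e w)) := by
    have h6 : ((e : ℤ) : ℂ) • (Vᴴ * diagonal (star w) * V) * nrm W w =
        Vᴴ * diagonal fun x => ((e : ℤ) : ℂ) * (star (w x) * (((Real.sqrt ‖w x‖)⁻¹ : ℝ) : ℂ)) := by
      rw [Matrix.smul_mul, Matrix.mul_assoc, V_nrm hVW, Matrix.mul_assoc Vᴴ,
        diagonal_mul_diagonal, ← Matrix.mul_smul, ← diagonal_smul]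
      rfl
    have h7 : Vᴴ * diagonal w * V * (nrm W w * diagonal (eig e w)) =
        Vᴴ * diagonal fun x => w x * ((((Real.sqrt ‖w x‖)⁻¹ : ℝ) : ℂ) * eig e w x) := by
      rw [Matrix.mul_assoc (Vᴴ * diagonal w), ← Matrix.mul_assoc V, V_nrm hVW,
        diagonal_mul_diagonal, Matrix.mul_assoc Vᴴ, diagonal_mul_diagonal]
    rw [← Matrix.mul_assoc, h1, h4, h6, hL, h7]
    congr 2
    ext x
    rw [mul_comm _ (eig e w x), ← mul_assoc (w x), eig_mul (hw x)]
    ring
  calc (mono e L).map (Int.cast : ℤ → ℂ) * nrm W w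
      = (L.map (Int.cast : ℤ → ℂ))⁻¹ * (L.map (Int.cast : ℤ → ℂ) *
          ((mono e L).map (Int.cast : ℤ → ℂ) * nrm W w)) := by
        rw [← Matrix.mul_assoc _ (L.map _), Matrix.nonsing_inv_mul _ hdetC, Matrix.one_mul]
    _ = _ := by
        rw [h5, ← Matrix.mul_assoc _ (L.map _), Matrix.nonsing_inv_mul _ hdetC, Matrix.one_mul]

theorem pow_nrm (M : Matrix ι ι ℤ) (P : Matrix ι X ℂ) (lam : X → ℂ)
    (h : M.map (Int.cast : ℤ → ℂ) * P = P * diagonal lam) (n : ℕ) :
    (M ^ n).map (Int.cast : ℤ → ℂ) * P = P * diagonal (fun x => lam x ^ n) := by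
  induction n with
  | zero =>
    have h0 : (1 : Matrix ι ι ℤ).map (Int.cast : ℤ → ℂ) = 1 := by
      ext i j; simp [Matrix.one_apply]
    simp [h0]
  | succ n ih =>
    have h1 : (M ^ (n + 1)).map (Int.cast : ℤ → ℂ) =
        M.map (Int.cast : ℤ → ℂ) * (M ^ n).map (Int.cast : ℤ → ℂ) := by
      rw [pow_succ']
      have := Matrix.map_mul (f := Int.castRingHom ℂ) (L := M) (M := M ^ n)
      simpa using this
    rw [h1, Matrix.mul_assoc, ih, ← Matrix.mul_assoc, h, Matrix.mul_assoc, diagonal_mul_diagonal]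
    congr 2
    ext x
    ring

omit [NeZero D] in
theorem eig_pow (hw : ∀ x, w x ≠ 0) (hVW : V * W = 1) (hdet : IsUnit L.det)
    (hL : L.map (Int.cast : ℤ → ℂ) = Vᴴ * diagonal w * V) (hD : (mono e L) ^ D = 1) (x : X) :
    eig e w x ^ D = 1 := by
  have h1 := pow_nrm (mono e L) (nrm W w) (eig e w) (nrm_eig hw hVW hdet hL) D
  have h0 : (1 : Matrix ι ι ℤ).map (Int.cast : ℤ → ℂ) = 1 := by
    ext i j; simp [Matrix.one_apply]
  rw [hD, h0, Matrix.one_mul] at h1
  have h2 : nrmInv V w * nrm W w = nrmInv V w * (nrm W w * diagonal fun x => eig e w x ^ D) := by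
    rw [← h1]
  rw [← Matrix.mul_assoc, nrm_hQP hw hVW, Matrix.one_mul] at h2
  have h3 := congrFun (congrFun h2 x) x
  rw [Matrix.one_apply_eq, diagonal_apply_eq] at h3
  exact h3.symm

/-- the spectral data of `ofSeifert` -/
noncomputable def specOf (hw : ∀ x, w x ≠ 0) (hVW : V * W = 1) (hWV : W * V = 1)
    (hdet : IsUnit L.det) (hL : L.map (Int.cast : ℤ → ℂ) = Vᴴ * diagonal w * V)
    (bar : X → X) (hbar : ∀ x, bar (bar x) = x) (hV : ∀ x i, V (bar x) i = star (V x i))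
    (hwb : ∀ x, w (bar x) = star (w x)) (hD : Odd D) (hh : (mono e L) ^ D = 1) :
    SpecData (ofSeifert D hD e L hdet hh).g ((ofSeifert D hD e L hdet hh).ρ (Cyc.gen D)) X where
  u x := phs w x * eig e w x ^ ((D + 1) / 2)
  lam := eig e w
  bar := bar
  P := nrm W w
  Q := nrmInv V w
  hQP := nrm_hQP hw hVW
  hPQ := nrm_hPQ hw hWV
  hg := by
    change (nrm W w)ᴴ * (L * (mono e L) ^ ((D + 1) / 2)).map (Int.cast : ℤ → ℂ) * nrm W w = _
    have h1 : (L * (mono e L) ^ ((D + 1) / 2)).map (Int.cast : ℤ → ℂ) =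
        L.map (Int.cast : ℤ → ℂ) * ((mono e L) ^ ((D + 1) / 2)).map (Int.cast : ℤ → ℂ) := by
      have := Matrix.map_mul (f := Int.castRingHom ℂ) (L := L) (M := (mono e L) ^ ((D + 1) / 2))
      simpa using this
    rw [h1, Matrix.mul_assoc, Matrix.mul_assoc,
      pow_nrm (mono e L) (nrm W w) (eig e w) (nrm_eig hw hVW hdet hL),
      ← Matrix.mul_assoc (L.map _), ← Matrix.mul_assoc _ (L.map _ * _),
      ← Matrix.mul_assoc _ (L.map _), nrm_gram hw hVW hL, diagonal_mul_diagonal]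
  ht := by
    have h1 : (ofSeifert D hD e L hdet hh).ρ (Cyc.gen D) = mono e L := cycRep_gen D _ hh
    rw [h1]
    exact nrm_eig hw hVW hdet hL
  hbar := hbar
  hP i x := by
    have h1 : ‖w (bar x)‖ = ‖w x‖ := by rw [hwb, norm_star]
    rw [nrm, Matrix.mul_diagonal, Matrix.mul_diagonal, inv_bar hVW hWV bar hbar hV, h1,
      star_mul']
    congr 1
    simp
  hu x := by
    rw [norm_mul, norm_pow, phs_norm (hw x), eig, norm_mul, norm_pow, norm_star,
      phs_norm (hw x)]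
    have : ‖((e : ℤ) : ℂ)‖ = 1 := by
      rcases Int.units_eq_one_or e with h | h <;> simp [h]
    rw [this]
    simp

end

end Vale.Agent.P268.Z

namespace Vale.Agent.P268.Z

open Matrix

section

variable {X : Type} [Fintype X] {w : X → ℂ} {e : ℤˣ}

theorem phs_eig_pow {n κ : ℕ} (hκ : 2 * n = κ + 1) {x : X} (h : w x ≠ 0) :
    phs w x * eig e w x ^ n = ((e : ℤ) : ℂ) ^ n * star (phs w x ^ κ) := by
  rw [eig, mul_pow, ← pow_mul, hκ, pow_succ, star_pow]
  calc phs w x * (((e : ℤ) : ℂ) ^ n * (star (phs w x) ^ κ * star (phs w x)))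
      = (phs w x * star (phs w x)) * (((e : ℤ) : ℂ) ^ n * star (phs w x) ^ κ) := by ring
    _ = _ := by rw [phs_mul_star h, one_mul]

theorem sum_phs_eig {n κ : ℕ} (hκ : 2 * n = κ + 1) (h : ∀ x, w x ≠ 0) :
    ∑ x, phs w x * eig e w x ^ n = ((e : ℤ) : ℂ) ^ n * star (∑ x, phs w x ^ κ) := by
  rw [star_sum, Finset.mul_sum]
  exact Finset.sum_congr rfl fun x _ => phs_eig_pow hκ (h x)

theorem u_pow_four {D : ℕ} (hD : Odd D) {x : X} (h : w x ≠ 0) (hl : eig e w x ^ D = 1) :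
    (phs w x * eig e w x ^ ((D + 1) / 2)) ^ 4 = 1 := by
  obtain ⟨d, rfl⟩ := hD
  have h1 : (2 * d + 1 + 1) / 2 = d + 1 := by omega
  rw [h1]
  have h2 : (phs w x * eig e w x ^ (d + 1)) ^ 2 = ((e : ℤ) : ℂ) := by
    calc (phs w x * eig e w x ^ (d + 1)) ^ 2
        = phs w x ^ 2 * (eig e w x ^ (2 * d + 1) * eig e w x) := by ring
      _ = ((e : ℤ) : ℂ) * (phs w x * star (phs w x)) ^ 2 := by rw [hl, eig]; ring
      _ = _ := by rw [phs_mul_star h]; ring
  calc (phs w x * eig e w x ^ (d + 1)) ^ 4 = ((phs w x * eig e w x ^ (d + 1)) ^ 2) ^ 2 := by ring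
    _ = 1 := by
      rw [h2]
      rcases Int.units_eq_one_or e with h | h <;> simp [h]

end

end Vale.Agent.P268.Z
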