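import Vale.Agent.P268.Z.ADefs

/-!
# P268, part A1: the phase sum of a chain
-/

namespace Vale.Agent.P268.Z.A1

open Finset ComplexConjugate

/-- The values of the polynomial `q_c` (the polynomial of the power series `qser c`). -/
noncomputable def qval : List ℕ → ℂ → ℂ
  | [], _ => 1
  | [_], z => 1 - z
  | _ :: a :: c, z => (∑ j ∈ range a, z ^ (c.prod * j)) * qval c z

@[simp] theorem qval_nil (z : ℂ) : qval [] z = 1 := rfl

@[simp] theorem qval_one (a : ℕ) (z : ℂ) : qval [a] z = 1 - z := rfl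

theorem qval_cons (b a : ℕ) (c : List ℕ) (z : ℂ) :
    qval (b :: a :: c) z = (∑ j ∈ range a, z ^ (c.prod * j)) * qval c z := rfl

theorem qval_mul (a : ℕ) (c : List ℕ) (z : ℂ) : qval (a :: c) z * qval c z = 1 - z ^ c.prod := by
  induction c generalizing a with
  | nil => simp
  | cons a' c ih =>
    have h := ih a'
    have hg := mul_neg_geom_sum (z ^ c.prod) a'
    rw [qval_cons, mul_assoc, mul_comm (qval c z), h, List.prod_cons, mul_comm a' c.prod,
      pow_mul, ← hg, mul_comm]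
    simp only [pow_mul]

/-- The phase of a complex number. -/
noncomputable def ph (z : ℂ) : ℂ := z / (‖z‖ : ℂ)

theorem ph_mul (z w : ℂ) : ph (z * w) = ph z * ph w := by
  simp only [ph, norm_mul, Complex.ofReal_mul]
  rw [mul_div_mul_comm]

@[simp] theorem ph_zero : ph 0 = 0 := by simp [ph]

@[simp] theorem ph_one : ph 1 = 1 := by simp [ph]

theorem ph_pos {r : ℝ} (hr : 0 < r) : ph (r : ℂ) = 1 := by
  have : (r : ℂ) ≠ 0 := by exact_mod_cast hr.ne'
  simp [ph, abs_of_pos hr, this]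

theorem ph_mul_conj {z : ℂ} (hz : z ≠ 0) : ph z * conj (ph z) = 1 := by
  have : (‖z‖ : ℂ) ≠ 0 := by exact_mod_cast (norm_ne_zero_iff.mpr hz)
  rw [ph, map_div₀, Complex.conj_ofReal, div_mul_div_comm, Complex.mul_conj,
    Complex.normSq_eq_norm_sq]
  push_cast
  field_simp

/-- `e (x) = exp (2 π i x)`. -/
noncomputable def ex (x : ℝ) : ℂ := Complex.exp (2 * Real.pi * Complex.I * x)

/-- `h (x) = exp (π i x)`. -/
noncomputable def hx (x : ℝ) : ℂ := Complex.exp (Real.pi * Complex.I * x)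

theorem hx_add (x y : ℝ) : hx (x + y) = hx x * hx y := by
  rw [hx, hx, hx, ← Complex.exp_add]; congr 1; push_cast; ring

theorem ex_add (x y : ℝ) : ex (x + y) = ex x * ex y := by
  rw [ex, ex, ex, ← Complex.exp_add]; congr 1; push_cast; ring

theorem hx_pow (x : ℝ) (n : ℕ) : hx x ^ n = hx (n * x) := by
  rw [hx, hx, ← Complex.exp_nat_mul]; congr 1; push_cast; ring

theorem ex_pow (x : ℝ) (n : ℕ) : ex x ^ n = ex (n * x) := by
  rw [ex, ex, ← Complex.exp_nat_mul]; congr 1; push_cast; ring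

theorem conj_hx (x : ℝ) : conj (hx x) = hx (-x) := by
  rw [hx, hx, ← Complex.exp_conj]
  congr 1
  simp

@[simp] theorem hx_zero : hx 0 = 1 := by simp [hx]

@[simp] theorem ex_zero : ex 0 = 1 := by simp [ex]

@[simp] theorem ex_nat (n : ℕ) : ex n = 1 := by
  rw [ex, Complex.exp_eq_one_iff]
  exact ⟨n, by push_cast; ring⟩

theorem hx_nat_odd {n : ℕ} (hn : Odd n) : hx n = -1 := by
  obtain ⟨k, rfl⟩ := hn
  rw [hx]
  have : (Real.pi : ℂ) * Complex.I * ((2 * k + 1 : ℕ) : ℝ) =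
      (k : ℂ) * (2 * Real.pi * Complex.I) + Real.pi * Complex.I := by push_cast; ring
  rw [this, Complex.exp_add, Complex.exp_pi_mul_I]
  have : Complex.exp ((k : ℂ) * (2 * Real.pi * Complex.I)) = 1 := by
    rw [Complex.exp_eq_one_iff]
    exact ⟨k, by push_cast; ring⟩
  rw [this, one_mul]

/-- `1 - e(y) = 2 sin(π y) * (-i h(y))`. -/
theorem one_sub_ex (y : ℝ) :
    1 - ex y = ((2 * Real.sin (Real.pi * y) : ℝ) : ℂ) * (-Complex.I * hx y) := by
  rw [ex, hx]
  push_cast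
  rw [Complex.sin]
  have h1 : (2 : ℂ) * Real.pi * Complex.I * y = Real.pi * Complex.I * y + Real.pi * Complex.I * y := by
    ring
  have h2 : (Real.pi : ℂ) * y * Complex.I = Real.pi * Complex.I * y := by ring
  have h3 : -((Real.pi : ℂ) * y) * Complex.I = -(Real.pi * Complex.I * y) := by ring
  rw [h1, h2, h3, Complex.exp_add, Complex.exp_neg]
  have h0 := Complex.exp_ne_zero ((Real.pi : ℂ) * Complex.I * y)
  field_simp
  ring_nf
  rw [Complex.I_sq]
  ring

theorem ph_one_sub_ex {y : ℝ} (h0 : 0 < y) (h1 : y < 1) : ph (1 - ex y) = -Complex.I * hx y := by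
  have hs : 0 < 2 * Real.sin (Real.pi * y) := by
    have := Real.sin_pos_of_pos_of_lt_pi (x := Real.pi * y) (by positivity)
      (by nlinarith [Real.pi_pos])
    linarith
  rw [one_sub_ex, ph_mul, ph_pos hs, one_mul]
  have hn : ‖-Complex.I * hx y‖ = 1 := by
    rw [norm_mul, norm_neg, Complex.norm_I, one_mul, hx]
    have : (Real.pi : ℂ) * Complex.I * y = ((Real.pi * y : ℝ) : ℂ) * Complex.I := by
      push_cast; ring
    rw [this, Complex.norm_exp_ofReal_mul_I]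
  rw [ph, hn]
  simp

theorem one_sub_ex_ne {y : ℝ} (h0 : 0 < y) (h1 : y < 1) : 1 - ex y ≠ 0 := by
  intro h
  have := ph_one_sub_ex h0 h1
  rw [h, ph_zero] at this
  have h2 : hx y ≠ 0 := Complex.exp_ne_zero _
  simp [h2] at this

/-- `(1 + h(t)) = i cot(π t / 2) (1 - h(t))` -/
theorem one_add_hx (t : ℝ) (ht : Real.sin (Real.pi * t / 2) ≠ 0) :
    1 + hx t = Complex.I * (Real.cot (Real.pi * t / 2) : ℂ) * (1 - hx t) := by
  have hsin : Complex.sin (Real.pi * t / 2) ≠ 0 := by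
    have : Complex.sin (Real.pi * t / 2) = ((Real.sin (Real.pi * t / 2) : ℝ) : ℂ) := by
      push_cast; rfl
    rw [this]
    exact_mod_cast ht
  have e1 : hx t = Complex.exp (Real.pi * t / 2 * Complex.I) * Complex.exp (Real.pi * t / 2 * Complex.I) := by
    rw [hx, ← Complex.exp_add]
    congr 1
    ring
  rw [Real.cot_eq_cos_div_sin]
  push_cast
  rw [mul_div_assoc', div_mul_eq_mul_div, eq_div_iff hsin, e1]
  rw [Complex.sin, Complex.cos]
  rw [neg_mul, Complex.exp_neg]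
  have h0 := Complex.exp_ne_zero (Real.pi * t / 2 * Complex.I)
  set E := Complex.exp (Real.pi * t / 2 * Complex.I) with hE
  field_simp
  ring

/-! ### mixed radix -/

theorem sum_range_mul' (a b : ℕ) (f : ℕ → ℂ) :
    ∑ k ∈ range (a * b), f k = ∑ d ∈ range a, ∑ k ∈ range b, f (d + a * k) := by
  induction b with
  | zero => simp
  | succ b ih =>
    rw [Nat.mul_succ, Finset.sum_range_add, ih, ← Finset.sum_add_distrib]
    refine Finset.sum_congr rfl fun d _ => ?_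
    rw [Finset.sum_range_succ, add_comm (a * b) d]

/-- head weight -/
noncomputable def hwt : List ℕ → ℝ
  | [] => 0
  | a :: c => (1 - hwt c) / a

/-- The twisted sum of the phases of the values of `q_c` over the roots of `z ^ b = e(x)`. -/
noncomputable def Tsum (κ : ℕ) (c : List ℕ) (x : ℝ) : ℂ :=
  ∑ k ∈ range c.prod, ph (qval c (ex ((x + k) / c.prod))) ^ κ

/-- The constants of the twisted sums. -/
noncomputable def Kc (κ : ℕ) : List ℕ → ℂ
  | [] => 1
  | a :: c => (-Complex.I) ^ κ * conj (Kc κ c) * ∑ d ∈ range a, hx (κ * hwt (a :: c)) ^ d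

theorem prod_pos' {c : List ℕ} (h : ∀ a ∈ c, 2 ≤ a) : 0 < c.prod :=
  List.prod_pos fun a ha => lt_of_lt_of_le (by norm_num) (h a ha)

/-- one step of the recursion of the phases -/
theorem ph_step (a : ℕ) (c : List ℕ) (h : ∀ a ∈ c, 2 ≤ a) {y : ℝ} (h0 : 0 < y) (h1 : y < 1)
    (k : ℕ) :
    ph (qval (a :: c) (ex ((y + k) / c.prod))) =
      -Complex.I * hx y * conj (ph (qval c (ex ((y + k) / c.prod)))) := by
  have hb : (c.prod : ℝ) ≠ 0 := by exact_mod_cast (prod_pos' h).ne'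
  have hz : ex ((y + k) / c.prod) ^ c.prod = ex y := by
    rw [ex_pow, mul_div_cancel₀ _ hb, ex_add, ex_nat, mul_one]
  have hm := qval_mul a c (ex ((y + k) / c.prod))
  rw [hz] at hm
  have hne : qval c (ex ((y + k) / c.prod)) ≠ 0 := by
    intro h
    rw [h, mul_zero] at hm
    exact one_sub_ex_ne h0 h1 hm.symm
  have hp := congrArg ph hm
  rw [ph_mul, ph_one_sub_ex h0 h1] at hp
  rw [← hp, mul_assoc, ph_mul_conj hne, mul_one]

/-- the index identity of the recursion -/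
theorem arg_step (a : ℕ) (ha : 2 ≤ a) (c : List ℕ) (x : ℝ) (d k : ℕ) :
    (x + ((d + a * k : ℕ) : ℝ)) / ((a :: c).prod : ℕ) = ((x + d) / a + k) / c.prod := by
  have ha' : (a : ℝ) ≠ 0 := by positivity
  rw [List.prod_cons]
  push_cast
  rw [← div_div]
  congr 1
  field_simp
  ring

theorem step_sum (κ : ℕ) (a : ℕ) (ha : 2 ≤ a) (c : List ℕ) (h : ∀ a ∈ c, 2 ≤ a)
    (x : ℝ) (d : ℕ) (h0 : 0 < (x + d) / a) (h1 : (x + d) / a < 1) :
    ∑ k ∈ range c.prod,
        ph (qval (a :: c) (ex ((x + ((d + a * k : ℕ) : ℝ)) / ((a :: c).prod : ℕ)))) ^ κ =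
      (-Complex.I * hx ((x + d) / a)) ^ κ * conj (Tsum κ c ((x + d) / a)) := by
  rw [Tsum, map_sum, Finset.mul_sum]
  refine Finset.sum_congr rfl fun k _ => ?_
  rw [arg_step a ha, ph_step a c h h0 h1, mul_pow, map_pow]

theorem Tsum_eq (κ : ℕ) (c : List ℕ) (h : ∀ a ∈ c, 2 ≤ a) (x : ℝ) (h0 : 0 < x) (h1 : x < 1) :
    Tsum κ c x = Kc κ c * hx (κ * hwt c * x) := by
  induction c generalizing x with
  | nil => simp [Tsum, Kc, hwt]
  | cons a c ih =>
    have ha : 2 ≤ a := h a (by simp)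
    have hc : ∀ a ∈ c, 2 ≤ a := fun b hb => h b (by simp [hb])
    have ha0 : (0 : ℝ) < a := by positivity
    rw [Tsum, List.prod_cons, sum_range_mul' a c.prod]
    have key : ∀ d ∈ range a, ∑ k ∈ range c.prod,
        ph (qval (a :: c) (ex ((x + ((d + a * k : ℕ) : ℝ)) / ((a * c.prod : ℕ) : ℝ)))) ^ κ =
        (-Complex.I) ^ κ * conj (Kc κ c) * hx (κ * hwt (a :: c)) ^ d
          * hx (κ * hwt (a :: c) * x) := by
      intro d hd
      have hd' : (d : ℝ) + 1 ≤ a := by exact_mod_cast Finset.mem_range.mp hd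
      have e0 : 0 < (x + d) / a := by positivity
      have e1 : (x + d) / a < 1 := by rw [div_lt_one ha0]; linarith
      have := step_sum κ a ha c hc x d e0 e1
      rw [List.prod_cons] at this
      rw [this, ih hc _ e0 e1, map_mul, conj_hx, mul_pow, hx_pow, hx_pow]
      have e2 : hx (κ * ((x + d) / a)) * hx (-(κ * hwt c * ((x + d) / a))) =
          hx (d * (κ * hwt (a :: c))) * hx (κ * hwt (a :: c) * x) := by
        rw [← hx_add, ← hx_add]
        congr 1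
        rw [hwt]
        field_simp
        ring
      linear_combination ((-Complex.I) ^ κ * conj (Kc κ c)) * e2
    rw [Finset.sum_congr rfl key, ← Finset.sum_mul, ← Finset.mul_sum, Kc]

/-- the sum of the phases over all `b`-th roots of unity -/
noncomputable def Ssum (κ : ℕ) (c : List ℕ) : ℂ :=
  ∑ k ∈ range c.prod, ph (qval c (ex (k / c.prod))) ^ κ

/-- the new part -/
theorem Psum_eq (κ : ℕ) (a : ℕ) (ha : 2 ≤ a) (c : List ℕ) (h : ∀ a ∈ c, 2 ≤ a) :
    ∑ d ∈ range (a - 1), ∑ k ∈ range c.prod,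
        ph (qval (a :: c) (ex (((d + 1 + a * k : ℕ) : ℝ) / ((a :: c).prod : ℕ)))) ^ κ =
      (-Complex.I) ^ κ * conj (Kc κ c) *
        ∑ d ∈ range (a - 1), hx (κ * hwt (a :: c)) ^ (d + 1) := by
  have ha0 : (0 : ℝ) < a := by positivity
  rw [Finset.mul_sum]
  refine Finset.sum_congr rfl fun d hd => ?_
  have hd' : ((d + 1 : ℕ) : ℝ) + 1 ≤ a := by
    have := Finset.mem_range.mp hd
    exact_mod_cast (by omega : d + 1 + 1 ≤ a)
  have e0 : 0 < ((0 : ℝ) + ((d + 1 : ℕ) : ℝ)) / a := by positivity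
  have e1 : ((0 : ℝ) + ((d + 1 : ℕ) : ℝ)) / a < 1 := by rw [div_lt_one ha0]; linarith
  have := step_sum κ a ha c h 0 (d + 1) e0 e1
  simp only [zero_add] at this e0 e1
  rw [this, Tsum_eq κ c h _ e0 e1, map_mul, conj_hx, mul_pow, hx_pow, hx_pow]
  have e2 : hx (κ * (((d + 1 : ℕ) : ℝ) / a)) * hx (-(κ * hwt c * (((d + 1 : ℕ) : ℝ) / a))) =
      hx (((d + 1 : ℕ) : ℝ) * (κ * hwt (a :: c))) := by
    rw [← hx_add]
    congr 1
    rw [hwt]
    field_simp
    ring
  linear_combination ((-Complex.I) ^ κ * conj (Kc κ c)) * e2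

theorem Ssum_nil (κ : ℕ) : Ssum κ [] = 1 := by simp [Ssum]

theorem Ssum_split (κ : ℕ) (a : ℕ) (ha : 2 ≤ a) (c : List ℕ) (h : ∀ a ∈ c, 2 ≤ a) :
    Ssum κ (a :: c) = ∑ k ∈ range c.prod, ph (qval (a :: c) (ex (k / c.prod))) ^ κ +
      (-Complex.I) ^ κ * conj (Kc κ c) *
        ∑ d ∈ range (a - 1), hx (κ * hwt (a :: c)) ^ (d + 1) := by
  have ha0 : (a : ℝ) ≠ 0 := by positivity
  rw [← Psum_eq κ a ha c h, Ssum, List.prod_cons, sum_range_mul' a c.prod]
  obtain ⟨a, rfl⟩ : ∃ a', a = a' + 1 := ⟨a - 1, by omega⟩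
  rw [Finset.sum_range_succ', add_comm, Nat.add_sub_cancel]
  congr 1
  refine Finset.sum_congr rfl fun k _ => ?_
  have e : ((0 + (a + 1) * k : ℕ) : ℝ) / (((a + 1) * c.prod : ℕ) : ℝ) = k / c.prod := by
    rw [zero_add, Nat.cast_mul, Nat.cast_mul, mul_div_mul_left _ _ ha0]
  rw [e]

theorem Ssum_one (κ : ℕ) (hκ : κ ≠ 0) (a : ℕ) (ha : 2 ≤ a) :
    Ssum κ [a] = (-Complex.I) ^ κ * ∑ d ∈ range (a - 1), hx (κ * hwt [a]) ^ (d + 1) := by
  rw [Ssum_split κ a ha [] (by simp)]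
  simp [Kc, zero_pow hκ]

theorem Ssum_two (κ : ℕ) (hκ : κ ≠ 0) (a : ℕ) (ha : 2 ≤ a) (a' : ℕ) (ha' : 2 ≤ a') (c : List ℕ)
    (h : ∀ a ∈ c, 2 ≤ a) :
    Ssum κ (a :: a' :: c) = Ssum κ c + (-Complex.I) ^ κ * conj (Kc κ (a' :: c)) *
        ∑ d ∈ range (a - 1), hx (κ * hwt (a :: a' :: c)) ^ (d + 1) := by
  have hac : ∀ a ∈ a' :: c, 2 ≤ a := by
    intro b hb
    rcases List.mem_cons.mp hb with rfl | hb
    · exact ha'
    · exact h b hb
  rw [Ssum_split κ a ha (a' :: c) hac]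
  congr 1
  have ha0 : (0 : ℝ) < a' := by positivity
  have hb : (c.prod : ℝ) ≠ 0 := by exact_mod_cast (prod_pos' h).ne'
  rw [List.prod_cons, sum_range_mul' a' c.prod, Ssum]
  obtain ⟨m, rfl⟩ : ∃ m, a' = m + 1 := ⟨a' - 1, by omega⟩
  rw [Finset.sum_range_succ']
  have hzero : ∑ d ∈ range m, ∑ k ∈ range c.prod,
      ph (qval (a :: (m + 1) :: c)
        (ex (((d + 1 + (m + 1) * k : ℕ) : ℝ) / (((m + 1) * c.prod : ℕ) : ℝ)))) ^ κ = 0 := by
    refine Finset.sum_eq_zero fun d hd => Finset.sum_eq_zero fun k _ => ?_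
    have hz : ex (((d + 1 + (m + 1) * k : ℕ) : ℝ) / (((m + 1) * c.prod : ℕ) : ℝ)) ^ c.prod =
        ex (((d + 1 : ℕ) : ℝ) / ((m + 1 : ℕ) : ℝ)) := by
      have e : (c.prod : ℝ) * ((((d + 1 + (m + 1) * k : ℕ) : ℝ)) / (((m + 1) * c.prod : ℕ) : ℝ)) =
          ((d + 1 : ℕ) : ℝ) / ((m + 1 : ℕ) : ℝ) + k := by
        have ha1 := ha0.ne'
        rw [Nat.cast_mul, Nat.cast_add, Nat.cast_mul]
        field_simp
      rw [ex_pow, e, ex_add, ex_nat, mul_one]
    have h1 : ((d + 1 : ℕ) : ℝ) / ((m + 1 : ℕ) : ℝ) < 1 := by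
      rw [div_lt_one ha0]
      exact_mod_cast Nat.succ_lt_succ (Finset.mem_range.mp hd)
    have h0 : 0 < ((d + 1 : ℕ) : ℝ) / ((m + 1 : ℕ) : ℝ) := by positivity
    have hne := one_sub_ex_ne h0 h1
    have hg := mul_neg_geom_sum (ex (((d + 1 : ℕ) : ℝ) / ((m + 1 : ℕ) : ℝ))) (m + 1)
    rw [ex_pow, mul_div_cancel₀ _ ha0.ne', ex_nat, sub_self] at hg
    rw [qval_cons]
    simp only [pow_mul, hz]
    rw [(mul_eq_zero.mp hg).resolve_left hne, zero_mul, ph_zero, zero_pow hκ]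
  rw [hzero, zero_add]
  refine Finset.sum_congr rfl fun k _ => ?_
  have hz : ex (((0 + (m + 1) * k : ℕ) : ℝ) / (((m + 1) * c.prod : ℕ) : ℝ)) =
      ex (k / c.prod) := by
    congr 1
    rw [zero_add, Nat.cast_mul, Nat.cast_mul, mul_div_mul_left _ _ ha0.ne']
  have hz2 : ex ((k : ℝ) / c.prod) ^ c.prod = 1 := by
    rw [ex_pow, mul_div_cancel₀ _ hb, ex_nat]
  rw [hz, qval_cons]
  simp only [pow_mul, hz2, one_pow]
  rw [ph_mul]
  have : (∑ _j ∈ range (m + 1), (1 : ℂ)) = (((m + 1 : ℕ) : ℝ) : ℂ) := by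
    simp
  rw [this, ph_pos ha0, one_mul]

/-! ### weights -/

theorem mu_le_prod (c : List ℕ) (h : ∀ a ∈ c, 2 ≤ a) : mu c ≤ c.prod := by
  cases c with
  | nil => simp [mu]
  | cons a c => simp only [mu, List.prod_cons]; omega

theorem mu_cast (c : List ℕ) (h : ∀ a ∈ c, 2 ≤ a) : (mu c : ℝ) = c.prod * (1 - hwt c) := by
  induction c with
  | nil => simp [mu, hwt]
  | cons a c ih =>
    have ha : 2 ≤ a := h a (by simp)
    have hc : ∀ a ∈ c, 2 ≤ a := fun b hb => h b (by simp [hb])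
    have hle := mu_le_prod c hc
    have hle2 : mu c ≤ a * c.prod := hle.trans (Nat.le_mul_of_pos_left _ (by omega))
    have ha0 : (a : ℝ) ≠ 0 := by positivity
    rw [mu, Nat.cast_sub hle2, ih hc, List.prod_cons, hwt, Nat.cast_mul]
    field_simp

theorem hwt_cons (a : ℕ) (ha : 2 ≤ a) (c : List ℕ) (h : ∀ a ∈ c, 2 ≤ a) :
    (((mu c : ℚ) / (a * c.prod) : ℚ) : ℝ) = hwt (a :: c) := by
  have ha0 : (a : ℝ) ≠ 0 := by positivity
  have hb : (c.prod : ℝ) ≠ 0 := by exact_mod_cast (prod_pos' h).ne'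
  rw [Rat.cast_div, Rat.cast_mul, Rat.cast_natCast, Rat.cast_natCast, Rat.cast_natCast,
    mu_cast c h, hwt]
  field_simp

theorem sin_ne_of_den (κ : ℕ) (w : ℚ) (hw : ((κ : ℚ) * w).den ≠ 1) :
    Real.sin (Real.pi * (κ * (w : ℝ)) / 2) ≠ 0 := by
  intro hs
  obtain ⟨n, hn⟩ := Real.sin_eq_zero_iff.mp hs
  apply hw
  have hpi := Real.pi_ne_zero
  have h1 : (κ : ℝ) * (w : ℝ) = 2 * n := by
    have : Real.pi * ((κ : ℝ) * w) = Real.pi * (2 * n) := by linarith
    exact mul_left_cancel₀ hpi this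
  have h2 : (κ : ℚ) * w = ((2 * n : ℤ) : ℚ) := by
    have h3 : (((κ : ℚ) * w : ℚ) : ℝ) = (((2 * n : ℤ) : ℚ) : ℝ) := by
      push_cast
      exact h1
    exact Rat.cast_injective h3
  rw [h2]
  exact Rat.den_intCast _

/-- the product of the cotangents -/
noncomputable def Rc (κ : ℕ) (c : List ℕ) : ℝ :=
  ((weights c).map fun w : ℚ => Real.cot (Real.pi * κ * (w : ℝ) / 2)).prod

theorem Rc_cons (κ : ℕ) (a : ℕ) (ha : 2 ≤ a) (c : List ℕ) (h : ∀ a ∈ c, 2 ≤ a) :
    Rc κ (a :: c) = Real.cot (Real.pi * (κ * hwt (a :: c)) / 2) * Rc κ c := by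
  rw [Rc, weights, List.map_cons, List.prod_cons, hwt_cons a ha c h, mul_assoc]
  rfl

@[simp] theorem Rc_nil (κ : ℕ) : Rc κ [] = 1 := by simp [Rc, weights]

/-- sign -/
noncomputable def eta (κ : ℕ) (m : ℕ) : ℝ := if Even m then -1 else (-1) ^ ((κ + 1) / 2)

theorem negI_pow (κ : ℕ) (hκ : Odd κ) :
    (-Complex.I) ^ κ = Complex.I * (((-1 : ℝ) ^ ((κ + 1) / 2) : ℝ) : ℂ) := by
  obtain ⟨j, rfl⟩ := hκ
  have : (2 * j + 1 + 1) / 2 = j + 1 := by omega
  rw [this, pow_succ, pow_mul, neg_sq, Complex.I_sq, pow_succ]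
  push_cast
  ring

theorem eta_sq (κ : ℕ) (m : ℕ) : eta κ m * eta κ m = 1 := by
  rw [eta]
  split_ifs
  · norm_num
  · rw [← mul_pow]; norm_num

theorem eta_succ (κ : ℕ) (m : ℕ) : eta κ (m + 1) = -((-1) ^ ((κ + 1) / 2) * eta κ m) := by
  rw [eta, eta]
  by_cases h : Even m
  · rw [if_neg (by simpa [Nat.even_add_one] using h), if_pos h]; ring
  · rw [if_pos (by simpa [Nat.even_add_one] using h), if_neg h, ← mul_pow]; norm_num

theorem hx_pow_head (κ : ℕ) (hκ : Odd κ) (a : ℕ) (ha : 2 ≤ a) (c : List ℕ) :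
    hx (κ * hwt (a :: c)) ^ a = -conj (hx (κ * hwt c)) := by
  have ha0 : (a : ℝ) ≠ 0 := by positivity
  have e : (a : ℝ) * (κ * hwt (a :: c)) = κ + -(κ * hwt c) := by
    rw [hwt]
    field_simp
    ring
  rw [hx_pow, e, hx_add, hx_nat_odd hκ, conj_hx, neg_one_mul]

/-- nonvanishing of `1 - z` -/
theorem one_sub_hx_ne (t : ℝ) (ht : Real.sin (Real.pi * t / 2) ≠ 0) : 1 - hx t ≠ 0 := by
  intro h
  have h2 : 1 - ex (t / 2) = 0 := by
    have : hx t = ex (t / 2) := by rw [hx, ex]; congr 1; push_cast; ring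
    rwa [← this]
  rw [one_sub_ex] at h2
  have h3 : hx (t / 2) ≠ 0 := Complex.exp_ne_zero _
  rw [mul_eq_zero] at h2
  rcases h2 with h2 | h2
  · have : 2 * Real.sin (Real.pi * (t / 2)) = 0 := by exact_mod_cast h2
    apply ht
    rw [mul_div_assoc]
    linarith
  · simp [h3] at h2

theorem Kc_eq (κ : ℕ) (hκ : Odd κ) (a : ℕ) (c : List ℕ) (h2 : ∀ b ∈ a :: c, 2 ≤ b)
    (hw : ∀ w ∈ weights (a :: c), ((κ : ℚ) * w).den ≠ 1) :
    Kc κ (a :: c) * (1 - hx (κ * hwt (a :: c))) =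
      2 * Complex.I * (eta κ (a :: c).length : ℂ) * (Rc κ c : ℂ) := by
  induction c generalizing a with
  | nil =>
    have ha : 2 ≤ a := h2 a (by simp)
    have hg := mul_neg_geom_sum (hx (κ * hwt [a])) a
    rw [hx_pow_head κ hκ a ha] at hg
    have h1 : hx (κ * hwt []) = 1 := by simp [hwt]
    rw [h1, map_one] at hg
    have : eta κ [a].length = (-1) ^ ((κ + 1) / 2) := by simp [eta]
    rw [this, Rc_nil, Kc, Kc, map_one, mul_one, negI_pow κ hκ]
    push_cast at hg ⊢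
    linear_combination (Complex.I * (-1) ^ ((κ + 1) / 2)) * hg
  | cons a' c ih =>
    have ha : 2 ≤ a := h2 a (by simp)
    have ha' : 2 ≤ a' := h2 a' (by simp)
    have hc : ∀ b ∈ c, 2 ≤ b := fun b hb => h2 b (by simp [hb])
    have hac : ∀ b ∈ a' :: c, 2 ≤ b := fun b hb => h2 b (List.mem_cons_of_mem _ hb)
    have hwac : ∀ w ∈ weights (a' :: c), ((κ : ℚ) * w).den ≠ 1 := fun w hw' =>
      hw w (by rw [weights]; exact List.mem_cons_of_mem _ hw')
    have hg := mul_neg_geom_sum (hx (κ * hwt (a :: a' :: c))) a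
    rw [hx_pow_head κ hκ a ha] at hg
    have hi := ih a' hac hwac
    have hsin : Real.sin (Real.pi * (κ * hwt (a' :: c)) / 2) ≠ 0 := by
      rw [← hwt_cons a' ha' c hc]
      exact sin_ne_of_den κ _ (hwac _ (by rw [weights]; exact List.mem_cons_self))
    have h1 := one_add_hx _ hsin
    rw [Rc_cons κ a' ha' c hc, List.length_cons, eta_succ κ, Kc, negI_pow κ hκ]
    -- conjugate of `Kc (1 + z)`
    have h3 : Kc κ (a' :: c) * (1 + hx (κ * hwt (a' :: c))) =
        ((-2 * eta κ (a' :: c).length * Rc κ c *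
          Real.cot (Real.pi * (κ * hwt (a' :: c)) / 2) : ℝ) : ℂ) := by
      rw [h1]
      push_cast at hi ⊢
      linear_combination (Complex.I * Complex.cot (Real.pi * (κ * hwt (a' :: c)) / 2)) * hi +
        (2 * (eta κ (a' :: c).length : ℂ) * (Rc κ c : ℂ) *
          Complex.cot (Real.pi * (κ * hwt (a' :: c)) / 2)) * Complex.I_sq
    have h4 := congrArg conj h3
    rw [Complex.conj_ofReal, map_mul, map_add, map_one] at h4
    push_cast at h4 hg ⊢
    linear_combination (Complex.I * (-1) ^ ((κ + 1) / 2)) * h4 +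
      (Complex.I * (-1) ^ ((κ + 1) / 2) * conj (Kc κ (a' :: c))) * hg

theorem neg_one_pow_sq (κ : ℕ) : ((-1 : ℂ) ^ ((κ + 1) / 2)) * ((-1 : ℂ) ^ ((κ + 1) / 2)) = 1 := by
  rw [← mul_pow]; norm_num

/-- The phase sum of a chain. -/
theorem Ssum_eq (κ : ℕ) (hκ : Odd κ) : ∀ c : List ℕ, (∀ b ∈ c, 2 ≤ b) →
    (∀ w ∈ weights c, ((κ : ℚ) * w).den ≠ 1) →
    Ssum κ c = ((-eta κ c.length * Rc κ c : ℝ) : ℂ)
  | [], _, _ => by simp [Ssum_nil, eta]
  | [a], h2, hw => by
    have ha : 2 ≤ a := h2 a (by simp)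
    have hκ0 : κ ≠ 0 := by rintro rfl; simp at hκ
    have hsin : Real.sin (Real.pi * (κ * hwt [a]) / 2) ≠ 0 := by
      rw [← hwt_cons a ha [] (by simp)]
      exact sin_ne_of_den κ _ (hw _ (by rw [weights]; exact List.mem_cons_self))
    have hne := one_sub_hx_ne _ hsin
    have h1 := one_add_hx _ hsin
    obtain ⟨m, rfl⟩ : ∃ m, a = m + 1 := ⟨a - 1, by omega⟩
    have hg := mul_neg_geom_sum (hx (κ * hwt [m + 1])) m
    have hp := hx_pow_head κ hκ (m + 1) ha []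
    have h10 : hx (κ * hwt []) = 1 := by simp [hwt]
    rw [h10, map_one, pow_succ] at hp
    rw [Ssum_one κ hκ0 _ ha, Nat.add_sub_cancel, Rc_cons κ (m + 1) ha [] (by simp), Rc_nil,
      negI_pow κ hκ]
    have : eta κ [m + 1].length = (-1) ^ ((κ + 1) / 2) := by simp [eta]
    rw [this]
    refine mul_right_cancel₀ hne ?_
    simp only [pow_succ, ← Finset.sum_mul]
    push_cast at h1 ⊢
    linear_combination (Complex.I * (-1) ^ ((κ + 1) / 2)) * hx (κ * hwt [m + 1]) * hg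
      - (Complex.I * (-1) ^ ((κ + 1) / 2)) * hp + (Complex.I * (-1) ^ ((κ + 1) / 2)) * h1 +
      ((-1) ^ ((κ + 1) / 2) * Complex.cot (Real.pi * (κ * hwt [m + 1]) / 2) *
        (1 - hx (κ * hwt [m + 1]))) * Complex.I_sq
  | a :: a' :: c, h2, hw => by
    have ha : 2 ≤ a := h2 a (by simp)
    have ha' : 2 ≤ a' := h2 a' (by simp)
    have hκ0 : κ ≠ 0 := by rintro rfl; simp at hκ
    have hc : ∀ b ∈ c, 2 ≤ b := fun b hb => h2 b (by simp [hb])
    have hac : ∀ b ∈ a' :: c, 2 ≤ b := fun b hb => h2 b (List.mem_cons_of_mem _ hb)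
    have hwac : ∀ w ∈ weights (a' :: c), ((κ : ℚ) * w).den ≠ 1 := fun w hw' =>
      hw w (by rw [weights]; exact List.mem_cons_of_mem _ hw')
    have hwc : ∀ w ∈ weights c, ((κ : ℚ) * w).den ≠ 1 := fun w hw' =>
      hwac w (by rw [weights]; exact List.mem_cons_of_mem _ hw')
    have ih := Ssum_eq κ hκ c hc hwc
    have hK := Kc_eq κ hκ a' c hac hwac
    have hsin : Real.sin (Real.pi * (κ * hwt (a :: a' :: c)) / 2) ≠ 0 := by
      rw [← hwt_cons a ha _ hac]
      exact sin_ne_of_den κ _ (hw _ (by rw [weights]; exact List.mem_cons_self))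
    have hsin' : Real.sin (Real.pi * (κ * hwt (a' :: c)) / 2) ≠ 0 := by
      rw [← hwt_cons a' ha' _ hc]
      exact sin_ne_of_den κ _ (hwac _ (by rw [weights]; exact List.mem_cons_self))
    have hne := one_sub_hx_ne _ hsin
    have hne' := one_sub_hx_ne _ hsin'
    have hne'' : 1 - conj (hx (κ * hwt (a' :: c))) ≠ 0 := by
      rw [← map_one conj, ← map_sub]
      exact (map_ne_zero _).mpr hne'
    have h1 := one_add_hx _ hsin
    have h1' := congrArg conj (one_add_hx _ hsin')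
    have hK' := congrArg conj hK
    simp only [map_mul, map_add, map_sub, map_one, Complex.conj_I, Complex.conj_ofReal,
      map_ofNat] at h1' hK'
    obtain ⟨m, rfl⟩ : ∃ m, a = m + 1 := ⟨a - 1, by omega⟩
    have hg := mul_neg_geom_sum (hx (κ * hwt ((m + 1) :: a' :: c))) m
    have hp := hx_pow_head κ hκ (m + 1) ha (a' :: c)
    rw [pow_succ] at hp
    rw [Ssum_two κ hκ0 _ ha a' ha' c hc, ih, Nat.add_sub_cancel, Rc_cons κ (m + 1) ha _ hac,
      Rc_cons κ a' ha' c hc, negI_pow κ hκ]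
    rw [List.length_cons, List.length_cons, eta_succ, eta_succ]
    rw [List.length_cons, eta_succ] at hK'
    refine mul_right_cancel₀ hne (mul_right_cancel₀ hne'' ?_)
    simp only [pow_succ, ← Finset.sum_mul]
    have hss := neg_one_pow_sq κ
    push_cast at h1 h1' hK' hss ⊢
    generalize (-1 : ℂ) ^ ((κ + 1) / 2) = s at *
    generalize hx (κ * hwt ((m + 1) :: a' :: c)) = z at *
    generalize conj (hx (κ * hwt (a' :: c))) = y at *
    generalize ∑ i ∈ range m, z ^ i = G at *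
    generalize conj (Kc κ (a' :: c)) = K at *
    generalize Complex.cot (Real.pi * (κ * hwt ((m + 1) :: a' :: c)) / 2) = C at *
    generalize Complex.cot (Real.pi * (κ * hwt (a' :: c)) / 2) = C' at *
    generalize (eta κ c.length : ℂ) = e at *
    generalize (Rc κ c : ℂ) = R at *
    linear_combination (Complex.I * s * z * G * (1 - z)) * hK' + (-2 * s ^ 2 * e * R * z) * hg +
      (2 * s ^ 2 * e * R) * hp + (-2 * e * R * (z + y)) * hss + (-e * R * (1 + y)) * h1 +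
      (-e * R * Complex.I * C * (1 - z)) * h1' + (e * C * C' * R * (1 - z) * (1 - y)) * hss +
      (2 * s ^ 2 * e * R * z * G * (1 - z) + e * R * C * C' * (1 - z) * (1 - y)) * Complex.I_sq

/-- The killer: the sum vanishes for a single odd exponent dividing `κ`. -/
theorem Ssum_single (κ : ℕ) (hκ : Odd κ) (q : ℕ) (hq2 : 2 ≤ q) (hq : q ∣ κ) :
    Ssum κ [q] = 0 := by
  have hκ0 : κ ≠ 0 := by rintro rfl; simp at hκ
  obtain ⟨n, rfl⟩ := hq
  obtain ⟨hqo, hno⟩ := Nat.odd_mul.mp hκ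
  have hq0 : (q : ℝ) ≠ 0 := by positivity
  have hz : hx ((q * n : ℕ) * hwt [q]) = -1 := by
    rw [← hx_nat_odd hno]
    congr 1
    rw [hwt, hwt]
    push_cast
    field_simp
    ring
  rw [Ssum_one _ hκ0 q hq2, hz]
  have h1 : ∑ d ∈ range (q - 1), (-1 : ℂ) ^ (d + 1) = 0 := by
    simp only [pow_succ, ← Finset.sum_mul]
    rw [neg_one_geom_sum, if_pos]
    · simp
    · obtain ⟨j, rfl⟩ := hqo
      simp
  rw [h1, mul_zero]

theorem ex_div_eq (b : ℕ) (k : ℕ) :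
    ex ((k : ℝ) / b) = Complex.exp (2 * Real.pi * Complex.I / b) ^ k := by
  rw [ex, ← Complex.exp_nat_mul]
  congr 1
  push_cast
  ring

theorem nthRoots_eq_image (b : ℕ) (hb : 0 < b) :
    Polynomial.nthRootsFinset b (1 : ℂ) = (range b).image fun k : ℕ => ex ((k : ℝ) / b) := by
  have hp := Complex.isPrimitiveRoot_exp b hb.ne'
  symm
  apply Finset.eq_of_subset_of_card_le
  · intro z hz
    obtain ⟨k, _, rfl⟩ := Finset.mem_image.mp hz
    rw [Polynomial.mem_nthRootsFinset hb, ex_div_eq, pow_right_comm, hp.pow_eq_one, one_pow]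
  · rw [hp.card_nthRootsFinset, Finset.card_image_of_injOn, Finset.card_range]
    intro k hk l hl h
    simp only [ex_div_eq] at h
    exact hp.pow_inj (Finset.mem_range.mp hk) (Finset.mem_range.mp hl) h

theorem sum_nthRoots (b : ℕ) (hb : 0 < b) (f : ℂ → ℂ) :
    ∑ z ∈ Polynomial.nthRootsFinset b (1 : ℂ), f z = ∑ k ∈ range b, f (ex ((k : ℝ) / b)) := by
  have hp := Complex.isPrimitiveRoot_exp b hb.ne'
  rw [nthRoots_eq_image b hb, Finset.sum_image]
  intro k hk l hl h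
  simp only [ex_div_eq] at h
  exact hp.pow_inj (Finset.mem_range.mp hk) (Finset.mem_range.mp hl) h

/-- The sum over the roots of unity at which `q_c` does not vanish. -/
theorem sum_roots_eq (κ : ℕ) (hκ : κ ≠ 0) (c : List ℕ) (h2 : ∀ b ∈ c, 2 ≤ b) (Z : Finset ℂ)
    (hZ : ∀ z, z ∈ Z ↔ z ^ c.prod = 1 ∧ qval c z ≠ 0) :
    ∑ z ∈ Z, ph (qval c z) ^ κ = Ssum κ c := by
  have hb := prod_pos' h2
  rw [Ssum, ← sum_nthRoots c.prod hb fun z => ph (qval c z) ^ κ]
  refine Finset.sum_subset (fun z hz => ?_) (fun z hz hz' => ?_)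
  · rw [Polynomial.mem_nthRootsFinset hb]
    exact ((hZ z).mp hz).1
  · rw [Polynomial.mem_nthRootsFinset hb] at hz
    have : qval c z = 0 := by
      by_contra h
      exact hz' ((hZ z).mpr ⟨hz, h⟩)
    rw [this, ph_zero, zero_pow hκ]

/-- Main theorem of this file. -/
theorem sum_phase (κ : ℕ) (hκ : Odd κ) (c : List ℕ) (h2 : ∀ b ∈ c, 2 ≤ b)
    (hw : ∀ w ∈ weights c, ((κ : ℚ) * w).den ≠ 1) (Z : Finset ℂ)
    (hZ : ∀ z, z ∈ Z ↔ z ^ c.prod = 1 ∧ qval c z ≠ 0) :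
    ∑ z ∈ Z, (qval c z / (‖qval c z‖ : ℂ)) ^ κ =
      (((if Even c.length then 1 else (-1) ^ ((κ - 1) / 2)) *
        ((weights c).map fun w : ℚ => Real.cot (Real.pi * κ * (w : ℝ) / 2)).prod : ℝ) : ℂ) := by
  have hκ0 : κ ≠ 0 := by rintro rfl; simp at hκ
  have h := sum_roots_eq κ hκ0 c h2 Z hZ
  rw [Ssum_eq κ hκ c h2 hw] at h
  rw [show (∑ z ∈ Z, (qval c z / (‖qval c z‖ : ℂ)) ^ κ) = ∑ z ∈ Z, ph (qval c z) ^ κ from rfl, h]
  congr 2
  rw [eta]
  split_ifs
  · ring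
  · obtain ⟨j, rfl⟩ := hκ
    have h1 : (2 * j + 1 + 1) / 2 = j + 1 := by omega
    have h2 : (2 * j + 1 - 1) / 2 = j := by omega
    rw [h1, h2, pow_succ]
    ring

/-- Vanishing for a single exponent. -/
theorem sum_phase_single (κ : ℕ) (hκ : Odd κ) (q : ℕ) (hq2 : 2 ≤ q) (hq : q ∣ κ) (Z : Finset ℂ)
    (hZ : ∀ z, z ∈ Z ↔ z ^ [q].prod = 1 ∧ qval [q] z ≠ 0) :
    ∑ z ∈ Z, (qval [q] z / (‖qval [q] z‖ : ℂ)) ^ κ = 0 := by
  have hκ0 : κ ≠ 0 := by rintro rfl; simp at hκ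
  have h := sum_roots_eq κ hκ0 [q] (by simpa using hq2) Z hZ
  rw [Ssum_single κ hκ q hq2 hq] at h
  exact h

end Vale.Agent.P268.Z.A1
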