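import Vale.Agent.P268.Z.A0
import Vale.Agent.P268.Z.A1Sum

/-!
# P268, part A1: bridge between `qval` (values) and the polynomials of `A0`
-/

namespace Vale.Agent.P268.Z

open Polynomial

theorem qval_eq : ∀ (c : List ℕ) (z : ℂ), A1.qval c z = (-1) ^ c.length * (qC c).eval z
  | [], z => by simp [qC, pq]
  | [a], z => by simp [qC, pq]
  | a :: a' :: c, z => by
    rw [A1.qval_cons, qval_eq c z, qC_cons]
    have h1 : (pC (a' :: c)).eval z = (∑ j ∈ Finset.range a', z ^ (c.prod * j)) * (qC c).eval z := by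
      rw [pC, qC, pq, Polynomial.map_mul, eval_mul]
      congr 1
      simp only [Polynomial.map_sum, Polynomial.map_pow, Polynomial.map_X, eval_finsetSum,
        eval_pow, eval_X, pow_mul]
    rw [h1, List.length_cons, List.length_cons, pow_succ, pow_succ]
    ring

theorem mem_Zr_iff {c : List ℕ} (h : Pos c) (z : ℂ) :
    z ∈ Zr c ↔ z ^ c.prod = 1 ∧ A1.qval c z ≠ 0 := by
  rw [qval_eq]
  have hs : ((-1 : ℂ) ^ c.length) ≠ 0 := pow_ne_zero _ (by norm_num)
  constructor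
  · intro hz
    exact ⟨Zr_pow h hz, mul_ne_zero hs (qC_eval_ne h hz)⟩
  · rintro ⟨h1, h2⟩
    rw [mem_Zr h]
    rcases root_or h1 with h3 | h3
    · exact h3
    · rw [h3, mul_zero] at h2
      exact absurd rfl h2

/-- `dq c z` is a positive multiple of `qval c z`, so it has the same phase. -/
theorem dq_phase {c : List ℕ} (h : Pos c) (z : ℂ) :
    dq c z / (‖dq c z‖ : ℂ) = A1.qval c z / (‖A1.qval c z‖ : ℂ) := by
  have hb : (0 : ℝ) < ((c.prod : ℝ)⁻¹) := by
    have := h.prod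
    positivity
  have h1 : dq c z = (((c.prod : ℝ)⁻¹ : ℝ) : ℂ) * A1.qval c z := by
    rw [dq, qval_eq, div_eq_mul_inv, mul_comm, Complex.ofReal_inv, Complex.ofReal_natCast]
  change A1.ph (dq c z) = A1.ph (A1.qval c z)
  rw [h1, A1.ph_mul, A1.ph_pos hb, one_mul]

/-- the cotangent formula over the roots of `p_c` -/
theorem sum_dq_phase (κ : ℕ) (hκ : Odd κ) (c : List ℕ) (h2 : ∀ b ∈ c, 2 ≤ b)
    (hw : ∀ w ∈ weights c, ((κ : ℚ) * w).den ≠ 1) :
    ∑ z : Zr c, (dq c (z : ℂ) / (‖dq c (z : ℂ)‖ : ℂ)) ^ κ =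
      (((if Even c.length then 1 else (-1) ^ ((κ - 1) / 2)) *
        ((weights c).map fun w : ℚ => Real.cot (Real.pi * κ * (w : ℝ) / 2)).prod : ℝ) : ℂ) := by
  have hp : Pos c := fun a ha => lt_of_lt_of_le (by norm_num) (h2 a ha)
  rw [← A1.sum_phase κ hκ c h2 hw (Zr c) (mem_Zr_iff hp), ← Finset.sum_coe_sort (Zr c)]
  exact Finset.sum_congr rfl fun z _ => by rw [dq_phase hp]

/-- the killer -/
theorem sum_dq_phase_single (κ : ℕ) (hκ : Odd κ) (q : ℕ) (hq2 : 2 ≤ q) (hq : q ∣ κ) :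
    ∑ z : Zr [q], (dq [q] (z : ℂ) / (‖dq [q] (z : ℂ)‖ : ℂ)) ^ κ = 0 := by
  have hp : Pos [q] := fun a ha => by
    rw [List.mem_singleton] at ha
    omega
  rw [← A1.sum_phase_single κ hκ q hq2 hq (Zr [q]) (mem_Zr_iff hp), ← Finset.sum_coe_sort (Zr [q])]
  exact Finset.sum_congr rfl fun z _ => by rw [dq_phase hp]

end Vale.Agent.P268.Z
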