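import Vale.Agent.P268.Z.A0
import Vale.Agent.P268.Z.A1Abs

/-!
# P268, block A1: the spectral data of a chain, up to the evaluation of the sums
-/

namespace Vale.Agent.P268.Z

open Matrix Polynomial

theorem pos_of_ok {D : ℕ} {c : List ℕ} (h : ChainOK D c) : Pos c :=
  fun b hb => lt_of_lt_of_le two_pos (h.two b hb)

theorem Vb_mul_star_Wm {c : List ℕ} (h : Pos c) : Vb c * (Wm c).map star = 1 := by
  have h1 : Vb c = (Vm c).map star := by
    ext z i
    rw [Matrix.map_apply, Vb, Vm, star_pow, Zr_star h z.2]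
  rw [h1]
  have h2 := congrArg (fun M : Matrix (Zr c) (Zr c) ℂ => M.map (starRingEnd ℂ)) (Vm_mul_Wm h)
  have h3 := Matrix.map_mul (f := starRingEnd ℂ) (L := Vm c) (M := Wm c)
  change (Vm c).map (starRingEnd ℂ) * (Wm c).map (starRingEnd ℂ) = 1
  rw [← h3]
  refine h2.trans ?_
  ext i j
  rw [Matrix.map_apply, Matrix.one_apply]
  split_ifs <;> simp

theorem star_Wm_mul_Vb {c : List ℕ} (h : Pos c) : (Wm c).map star * Vb c = 1 := by
  rw [Matrix.mul_eq_one_comm_of_card_eq]
  · exact Vb_mul_star_Wm h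
  · rw [Fintype.card_coe, card_Zr h, Fintype.card_fin]

theorem seifert_conj {c : List ℕ} (h : Pos c) :
    (chainSeifert c).map (Int.cast : ℤ → ℂ) =
      (Vb c)ᴴ * diagonal (fun z : Zr c => dq c z) * Vb c := by
  have h1 : (Vb c)ᴴ = (Vm c)ᵀ := by
    ext i z
    rw [Matrix.conjTranspose_apply, Matrix.transpose_apply, Vb, Vm, star_pow, ← Zr_star h z.2,
      star_star]
  rw [h1, Matrix.mul_assoc]
  exact LC_eq h

theorem dq_star {c : List ℕ} (h : Pos c) {z : ℂ} (hz : z ∈ Zr c) :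
    dq c z⁻¹ = star (dq c z) := by
  have h1 : (qC c).eval (star z) = star ((qC c).eval z) := by
    rw [qC, eval_map, eval_map, ← starRingEnd_apply, ← starRingEnd_apply, Polynomial.hom_eval₂]
    congr 1
    ext n
    simp
  rw [dq, dq, ← Zr_star h hz, h1, star_div₀, star_mul', star_pow]
  congr 1
  · simp
  · rw [Complex.star_def, Complex.conj_natCast]

/-- the spectral data of a chain -/
noncomputable def chainSpec (D : ℕ) [NeZero D] (hD : Odd D) (c : List ℕ) (h : ChainOK D c) :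
    SpecData (chainForm D hD c h).g ((chainForm D hD c h).ρ (Cyc.gen D)) (Zr c) :=
  specOf (D := D) (e := sgn c) (w := fun z : Zr c => dq c z)
    (fun z => dq_ne (pos_of_ok h) z.2) (Vb_mul_star_Wm (pos_of_ok h))
    (star_Wm_mul_Vb (pos_of_ok h)) h.det (seifert_conj (pos_of_ok h))
    (fun z => zinv (pos_of_ok h) z) (fun z => (zinv (pos_of_ok h)).left_inv z)
    (fun z i => by
      change ((z : ℂ)⁻¹)⁻¹ ^ (i : ℕ) = star ((z : ℂ)⁻¹ ^ (i : ℕ))
      rw [star_pow, ← Zr_star (pos_of_ok h) z.2, star_star, Zr_star (pos_of_ok h) z.2, inv_inv])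
    (fun z => dq_star (pos_of_ok h) z.2) hD h.ord

theorem chainSpec_u (D : ℕ) [NeZero D] (hD : Odd D) (c : List ℕ) (h : ChainOK D c) (z : Zr c) :
    (chainSpec D hD c h).u z = phs (fun z : Zr c => dq c z) z *
      eig (sgn c) (fun z : Zr c => dq c z) z ^ ((D + 1) / 2) := rfl

theorem chainSpec_lam (D : ℕ) [NeZero D] (hD : Odd D) (c : List ℕ) (h : ChainOK D c) (z : Zr c) :
    (chainSpec D hD c h).lam z = eig (sgn c) (fun z : Zr c => dq c z) z := rfl

theorem chainSpec_u4 (D : ℕ) [NeZero D] (hD : Odd D) (c : List ℕ) (h : ChainOK D c) (z : Zr c) :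
    (chainSpec D hD c h).u z ^ 4 = 1 := by
  rw [chainSpec_u]
  refine u_pow_four hD (dq_ne (pos_of_ok h) z.2) ?_
  exact eig_pow (fun z => dq_ne (pos_of_ok h) z.2) (Vb_mul_star_Wm (pos_of_ok h)) h.det
    (seifert_conj (pos_of_ok h)) h.ord z

/-- the signature sum in terms of the phases -/
theorem chainSpec_sum (D : ℕ) [NeZero D] (hD : Odd D) (c : List ℕ) (h : ChainOK D c) (k : ℕ) :
    ∑ z, (chainSpec D hD c h).u z * (chainSpec D hD c h).lam z ^ k =
      (((sgn c : ℤˣ) : ℤ) : ℂ) ^ ((2 * k + D + 1) / 2) *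
        star (∑ z : Zr c, phs (fun z : Zr c => dq c z) z ^ (2 * k + D)) := by
  have h0 : 2 * ((2 * k + D + 1) / 2) = (2 * k + D) + 1 := by
    obtain ⟨d, rfl⟩ := hD
    omega
  rw [← sum_phs_eig h0 fun z => dq_ne (pos_of_ok h) z.2]
  refine Finset.sum_congr rfl fun z _ => ?_
  rw [chainSpec_u, chainSpec_lam, mul_assoc, ← pow_add]
  congr 2
  obtain ⟨d, rfl⟩ := hD
  omega

/-- the phase of `dq` is the phase of the polynomial -/
theorem phs_dq {c : List ℕ} (h : Pos c) (z : Zr c) :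
    phs (fun z : Zr c => dq c z) z =
      ((-1) ^ c.length * (qC c).eval (z : ℂ)) / (‖(-1) ^ c.length * (qC c).eval (z : ℂ)‖ : ℂ) := by
  have hb : (0 : ℝ) < c.prod := by exact_mod_cast h.prod
  have h1 : ‖dq c z‖ = ‖(-1) ^ c.length * (qC c).eval (z : ℂ)‖ / c.prod := by
    rw [dq, norm_div, Complex.norm_natCast]
  rw [phs, h1, dq, Complex.ofReal_div, Complex.ofReal_natCast, div_div_div_cancel_right₀]
  exact_mod_cast hb.ne'

end Vale.Agent.P268.Z
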