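import Vale.Agent.P268.Z.A1Chain
import Vale.Agent.P268.Z.A1Br

/-!
# P268, block A1: spectral data of a chain and the cotangent formula
-/

namespace Vale.Agent.P268.Z

open Matrix

theorem weights_length (c : List ℕ) : (weights c).length = c.length := by
  induction c with
  | nil => rfl
  | cons a c ih => simp [weights, ih]

theorem prod_neg_map {α : Type} (l : List α) (f : α → ℂ) :
    (l.map fun a => -f a).prod = (-1) ^ l.length * (l.map f).prod := by
  induction l with
  | nil => simp
  | cons a l ih =>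
    rw [List.map_cons, List.prod_cons, ih, List.length_cons, List.map_cons, List.prod_cons,
      pow_succ]
    ring

theorem prod_ofReal_map {α : Type} (l : List α) (f : α → ℝ) :
    (((l.map f).prod : ℝ) : ℂ) = (l.map fun a => ((f a : ℝ) : ℂ)).prod := by
  induction l with
  | nil => simp
  | cons a l ih =>
    rw [List.map_cons, List.prod_cons, Complex.ofReal_mul, ih, List.map_cons, List.prod_cons]

theorem chain_spec (D : ℕ) [NeZero D] (hD : Odd D) (c : List ℕ) (h : ChainOK D c)
    (_hw : ∀ w ∈ weights c, ∃ z : ℤ, (D : ℚ) * w = z) :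
    ∃ (X : Type) (_ : Fintype X) (_ : DecidableEq X)
      (S : SpecData (chainForm D hD c h).g ((chainForm D hD c h).ρ (Cyc.gen D)) X),
      (∀ x, S.u x ^ 4 = 1) ∧
      (∀ k : ℕ, (∀ w ∈ weights c, ((((2 * k + D : ℕ) : ℚ)) * w).den ≠ 1) →
        ∑ x, S.u x * S.lam x ^ k =
          ((weights c).map fun w : ℚ =>
            (-(Real.cot (Real.pi * (2 * k + D : ℕ) * (w : ℝ) / 2) : ℂ))).prod) ∧
      (∀ q k : ℕ, c = [q] → q ∣ 2 * k + D → ∑ x, S.u x * S.lam x ^ k = 0) := by
  refine ⟨Zr c, inferInstance, inferInstance, chainSpec D hD c h, chainSpec_u4 D hD c h, ?_, ?_⟩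
  · intro k hk
    have hodd : Odd (2 * k + D) := by
      obtain ⟨d, rfl⟩ := hD
      exact ⟨k + d, by ring⟩
    have h1 := sum_dq_phase (2 * k + D) hodd c h.two hk
    have h2 : ∑ z : Zr c, phs (fun z : Zr c => dq c z) z ^ (2 * k + D) =
        ∑ z : Zr c, (dq c (z : ℂ) / (‖dq c (z : ℂ)‖ : ℂ)) ^ (2 * k + D) := rfl
    rw [chainSpec_sum, h2, h1, Complex.star_def, Complex.conj_ofReal, Complex.ofReal_mul,
      prod_neg_map, weights_length, ← prod_ofReal_map, ← mul_assoc]
    congr 1
    have h3 : (((sgn c : ℤˣ) : ℤ) : ℂ) = (-1) ^ c.length := by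
      rw [sgn]; push_cast; simp
    rw [h3]
    rcases Nat.even_or_odd c.length with he | ho
    · rw [if_pos he, he.neg_one_pow]
      simp
    · rw [if_neg (Nat.not_even_iff_odd.mpr ho), ho.neg_one_pow]
      push_cast
      rw [← pow_add]
      have h4 : Odd ((2 * k + D + 1) / 2 + (2 * k + D - 1) / 2) := by
        obtain ⟨m, hm⟩ := hodd
        rw [hm]
        exact ⟨m, by omega⟩
      exact h4.neg_one_pow
  · rintro q k rfl hq
    have hodd : Odd (2 * k + D) := by
      obtain ⟨d, rfl⟩ := hD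
      exact ⟨k + d, by ring⟩
    have h1 := sum_dq_phase_single (2 * k + D) hodd q (h.two q (by simp)) hq
    have h2 : ∑ z : Zr [q], phs (fun z : Zr [q] => dq [q] z) z ^ (2 * k + D) =
        ∑ z : Zr [q], (dq [q] (z : ℂ) / (‖dq [q] (z : ℂ)‖ : ℂ)) ^ (2 * k + D) := rfl
    rw [chainSpec_sum, h2, h1, star_zero, mul_zero]

end Vale.Agent.P268.Z
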