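import Vale.Agent.P268.Z.ADefs

/-!
# P268, block A2: the real isometry class is determined by the spectral data

A form with `e = 1` and an action of a cyclic group over `ℤ`, given with a complex basis of
orthogonal eigenvectors stable under complex conjugation (`SpecData`), is determined over `ℝ` by
the sums `∑ lam ^ k` and `∑ u * lam ^ k`.
-/

namespace Vale.Agent.P268.Z

open Matrix

section Aux

variable {a b c : Type} [Fintype b]

/-- `Re A + Im A` -/
def mrp (A : Matrix a b ℂ) : Matrix a b ℝ := of fun i j => (A i j).re + (A i j).im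

/-- `Re A - Im A` -/
def mrm (A : Matrix a b ℂ) : Matrix a b ℝ := of fun i j => (A i j).re - (A i j).im

/-- the complex conjugate matrix -/
def mcj (A : Matrix a b ℂ) : Matrix a b ℂ := of fun i j => star (A i j)

omit [Fintype b] in
theorem mrp_conjTranspose (A : Matrix a b ℂ) : mrp Aᴴ = (mrm A)ᵀ := by
  ext i j
  simp [mrp, mrm, conjTranspose_apply, sub_eq_add_neg]

theorem mrp_mul_mrm (A : Matrix a b ℂ) (B : Matrix b c ℂ) :
    mrp A * mrm B = (A * B).map Complex.re + (A * mcj B).map Complex.im := by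
  ext i j
  simp only [mrp, mrm, mcj, Matrix.mul_apply, of_apply, Matrix.add_apply, Matrix.map_apply,
    Complex.re_sum, Complex.im_sum, ← Finset.sum_add_distrib]
  refine Finset.sum_congr rfl fun k _ => ?_
  simp only [Complex.mul_re, Complex.mul_im, Complex.star_def, Complex.conj_re, Complex.conj_im]
  ring

theorem mrm_intCast_mul (t : Matrix a b ℤ) (A : Matrix b c ℂ) :
    mrm (t.map (Int.cast : ℤ → ℂ) * A) = t.map (Int.cast : ℤ → ℝ) * mrm A := by
  ext i j
  simp only [mrm, Matrix.mul_apply, of_apply, Matrix.map_apply, Complex.re_sum, Complex.im_sum,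
    ← Finset.sum_sub_distrib]
  refine Finset.sum_congr rfl fun k _ => ?_
  have h1 : ((t i k : ℂ) * A k j).re = (t i k : ℝ) * (A k j).re := by
    simp [Complex.mul_re]
  have h2 : ((t i k : ℂ) * A k j).im = (t i k : ℝ) * (A k j).im := by
    simp [Complex.mul_im]
  rw [h1, h2]
  ring

theorem mcj_intCast_mul (t : Matrix a b ℤ) (A : Matrix b c ℂ) :
    mcj (t.map (Int.cast : ℤ → ℂ) * A) = t.map (Int.cast : ℤ → ℂ) * mcj A := by
  ext i j
  simp [mcj, Matrix.mul_apply]

end Aux

namespace SpecData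

variable {ι : Type} [Fintype ι] [DecidableEq ι] {g t : Matrix ι ι ℤ} {X : Type} [Fintype X]
  [DecidableEq X] (S : SpecData g t X)

/-- the conjugation as a permutation -/
def barEquiv : X ≃ X where
  toFun := S.bar
  invFun := S.bar
  left_inv := S.hbar
  right_inv := S.hbar

theorem mcj_P : mcj S.P = S.P.submatrix id S.bar := by
  ext i x
  simp [mcj, S.hP]

theorem mul_mcj_P {c : Type} (A : Matrix c ι ℂ) : A * mcj S.P = (A * S.P).submatrix id S.bar := by
  rw [mcj_P]
  ext i x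
  simp [Matrix.mul_apply]

theorem Q_bar (x : X) (i : ι) : S.Q (S.bar x) i = star (S.Q x i) := by
  set Q' : Matrix X ι ℂ := of fun x i => star (S.Q (S.bar x) i) with hQ'
  have h1 : Q' * S.P = 1 := by
    ext x y
    have h2 : (S.Q * S.P) (S.bar x) (S.bar y) = (1 : Matrix X X ℂ) (S.bar x) (S.bar y) := by
      rw [S.hQP]
    rw [Matrix.mul_apply] at h2 ⊢
    have h3 : star (∑ j, S.Q (S.bar x) j * S.P j (S.bar y)) = ∑ j, Q' x j * S.P j y := by
      rw [star_sum]
      refine Finset.sum_congr rfl fun j _ => ?_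
      rw [star_mul', S.hP, star_star, hQ', of_apply]
    rw [← h3, h2, Matrix.one_apply, Matrix.one_apply]
    have h4 : (S.bar x = S.bar y) ↔ x = y := S.barEquiv.injective.eq_iff
    by_cases h : x = y
    · rw [if_pos h, if_pos (h4.mpr h), star_one]
    · rw [if_neg h, if_neg (fun hh => h (h4.mp hh)), star_zero]
  have h5 : Q' = S.Q := by
    calc Q' = Q' * (S.P * S.Q) := by rw [S.hPQ, Matrix.mul_one]
      _ = S.Q := by rw [← Matrix.mul_assoc, h1, Matrix.one_mul]
  have h6 : Q' x i = S.Q x i := by rw [h5]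
  rw [← h6, hQ', of_apply, star_star]

theorem QtP : S.Q * t.map (Int.cast : ℤ → ℂ) * S.P = diagonal S.lam := by
  rw [Matrix.mul_assoc, S.ht, ← Matrix.mul_assoc, S.hQP, Matrix.one_mul]

theorem lam_bar (x : X) : S.lam (S.bar x) = star (S.lam x) := by
  have h1 : (S.Q * t.map (Int.cast : ℤ → ℂ) * S.P) (S.bar x) (S.bar x) = S.lam (S.bar x) := by
    rw [S.QtP, diagonal_apply_eq]
  have h2 : (S.Q * t.map (Int.cast : ℤ → ℂ) * S.P) x x = S.lam x := by
    rw [S.QtP, diagonal_apply_eq]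
  rw [← h1, ← h2]
  simp only [Matrix.mul_apply, star_sum, star_mul', S.hP, S.Q_bar, Matrix.map_apply]
  simp

include S in
theorem card_eq : Fintype.card ι = Fintype.card X := by
  have h : (S.P * S.Q).trace = (S.Q * S.P).trace := trace_mul_comm _ _
  rw [S.hPQ, S.hQP, trace_one, trace_one] at h
  exact_mod_cast h

theorem u_star (hg : gᵀ = g) (x : X) : star (S.u x) = S.u x := by
  have h1 : (S.Pᴴ * g.map (Int.cast : ℤ → ℂ) * S.P)ᴴ = S.Pᴴ * g.map (Int.cast : ℤ → ℂ) * S.P := by
    have h2 : (g.map (Int.cast : ℤ → ℂ))ᴴ = g.map (Int.cast : ℤ → ℂ) := by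
      ext i j
      have := congrFun (congrFun hg i) j
      rw [transpose_apply] at this
      simp [conjTranspose_apply, this]
    rw [conjTranspose_mul, conjTranspose_mul, conjTranspose_conjTranspose, h2, Matrix.mul_assoc]
  rw [S.hg] at h1
  have h3 := congrFun (congrFun h1 x) x
  simpa [conjTranspose_apply] using h3

theorem u_im (hg : gᵀ = g) (x : X) : (S.u x).im = 0 := by
  have h := S.u_star hg x
  rwa [Complex.star_def, Complex.conj_eq_iff_im] at h

theorem u_bar (hg : gᵀ = g) (x : X) : S.u (S.bar x) = S.u x := by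
  have h1 : (S.Pᴴ * g.map (Int.cast : ℤ → ℂ) * S.P) (S.bar x) (S.bar x) = S.u (S.bar x) := by
    rw [S.hg, diagonal_apply_eq]
  have h2 : (S.Pᴴ * g.map (Int.cast : ℤ → ℂ) * S.P) x x = S.u x := by
    rw [S.hg, diagonal_apply_eq]
  rw [← S.u_star hg x, ← h1, ← h2]
  simp only [Matrix.mul_apply, star_sum, star_mul', S.hP, Matrix.map_apply, conjTranspose_apply,
    star_star]
  simp

/-- the real basis -/
def P1 : Matrix ι X ℝ := mrm S.P

/-- the inverse of the real basis -/
def Q1 : Matrix X ι ℝ := mrp S.Q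

theorem Q1_mul_P1 : S.Q1 * S.P1 = 1 := by
  rw [Q1, P1, mrp_mul_mrm, mul_mcj_P, S.hQP]
  ext x y
  simp only [Matrix.add_apply, Matrix.map_apply, submatrix_apply, id, Matrix.one_apply]
  split_ifs <;> simp

theorem P1_mul_Q1 : S.P1 * S.Q1 = 1 :=
  (mul_eq_one_comm_of_card_eq _ _ _ S.card_eq).mpr S.Q1_mul_P1

theorem P1_gram (hg : gᵀ = g) :
    S.P1ᵀ * g.map (Int.cast : ℤ → ℝ) * S.P1 = diagonal fun x => (S.u x).re := by
  rw [Matrix.mul_assoc, P1, ← mrp_conjTranspose, ← mrm_intCast_mul, mrp_mul_mrm, mcj_intCast_mul,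
    ← Matrix.mul_assoc, ← Matrix.mul_assoc, mul_mcj_P, S.hg]
  ext x y
  simp only [Matrix.add_apply, Matrix.map_apply, submatrix_apply, id, diagonal_apply]
  split_ifs <;> simp [S.u_im hg]

theorem Q1_t_P1 : S.Q1 * t.map (Int.cast : ℤ → ℝ) * S.P1 =
    of fun x y => (if x = y then (S.lam x).re else 0) +
      (if x = S.bar y then (S.lam x).im else 0) := by
  rw [Matrix.mul_assoc, Q1, P1, ← mrm_intCast_mul, mrp_mul_mrm, mcj_intCast_mul,
    ← Matrix.mul_assoc, ← Matrix.mul_assoc, mul_mcj_P, S.QtP]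
  ext x y
  simp only [Matrix.add_apply, Matrix.map_apply, submatrix_apply, id, diagonal_apply, of_apply]
  split_ifs <;> simp

end SpecData

/-! ### Counting by power sums -/

/-- If `∑ w x * lam x ^ k` over `X` and `Y` agree for all `k`, and the values `lam` are `D`-th
roots of unity, the weights of every fibre agree. -/
theorem fibre_sum_eq {X Y : Type} [Fintype X] [Fintype Y] (D : ℕ) [NeZero D]
    (w lam : X → ℂ) (w' lam' : Y → ℂ) (h1 : ∀ x, lam x ^ D = 1) (h2 : ∀ y, lam' y ^ D = 1)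
    (h : ∀ k : ℕ, ∑ x, w x * lam x ^ k = ∑ y, w' y * lam' y ^ k) (z : ℂ) (hz : z ^ D = 1) :
    ∑ x, (if lam x = z then w x else 0) = ∑ y, (if lam' y = z then w' y else 0) := by
  have hD : (D : ℂ) ≠ 0 := Nat.cast_ne_zero.mpr (NeZero.ne D)
  have hz0 : z ≠ 0 := by
    rintro rfl
    rw [zero_pow (NeZero.ne D)] at hz
    exact zero_ne_one hz
  have key : ∀ v : ℂ, v ^ D = 1 → ∑ k ∈ Finset.range D, (v * z⁻¹) ^ k = if v = z then (D : ℂ) else 0 := by
    intro v hv
    split_ifs with hvz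
    · subst hvz
      rw [mul_inv_cancel₀ hz0]
      simp
    · have hne : v * z⁻¹ - 1 ≠ 0 := by
        intro h0
        apply hvz
        have : v * z⁻¹ = 1 := by linear_combination h0
        field_simp at this
        exact this
      have h3 := geom_sum_mul (v * z⁻¹) D
      rw [mul_pow, hv, inv_pow, hz, inv_one, mul_one, sub_self] at h3
      exact (mul_eq_zero.mp h3).resolve_right hne
  have e1 : ∀ x, (if lam x = z then w x else 0) =
      (D : ℂ)⁻¹ * ∑ k ∈ Finset.range D, z⁻¹ ^ k * (w x * lam x ^ k) := by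
    intro x
    have h4 : ∑ k ∈ Finset.range D, z⁻¹ ^ k * (w x * lam x ^ k) =
        w x * ∑ k ∈ Finset.range D, (lam x * z⁻¹) ^ k := by
      rw [Finset.mul_sum]
      refine Finset.sum_congr rfl fun k _ => ?_
      rw [mul_pow]; ring
    rw [h4, key _ (h1 x)]
    split_ifs
    · field_simp
    · simp
  have e2 : ∀ y, (if lam' y = z then w' y else 0) =
      (D : ℂ)⁻¹ * ∑ k ∈ Finset.range D, z⁻¹ ^ k * (w' y * lam' y ^ k) := by
    intro y
    have h4 : ∑ k ∈ Finset.range D, z⁻¹ ^ k * (w' y * lam' y ^ k) =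
        w' y * ∑ k ∈ Finset.range D, (lam' y * z⁻¹) ^ k := by
      rw [Finset.mul_sum]
      refine Finset.sum_congr rfl fun k _ => ?_
      rw [mul_pow]; ring
    rw [h4, key _ (h2 y)]
    split_ifs
    · field_simp
    · simp
  have f1 : ∑ x, (if lam x = z then w x else 0) =
      (D : ℂ)⁻¹ * ∑ k ∈ Finset.range D, z⁻¹ ^ k * ∑ x, w x * lam x ^ k := by
    rw [Finset.sum_congr rfl fun x _ => e1 x, ← Finset.mul_sum, Finset.sum_comm]
    simp only [Finset.mul_sum]
  have f2 : ∑ y, (if lam' y = z then w' y else 0) =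
      (D : ℂ)⁻¹ * ∑ k ∈ Finset.range D, z⁻¹ ^ k * ∑ y, w' y * lam' y ^ k := by
    rw [Finset.sum_congr rfl fun x _ => e2 x, ← Finset.mul_sum, Finset.sum_comm]
    simp only [Finset.mul_sum]
  rw [f1, f2]
  simp only [h]

/-- A bijection compatible with the eigenvalue and the sign. -/
theorem exists_equiv {X Y : Type} [Fintype X] [Fintype Y] (D : ℕ) [NeZero D]
    (u lam : X → ℂ) (u' lam' : Y → ℂ) (h1 : ∀ x, lam x ^ D = 1) (h2 : ∀ y, lam' y ^ D = 1)
    (hu : ∀ x, u x = 1 ∨ u x = -1) (hu' : ∀ y, u' y = 1 ∨ u' y = -1)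
    (htr : ∀ k : ℕ, ∑ x, lam x ^ k = ∑ y, lam' y ^ k)
    (hsg : ∀ k : ℕ, ∑ x, u x * lam x ^ k = ∑ y, u' y * lam' y ^ k) :
    ∃ f : X ≃ Y, ∀ x, lam' (f x) = lam x ∧ u' (f x) = u x := by
  classical
  -- number of indices with given eigenvalue and sign
  have cnt : ∀ c : ℂ × ℂ, Fintype.card {x // (lam x, u x) = c} =
      Fintype.card {y // (lam' y, u' y) = c} := by
    rintro ⟨z, s⟩
    by_cases hs : s = 1 ∨ s = -1
    swap
    · have i1 : IsEmpty {x // (lam x, u x) = (z, s)} := by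
        refine ⟨fun x => hs ?_⟩
        have := x.2
        rw [Prod.mk.injEq] at this
        rw [← this.2]; exact hu x.1
      have i2 : IsEmpty {y // (lam' y, u' y) = (z, s)} := by
        refine ⟨fun x => hs ?_⟩
        have := x.2
        rw [Prod.mk.injEq] at this
        rw [← this.2]; exact hu' x.1
      rw [Fintype.card_eq_zero, Fintype.card_eq_zero]
    by_cases hz : z ^ D = 1
    swap
    · have i1 : IsEmpty {x // (lam x, u x) = (z, s)} := by
        refine ⟨fun x => hz ?_⟩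
        have := x.2
        rw [Prod.mk.injEq] at this
        rw [← this.1]; exact h1 x.1
      have i2 : IsEmpty {y // (lam' y, u' y) = (z, s)} := by
        refine ⟨fun x => hz ?_⟩
        have := x.2
        rw [Prod.mk.injEq] at this
        rw [← this.1]; exact h2 x.1
      rw [Fintype.card_eq_zero, Fintype.card_eq_zero]
    have a1 := fibre_sum_eq D (fun _ => 1) lam (fun _ => 1) lam' h1 h2
      (by simpa using htr) z hz
    have a2 := fibre_sum_eq D u lam u' lam' h1 h2 hsg z hz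
    have b1 : ∀ x, (if (lam x, u x) = (z, s) then (1 : ℂ) else 0) =
        ((if lam x = z then (1 : ℂ) else 0) + s * (if lam x = z then u x else 0)) / 2 := by
      intro x
      by_cases hl : lam x = z
      · rcases hs with rfl | rfl <;> rcases hu x with h | h <;>
          simp [hl, h] <;> norm_num
      · simp [hl]
    have b2 : ∀ y, (if (lam' y, u' y) = (z, s) then (1 : ℂ) else 0) =
        ((if lam' y = z then (1 : ℂ) else 0) + s * (if lam' y = z then u' y else 0)) / 2 := by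
      intro x
      by_cases hl : lam' x = z
      · rcases hs with rfl | rfl <;> rcases hu' x with h | h <;>
          simp [hl, h] <;> norm_num
      · simp [hl]
    have c1 : ((Fintype.card {x // (lam x, u x) = (z, s)} : ℕ) : ℂ) =
        ∑ x, (if (lam x, u x) = (z, s) then (1 : ℂ) else 0) := by
      rw [Fintype.card_subtype, Finset.sum_boole]
    have c2 : ((Fintype.card {y // (lam' y, u' y) = (z, s)} : ℕ) : ℂ) =
        ∑ y, (if (lam' y, u' y) = (z, s) then (1 : ℂ) else 0) := by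
      rw [Fintype.card_subtype, Finset.sum_boole]
    have : ((Fintype.card {x // (lam x, u x) = (z, s)} : ℕ) : ℂ) =
        ((Fintype.card {y // (lam' y, u' y) = (z, s)} : ℕ) : ℂ) := by
      rw [c1, c2, Finset.sum_congr rfl fun x _ => b1 x, Finset.sum_congr rfl fun y _ => b2 y,
        ← Finset.sum_div, ← Finset.sum_div, Finset.sum_add_distrib, Finset.sum_add_distrib,
        ← Finset.mul_sum, ← Finset.mul_sum, a1, a2]
    exact_mod_cast this
  refine ⟨Equiv.ofFiberEquiv (f := fun x => (lam x, u x)) (g := fun y => (lam' y, u' y))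
    fun c => Fintype.equivOfCardEq (cnt c), fun x => ?_⟩
  have := Equiv.ofFiberEquiv_map (f := fun x => (lam x, u x)) (g := fun y => (lam' y, u' y))
    (fun c => Fintype.equivOfCardEq (cnt c)) x
  rw [Prod.mk.injEq] at this
  exact this

/-- Making the bijection compatible with complex conjugation outside of the real eigenvalues. -/
theorem exists_equiv_bar {X Y : Type} (u lam : X → ℂ) (u' lam' : Y → ℂ) (b : X → X) (b' : Y → Y)
    (hb : ∀ x, b (b x) = x) (hb' : ∀ y, b' (b' y) = y)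
    (hl : ∀ x, lam (b x) = star (lam x)) (hl' : ∀ y, lam' (b' y) = star (lam' y))
    (hu : ∀ x, u (b x) = u x) (hu' : ∀ y, u' (b' y) = u' y)
    (f : X ≃ Y) (hf : ∀ x, lam' (f x) = lam x ∧ u' (f x) = u x) :
    ∃ f : X ≃ Y, ∀ x, lam' (f x) = lam x ∧ u' (f x) = u x ∧
      ((lam x).im ≠ 0 → f (b x) = b' (f x)) := by
  classical
  have im : ∀ x, (lam (b x)).im = -(lam x).im := fun x => by rw [hl]; simp
  have im' : ∀ y, (lam' (b' y)).im = -(lam' y).im := fun y => by rw [hl']; simp
  have hfs : ∀ y, lam (f.symm y) = lam' y := fun y => by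
    have := (hf (f.symm y)).1
    rw [f.apply_symm_apply] at this
    exact this.symm
  let F : X ≃ Y :=
    { toFun := fun x => if 0 ≤ (lam x).im then f x else b' (f (b x))
      invFun := fun y => if 0 ≤ (lam' y).im then f.symm y else b (f.symm (b' y))
      left_inv := by
        intro x
        dsimp only
        by_cases h : 0 ≤ (lam x).im
        · rw [if_pos h, if_pos (by rw [(hf x).1]; exact h), f.symm_apply_apply]
        · rw [if_neg h, if_neg (by rw [im', (hf _).1, im]; simpa using h), hb',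
            f.symm_apply_apply, hb]
      right_inv := by
        intro y
        dsimp only
        by_cases h : 0 ≤ (lam' y).im
        · rw [if_pos h, if_pos (by rw [hfs]; exact h), f.apply_symm_apply]
        · rw [if_neg h, if_neg (by rw [im, hfs, im']; simpa using h), hb,
            f.apply_symm_apply, hb'] }
  have hF : ∀ x, F x = if 0 ≤ (lam x).im then f x else b' (f (b x)) := fun x => rfl
  refine ⟨F, fun x => ⟨?_, ?_, ?_⟩⟩
  · rw [hF]
    split_ifs with h
    · exact (hf x).1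
    · rw [hl', (hf _).1, hl, star_star]
  · rw [hF]
    split_ifs with h
    · exact (hf x).2
    · rw [hu', (hf _).2, hu]
  · intro hx
    rw [hF, hF]
    rcases lt_or_gt_of_ne hx with h | h
    · rw [if_pos (by rw [im]; linarith), if_neg (by linarith), hb']
    · rw [if_neg (by rw [im]; linarith), if_pos h.le, hb]

/-! ### The main statement -/

theorem SpecData.lam_pow {D : ℕ} {ι : Type} [Fintype ι] [DecidableEq ι] {g t : Matrix ι ι ℤ}
    {X : Type} [Fintype X] [DecidableEq X] (S : SpecData g t X) (h : t ^ D = 1) (x : X) :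
    S.lam x ^ D = 1 := by
  have h1 : ∀ k : ℕ, (t.map (Int.cast : ℤ → ℂ)) ^ k * S.P = S.P * diagonal S.lam ^ k := by
    intro k
    induction k with
    | zero => simp
    | succ k ih =>
      rw [pow_succ, Matrix.mul_assoc, S.ht, ← Matrix.mul_assoc, ih, Matrix.mul_assoc, ← pow_succ]
  have h2 : (t.map (Int.cast : ℤ → ℂ)) ^ D = 1 := by
    have := congrArg (Int.castRingHom ℂ).mapMatrix h
    rw [map_pow, map_one] at this
    exact this
  have h3 := h1 D
  rw [h2, Matrix.one_mul] at h3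
  have h4 : diagonal S.lam ^ D = 1 := by
    calc diagonal S.lam ^ D = S.Q * (S.P * diagonal S.lam ^ D) := by
          rw [← Matrix.mul_assoc, S.hQP, Matrix.one_mul]
      _ = 1 := by rw [← h3, S.hQP]
  rw [diagonal_pow] at h4
  have h5 := congrFun (congrFun h4 x) x
  simpa using h5

theorem Cyc.eq_pow {D : ℕ} [NeZero D] (a : Cyc D) :
    a = Cyc.gen D ^ (Multiplicative.toAdd a).val := by
  apply Multiplicative.toAdd.injective
  rw [toAdd_pow]
  simp [Cyc.gen]

theorem real_iso {D : ℕ} [NeZero D] (hD : Odd D) {ι κ : Type} [Fintype ι] [DecidableEq ι]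
    [Fintype κ] [DecidableEq κ]
    {e e' : ℤˣ} (he : e = 1) (he' : e' = 1)
    (A : GForm ℤ (Cyc D) e ι) (B : GForm ℤ (Cyc D) e' κ)
    (X Y : Type) [Fintype X] [DecidableEq X] [Fintype Y] [DecidableEq Y]
    (S : SpecData A.g (A.ρ (Cyc.gen D)) X) (T : SpecData B.g (B.ρ (Cyc.gen D)) Y)
    (htr : ∀ k : ℕ, ∑ x, S.lam x ^ k = ∑ y, T.lam y ^ k)
    (hsg : ∀ k : ℕ, ∑ x, S.u x * S.lam x ^ k = ∑ y, T.u y * T.lam y ^ k) :
    GForm.Iso (A.map (Int.castRingHom ℝ)) (B.map (Int.castRingHom ℝ)) := by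
  classical
  have _ := hD
  have hgA : A.gᵀ = A.g := by subst he; rw [A.symm]; simp
  have hgB : B.gᵀ = B.g := by subst he'; rw [B.symm]; simp
  have hgen : (Cyc.gen D) ^ D = 1 := by
    apply Multiplicative.toAdd.injective
    rw [toAdd_pow]
    simp [Cyc.gen]
  have hA : ∀ x, S.lam x ^ D = 1 :=
    S.lam_pow (by rw [← map_pow, hgen, map_one])
  have hB : ∀ y, T.lam y ^ D = 1 :=
    T.lam_pow (by rw [← map_pow, hgen, map_one])
  have pm : ∀ z : ℂ, ‖z‖ = 1 → z.im = 0 → z = 1 ∨ z = -1 := by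
    intro z h1 h2
    have h3 : z = (z.re : ℂ) := by apply Complex.ext <;> simp [h2]
    rw [h3, Complex.norm_real, Real.norm_eq_abs, abs_eq (by norm_num)] at h1
    rcases h1 with h | h
    · left; rw [h3, h]; simp
    · right; rw [h3, h]; simp
  obtain ⟨f0, hf0⟩ := exists_equiv D S.u S.lam T.u T.lam hA hB
    (fun x => pm _ (S.hu x) (S.u_im hgA x)) (fun y => pm _ (T.hu y) (T.u_im hgB y)) htr hsg
  obtain ⟨f, hf⟩ := exists_equiv_bar S.u S.lam T.u T.lam S.bar T.bar S.hbar T.hbar S.lam_bar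
    T.lam_bar (S.u_bar hgA) (T.u_bar hgB) f0 hf0
  have hflam : ∀ x, T.lam (f x) = S.lam x := fun x => (hf x).1
  have hfu : ∀ x, T.u (f x) = S.u x := fun x => (hf x).2.1
  -- the action in the real bases
  have hN : (T.Q1 * (B.ρ (Cyc.gen D)).map (Int.cast : ℤ → ℝ) * T.P1).submatrix f f =
      S.Q1 * (A.ρ (Cyc.gen D)).map (Int.cast : ℤ → ℝ) * S.P1 := by
    rw [S.Q1_t_P1, T.Q1_t_P1]
    ext x y
    simp only [submatrix_apply, of_apply, hflam, f.injective.eq_iff]
    congr 1
    by_cases h : (S.lam x).im = 0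
    · simp [h]
    · have h1 : (f x = T.bar (f y)) ↔ (x = S.bar y) := by
        constructor
        · intro h2
          have h3 : f (S.bar x) = T.bar (f x) := (hf x).2.2 h
          rw [h2, T.hbar] at h3
          rw [← f.injective h3, S.hbar]
        · intro h2
          have h3 : f (S.bar x) = T.bar (f x) := (hf x).2.2 h
          have h4 : S.bar x = y := by rw [h2, S.hbar]
          rw [← h4, h3, T.hbar]
      simp only [h1]
  have hG : (T.P1ᵀ * B.g.map (Int.cast : ℤ → ℝ) * T.P1).submatrix f f =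
      S.P1ᵀ * A.g.map (Int.cast : ℤ → ℝ) * S.P1 := by
    rw [S.P1_gram hgA, T.P1_gram hgB]
    ext x y
    simp only [submatrix_apply, diagonal_apply, hfu, f.injective.eq_iff]
  have hQP : (T.Q1 * T.P1).submatrix f f = S.Q1 * S.P1 := by
    rw [S.Q1_mul_P1, T.Q1_mul_P1, submatrix_one_equiv]
  -- the isometry
  set TP : Matrix κ X ℝ := T.P1.submatrix id f with hTP
  set TQ : Matrix X κ ℝ := T.Q1.submatrix f id with hTQ
  have k1 : TQ * TP = 1 := by
    rw [← S.Q1_mul_P1, ← hQP]
    ext x y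
    simp [hTP, hTQ, Matrix.mul_apply]
  have k2 : TP * TQ = 1 := by
    rw [← T.P1_mul_Q1]
    ext i j
    simp only [hTP, hTQ, Matrix.mul_apply, submatrix_apply, id]
    exact Equiv.sum_comp f (fun y => T.P1 i y * T.Q1 y j)
  have k3 : TPᵀ * B.g.map (Int.cast : ℤ → ℝ) * TP =
      S.P1ᵀ * A.g.map (Int.cast : ℤ → ℝ) * S.P1 := by
    rw [← hG]
    ext x y
    simp [hTP, Matrix.mul_apply]
  have k4 : TQ * (B.ρ (Cyc.gen D)).map (Int.cast : ℤ → ℝ) * TP =
      S.Q1 * (A.ρ (Cyc.gen D)).map (Int.cast : ℤ → ℝ) * S.P1 := by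
    rw [← hN]
    ext x y
    simp [hTP, hTQ, Matrix.mul_apply]
  have hgen' : TP * S.Q1 * (A.ρ (Cyc.gen D)).map (Int.cast : ℤ → ℝ) =
      (B.ρ (Cyc.gen D)).map (Int.cast : ℤ → ℝ) * (TP * S.Q1) := by
    calc TP * S.Q1 * (A.ρ (Cyc.gen D)).map (Int.cast : ℤ → ℝ)
        = TP * (S.Q1 * (A.ρ (Cyc.gen D)).map (Int.cast : ℤ → ℝ) * S.P1) * S.Q1 := by
          simp only [Matrix.mul_assoc]
          rw [S.P1_mul_Q1, Matrix.mul_one]
      _ = TP * (TQ * (B.ρ (Cyc.gen D)).map (Int.cast : ℤ → ℝ) * TP) * S.Q1 := by rw [k4]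
      _ = (TP * TQ) * (B.ρ (Cyc.gen D)).map (Int.cast : ℤ → ℝ) * (TP * S.Q1) := by
          simp only [Matrix.mul_assoc]
      _ = _ := by rw [k2, Matrix.one_mul]
  refine ⟨TP * S.Q1, S.P1 * TQ, ?_, ?_, ?_, ?_⟩
  · calc S.P1 * TQ * (TP * S.Q1) = S.P1 * (TQ * TP) * S.Q1 := by simp only [Matrix.mul_assoc]
      _ = 1 := by rw [k1, Matrix.mul_one, S.P1_mul_Q1]
  · calc TP * S.Q1 * (S.P1 * TQ) = TP * (S.Q1 * S.P1) * TQ := by simp only [Matrix.mul_assoc]
      _ = 1 := by rw [S.Q1_mul_P1, Matrix.mul_one, k2]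
  · change (TP * S.Q1)ᵀ * B.g.map (Int.cast : ℤ → ℝ) * (TP * S.Q1) = A.g.map (Int.cast : ℤ → ℝ)
    calc (TP * S.Q1)ᵀ * B.g.map (Int.cast : ℤ → ℝ) * (TP * S.Q1)
        = S.Q1ᵀ * (TPᵀ * B.g.map (Int.cast : ℤ → ℝ) * TP) * S.Q1 := by
          rw [transpose_mul]; simp only [Matrix.mul_assoc]
      _ = S.Q1ᵀ * (S.P1ᵀ * A.g.map (Int.cast : ℤ → ℝ) * S.P1) * S.Q1 := by rw [k3]
      _ = (S.P1 * S.Q1)ᵀ * A.g.map (Int.cast : ℤ → ℝ) * (S.P1 * S.Q1) := by
          rw [transpose_mul]; simp only [Matrix.mul_assoc]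
      _ = _ := by rw [S.P1_mul_Q1, transpose_one, Matrix.one_mul, Matrix.mul_one]
  · have hpow : ∀ k : ℕ, TP * S.Q1 * ((A.ρ (Cyc.gen D)).map (Int.cast : ℤ → ℝ)) ^ k =
        ((B.ρ (Cyc.gen D)).map (Int.cast : ℤ → ℝ)) ^ k * (TP * S.Q1) := by
      intro k
      induction k with
      | zero => simp
      | succ k ih =>
        rw [pow_succ, ← Matrix.mul_assoc, ih, Matrix.mul_assoc, hgen', ← Matrix.mul_assoc,
          ← pow_succ]
    intro a
    have hAa : (A.map (Int.castRingHom ℝ)).ρ a =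
        ((A.ρ (Cyc.gen D)).map (Int.cast : ℤ → ℝ)) ^ (Multiplicative.toAdd a).val := by
      conv_lhs => rw [Cyc.eq_pow a]
      rw [map_pow]
      rfl
    have hBa : (B.map (Int.castRingHom ℝ)).ρ a =
        ((B.ρ (Cyc.gen D)).map (Int.cast : ℤ → ℝ)) ^ (Multiplicative.toAdd a).val := by
      conv_lhs => rw [Cyc.eq_pow a]
      rw [map_pow]
      rfl
    rw [hAa, hBa, hpow]

end Vale.Agent.P268.Z
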