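import Mathlib

/-!
# P268, part A3: exact evaluation of products of integer powers

A list of pairs `(n, e)` stands for the product of the `φ n ^ e` in a commutative group.  Sorted
lists are merged (exponents of equal keys are added), so that the triviality of such a product can
be checked by the kernel on prime exponents.
-/

namespace Vale.Agent.P268.Z

section grp

variable {G : Type*} [CommGroup G] (φ : ℕ → G)

/-- the value of a list of pairs (key, exponent) -/
def pv (l : List (ℕ × ℤ)) : G := (l.map fun p => φ p.1 ^ p.2).prod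

/-- the value of a list of lists -/
def pvv (L : List (List (ℕ × ℤ))) : G := (L.map fun l => pv φ l).prod

@[simp] theorem pv_nil : pv φ [] = 1 := by simp [pv]

@[simp] theorem pv_cons (a : ℕ × ℤ) (l : List (ℕ × ℤ)) :
    pv φ (a :: l) = φ a.1 ^ a.2 * pv φ l := by simp [pv]

theorem pv_append (l m : List (ℕ × ℤ)) : pv φ (l ++ m) = pv φ l * pv φ m := by
  simp [pv]

@[simp] theorem pvv_nil : pvv φ [] = 1 := by simp [pvv]

@[simp] theorem pvv_cons (a : List (ℕ × ℤ)) (l : List (List (ℕ × ℤ))) :
    pvv φ (a :: l) = pv φ a * pvv φ l := by simp [pvv]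

/-- merging of two sorted lists, with fuel -/
def mg : ℕ → List (ℕ × ℤ) → List (ℕ × ℤ) → List (ℕ × ℤ)
  | 0, a, b => a ++ b
  | _ + 1, [], b => b
  | _ + 1, x :: xs, [] => x :: xs
  | n + 1, x :: xs, y :: ys =>
    if x.1 < y.1 then x :: mg n xs (y :: ys)
    else if y.1 < x.1 then y :: mg n (x :: xs) ys
    else (x.1, x.2 + y.2) :: mg n xs ys

theorem pv_mg (n : ℕ) : ∀ a b : List (ℕ × ℤ), pv φ (mg n a b) = pv φ a * pv φ b := by
  induction n with
  | zero => intro a b; simp [mg, pv_append]
  | succ n ih =>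
    intro a b
    match a, b with
    | [], b => simp [mg]
    | x :: xs, [] => simp [mg]
    | x :: xs, y :: ys =>
      rw [mg]
      split_ifs with h1 h2
      · rw [pv_cons, ih, pv_cons φ x, mul_assoc]
      · rw [pv_cons, ih, pv_cons φ x, pv_cons φ y, mul_left_comm]
      · have h : x.1 = y.1 := le_antisymm (not_lt.1 h2) (not_lt.1 h1)
        rw [pv_cons, ih, pv_cons, pv_cons, ← h]
        simp only [zpow_add]
        exact mul_mul_mul_comm _ _ _ _

/-- one pass of pairwise merging -/
def pass : List (List (ℕ × ℤ)) → List (List (ℕ × ℤ))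
  | a :: b :: l => mg (a.length + b.length) a b :: pass l
  | [a] => [a]
  | [] => []

theorem pvv_pass : ∀ L : List (List (ℕ × ℤ)), pvv φ (pass L) = pvv φ L
  | a :: b :: l => by
    rw [pass, pvv_cons, pv_mg, pvv_pass l, pvv_cons, pvv_cons, mul_assoc]
  | [a] => by rw [pass]
  | [] => by rw [pass]

/-- `n` passes -/
def passes : ℕ → List (List (ℕ × ℤ)) → List (List (ℕ × ℤ))
  | 0, L => L
  | n + 1, L => passes n (pass L)

theorem pvv_passes (n : ℕ) : ∀ L : List (List (ℕ × ℤ)), pvv φ (passes n L) = pvv φ L := by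
  induction n with
  | zero => intro L; rfl
  | succ n ih => intro L; rw [passes, ih, pvv_pass]

/-- all exponents vanish -/
def allZero (L : List (List (ℕ × ℤ))) : Bool := L.all fun l => l.all fun p => p.2 == 0

theorem pvv_allZero (L : List (List (ℕ × ℤ))) (h : allZero L = true) : pvv φ L = 1 := by
  induction L with
  | nil => simp
  | cons a L ih =>
    rw [allZero, List.all_cons, Bool.and_eq_true] at h
    rw [pvv_cons, ih h.2, mul_one]
    have h1 := h.1
    clear h ih
    induction a with
    | nil => simp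
    | cons x a ih =>
      rw [List.all_cons, Bool.and_eq_true] at h1
      rw [pv_cons, ih h1.2, mul_one]
      have : x.2 = 0 := by simpa using h1.1
      rw [this, zpow_zero]

end grp

/-- the number with a given factorisation -/
def fv (f : List (ℕ × ℕ)) : ℕ := (f.map fun p => p.1 ^ p.2).prod

/-- the list of pairs of the `e`-th power of a factorised number -/
def ex (f : List (ℕ × ℕ)) (e : ℤ) : List (ℕ × ℤ) := f.map fun p => (p.1, (p.2 : ℤ) * e)

/-- expansion of a list by a list of factorisations -/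
def expand : List (ℕ × ℤ) → List (List (ℕ × ℕ)) → List (List (ℕ × ℤ))
  | a :: l, f :: fs => ex f a.2 :: expand l fs
  | [], _ => []
  | _ :: _, [] => []

/-- check of a list of factorisations -/
def chk : List (ℕ × ℤ) → List (List (ℕ × ℕ)) → Bool
  | a :: l, f :: fs => (fv f == a.1) && ((f.all fun p => p.1 != 0) && chk l fs)
  | [], [] => true
  | [], _ :: _ => false
  | _ :: _, [] => false

/-- the unit of a natural number (`1` for `0`) -/
noncomputable def nu (n : ℕ) : ℚˣ := if h : (n : ℚ) = 0 then 1 else Units.mk0 (n : ℚ) h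

theorem nu_val {n : ℕ} (h : n ≠ 0) : (nu n : ℚ) = n := by
  have h' : (n : ℚ) ≠ 0 := by exact_mod_cast h
  simp [nu, h']

theorem nu_mul {a b : ℕ} (ha : a ≠ 0) (hb : b ≠ 0) : nu (a * b) = nu a * nu b := by
  apply Units.ext
  rw [Units.val_mul, nu_val ha, nu_val hb, nu_val (mul_ne_zero ha hb)]
  push_cast
  rfl

theorem nu_one : nu 1 = 1 := by
  apply Units.ext
  rw [nu_val one_ne_zero]
  simp

theorem nu_pow {a : ℕ} (ha : a ≠ 0) (m : ℕ) : nu (a ^ m) = nu a ^ m := by
  apply Units.ext
  rw [nu_val (pow_ne_zero m ha), Units.val_pow_eq_pow_val, nu_val ha]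
  push_cast
  rfl

theorem fv_ne_zero (f : List (ℕ × ℕ)) (h : (f.all fun p => p.1 != 0) = true) : fv f ≠ 0 := by
  rw [List.all_eq_true] at h
  rw [fv]
  intro h0
  rw [List.prod_eq_zero_iff, List.mem_map] at h0
  obtain ⟨p, hp, h0⟩ := h0
  have := h p hp
  exact pow_ne_zero p.2 (by simpa using this) h0

theorem pv_ex (f : List (ℕ × ℕ)) (h : (f.all fun p => p.1 != 0) = true) (e : ℤ) :
    pv nu (ex f e) = nu (fv f) ^ e := by
  induction f with
  | nil => simp [ex, fv, nu_one]
  | cons p f ih =>
    have h' := h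
    rw [List.all_cons, Bool.and_eq_true] at h'
    have hp : p.1 ≠ 0 := by simpa using h'.1
    have e1 : ex (p :: f) e = (p.1, (p.2 : ℤ) * e) :: ex f e := rfl
    have e2 : fv (p :: f) = p.1 ^ p.2 * fv f := by simp [fv]
    rw [e1, e2, pv_cons, ih h'.2, nu_mul (pow_ne_zero _ hp) (fv_ne_zero f h'.2), nu_pow hp,
      mul_zpow, zpow_mul, zpow_natCast]

theorem pvv_expand : ∀ (l : List (ℕ × ℤ)) (fs : List (List (ℕ × ℕ))), chk l fs = true →
    pvv nu (expand l fs) = pv nu l
  | a :: l, f :: fs, h => by
    rw [chk, Bool.and_eq_true, Bool.and_eq_true] at h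
    obtain ⟨h1, h2, h3⟩ := h
    have h1' : fv f = a.1 := by simpa using h1
    rw [expand, pvv_cons, pvv_expand l fs h3, pv_ex f h2, pv_cons, h1']
  | [], [], _ => by simp [expand]
  | [], _ :: _, h => by simp [chk] at h
  | _ :: _, [], h => by simp [chk] at h

theorem pv_eq_one (l : List (ℕ × ℤ)) (fs : List (List (ℕ × ℕ))) (n : ℕ) (h : chk l fs = true)
    (h0 : allZero (passes n (expand l fs)) = true) : pv nu l = 1 := by
  rw [← pvv_expand l fs h, ← pvv_passes nu n, pvv_allZero nu _ h0]

end Vale.Agent.P268.Z
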