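/-!
# P268, part A3: factorisation table (all weights)
-/

namespace Vale.Agent.P268.Z

/-- factorisation table, part 1 -/
def tabA1 : List (List (Nat × Nat)) := [
  [(2, 1), (11, 1), (653, 1)], [(2, 1), (5, 1), (479, 1)], [(3, 1), (31, 1), (103, 1)],
  [(61, 1), (157, 1)], [(2, 3), (5, 1), (359, 1)], [(2, 2), (11, 1), (109, 1)],
  [(3, 3), (5, 1), (71, 1)], [(17, 1), (563, 1)], [(113, 1), (127, 1)], [(5, 1), (31, 2)],
  [(2, 1), (3, 2), (13, 1), (41, 1)], [(2, 1), (7, 1), (683, 1)], [(2, 2), (17, 1), (211, 1)],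
  [(2, 3), (601, 1)], [(3, 1), (7, 1), (457, 1)], [(11, 2), (79, 1)], [(2, 1), (3, 2), (797, 1)],
  [(2, 1), (5, 1), (13, 1), (37, 1)], [(29, 1), (331, 1)], [(19, 1), (503, 1)],
  [(2, 1), (71, 1), (101, 1)], [(2, 1), (29, 1), (83, 1)], [(3, 2), (11, 1), (97, 1)],
  [(41, 1), (233, 1)], [(3, 1), (17, 1), (281, 1)], [(5, 2), (193, 1)],
  [(2, 1), (11, 1), (19, 1), (23, 1)], [(2, 1), (13, 1), (367, 1)], [(5, 1), (7, 1), (409, 1)],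
  [(47, 1), (103, 1)], [(2, 1), (3, 2), (5, 1), (107, 1)], [(2, 1), (11, 1), (433, 1)],
  [(41, 1), (349, 1)], [(37, 1), (131, 1)], [(2, 2), (3, 1), (11, 1), (73, 1)],
  [(2, 4), (5, 1), (7, 1), (17, 1)], [(2, 2), (7, 2), (73, 1)], [(2, 4), (3, 1), (101, 1)],
  [(23, 1), (419, 1)], [(3, 1), (19, 1), (167, 1)], [(2, 1), (23, 1), (311, 1)],
  [(2, 1), (5, 2), (97, 1)], [(3, 4), (7, 1), (17, 1)], [(31, 1), (307, 1)],
  [(3, 2), (5, 1), (317, 1)], [(67, 1), (73, 1)], [(2, 4), (5, 1), (11, 2)],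
  [(2, 2), (23, 1), (103, 1)], [(3, 1), (7, 2), (97, 1)], [(59, 1), (83, 1)],
  [(2, 1), (29, 1), (167, 1)], [(2, 1), (5, 1), (947, 1)], [(2, 1), (17, 1), (419, 1)],
  [(2, 1), (5, 1), (491, 1)], [(3, 1), (53, 1), (61, 1)], [(7, 2), (193, 1)],
  [(29, 1), (491, 1)], [(3, 1), (11, 1), (149, 1)], [(2, 1), (23, 1), (211, 1)],
  [(2, 1), (3, 3), (5, 2), (7, 1)], [(2, 1), (3, 1), (23, 1), (103, 1)],
  [(2, 1), (7, 1), (353, 1)], [(37, 1), (263, 1)], [(5, 2), (13, 1), (29, 1)],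
  [(2, 2), (53, 1), (67, 1)], [(2, 3), (619, 1)], [(3, 1), (17, 1), (191, 1)],
  [(5, 1), (7, 1), (269, 1)], [(2, 1), (31, 1), (229, 1)], [(2, 1), (37, 1), (67, 1)],
  [(3, 3), (19, 2)], [(97, 2)], [(2, 1), (47, 1), (151, 1)], [(2, 1), (3, 1), (827, 1)],
  [(7, 2), (199, 1)], [(3, 2), (5, 1), (11, 1), (19, 1)], [(2, 1), (5, 1), (13, 1), (109, 1)],
  [(2, 1), (3, 2), (277, 1)], [(5, 2), (17, 1), (23, 1)], [(3, 1), (53, 1), (59, 1)],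
  [(2, 1), (73, 1), (97, 1)], [(2, 1), (11, 1), (227, 1)], [(3, 2), (1087, 1)],
  [(7, 1), (13, 1), (103, 1)], [(3, 1), (53, 1), (89, 1)], [(5, 1), (7, 1), (11, 1), (13, 1)],
  [(2, 1), (59, 1), (83, 1)], [(2, 1), (31, 1), (151, 1)], [(2, 2), (3, 3), (131, 1)],
  [(2, 4), (313, 1)], [(97, 1), (101, 1)], [(7, 2), (191, 1)], [(79, 1), (179, 1)],
  [(5, 1), (17, 1), (59, 1)], [(2, 2), (3, 1), (19, 1), (43, 1)], [(2, 3), (7, 1), (167, 1)],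
  [(67, 1), (211, 1)], [(3, 1), (7, 1), (239, 1)], [(2, 4), (613, 1)],
  [(2, 2), (3, 1), (19, 1), (41, 1)], [(13, 1), (1087, 1)], [(3, 1), (5, 2), (67, 1)],
  [(2, 1), (7, 1), (701, 1)], [(2, 1), (3, 3), (173, 1)], [(71, 1), (199, 1)],
  [(11, 1), (457, 1)], [(2, 3), (3, 1), (409, 1)], [(2, 2), (5, 1), (467, 1)],
  [(2, 1), (23, 1), (307, 1)], [(2, 1), (3, 1), (839, 1)], [(11, 1), (19, 1), (47, 1)],
  [(3, 2), (17, 1), (61, 1)], [(2, 1), (3, 1), (13, 1), (181, 1)], [(2, 1), (11, 1), (229, 1)],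
  [(31, 1), (317, 1)], [(19, 1), (491, 1)], [(2, 1), (5, 1), (17, 1), (83, 1)],
  [(2, 1), (3, 1), (29, 2)], [(5, 1), (7, 1), (281, 1)], [(3, 1), (13, 1), (239, 1)],
  [(2, 1), (11, 1), (641, 1)], [(2, 1), (7, 1), (19, 2)], [(3, 1), (17, 1), (193, 1)],
  [(67, 1), (139, 1)], [(23, 1), (613, 1)], [(13, 1), (389, 1)], [(2, 1), (3, 2), (547, 1)],
  [(2, 1), (5, 1), (7, 2), (19, 1)], [(2, 1), (7, 1), (19, 1), (53, 1)],
  [(2, 1), (3, 2), (281, 1)], [(43, 1), (229, 1)], [(3, 1), (29, 1), (107, 1)],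
  [(2, 4), (881, 1)], [(2, 2), (5, 1), (11, 1), (23, 1)], [(3, 1), (7, 2), (67, 1)],
  [(41, 1), (227, 1)], [(2, 2), (13, 1), (271, 1)], [(2, 3), (3, 1), (211, 1)],
  [(59, 1), (167, 1)], [(3, 1), (7, 1), (443, 1)], [(2, 2), (7, 1), (503, 1)],
  [(2, 4), (317, 1)], [(3, 1), (19, 1), (173, 1)], [(5, 1), (11, 1), (13, 2)],
  [(2, 2), (3, 2), (17, 1), (23, 1)], [(2, 3), (5, 1), (127, 1)], [(71, 1), (139, 1)],
  [(37, 1), (251, 1)], [(2, 2), (5, 1), (19, 1), (37, 1)], [(2, 3), (7, 2), (13, 1)],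
  [(3, 1), (5, 1), (659, 1)], [(73, 1), (127, 1)], [(5, 1), (53, 2)], [(19, 1), (269, 1)],
  [(2, 2), (3, 2), (5, 2), (11, 1)], [(2, 3), (13, 1), (89, 1)], [(101, 1), (139, 1)],
  [(7, 1), (17, 1), (43, 1)], [(2, 1), (3, 1), (13, 1), (127, 1)], [(2, 1), (5, 3), (37, 1)],
  [(2, 4), (877, 1)], [(2, 2), (3, 1), (7, 1), (61, 1)], [(23, 1), (431, 1)],
  [(3, 2), (13, 1), (79, 1)], [(13, 2), (83, 1)], [(23, 1), (223, 1)],
  [(2, 1), (3, 2), (19, 1), (29, 1)], [(2, 1), (31, 1), (149, 1)], [(37, 1), (379, 1)],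
  [(3, 1), (29, 1), (59, 1)], [(2, 1), (11, 2), (41, 1)], [(2, 1), (3, 5), (19, 1)],
  [(2, 1), (43, 1), (163, 1)], [(2, 1), (7, 1), (367, 1)], [(3, 2), (1103, 1)],
  [(11, 1), (839, 1)], [(2, 2), (31, 1), (113, 1)], [(2, 3), (643, 1)],
  [(3, 1), (7, 1), (11, 1), (43, 1)], [(23, 1), (401, 1)], [(2, 3), (17, 1), (103, 1)],
  [(2, 2), (3, 2), (11, 1), (13, 1)], [(19, 1), (523, 1)], [(3, 1), (7, 1), (439, 1)],
  [(17, 1), (823, 1)], [(5, 1), (1033, 1)], [(2, 1), (3, 2), (7, 1), (79, 1)],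
  [(2, 1), (43, 1), (107, 1)], [(2, 1), (3, 3), (7, 1), (37, 1)],
  [(2, 1), (5, 1), (11, 1), (47, 1)], [(23, 1), (433, 1)], [(17, 1), (541, 1)],
  [(11, 1), (31, 1), (41, 1)], [(3, 2), (5, 2), (23, 1)], [(2, 2), (47, 1), (53, 1)],
  [(2, 3), (3, 1), (383, 1)], [(89, 1), (157, 1)], [(71, 1), (73, 1)],
  [(2, 2), (3, 2), (277, 1)], [(2, 5), (7, 1), (41, 1)]]

/-- factorisation table, part 2 -/
def tabA2 : List (List (Nat × Nat)) := [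
  [(3, 1), (5, 1), (7, 2), (19, 1)], [(29, 1), (179, 1)], [(2, 2), (5, 1), (499, 1)],
  [(2, 3), (31, 1), (37, 1)], [(13, 1), (29, 1), (37, 1)], [(41, 1), (127, 1)],
  [(2, 2), (3, 1), (7, 2), (17, 1)], [(2, 3), (5, 1), (229, 1)], [(2, 2), (11, 1), (317, 1)],
  [(2, 3), (3, 1), (7, 1), (31, 1)], [(13, 1), (769, 1)], [(3, 1), (43, 1), (71, 1)],
  [(2, 2), (3, 4), (43, 1)], [(2, 3), (653, 1)], [(17, 1), (19, 1), (31, 1)],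
  [(41, 1), (223, 1)], [(2, 2), (59, 2)], [(2, 4), (3, 1), (109, 1)], [(11, 1), (911, 1)],
  [(3, 2), (5, 1), (7, 1), (29, 1)], [(2, 5), (3, 1), (5, 1), (29, 1)],
  [(2, 2), (7, 1), (11, 1), (17, 1)], [(5, 2), (401, 1)], [(23, 1), (397, 1)],
  [(2, 1), (3, 1), (7, 1), (331, 1)], [(2, 1), (37, 1), (71, 1)], [(11, 2), (83, 1)],
  [(13, 1), (701, 1)], [(29, 1), (479, 1)], [(3, 4), (5, 1), (13, 1)],
  [(2, 1), (11, 1), (457, 1)], [(2, 1), (3, 1), (37, 1), (41, 1)], [(17, 1), (19, 1), (43, 1)],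
  [(23, 1), (229, 1)], [(2, 3), (3, 1), (419, 1)], [(2, 2), (5, 2), (7, 1), (13, 1)],
  [(2, 6), (7, 1), (31, 1)], [(2, 2), (3, 1), (439, 1)], [(89, 1), (113, 1)], [(3, 3), (337, 1)],
  [(2, 1), (53, 1), (131, 1)], [(2, 1), (5, 1), (17, 1), (31, 1)], [(3, 1), (7, 1), (479, 1)],
  [(11, 1), (827, 1)], [(2, 1), (7, 1), (991, 1)], [(2, 1), (19, 1), (139, 1)],
  [(3, 3), (373, 1)], [(5, 1), (23, 1), (79, 1)], [(11, 1), (13, 1), (97, 1)],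
  [(5, 1), (7, 1), (151, 1)], [(2, 1), (3, 1), (23, 1), (73, 1)], [(2, 1), (19, 1), (239, 1)],
  [(3, 2), (23, 1), (67, 1)], [(17, 1), (311, 1)], [(2, 2), (11, 1), (229, 1)],
  [(2, 3), (5, 1), (227, 1)], [(2, 1), (5, 2), (277, 1)], [(2, 1), (7, 1), (379, 1)],
  [(3, 1), (5, 1), (673, 1)], [(13, 1), (17, 1), (41, 1)], [(3, 1), (5, 1), (13, 1), (71, 1)],
  [(47, 1), (113, 1)], [(2, 2), (5, 2), (101, 1)], [(2, 5), (283, 1)], [(2, 9), (3, 3)],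
  [(2, 2), (31, 1), (43, 1)], [(29, 1), (349, 1)], [(5, 1), (13, 1), (139, 1)],
  [(2, 2), (5, 1), (691, 1)], [(2, 3), (23, 1), (29, 1)], [(3, 4), (5, 3)], [(11, 1), (821, 1)],
  [(41, 1), (337, 1)], [(19, 1), (281, 1)], [(2, 4), (3, 1), (211, 1)],
  [(2, 2), (37, 1), (61, 1)], [(19, 1), (727, 1)], [(3, 1), (13, 1), (137, 1)],
  [(2, 2), (17, 1), (149, 1)], [(2, 6), (3, 1), (47, 1)], [(2, 4), (863, 1)],
  [(2, 2), (7, 1), (191, 1)], [(3, 1), (31, 1), (109, 1)], [(29, 1), (311, 1)],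
  [(37, 1), (373, 1)], [(3, 2), (5, 1), (7, 1), (17, 1)], [(2, 5), (317, 1)],
  [(2, 2), (3, 1), (751, 1)], [(2, 2), (5, 1), (13, 1), (53, 1)], [(2, 8), (3, 1), (7, 1)],
  [(5, 1), (19, 1), (107, 1)], [(3, 5), (37, 1)], [(3, 1), (13, 1), (353, 1)],
  [(17, 1), (317, 1)], [(2, 1), (7, 1), (727, 1)], [(2, 1), (67, 2)], [(2, 1), (13, 1), (23, 2)],
  [(2, 1), (37, 1), (73, 1)], [(3, 1), (43, 1), (79, 1)], [(5, 1), (11, 1), (163, 1)],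
  [(2, 2), (7, 1), (491, 1)], [(2, 5), (13, 2)], [(3, 2), (11, 1), (103, 1)], [(17, 2), (31, 1)],
  [(2, 1), (3, 1), (29, 1), (79, 1)], [(2, 1), (5, 1), (541, 1)], [(7, 1), (31, 1), (47, 1)],
  [(13, 2), (53, 1)], [(2, 3), (17, 1), (101, 1)], [(2, 2), (5, 1), (271, 1)],
  [(3, 1), (41, 1), (83, 1)], [(23, 1), (389, 1)], [(31, 1), (443, 1)],
  [(11, 1), (17, 1), (29, 1)], [(2, 2), (3, 1), (23, 1), (37, 1)], [(2, 4), (13, 1), (43, 1)],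
  [(7, 1), (37, 1), (53, 1)], [(61, 1), (89, 1)], [(2, 1), (3, 1), (13, 1), (131, 1)],
  [(2, 1), (41, 1), (109, 1)], [(2, 3), (5, 1), (7, 3)], [(2, 2), (3, 2), (151, 1)],
  [(5, 2), (409, 1)], [(3, 1), (13, 1), (229, 1)], [(2, 2), (23, 1), (149, 1)],
  [(2, 3), (3, 1), (227, 1)], [(29, 1), (353, 1)], [(3, 2), (991, 1)],
  [(2, 2), (5, 2), (137, 1)], [(2, 4), (11, 1), (31, 1)], [(3, 1), (5, 1), (683, 1)],
  [(7, 1), (19, 1), (67, 1)], [(7, 1), (19, 1), (103, 1)], [(3, 1), (17, 1), (107, 1)],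
  [(2, 1), (47, 1), (109, 1)], [(2, 1), (3, 4), (5, 1), (11, 1)],
  [(3, 1), (5, 1), (11, 1), (83, 1)], [(43, 1), (127, 1)], [(2, 1), (5, 3), (41, 1)],
  [(2, 1), (61, 1), (73, 1)], [(2, 1), (5, 1), (37, 2)], [(2, 1), (3, 1), (911, 1)],
  [(5, 1), (7, 1), (293, 1)], [(3, 2), (23, 1), (43, 1)], [(2, 2), (3, 1), (17, 1), (67, 1)],
  [(2, 4), (7, 3)], [(43, 1), (239, 1)], [(13, 1), (683, 1)], [(79, 1), (173, 1)],
  [(11, 1), (499, 1)], [(2, 1), (3, 2), (571, 1)], [(2, 1), (23, 1), (193, 1)],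
  [(3, 1), (5, 1), (911, 1)], [(17, 2), (19, 1)], [(2, 3), (5, 1), (257, 1)],
  [(2, 2), (7, 1), (317, 1)], [(2, 1), (3, 3), (11, 1), (23, 1)], [(2, 1), (41, 1), (67, 1)],
  [(7, 1), (13, 1), (113, 1)], [(19, 1), (467, 1)], [(2, 1), (17, 1), (401, 1)],
  [(2, 1), (11, 1), (251, 1)], [(3, 1), (7, 1), (491, 1)], [(5, 1), (29, 1), (61, 1)],
  [(3, 1), (19, 1), (239, 1)], [(11, 1), (503, 1)], [(2, 1), (13, 1), (397, 1)],
  [(2, 1), (7, 1), (631, 1)], [(53, 1), (257, 1)], [(3, 3), (5, 1), (41, 1)],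
  [(2, 2), (29, 1), (89, 1)], [(2, 7), (3, 1), (23, 1)], [(2, 1), (11, 1), (619, 1)],
  [(2, 1), (3, 1), (13, 1), (71, 1)], [(23, 1), (449, 1)], [(3, 4), (109, 1)],
  [(2, 4), (23, 1), (37, 1)], [(2, 2), (5, 1), (277, 1)], [(3, 1), (11, 1), (313, 1)],
  [(7, 1), (13, 1), (97, 1)], [(31, 1), (439, 1)], [(3, 1), (43, 2)], [(2, 5), (17, 1), (19, 1)],
  [(2, 2), (3, 2), (5, 1), (7, 2)], [(2, 2), (19, 1), (179, 1)], [(2, 4), (347, 1)],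
  [(3, 3), (383, 1)], [(5, 1), (41, 1), (43, 1)], [(2, 1), (3, 2), (5, 1), (151, 1)],
  [(2, 1), (11, 2), (23, 1)], [(5, 1), (19, 1), (109, 1)], [(13, 1), (677, 1)],
  [(107, 1), (127, 1)], [(19, 1), (293, 1)], [(2, 2), (3, 1), (863, 1)],
  [(2, 5), (5, 2), (11, 1)], [(3, 2), (11, 1), (137, 1)], [(7, 1), (17, 1), (47, 1)],
  [(2, 1), (29, 1), (179, 1)], [(2, 1), (41, 1), (107, 1)]]

/-- factorisation table, part 3 -/
def tabA3 : List (List (Nat × Nat)) := [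
  [(7, 1), (13, 1), (149, 1)], [(29, 1), (193, 1)], [(2, 1), (3, 2), (577, 1)],
  [(2, 1), (5, 1), (877, 1)], [(17, 1), (797, 1)], [(3, 2), (7, 1), (89, 1)],
  [(2, 2), (23, 1), (113, 1)], [(2, 3), (3, 1), (5, 1), (73, 1)], [(83, 1), (163, 1)],
  [(17, 1), (331, 1)], [(2, 4), (3, 1), (7, 1), (31, 1)], [(2, 2), (5, 1), (19, 1), (23, 1)],
  [(2, 3), (19, 1), (89, 1)], [(2, 2), (3, 1), (7, 1), (67, 1)], [(11, 1), (947, 1)],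
  [(3, 2), (971, 1)], [(59, 1), (229, 1)], [(5, 1), (1129, 1)],
  [(2, 1), (3, 1), (37, 1), (47, 1)], [(2, 1), (7, 2), (89, 1)], [(2, 6), (211, 1)],
  [(2, 2), (3, 2), (157, 1)], [(53, 1), (197, 1)], [(3, 1), (5, 1), (7, 1), (83, 1)],
  [(103, 1), (131, 1)], [(7, 1), (809, 1)], [(2, 2), (3, 1), (13, 1), (67, 1)],
  [(2, 9), (17, 1)], [(13, 1), (17, 1), (61, 1)], [(5, 2), (227, 1)], [(2, 5), (3, 1), (109, 1)],
  [(2, 2), (41, 1), (53, 1)], [(5, 2), (7, 2), (11, 1)], [(13, 1), (19, 1), (23, 1)],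
  [(2, 1), (3, 1), (5, 1), (349, 1)], [(2, 1), (43, 1), (101, 1)], [(2, 1), (53, 1), (127, 1)],
  [(2, 1), (3, 1), (13, 1), (73, 1)], [(11, 1), (953, 1)], [(3, 1), (7, 2), (59, 1)],
  [(2, 4), (29, 2)], [(2, 2), (3, 1), (5, 2), (19, 1)], [(17, 1), (617, 1)], [(3, 4), (107, 1)],
  [(7, 1), (17, 1), (113, 1)], [(3, 1), (11, 1), (173, 1)], [(2, 1), (29, 1), (181, 1)],
  [(2, 1), (3, 2), (13, 1), (37, 1)], [(2, 2), (3, 2), (373, 1)], [(2, 5), (179, 1)],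
  [(13, 1), (809, 1)], [(53, 1), (163, 1)], [(2, 2), (5, 1), (11, 1), (61, 1)],
  [(2, 3), (3, 1), (239, 1)], [(5, 2), (421, 1)], [(3, 2), (7, 1), (137, 1)],
  [(2, 1), (3, 2), (5, 1), (149, 1)], [(2, 1), (13, 2), (17, 1)], [(5, 1), (7, 2), (43, 1)],
  [(37, 1), (233, 1)], [(11, 1), (23, 1), (53, 1)], [(7, 1), (821, 1)],
  [(2, 3), (3, 1), (439, 1)], [(2, 2), (5, 1), (431, 1)], [(2, 5), (419, 1)],
  [(2, 2), (3, 1), (479, 1)], [(41, 1), (257, 1)], [(3, 1), (13, 2), (17, 1)],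
  [(5, 1), (7, 1), (383, 1)], [(3, 4), (71, 1)], [(2, 2), (5, 1), (17, 1), (31, 1)],
  [(2, 3), (3, 1), (359, 1)], [(13, 1), (1031, 1)], [(11, 1), (523, 1)],
  [(2, 1), (3, 1), (7, 1), (251, 1)], [(2, 1), (59, 1), (73, 1)], [(2, 2), (17, 1), (197, 1)],
  [(2, 7), (3, 2), (5, 1)], [(7, 1), (11, 1), (137, 1)], [(3, 1), (19, 1), (151, 1)],
  [(3, 1), (5, 1), (19, 1), (47, 1)], [(7, 1), (823, 1)], [(2, 1), (5, 2), (211, 1)],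
  [(2, 1), (13, 1), (331, 1)], [(2, 6), (11, 1), (19, 1)], [(2, 2), (5, 1), (17, 2)],
  [(3, 1), (13, 1), (271, 1)], [(31, 1), (277, 1)], [(2, 1), (3, 2), (743, 1)],
  [(2, 1), (7, 2), (59, 1)], [(11, 1), (31, 2)], [(5, 1), (17, 1), (101, 1)],
  [(2, 1), (41, 1), (163, 1)], [(2, 1), (3, 1), (5, 1), (193, 1)], [(71, 1), (149, 1)],
  [(3, 2), (953, 1)], [(3, 1), (61, 1), (73, 1)], [(11, 1), (17, 1), (31, 1)],
  [(2, 1), (67, 1), (79, 1)], [(2, 1), (5, 1), (857, 1)], [(2, 2), (5, 1), (23, 1), (29, 1)],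
  [(2, 3), (727, 1)], [(3, 1), (5, 1), (7, 1), (101, 1)], [(17, 1), (503, 1)],
  [(2, 1), (5, 1), (31, 1), (43, 1)], [(2, 1), (3, 1), (971, 1)], [(5, 1), (11, 1), (193, 1)],
  [(3, 2), (13, 1), (73, 1)], [(5, 2), (13, 1), (41, 1)], [(7, 3), (17, 1)],
  [(2, 2), (3, 2), (5, 1), (59, 1)], [(2, 3), (11, 1), (97, 1)], [(7, 1), (11, 1), (173, 1)],
  [(3, 1), (5, 1), (389, 1)], [(2, 7), (83, 1)], [(2, 2), (3, 3), (79, 1)],
  [(2, 1), (61, 1), (109, 1)], [(2, 1), (29, 1), (101, 1)], [(3, 2), (7, 1), (13, 2)],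
  [(67, 1), (127, 1)], [(2, 4), (3, 1), (277, 1)], [(2, 2), (5, 1), (293, 1)],
  [(23, 1), (463, 1)], [(47, 1), (181, 1)], [(2, 1), (7, 1), (13, 1), (73, 1)],
  [(2, 1), (5, 1), (587, 1)], [(3, 1), (11, 1), (17, 1), (19, 1)], [(29, 1), (293, 1)],
  [(3, 1), (19, 1), (233, 1)], [(5, 3), (47, 1)], [(2, 3), (31, 1), (43, 1)],
  [(2, 2), (11, 1), (193, 1)], [(2, 1), (3, 2), (11, 1), (67, 1)],
  [(2, 1), (5, 1), (19, 1), (31, 1)], [(59, 1), (181, 1)], [(7, 2), (173, 1)],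
  [(5, 1), (7, 1), (379, 1)], [(43, 1), (137, 1)], [(2, 3), (3, 1), (5, 1), (89, 1)],
  [(2, 2), (13, 1), (163, 1)], [(2, 4), (829, 1)], [(2, 2), (3, 1), (491, 1)],
  [(11, 1), (971, 1)], [(3, 1), (5, 2), (113, 1)], [(3, 3), (491, 1)], [(17, 1), (347, 1)],
  [(2, 6), (167, 1)], [(2, 2), (29, 1), (73, 1)], [(2, 6), (3, 2), (23, 1)],
  [(2, 2), (7, 1), (211, 1)], [(19, 1), (563, 1)], [(11, 1), (769, 1)], [(101, 1), (131, 1)],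
  [(3, 1), (5, 2), (79, 1)], [(2, 1), (11, 1), (487, 1)], [(2, 1), (3, 2), (7, 1), (67, 1)],
  [(5, 2), (23, 2)], [(3, 2), (659, 1)], [(2, 5), (5, 1), (67, 1)],
  [(2, 2), (3, 1), (19, 1), (37, 1)], [(5, 1), (19, 1), (139, 1)], [(11, 1), (541, 1)],
  [(2, 2), (3, 1), (5, 1), (179, 1)], [(2, 5), (263, 1)], [(67, 1), (197, 1)],
  [(7, 1), (23, 1), (37, 1)], [(2, 1), (3, 3), (199, 1)], [(2, 1), (5, 1), (29, 2)],
  [(2, 1), (3, 2), (733, 1)], [(2, 1), (11, 1), (271, 1)], [(13, 1), (827, 1)],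
  [(5, 1), (41, 2)], [(79, 1), (167, 1)], [(67, 1), (89, 1)], [(2, 9), (3, 1), (7, 1)],
  [(2, 2), (11, 1), (191, 1)], [(2, 2), (3, 1), (7, 1), (157, 1)], [(2, 4), (373, 1)],
  [(31, 1), (347, 1)], [(37, 1), (227, 1)], [(2, 1), (3, 1), (13, 3)],
  [(2, 1), (29, 1), (103, 1)], [(47, 1), (229, 1)], [(7, 1), (11, 1), (109, 1)],
  [(3, 1), (23, 1), (191, 1)], [(43, 1), (139, 1)], [(2, 1), (7, 1), (769, 1)],
  [(2, 1), (5, 1), (839, 1)], [(2, 2), (37, 1), (89, 1)], [(2, 5), (11, 1), (17, 1)],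
  [(3, 4), (7, 1), (19, 1)], [(83, 1), (101, 1)], [(2, 1), (3, 1), (5, 1), (439, 1)],
  [(2, 1), (41, 1), (73, 1)], [(5, 2), (431, 1)], [(17, 2), (29, 1)], [(2, 4), (823, 1)],
  [(2, 2), (3, 1), (499, 1)], [(13, 1), (829, 1)], [(3, 2), (7, 2), (19, 1)]]

/-- factorisation table, part 4 -/
def tabA4 : List (List (Nat × Nat)) := [
  [(3, 2), (7, 1), (11, 1), (19, 1)], [(53, 1), (113, 1)], [(2, 1), (17, 1), (317, 1)],
  [(2, 1), (59, 1), (71, 1)], [(59, 1), (223, 1)], [(7, 1), (857, 1)],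
  [(2, 2), (3, 1), (29, 1), (31, 1)], [(2, 4), (523, 1)], [(2, 2), (19, 1), (173, 1)],
  [(2, 3), (751, 1)], [(3, 1), (59, 1), (61, 1)], [(13, 1), (643, 1)], [(23, 1), (571, 1)],
  [(19, 1), (317, 1)], [(2, 2), (3, 1), (17, 1), (53, 1)], [(2, 3), (7, 1), (149, 1)],
  [(19, 1), (691, 1)], [(3, 1), (7, 2), (41, 1)], [(2, 6), (13, 2)],
  [(2, 2), (3, 1), (5, 1), (139, 1)], [(2, 3), (3, 1), (547, 1)], [(2, 2), (11, 1), (137, 1)],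
  [(29, 1), (373, 1)], [(31, 1), (269, 1)], [(2, 1), (3, 8)], [(2, 1), (7, 1), (431, 1)],
  [(79, 1), (137, 1)], [(13, 1), (641, 1)], [(5, 1), (43, 1), (61, 1)], [(7, 1), (863, 1)],
  [(2, 1), (3, 1), (5, 1), (19, 2)], [(2, 1), (23, 1), (181, 1)], [(23, 1), (569, 1)],
  [(3, 1), (7, 1), (17, 2)], [(2, 1), (61, 1), (89, 1)], [(2, 1), (3, 2), (461, 1)],
  [(17, 1), (769, 1)], [(7, 1), (11, 1), (79, 1)], [(2, 3), (3, 2), (151, 1)],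
  [(2, 2), (19, 1), (109, 1)], [(3, 1), (19, 1), (229, 1)], [(17, 1), (359, 1)],
  [(2, 2), (7, 1), (389, 1)], [(2, 3), (1033, 1)], [(31, 1), (421, 1)],
  [(3, 1), (5, 1), (11, 1), (37, 1)], [(2, 1), (13, 1), (419, 1)], [(2, 1), (3, 5), (17, 1)],
  [(2, 1), (3, 1), (41, 1), (53, 1)], [(2, 1), (7, 1), (19, 1), (23, 1)], [(13, 1), (839, 1)],
  [(73, 1), (113, 1)], [(83, 1), (157, 1)], [(5, 3), (7, 2)],
  [(2, 1), (3, 1), (17, 1), (107, 1)], [(2, 1), (13, 1), (317, 1)], [(2, 1), (23, 1), (283, 1)],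
  [(2, 1), (3, 2), (11, 1), (31, 1)], [(7, 2), (223, 1)], [(3, 1), (13, 1), (211, 1)],
  [(5, 1), (19, 1), (137, 1)], [(3, 1), (23, 1), (89, 1)], [(2, 1), (5, 1), (1093, 1)],
  [(2, 1), (3, 2), (457, 1)], [(2, 1), (3, 3), (241, 1)], [(2, 1), (37, 1), (83, 1)],
  [(17, 1), (643, 1)], [(5, 2), (7, 1), (47, 1)], [(2, 1), (3, 1), (11, 1), (197, 1)],
  [(2, 1), (17, 1), (181, 1)], [(31, 1), (353, 1)], [(43, 1), (191, 1)],
  [(3, 1), (7, 1), (619, 1)], [(47, 1), (131, 1)], [(2, 1), (13, 1), (421, 1)],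
  [(2, 1), (5, 1), (821, 1)], [(5, 1), (23, 1), (113, 1)], [(61, 1), (101, 1)],
  [(2, 1), (3, 1), (5, 2), (73, 1)], [(2, 1), (11, 1), (373, 1)], [(31, 1), (419, 1)],
  [(7, 1), (881, 1)], [(2, 2), (3, 1), (11, 1), (83, 1)], [(2, 3), (5, 2), (41, 1)],
  [(19, 1), (683, 1)], [(37, 1), (167, 1)], [(2, 3), (3, 1), (457, 1)],
  [(2, 2), (23, 1), (89, 1)], [(3, 1), (29, 1), (149, 1)], [(11, 1), (563, 1)],
  [(2, 1), (17, 2), (19, 1)], [(2, 1), (61, 1), (67, 1)], [(2, 1), (3, 1), (17, 1), (127, 1)],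
  [(2, 1), (7, 1), (443, 1)], [(29, 1), (379, 1)], [(5, 1), (23, 1), (71, 1)],
  [(3, 2), (5, 1), (7, 1), (41, 1)], [(79, 2)], [(2, 1), (5, 1), (1103, 1)],
  [(2, 1), (17, 1), (239, 1)], [(5, 3), (103, 1)], [(11, 1), (571, 1)],
  [(2, 1), (3, 3), (5, 1), (41, 1)], [(2, 1), (13, 1), (311, 1)], [(3, 1), (7, 1), (613, 1)],
  [(61, 1), (103, 1)], [(2, 6), (173, 1)], [(2, 2), (43, 1), (47, 1)], [(61, 1), (211, 1)],
  [(3, 1), (5, 1), (419, 1)], [(2, 1), (7, 2), (113, 1)], [(2, 1), (3, 2), (449, 1)],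
  [(5, 1), (31, 1), (83, 1)], [(3, 3), (233, 1)], [(2, 3), (5, 1), (277, 1)],
  [(2, 2), (3, 1), (673, 1)], [(71, 1), (181, 1)], [(5, 1), (13, 1), (97, 1)],
  [(2, 1), (3, 1), (43, 2)], [(2, 1), (29, 1), (139, 1)], [(3, 3), (5, 2), (19, 1)],
  [(13, 1), (487, 1)], [(2, 4), (5, 1), (139, 1)], [(2, 2), (7, 2), (41, 1)],
  [(23, 1), (557, 1)], [(3, 3), (5, 1), (47, 1)], [(2, 1), (19, 1), (293, 1)],
  [(2, 1), (3, 1), (7, 1), (191, 1)], [(2, 1), (3, 1), (5, 1), (7, 1), (61, 1)],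
  [(2, 1), (19, 1), (167, 1)], [(5, 1), (17, 1), (131, 1)], [(13, 1), (617, 1)],
  [(5, 1), (13, 1), (197, 1)], [(3, 1), (29, 1), (73, 1)], [(2, 2), (5, 1), (557, 1)],
  [(2, 4), (3, 1), (167, 1)], [(53, 1), (241, 1)], [(13, 1), (491, 1)],
  [(2, 2), (3, 1), (7, 2), (19, 1)], [(2, 4), (499, 1)], [(11, 1), (19, 1), (61, 1)],
  [(43, 1), (149, 1)], [(2, 2), (3, 2), (311, 1)], [(2, 3), (5, 1), (199, 1)],
  [(2, 1), (23, 1), (277, 1)], [(2, 1), (3, 1), (1069, 1)], [(17, 1), (659, 1)],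
  [(3, 1), (11, 1), (241, 1)], [(29, 1), (439, 1)], [(5, 2), (257, 1)],
  [(2, 1), (3, 2), (7, 1), (89, 1)], [(2, 1), (11, 1), (19, 2)], [(3, 4), (157, 1)],
  [(47, 1), (137, 1)], [(2, 2), (7, 1), (401, 1)], [(2, 3), (991, 1)],
  [(2, 2), (19, 1), (167, 1)], [(2, 6), (101, 1)], [(3, 1), (11, 2), (31, 1)],
  [(7, 1), (1129, 1)], [(7, 3), (37, 1)], [(3, 1), (5, 1), (431, 1)],
  [(2, 1), (17, 1), (331, 1)], [(2, 1), (3, 2), (439, 1)], [(2, 2), (3, 1), (5, 1), (211, 1)],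
  [(2, 5), (7, 1), (29, 1)], [(5, 1), (37, 1), (61, 1)], [(17, 1), (463, 1)],
  [(7, 1), (13, 1), (139, 1)], [(3, 3), (241, 1)], [(2, 5), (353, 1)],
  [(2, 2), (3, 1), (5, 1), (131, 1)], [(2, 2), (3, 5), (13, 1)], [(2, 3), (5, 1), (163, 1)],
  [(43, 1), (263, 1)], [(7, 1), (19, 1), (59, 1)], [(73, 1), (173, 1)], [(61, 1), (107, 1)],
  [(2, 2), (3, 1), (23, 1), (41, 1)], [(2, 5), (5, 1), (7, 2)], [(11, 1), (31, 1), (37, 1)],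
  [(13, 1), (503, 1)], [(2, 6), (3, 1), (59, 1)], [(2, 2), (19, 1), (103, 1)],
  [(2, 2), (23, 1), (137, 1)], [(2, 3), (3, 2), (7, 1), (13, 1)], [(11, 1), (1031, 1)],
  [(3, 1), (5, 1), (521, 1)], [(43, 1), (293, 1)], [(79, 1), (83, 1)],
  [(2, 1), (3, 1), (31, 1), (61, 1)], [(2, 1), (5, 1), (11, 1), (71, 1)],
  [(2, 2), (47, 1), (67, 1)], [(2, 5), (5, 1), (41, 1)], [(3, 2), (13, 1), (97, 1)],
  [(37, 1), (211, 1)], [(2, 1), (7, 1), (29, 1), (31, 1)], [(2, 1), (3, 2), (5, 1), (73, 1)],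
  [(37, 1), (307, 1)], [(3, 1), (23, 1), (113, 1)]]

/-- factorisation table, part 5 -/
def tabA5 : List (List (Nat × Nat)) := [
  [(23, 1), (547, 1)], [(5, 2), (263, 1)], [(2, 2), (3, 1), (947, 1)], [(2, 4), (487, 1)],
  [(2, 2), (7, 1), (449, 1)], [(2, 3), (823, 1)], [(3, 1), (17, 1), (223, 1)],
  [(43, 1), (181, 1)], [(2, 1), (3, 1), (5, 1), (419, 1)], [(2, 1), (37, 1), (89, 1)],
  [(5, 3), (7, 1), (13, 1)], [(31, 1), (251, 1)], [(5, 1), (7, 1), (359, 1)], [(3, 1), (13, 3)],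
  [(2, 2), (5, 1), (569, 1)], [(2, 5), (3, 5)], [(2, 4), (5, 1), (157, 1)],
  [(2, 2), (17, 1), (97, 1)], [(3, 2), (5, 1), (11, 1), (23, 1)], [(19, 1), (409, 1)],
  [(3, 4), (5, 1), (31, 1)], [(7, 1), (23, 1), (41, 1)], [(2, 1), (5, 1), (17, 1), (67, 1)],
  [(2, 1), (11, 1), (353, 1)], [(5, 1), (13, 1), (193, 1)], [(11, 1), (601, 1)],
  [(2, 3), (3, 1), (5, 2), (19, 1)], [(2, 2), (7, 1), (277, 1)], [(83, 1), (151, 1)],
  [(37, 1), (179, 1)], [(2, 2), (3, 2), (317, 1)], [(2, 6), (11, 2)],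
  [(2, 2), (13, 1), (241, 1)], [(2, 5), (3, 2), (23, 1)], [(101, 1), (113, 1)],
  [(3, 1), (29, 1), (89, 1)], [(2, 2), (31, 1), (101, 1)], [(2, 3), (829, 1)], [(3, 5), (47, 1)],
  [(5, 1), (7, 1), (13, 1), (17, 1)], [(3, 1), (11, 1), (379, 1)], [(61, 1), (109, 1)],
  [(2, 1), (7, 1), (19, 1), (43, 1)], [(2, 1), (17, 1), (227, 1)], [(3, 1), (23, 1), (181, 1)],
  [(59, 1), (113, 1)], [(2, 6), (179, 1)], [(2, 2), (5, 2), (7, 1), (11, 1)],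
  [(37, 1), (337, 1)], [(3, 2), (743, 1)], [(2, 2), (19, 1), (151, 1)], [(2, 9), (3, 1), (5, 1)],
  [(2, 4), (19, 1), (41, 1)], [(2, 2), (7, 1), (239, 1)], [(3, 1), (43, 1), (89, 1)],
  [(5, 2), (307, 1)], [(17, 1), (733, 1)], [(5, 1), (13, 1), (103, 1)],
  [(2, 2), (3, 2), (11, 1), (29, 1)], [(2, 3), (7, 1), (137, 1)],
  [(2, 1), (3, 1), (5, 2), (83, 1)], [(2, 1), (7, 1), (479, 1)], [(5, 1), (11, 2), (19, 1)],
  [(47, 1), (163, 1)], [(59, 1), (211, 1)], [(19, 1), (353, 1)], [(2, 3), (3, 1), (479, 1)],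
  [(2, 2), (5, 1), (383, 1)], [(23, 1), (541, 1)], [(7, 2), (137, 1)], [(2, 1), (3, 4), (71, 1)],
  [(2, 1), (43, 1), (89, 1)], [(2, 3), (5, 1), (311, 1)], [(2, 2), (23, 1), (73, 1)],
  [(3, 1), (5, 1), (13, 1), (59, 1)], [(7, 1), (1093, 1)], [(2, 1), (5, 1), (11, 1), (113, 1)],
  [(2, 1), (3, 1), (19, 1), (59, 1)], [(5, 1), (7, 2), (47, 1)], [(3, 3), (283, 1)],
  [(5, 2), (7, 1), (71, 1)], [(53, 1), (127, 1)], [(2, 8), (3, 2), (5, 1)],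
  [(2, 2), (23, 1), (83, 1)], [(2, 2), (3, 3), (5, 1), (23, 1)], [(2, 4), (421, 1)],
  [(5, 2), (461, 1)], [(13, 1), (587, 1)], [(2, 3), (3, 1), (11, 1), (47, 1)],
  [(2, 2), (7, 1), (241, 1)], [(83, 1), (139, 1)], [(19, 1), (401, 1)], [(19, 1), (653, 1)],
  [(17, 1), (397, 1)], [(2, 1), (3, 2), (641, 1)], [(2, 1), (13, 1), (293, 1)],
  [(3, 1), (5, 1), (827, 1)], [(43, 1), (157, 1)], [(2, 2), (5, 1), (577, 1)],
  [(2, 6), (7, 1), (17, 1)], [(2, 1), (3, 2), (13, 1), (53, 1)], [(2, 1), (11, 1), (307, 1)],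
  [(7, 1), (17, 1), (97, 1)], [(23, 1), (331, 1)], [(13, 1), (953, 1)], [(67, 1), (101, 1)],
  [(2, 2), (3, 3), (107, 1)], [(2, 4), (5, 2), (19, 1)], [(89, 1), (139, 1)],
  [(5, 1), (23, 1), (59, 1)], [(2, 1), (3, 2), (643, 1)], [(2, 1), (17, 1), (223, 1)],
  [(47, 1), (263, 1)], [(3, 2), (5, 1), (151, 1)], [(2, 6), (181, 1)],
  [(2, 2), (3, 1), (631, 1)], [(2, 1), (3, 1), (29, 1), (71, 1)], [(2, 1), (19, 1), (179, 1)],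
  [(67, 1), (173, 1)], [(5, 1), (17, 1), (89, 1)], [(3, 3), (457, 1)], [(17, 1), (401, 1)],
  [(2, 1), (7, 1), (829, 1)], [(2, 1), (5, 2), (151, 1)], [(5, 2), (17, 1), (29, 1)],
  [(3, 3), (11, 1), (23, 1)], [(2, 2), (5, 1), (7, 1), (83, 1)], [(2, 4), (3, 1), (157, 1)],
  [(2, 1), (61, 1), (101, 1)], [(2, 1), (3, 1), (17, 1), (67, 1)], [(59, 1), (197, 1)],
  [(3, 5), (31, 1)], [(2, 2), (17, 1), (181, 1)], [(2, 6), (107, 1)], [(3, 3), (431, 1)],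
  [(73, 1), (103, 1)], [(2, 1), (3, 2), (683, 1)], [(2, 1), (47, 1), (73, 1)],
  [(61, 1), (191, 1)], [(5, 1), (19, 1), (79, 1)], [(2, 2), (7, 1), (439, 1)],
  [(2, 4), (3, 1), (11, 1), (13, 1)], [(43, 1), (271, 1)], [(3, 1), (41, 1), (61, 1)],
  [(2, 1), (3, 1), (23, 1), (89, 1)], [(2, 1), (7, 1), (491, 1)], [(107, 1), (109, 1)],
  [(59, 1), (127, 1)], [(2, 2), (5, 1), (613, 1)], [(2, 4), (431, 1)],
  [(3, 1), (5, 1), (19, 1), (41, 1)], [(31, 1), (241, 1)], [(19, 1), (643, 1)],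
  [(3, 3), (257, 1)], [(2, 4), (733, 1)], [(2, 2), (3, 1), (619, 1)], [(5, 1), (7, 1), (349, 1)],
  [(11, 1), (631, 1)], [(2, 1), (3, 1), (5, 1), (17, 1), (23, 1)], [(2, 1), (47, 1), (79, 1)],
  [(3, 2), (23, 1), (59, 1)], [(53, 1), (131, 1)], [(2, 2), (7, 1), (419, 1)], [(2, 8), (29, 1)],
  [(3, 1), (7, 2), (83, 1)], [(5, 1), (13, 1), (107, 1)], [(2, 5), (367, 1)],
  [(2, 2), (17, 1), (109, 1)], [(2, 1), (3, 1), (19, 1), (107, 1)], [(2, 1), (7, 2), (71, 1)],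
  [(17, 1), (691, 1)], [(31, 1), (239, 1)], [(89, 1), (137, 1)], [(3, 1), (11, 1), (211, 1)],
  [(2, 3), (13, 1), (113, 1)], [(2, 2), (3, 1), (617, 1)], [(2, 1), (3, 2), (677, 1)],
  [(2, 1), (5, 1), (17, 1), (41, 1)], [(11, 1), (1069, 1)], [(13, 1), (569, 1)], [(23, 3)],
  [(29, 1), (241, 1)], [(2, 1), (3, 1), (13, 1), (151, 1)], [(2, 1), (7, 1), (17, 1), (31, 1)],
  [(2, 1), (3, 5), (5, 2)], [(2, 1), (31, 1), (113, 1)], [(5, 1), (7, 1), (337, 1)],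
  [(17, 1), (433, 1)], [(5, 1), (7, 1), (347, 1)], [(3, 2), (19, 1), (41, 1)],
  [(2, 3), (5, 2), (59, 1)], [(2, 2), (3, 1), (613, 1)], [(2, 1), (13, 1), (467, 1)],
  [(2, 1), (3, 1), (7, 1), (167, 1)], [(11, 1), (29, 1), (37, 1)], [(3, 2), (19, 1), (43, 1)],
  [(2, 1), (3, 1), (43, 1), (47, 1)], [(2, 1), (5, 1), (19, 1), (37, 1)], [(53, 1), (223, 1)],
  [(11, 1), (23, 1), (29, 1)]]

/-- factorisation table, part 6 -/
def tabA6 : List (List (Nat × Nat)) := [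
  [(5, 3), (97, 1)], [(79, 1), (89, 1)], [(2, 2), (3, 1), (5, 1), (197, 1)],
  [(2, 3), (7, 1), (131, 1)], [(3, 2), (5, 1), (269, 1)], [(11, 1), (641, 1)],
  [(2, 6), (5, 1), (37, 1)], [(2, 2), (31, 1), (59, 1)], [(5, 1), (41, 1), (59, 1)],
  [(23, 1), (307, 1)], [(2, 1), (3, 1), (5, 2), (79, 1)], [(2, 1), (13, 1), (281, 1)],
  [(7, 1), (11, 1), (157, 1)], [(37, 1), (191, 1)], [(2, 4), (3, 1), (13, 1), (19, 1)],
  [(2, 2), (5, 2), (73, 1)], [(43, 1), (281, 1)], [(11, 1), (643, 1)],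
  [(2, 1), (3, 2), (659, 1)], [(2, 1), (7, 1), (521, 1)], [(47, 1), (257, 1)],
  [(3, 1), (7, 1), (337, 1)], [(2, 1), (17, 1), (349, 1)], [(2, 1), (3, 6), (5, 1)],
  [(2, 2), (7, 1), (431, 1)], [(2, 4), (443, 1)], [(3, 1), (37, 1), (107, 1)],
  [(29, 1), (251, 1)], [(2, 5), (13, 1), (29, 1)], [(2, 2), (3, 2), (197, 1)], [(109, 2)],
  [(3, 1), (5, 2), (97, 1)], [(31, 1), (389, 1)], [(47, 1), (151, 1)],
  [(2, 1), (3, 1), (7, 1), (283, 1)], [(2, 1), (5, 1), (727, 1)], [(2, 1), (5, 2), (241, 1)],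
  [(2, 1), (11, 1), (17, 1), (19, 1)], [(3, 1), (5, 1), (13, 1), (61, 1)], [(53, 1), (137, 1)],
  [(2, 1), (19, 1), (317, 1)], [(2, 1), (3, 2), (5, 1), (79, 1)], [(73, 1), (163, 1)],
  [(3, 1), (41, 1), (59, 1)], [(53, 1), (227, 1)], [(3, 1), (5, 3), (19, 1)],
  [(2, 1), (7, 1), (23, 1), (37, 1)], [(2, 1), (3, 1), (17, 1), (71, 1)], [(61, 1), (197, 1)],
  [(11, 2), (59, 1)], [(2, 3), (3, 1), (7, 1), (71, 1)], [(2, 2), (13, 1), (139, 1)],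
  [(13, 2), (71, 1)], [(17, 1), (421, 1)], [(2, 1), (3, 1), (11, 1), (181, 1)],
  [(2, 1), (5, 1), (7, 1), (103, 1)], [(2, 2), (3, 4), (37, 1)], [(2, 10), (7, 1)],
  [(11, 1), (1087, 1)], [(23, 1), (313, 1)], [(3, 1), (5, 1), (17, 1), (47, 1)],
  [(71, 1), (101, 1)], [(2, 3), (5, 1), (13, 1), (23, 1)], [(2, 2), (7, 1), (257, 1)],
  [(3, 1), (13, 1), (307, 1)], [(11, 1), (653, 1)], [(2, 2), (41, 1), (73, 1)],
  [(2, 4), (449, 1)]]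

/-- factorisation table -/
def tabA : List (List (Nat × Nat)) :=
  tabA1 ++ (tabA2 ++ (tabA3 ++ (tabA4 ++ (tabA5 ++ (tabA6)))))

end Vale.Agent.P268.Z
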