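import Vale.Agent.P268.Z.Cert
import Vale.Agent.P268.Z.A3Fac
import Vale.Agent.P268.Z.A3TabA

/-!
# P268, part A3: the exact product identity for all weights
-/

namespace Vale.Agent.P268.Z

/-- numerators and denominators of the factors `1 / w - 1`, all weights -/
def listA : List (ℕ × ℤ) :=
  certList.flatMap fun p =>
    [(14367 - p.1, p.2), (4789 + p.1, p.2), (9578 + p.1, -p.2), (9578 - p.1, -p.2)]

theorem chkA : chk listA tabA = true := by decide +kernel

theorem zeroA : allZero (passes 11 (expand listA tabA)) = true := by decide +kernel

theorem pv_listA : pv nu listA = 1 := pv_eq_one listA tabA 11 chkA zeroA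

end Vale.Agent.P268.Z
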