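/-!
# P268, part A3: factorisation table (weights of denominator 4789)
-/

namespace Vale.Agent.P268.Z

/-- factorisation table, part 1 -/
def tabB1 : List (List (Nat × Nat)) := [
  [], [(3, 1), (31, 1), (103, 1)], [(7, 1)], [(3, 3), (5, 1), (71, 1)], [(2, 4)],
  [(2, 1), (3, 2), (13, 1), (41, 1)], [(19, 1)], [(3, 1), (7, 1), (457, 1)],
  [(2, 1), (3, 2), (797, 1)], [(2, 5), (149, 1)], [(5, 2)], [(3, 2), (11, 1), (97, 1)],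
  [(3, 1), (17, 1), (281, 1)], [(7, 2), (97, 1)], [(2, 2), (13, 1)],
  [(2, 1), (3, 2), (5, 1), (107, 1)], [(2, 1), (29, 1)], [(2, 2), (3, 1), (11, 1), (73, 1)],
  [(2, 4), (3, 1), (101, 1)], [(59, 1)], [(3, 1), (19, 1), (167, 1)],
  [(2, 1), (5, 1), (11, 1), (43, 1)], [(61, 1)], [(3, 4), (7, 1), (17, 1)],
  [(3, 2), (5, 1), (317, 1)], [(43, 1), (109, 1)], [(3, 1), (7, 2), (97, 1)],
  [(31, 1), (151, 1)], [(11, 2)], [(3, 1), (53, 1), (61, 1)], [(3, 1), (11, 1), (149, 1)],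
  [(2, 7)], [(2, 1), (3, 3), (5, 2), (7, 1)], [(59, 1), (79, 1)],
  [(2, 1), (3, 1), (23, 1), (103, 1)], [(2, 2), (19, 1), (61, 1)], [(163, 1)],
  [(3, 1), (17, 1), (191, 1)], [(13, 2)], [(3, 3), (19, 2)], [(2, 1), (3, 1), (827, 1)],
  [(173, 1)], [(3, 2), (5, 1), (11, 1), (19, 1)], [(2, 3), (577, 1)], [(2, 1), (3, 2), (277, 1)],
  [(197, 1)], [(3, 1), (53, 1), (59, 1)], [(2, 4), (7, 1), (41, 1)], [(5, 1), (41, 1)],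
  [(3, 2), (1087, 1)], [(3, 1), (53, 1), (89, 1)], [(17, 1), (269, 1)],
  [(2, 2), (3, 3), (131, 1)], [(2, 1), (5, 1), (457, 1)], [(2, 1), (113, 1)],
  [(2, 2), (3, 1), (19, 1), (43, 1)], [(3, 1), (7, 1), (239, 1)], [(2, 1), (5, 1), (23, 1)],
  [(2, 2), (3, 1), (19, 1), (41, 1)], [(47, 1), (97, 1)], [(3, 1), (5, 2), (67, 1)],
  [(2, 2), (59, 1)], [(2, 1), (3, 3), (173, 1)], [(29, 1), (157, 1)], [(2, 1), (7, 1), (17, 1)],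
  [(2, 3), (3, 1), (409, 1)], [(2, 1), (3, 1), (839, 1)], [(5, 1), (7, 2)],
  [(3, 2), (17, 1), (61, 1)], [(2, 6), (71, 1)], [(2, 1), (3, 1), (13, 1), (181, 1)],
  [(2, 2), (5, 1), (227, 1)], [(2, 1), (3, 1), (29, 2)], [(257, 1)], [(3, 1), (13, 1), (239, 1)],
  [(2, 2), (11, 1), (103, 1)], [(5, 1), (53, 1)], [(3, 1), (17, 1), (193, 1)], [(2, 2), (67, 1)],
  [(2, 1), (3, 2), (547, 1)], [(2, 1), (3, 2), (281, 1)], [(269, 1)],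
  [(3, 1), (29, 1), (107, 1)], [(2, 3), (5, 1), (113, 1)], [(271, 1)], [(3, 1), (7, 2), (67, 1)],
  [(2, 3), (3, 1), (211, 1)], [(5, 2), (11, 1)], [(3, 1), (7, 1), (443, 1)],
  [(2, 1), (37, 1), (61, 1)], [(283, 1)], [(3, 1), (19, 1), (173, 1)],
  [(2, 2), (3, 2), (17, 1), (23, 1)], [(2, 1), (13, 1), (173, 1)], [(307, 1)],
  [(3, 1), (5, 1), (659, 1)], [(2, 1), (7, 1), (23, 1)], [(2, 2), (3, 2), (5, 2), (11, 1)],
  [(2, 3), (41, 1)], [(2, 1), (3, 1), (13, 1), (127, 1)], [(2, 2), (3, 1), (7, 1), (61, 1)],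
  [(5, 1), (67, 1)], [(3, 2), (13, 1), (79, 1)], [(2, 1), (17, 1), (131, 1)],
  [(2, 2), (5, 1), (17, 1)], [(2, 1), (3, 2), (19, 1), (29, 1)], [(3, 1), (29, 1), (59, 1)],
  [(2, 3), (43, 1)], [(2, 1), (3, 5), (19, 1)], [(5, 1), (7, 1), (127, 1)], [(349, 1)],
  [(3, 2), (1103, 1)], [(5, 1), (71, 1)], [(3, 1), (7, 1), (11, 1), (43, 1)],
  [(2, 2), (3, 2), (11, 1), (13, 1)], [(359, 1)], [(3, 1), (7, 1), (439, 1)],
  [(2, 1), (5, 1), (443, 1)], [(2, 3), (47, 1)], [(2, 1), (3, 2), (7, 1), (79, 1)],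
  [(2, 1), (3, 3), (7, 1), (37, 1)], [(2, 3), (19, 1), (29, 1)], [(3, 2), (5, 2), (23, 1)],
  [(2, 1), (193, 1)], [(2, 3), (3, 1), (383, 1)], [(7, 1), (17, 1), (37, 1)], [(2, 1), (197, 1)],
  [(2, 2), (3, 2), (277, 1)], [(3, 1), (5, 1), (7, 2), (19, 1)], [(41, 1), (107, 1)],
  [(2, 1), (11, 1), (19, 1)], [(2, 2), (3, 1), (7, 2), (17, 1)],
  [(2, 3), (3, 1), (7, 1), (31, 1)], [(419, 1)], [(3, 1), (43, 1), (71, 1)],
  [(2, 1), (5, 1), (19, 1), (23, 1)], [(2, 2), (3, 4), (43, 1)], [(2, 1), (7, 1), (311, 1)],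
  [(2, 4), (3, 1), (109, 1)], [(443, 1)], [(3, 2), (5, 1), (7, 1), (29, 1)],
  [(2, 1), (41, 1), (53, 1)], [(2, 5), (3, 1), (5, 1), (29, 1)], [(2, 1), (13, 1), (167, 1)],
  [(2, 1), (3, 1), (7, 1), (331, 1)], [(2, 2), (23, 1), (47, 1)], [(3, 4), (5, 1), (13, 1)],
  [(2, 2), (7, 1), (17, 1)], [(2, 1), (3, 1), (37, 1), (41, 1)], [(19, 1), (227, 1)],
  [(2, 1), (239, 1)], [(2, 3), (3, 1), (419, 1)], [(2, 2), (3, 1), (439, 1)], [(479, 1)],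
  [(3, 3), (337, 1)], [(2, 1), (5, 1), (431, 1)], [(13, 1), (37, 1)], [(3, 1), (7, 1), (479, 1)],
  [(17, 1), (29, 1)], [(3, 3), (373, 1)], [(2, 4), (31, 1)], [(2, 1), (3, 1), (23, 1), (73, 1)],
  [(3, 2), (23, 1), (67, 1)], [(7, 1), (613, 1)], [(11, 1), (47, 1)], [(3, 1), (5, 1), (673, 1)],
  [(3, 1), (5, 1), (13, 1), (71, 1)], [(17, 1), (251, 1)], [(2, 9), (3, 3)],
  [(2, 1), (11, 1), (193, 1)], [(547, 1)], [(3, 4), (5, 3)], [(2, 1), (5, 2), (11, 1)],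
  [(2, 4), (3, 1), (211, 1)], [(3, 1), (13, 1), (137, 1)], [(2, 1), (277, 1)],
  [(2, 6), (3, 1), (47, 1)], [(5, 1), (7, 1), (11, 2)], [(13, 1), (43, 1)],
  [(3, 1), (31, 1), (109, 1)], [(3, 2), (5, 1), (7, 1), (17, 1)], [(2, 1), (283, 1)],
  [(2, 2), (3, 1), (751, 1)], [(41, 1), (103, 1)], [(2, 8), (3, 1), (7, 1)], [(587, 1)],
  [(3, 5), (37, 1)], [(2, 1), (11, 1), (191, 1)], [(3, 1), (13, 1), (353, 1)],
  [(59, 1), (71, 1)], [(613, 1)], [(3, 1), (43, 1), (79, 1)], [(619, 1)],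
  [(3, 2), (11, 1), (103, 1)], [(2, 1), (3, 1), (29, 1), (79, 1)], [(2, 3), (521, 1)],
  [(631, 1)], [(3, 1), (41, 1), (83, 1)], [(2, 1), (317, 1)], [(2, 2), (3, 1), (23, 1), (37, 1)]]

/-- factorisation table, part 2 -/
def tabB2 : List (List (Nat × Nat)) := [
  [(2, 7), (5, 1)], [(2, 1), (3, 1), (13, 1), (131, 1)], [(2, 2), (3, 2), (151, 1)], [(647, 1)],
  [(3, 1), (13, 1), (229, 1)], [(2, 1), (19, 1), (109, 1)], [(2, 3), (3, 1), (227, 1)],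
  [(659, 1)], [(3, 2), (991, 1)], [(2, 1), (5, 1), (7, 1), (59, 1)], [(23, 1), (29, 1)],
  [(3, 1), (5, 1), (683, 1)], [(3, 1), (17, 1), (107, 1)], [(2, 2), (167, 1)],
  [(2, 1), (3, 4), (5, 1), (11, 1)], [(13, 1), (317, 1)], [(3, 1), (5, 1), (11, 1), (83, 1)],
  [(23, 1), (179, 1)], [(2, 1), (3, 1), (911, 1)], [(677, 1)], [(3, 2), (23, 1), (43, 1)],
  [(2, 4), (257, 1)], [(2, 2), (3, 1), (17, 1), (67, 1)], [(2, 1), (5, 1), (409, 1)],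
  [(2, 2), (5, 2), (7, 1)], [(2, 1), (3, 2), (571, 1)], [(3, 1), (5, 1), (911, 1)],
  [(61, 1), (67, 1)], [(2, 1), (3, 3), (11, 1), (23, 1)], [(2, 2), (1021, 1)], [(733, 1)],
  [(3, 1), (7, 1), (491, 1)], [(3, 1), (19, 1), (239, 1)], [(5, 1), (809, 1)],
  [(3, 3), (5, 1), (41, 1)], [(2, 1), (373, 1)], [(2, 7), (3, 1), (23, 1)], [(13, 1), (311, 1)],
  [(2, 1), (3, 1), (13, 1), (71, 1)], [(7, 1), (107, 1)], [(3, 4), (109, 1)],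
  [(2, 3), (5, 1), (101, 1)], [(751, 1)], [(3, 1), (11, 1), (313, 1)], [(3, 1), (43, 2)],
  [(2, 1), (379, 1)], [(2, 2), (3, 2), (5, 1), (7, 2)], [(29, 1), (139, 1)], [(7, 1), (109, 1)],
  [(3, 3), (383, 1)], [(2, 1), (3, 2), (5, 1), (151, 1)], [(2, 2), (17, 1), (59, 1)],
  [(2, 1), (389, 1)], [(2, 2), (3, 1), (863, 1)], [(3, 2), (11, 1), (137, 1)],
  [(5, 1), (797, 1)], [(2, 3), (101, 1)], [(2, 1), (3, 2), (577, 1)], [(3, 2), (7, 1), (89, 1)],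
  [(2, 1), (409, 1)], [(2, 3), (3, 1), (5, 1), (73, 1)], [(11, 1), (19, 2)], [(2, 1), (419, 1)],
  [(2, 4), (3, 1), (7, 1), (31, 1)], [(2, 2), (3, 1), (7, 1), (67, 1)], [(839, 1)],
  [(3, 2), (971, 1)], [(2, 1), (5, 2), (79, 1)], [(2, 3), (107, 1)],
  [(2, 1), (3, 1), (37, 1), (47, 1)], [(2, 2), (3, 2), (157, 1)], [(863, 1)],
  [(3, 1), (5, 1), (7, 1), (83, 1)], [(2, 1), (13, 1), (151, 1)], [(2, 1), (19, 1), (23, 1)],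
  [(2, 2), (3, 1), (13, 1), (67, 1)], [(2, 1), (443, 1)], [(2, 5), (3, 1), (109, 1)],
  [(2, 2), (223, 1)], [(2, 1), (3, 1), (5, 1), (349, 1)], [(2, 1), (3, 1), (13, 1), (73, 1)],
  [(5, 1), (181, 1)], [(3, 1), (7, 2), (59, 1)], [(2, 2), (971, 1)],
  [(2, 2), (3, 1), (5, 2), (19, 1)], [(911, 1)], [(3, 4), (107, 1)], [(2, 1), (7, 1), (277, 1)],
  [(3, 1), (11, 1), (173, 1)], [(2, 3), (5, 1), (23, 1)], [(2, 1), (3, 2), (13, 1), (37, 1)],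
  [(53, 1), (73, 1)], [(2, 2), (3, 2), (373, 1)], [(2, 1), (5, 2), (7, 1), (11, 1)],
  [(2, 3), (3, 1), (239, 1)], [(947, 1)], [(3, 2), (7, 1), (137, 1)],
  [(2, 1), (17, 1), (113, 1)], [(2, 1), (3, 2), (5, 1), (149, 1)], [(2, 3), (479, 1)],
  [(2, 1), (479, 1)], [(2, 3), (3, 1), (439, 1)], [(2, 2), (3, 1), (479, 1)], [(7, 1), (137, 1)],
  [(3, 1), (13, 2), (17, 1)], [(2, 1), (5, 1), (383, 1)], [(3, 4), (71, 1)],
  [(2, 1), (13, 1), (37, 1)], [(2, 3), (3, 1), (359, 1)], [(43, 1), (89, 1)], [(2, 2), (241, 1)],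
  [(2, 1), (3, 1), (7, 1), (251, 1)], [(2, 7), (3, 2), (5, 1)], [(971, 1)],
  [(3, 1), (19, 1), (151, 1)], [(2, 1), (23, 1), (83, 1)], [(3, 1), (5, 1), (19, 1), (47, 1)],
  [(11, 1), (347, 1)], [(991, 1)], [(3, 1), (13, 1), (271, 1)], [(2, 1), (3, 2), (743, 1)],
  [(2, 2), (13, 1), (73, 1)], [(2, 1), (3, 1), (5, 1), (193, 1)], [(7, 1), (11, 1), (13, 1)],
  [(3, 2), (953, 1)], [(2, 2), (947, 1)], [(3, 1), (61, 1), (73, 1)], [(19, 1), (199, 1)],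
  [(13, 1), (79, 1)], [(3, 1), (5, 1), (7, 1), (101, 1)], [(2, 1), (3, 1), (971, 1)],
  [(17, 1), (61, 1)], [(3, 2), (13, 1), (73, 1)], [(2, 3), (7, 1), (67, 1)], [(2, 1), (521, 1)],
  [(2, 2), (3, 2), (5, 1), (59, 1)], [(3, 1), (5, 1), (389, 1)], [(2, 1), (523, 1)],
  [(2, 2), (3, 3), (79, 1)], [(19, 1), (197, 1)], [(1069, 1)], [(3, 2), (7, 1), (13, 2)],
  [(2, 4), (3, 1), (277, 1)], [(2, 1), (11, 1), (13, 2)], [(23, 1), (47, 1)],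
  [(3, 1), (11, 1), (17, 1), (19, 1)], [(3, 1), (19, 1), (233, 1)], [(7, 1), (23, 2)],
  [(2, 1), (3, 2), (11, 1), (67, 1)], [(2, 3), (461, 1)], [(2, 1), (19, 1), (29, 1)],
  [(2, 3), (3, 1), (5, 1), (89, 1)], [(2, 2), (3, 1), (491, 1)], [(1103, 1)],
  [(3, 1), (5, 2), (113, 1)], [(2, 1), (19, 1), (97, 1)], [(3, 3), (491, 1)],
  [(13, 1), (283, 1)], [(2, 6), (3, 2), (23, 1)], [(2, 1), (5, 1), (367, 1)],
  [(3, 1), (5, 2), (79, 1)], [(2, 4), (71, 1)], [(2, 1), (3, 2), (7, 1), (67, 1)],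
  [(13, 1), (281, 1)], [(3, 2), (659, 1)], [(2, 1), (571, 1)],
  [(2, 2), (3, 1), (19, 1), (37, 1)], [(7, 1), (521, 1)], [(2, 1), (7, 1), (83, 1)],
  [(2, 2), (3, 1), (5, 1), (179, 1)], [(2, 4), (73, 1)], [(2, 1), (3, 3), (199, 1)],
  [(2, 1), (3, 2), (733, 1)], [(2, 5), (113, 1)], [(2, 1), (587, 1)], [(2, 9), (3, 1), (7, 1)],
  [(2, 2), (3, 1), (7, 1), (157, 1)], [(2, 1), (5, 1), (19, 2)], [(2, 1), (3, 1), (13, 3)],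
  [(2, 2), (17, 1), (53, 1)], [(3, 1), (23, 1), (191, 1)], [(13, 1), (277, 1)],
  [(5, 1), (239, 1)], [(3, 4), (7, 1), (19, 1)], [(2, 1), (3, 1), (5, 1), (439, 1)],
  [(2, 3), (449, 1)], [(2, 2), (3, 1), (499, 1)], [(11, 1), (109, 1)], [(3, 2), (7, 2), (19, 1)],
  [(2, 1), (5, 1), (359, 1)], [(3, 2), (7, 1), (11, 1), (19, 1)], [(37, 1), (97, 1)],
  [(2, 1), (5, 1), (11, 2)], [(2, 2), (3, 1), (29, 1), (31, 1)], [(23, 1), (53, 1)],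
  [(3, 1), (59, 1), (61, 1)], [(2, 1), (617, 1)], [(2, 2), (3, 1), (17, 1), (53, 1)],
  [(3, 1), (7, 2), (41, 1)], [(2, 1), (619, 1)]]

/-- factorisation table, part 3 -/
def tabB3 : List (List (Nat × Nat)) := [
  [(2, 2), (3, 1), (5, 1), (139, 1)], [(53, 1), (67, 1)], [(2, 3), (3, 1), (547, 1)],
  [(2, 1), (5, 2), (71, 1)], [(2, 1), (3, 8)], [(2, 3), (443, 1)], [(2, 2), (313, 1)],
  [(2, 1), (3, 1), (5, 1), (19, 2)], [(3, 1), (7, 1), (17, 2)], [(2, 8), (5, 1)],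
  [(2, 1), (3, 2), (461, 1)], [(11, 2), (29, 1)], [(2, 1), (647, 1)], [(2, 3), (3, 2), (151, 1)],
  [(3, 1), (19, 1), (229, 1)], [(5, 2), (139, 1)], [(3, 1), (5, 1), (11, 1), (37, 1)],
  [(2, 2), (7, 1), (47, 1)], [(2, 1), (3, 5), (17, 1)], [(23, 1), (151, 1)],
  [(2, 1), (3, 1), (41, 1), (53, 1)], [(2, 2), (5, 1), (173, 1)], [(2, 3), (167, 1)],
  [(2, 1), (3, 1), (17, 1), (107, 1)], [(2, 1), (3, 2), (11, 1), (31, 1)], [(19, 1), (71, 1)],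
  [(3, 1), (13, 1), (211, 1)], [(2, 4), (5, 1), (43, 1)], [(3, 1), (23, 1), (89, 1)],
  [(2, 3), (13, 2)], [(2, 1), (3, 2), (457, 1)], [(7, 1), (491, 1)], [(2, 1), (3, 3), (241, 1)],
  [(2, 2), (859, 1)], [(2, 1), (3, 1), (11, 1), (197, 1)], [(2, 5), (107, 1)],
  [(3, 1), (7, 1), (619, 1)], [(11, 1), (311, 1)], [(2, 2), (7, 3)],
  [(2, 1), (3, 1), (5, 2), (73, 1)], [(2, 1), (13, 1), (53, 1)],
  [(2, 2), (3, 1), (11, 1), (83, 1)], [(2, 1), (5, 1), (139, 1)], [(2, 3), (3, 1), (457, 1)],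
  [(3, 1), (29, 1), (149, 1)], [(5, 1), (677, 1)], [(2, 1), (3, 1), (17, 1), (127, 1)],
  [(2, 4), (211, 1)], [(3, 2), (5, 1), (7, 1), (41, 1)], [(47, 1), (71, 1)], [(2, 2), (373, 1)],
  [(2, 1), (3, 3), (5, 1), (41, 1)], [(3, 1), (7, 1), (613, 1)], [(5, 1), (659, 1)],
  [(3, 1), (5, 1), (419, 1)], [(2, 3), (11, 1), (17, 1)], [(2, 1), (3, 2), (449, 1)],
  [(37, 1), (89, 1)], [(3, 3), (233, 1)], [(2, 1), (751, 1)], [(2, 2), (3, 1), (673, 1)],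
  [(19, 1), (173, 1)], [(2, 2), (379, 1)], [(2, 1), (3, 1), (43, 2)], [(3, 3), (5, 2), (19, 1)],
  [(17, 1), (191, 1)], [(3, 3), (5, 1), (47, 1)], [(2, 2), (389, 1)],
  [(2, 1), (3, 1), (7, 1), (191, 1)], [(53, 1), (61, 1)],
  [(2, 1), (3, 1), (5, 1), (7, 1), (61, 1)], [(2, 5), (101, 1)], [(3, 1), (29, 1), (73, 1)],
  [(2, 1), (11, 1), (71, 1)], [(2, 4), (3, 1), (167, 1)], [(7, 1), (461, 1)], [(2, 1), (797, 1)],
  [(2, 2), (3, 1), (7, 2), (19, 1)], [(2, 1), (809, 1)], [(2, 2), (3, 2), (311, 1)],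
  [(2, 1), (3, 1), (1069, 1)], [(5, 3), (13, 1)], [(3, 1), (11, 1), (241, 1)],
  [(2, 2), (7, 1), (113, 1)], [(2, 2), (409, 1)], [(2, 1), (3, 2), (7, 1), (89, 1)],
  [(3, 4), (157, 1)], [(43, 1), (73, 1)], [(5, 2), (67, 1)], [(3, 1), (11, 2), (31, 1)],
  [(3, 1), (5, 1), (431, 1)], [(2, 2), (419, 1)], [(2, 1), (3, 2), (439, 1)],
  [(11, 1), (283, 1)], [(2, 2), (3, 1), (5, 1), (211, 1)], [(2, 1), (23, 1), (67, 1)],
  [(3, 3), (241, 1)], [(2, 1), (859, 1)], [(2, 2), (3, 1), (5, 1), (131, 1)], [(37, 1), (83, 1)],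
  [(2, 2), (3, 5), (13, 1)], [(2, 1), (11, 1), (139, 1)], [(2, 1), (11, 1), (79, 1)],
  [(2, 2), (3, 1), (23, 1), (41, 1)], [(2, 1), (5, 3), (7, 1)], [(2, 6), (3, 1), (59, 1)],
  [(2, 3), (3, 2), (7, 1), (13, 1)], [(41, 1), (43, 1)], [(3, 1), (5, 1), (521, 1)],
  [(2, 1), (17, 1), (89, 1)], [(2, 3), (13, 1), (17, 1)], [(2, 1), (3, 1), (31, 1), (61, 1)],
  [(7, 1), (11, 1), (23, 1)], [(3, 2), (13, 1), (97, 1)], [(2, 1), (3, 2), (5, 1), (73, 1)],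
  [(13, 1), (137, 1)], [(3, 1), (23, 1), (113, 1)], [(2, 6), (47, 1)],
  [(2, 1), (19, 1), (47, 1)], [(2, 2), (3, 1), (947, 1)], [(5, 1), (359, 1)],
  [(3, 1), (17, 1), (223, 1)], [(2, 1), (3, 1), (5, 1), (419, 1)], [(2, 4), (11, 1), (17, 1)],
  [(3, 1), (13, 3)], [(2, 1), (17, 1), (53, 1)], [(2, 5), (3, 5)], [(29, 1), (103, 1)],
  [(13, 1), (139, 1)], [(3, 2), (5, 1), (11, 1), (23, 1)], [(3, 4), (5, 1), (31, 1)],
  [(13, 1), (229, 1)], [(2, 1), (911, 1)], [(2, 3), (3, 1), (5, 2), (19, 1)],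
  [(2, 1), (7, 1), (131, 1)], [(2, 2), (3, 2), (317, 1)], [(2, 5), (3, 2), (23, 1)],
  [(5, 1), (367, 1)], [(3, 1), (29, 1), (89, 1)], [(2, 1), (7, 1), (211, 1)], [(19, 1), (97, 1)],
  [(3, 5), (47, 1)], [(3, 1), (11, 1), (379, 1)], [(29, 1), (101, 1)],
  [(3, 1), (23, 1), (181, 1)], [(41, 1), (71, 1)], [(3, 2), (743, 1)],
  [(2, 1), (13, 1), (73, 1)], [(2, 9), (3, 1), (5, 1)], [(7, 2), (59, 1)], [(11, 1), (173, 1)],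
  [(3, 1), (43, 1), (89, 1)], [(2, 1), (953, 1)], [(2, 2), (3, 2), (11, 1), (29, 1)],
  [(2, 1), (3, 1), (5, 2), (83, 1)], [(2, 3), (359, 1)], [(2, 1), (7, 1), (137, 1)],
  [(2, 3), (3, 1), (479, 1)], [(2, 2), (13, 1), (37, 1)], [(2, 1), (3, 4), (71, 1)],
  [(41, 1), (47, 1)], [(3, 1), (5, 1), (13, 1), (59, 1)], [(2, 1), (3, 1), (19, 1), (59, 1)],
  [(13, 1), (149, 1)], [(3, 3), (283, 1)], [(2, 2), (23, 1), (31, 1)], [(2, 1), (971, 1)],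
  [(2, 8), (3, 2), (5, 1)], [(2, 2), (3, 3), (5, 1), (23, 1)], [(2, 1), (7, 2), (29, 1)],
  [(2, 3), (3, 1), (11, 1), (47, 1)], [(2, 1), (5, 1), (283, 1)], [(2, 3), (5, 1), (7, 2)],
  [(2, 1), (3, 2), (641, 1)], [(3, 1), (5, 1), (827, 1)], [(11, 1), (257, 1)],
  [(2, 1), (3, 2), (13, 1), (53, 1)], [(2, 3), (353, 1)], [(2, 1), (23, 1), (43, 1)],
  [(2, 2), (3, 3), (107, 1)], [(2, 2), (499, 1)], [(2, 1), (3, 2), (643, 1)],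
  [(3, 2), (5, 1), (151, 1)], [(2, 1), (17, 1), (59, 1)], [(2, 2), (3, 1), (631, 1)],
  [(11, 2), (23, 1)], [(2, 1), (3, 1), (29, 1), (71, 1)], [(2, 3), (347, 1)], [(3, 3), (457, 1)],
  [(11, 1), (251, 1)], [(3, 3), (11, 1), (23, 1)], [(2, 1), (1021, 1)],
  [(2, 4), (3, 1), (157, 1)], [(41, 1), (67, 1)], [(2, 1), (3, 1), (17, 1), (67, 1)],
  [(5, 1), (409, 1)], [(3, 5), (31, 1)], [(2, 3), (7, 3)], [(29, 1), (71, 1)], [(3, 3), (431, 1)]]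

/-- factorisation table, part 4 -/
def tabB4 : List (List (Nat × Nat)) := [
  [(2, 1), (3, 2), (683, 1)], [(2, 2), (7, 1), (97, 1)], [(2, 4), (3, 1), (11, 1), (13, 1)],
  [(5, 2), (83, 1)], [(3, 1), (41, 1), (61, 1)], [(2, 1), (23, 1), (59, 1)],
  [(2, 1), (3, 1), (23, 1), (89, 1)], [(2, 4), (13, 2)], [(7, 2), (43, 1)],
  [(3, 1), (5, 1), (19, 1), (41, 1)], [(3, 3), (257, 1)], [(2, 1), (5, 2), (43, 1)],
  [(2, 2), (3, 1), (619, 1)], [(7, 1), (13, 1), (29, 1)], [(2, 3), (269, 1)],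
  [(2, 1), (3, 1), (5, 1), (17, 1), (23, 1)], [(3, 2), (23, 1), (59, 1)],
  [(5, 1), (17, 1), (31, 1)], [(3, 1), (7, 2), (83, 1)], [(43, 1), (61, 1)],
  [(2, 1), (3, 1), (19, 1), (107, 1)], [(2, 2), (5, 1), (131, 1)], [(3, 1), (11, 1), (211, 1)],
  [(2, 1), (1087, 1)], [(2, 2), (3, 1), (617, 1)], [(5, 1), (523, 1)],
  [(2, 1), (3, 2), (677, 1)], [(2, 4), (163, 1)], [(2, 3), (5, 2), (11, 1)],
  [(2, 1), (3, 1), (13, 1), (151, 1)], [(2, 1), (3, 5), (5, 2)], [(2, 2), (643, 1)],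
  [(3, 2), (19, 1), (41, 1)], [(2, 1), (11, 1), (101, 1)], [(2, 2), (3, 1), (613, 1)],
  [(17, 1), (151, 1)], [(2, 1), (3, 1), (7, 1), (167, 1)], [(5, 2), (89, 1)],
  [(3, 2), (19, 1), (43, 1)], [(2, 2), (641, 1)], [(2, 1), (3, 1), (43, 1), (47, 1)],
  [(2, 2), (7, 2), (13, 1)], [(2, 1), (19, 1), (59, 1)], [(2, 2), (3, 1), (5, 1), (197, 1)],
  [(3, 2), (5, 1), (269, 1)], [(7, 1), (19, 2)], [(2, 5), (71, 1)],
  [(2, 1), (3, 1), (5, 2), (79, 1)], [(2, 1), (17, 1), (67, 1)],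
  [(2, 4), (3, 1), (13, 1), (19, 1)], [(2, 2), (571, 1)], [(2, 1), (3, 2), (659, 1)],
  [(3, 1), (7, 1), (337, 1)], [(2, 4), (11, 1), (13, 1)], [(2, 1), (3, 6), (5, 1)],
  [(41, 1), (61, 1)], [(11, 2), (19, 1)], [(3, 1), (37, 1), (107, 1)],
  [(2, 2), (3, 2), (197, 1)], [(7, 2), (47, 1)], [(3, 1), (5, 2), (97, 1)],
  [(2, 1), (11, 1), (113, 1)], [(2, 2), (577, 1)], [(2, 1), (3, 1), (7, 1), (283, 1)],
  [(7, 1), (331, 1)], [(3, 1), (5, 1), (13, 1), (61, 1)], [(2, 1), (3, 2), (5, 1), (79, 1)],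
  [(11, 1), (211, 1)], [(3, 1), (41, 1), (59, 1)], [(2, 2), (617, 1)], [(3, 1), (5, 3), (19, 1)],
  [(2, 5), (73, 1)], [(2, 1), (3, 1), (17, 1), (71, 1)], [(11, 1), (223, 1)],
  [(2, 1), (5, 2), (47, 1)], [(2, 3), (3, 1), (7, 1), (71, 1)], [(2, 6), (37, 1)],
  [(2, 1), (3, 1), (11, 1), (181, 1)], [(2, 2), (3, 4), (37, 1)], [(2, 1), (5, 1), (241, 1)],
  [(3, 1), (5, 1), (17, 1), (47, 1)], [(29, 1), (83, 1)], [(3, 1), (13, 1), (307, 1)],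
  [(5, 1), (479, 1)]]

/-- factorisation table -/
def tabB : List (List (Nat × Nat)) :=
  tabB1 ++ (tabB2 ++ (tabB3 ++ (tabB4)))

end Vale.Agent.P268.Z
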