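import Vale.Agent.P268.Z.Cert
import Vale.Agent.P268.Z.A3Fac
import Vale.Agent.P268.Z.A3TabB

/-!
# P268, part A3: the exact product identity for the weights of denominator 4789
-/

namespace Vale.Agent.P268.Z

/-- numerators and denominators of the factors `1 / w - 1`, weights of denominator `4789` -/
def listB : List (ℕ × ℤ) :=
  certList.flatMap fun p =>
    if p.1 % 3 = 0 then [(14367 - p.1, p.2), (4789 - p.1, -p.2)]
    else if p.1 % 3 = 1 then [(p.1, p.2), (9578 + p.1, -p.2)]
    else [(4789 + p.1, p.2), (p.1, p.2), (9578 - p.1, -p.2), (4789 - p.1, -p.2)]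

theorem chkB : chk listB tabB = true := by decide +kernel

theorem zeroB : allZero (passes 11 (expand listB tabB)) = true := by decide +kernel

theorem pv_listB : pv nu listB = 1 := pv_eq_one listB tabB 11 chkB zeroB

end Vale.Agent.P268.Z
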