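import Vale.Agent.P268.Z.Seif
import Vale.Agent.P268.Z.Cert

/-!
# P268, part A: shared definitions (weights of a chain, spectral data, the signed weight list)
-/

namespace Vale.Agent.P268.Z

open Matrix

/-- the weights of a chain (last variable first) -/
def weights : List ℕ → List ℚ
  | [] => []
  | a :: c => (mu c : ℚ) / (a * c.prod) :: weights c

/-- Spectral data: a basis of `ℂ^ι` of common eigenvectors, orthogonal for the sesquilinear form,
compatible with complex conjugation. -/
structure SpecData {ι : Type} [Fintype ι] [DecidableEq ι] (g t : Matrix ι ι ℤ)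
    (X : Type) [Fintype X] [DecidableEq X] where
  /-- phase -/
  u : X → ℂ
  /-- eigenvalue -/
  lam : X → ℂ
  /-- complex conjugation -/
  bar : X → X
  /-- eigenvectors -/
  P : Matrix ι X ℂ
  /-- the inverse matrix -/
  Q : Matrix X ι ℂ
  hQP : Q * P = 1
  hPQ : P * Q = 1
  hg : Pᴴ * g.map (Int.cast : ℤ → ℂ) * P = diagonal u
  ht : t.map (Int.cast : ℤ → ℂ) * P = P * diagonal lam
  hbar : ∀ x, bar (bar x) = x
  hP : ∀ i x, P i (bar x) = star (P i x)
  hu : ∀ x, ‖u x‖ = 1

/-- The factor of the weight `w` in the trace of the `k`-th power of the monodromy. -/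
def psi (k : ℕ) (w : ℚ) : ℚ := if ((k : ℚ) * w).den = 1 then 1 / w - 1 else -1

/-- The weight `v / u` of the pair `(v, u)`. -/
def wt (p : ℕ × ℕ) : ℚ := (p.1 : ℚ) / (p.2 : ℚ)

/-- The signed list of weights `((v, u), n)` (weight `v / u` with coefficient `n`):
for every pair `(v, t)` of the certificate the relation
`+[v/3u] - [(u-v)/3u] - [(u+v)/3u] - [v/u]`, `u = 4789`, with coefficient `t`. -/
def wList : List ((ℕ × ℕ) × ℤ) :=
  certList.flatMap fun p =>
    [((p.1, 14367), p.2), ((4789 - p.1, 14367), -p.2), ((4789 + p.1, 14367), -p.2),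
      ((p.1, 4789), -p.2)]

end Vale.Agent.P268.Z
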