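import Mathlib
import Vale.Agent.P268.Z.ADefs

/-!
# P268, part A3: range and sum of the signed list of weights
-/

namespace Vale.Agent.P268.Z

theorem cert_range : ∀ p ∈ certList, 0 < p.1 ∧ 2 * p.1 < 4789 := by
  have h : (certList.all fun p => decide (0 < p.1 ∧ 2 * p.1 < 4789)) = true := by decide +kernel
  intro p hp
  rw [List.all_eq_true] at h
  exact of_decide_eq_true (h p hp)

/-- range of the weights of the certificate -/
theorem wList_range : ∀ p ∈ wList, 0 < p.1.1 ∧ 2 * p.1.1 < p.1.2 ∧ p.1.2 ∣ 14367 := by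
  intro p hp
  rw [wList, List.mem_flatMap] at hp
  obtain ⟨q, hq, hp⟩ := hp
  obtain ⟨h1, h2⟩ := cert_range q hq
  simp only [List.mem_cons, List.not_mem_nil, or_false] at hp
  rcases hp with h | h | h | h <;> subst h
  · exact ⟨h1, by dsimp only; omega, dvd_rfl⟩
  · exact ⟨by dsimp only; omega, by dsimp only; omega, dvd_rfl⟩
  · exact ⟨by dsimp only; omega, by dsimp only; omega, dvd_rfl⟩
  · exact ⟨h1, h2, (by decide : 4789 ∣ 14367)⟩

theorem wList_sum : 0 < (wList.map Prod.snd).sum := by decide +kernel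

end Vale.Agent.P268.Z
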