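import Mathlib
import Vale.Agent.P268.Z.ADefs
import Vale.Agent.P268.Z.A3Rng
import Vale.Agent.P268.Z.A3A
import Vale.Agent.P268.Z.A3B

/-!
# P268, part A3: the trace condition for the signed list of weights
-/

namespace Vale.Agent.P268.Z

theorem prime_4789 : Nat.Prime 4789 := by norm_num

theorem not_dvd_of_lt {a : ℕ} (h0 : 0 < a) (h : a < 4789) : ¬ 4789 ∣ a := fun hd =>
  absurd (Nat.le_of_dvd h0 hd) (by omega)

theorem psi_small (k a : ℕ) (ha : ¬ 4789 ∣ a) :
    psi k (wt (a, 4789)) = if 4789 ∣ k then (4789 - a : ℚ) / a else -1 := by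
  have e : (k : ℚ) * wt (a, 4789) = ((k * a : ℕ) : ℚ) / ((4789 : ℕ) : ℚ) := by
    rw [wt]; push_cast; ring
  have a0 : (a : ℚ) ≠ 0 := by
    intro h
    apply ha
    have : a = 0 := by exact_mod_cast h
    rw [this]; exact dvd_zero _
  have hd : ((k : ℚ) * wt (a, 4789)).den = 1 ↔ 4789 ∣ k := by
    rw [e, Rat.den_div_natCast_eq_one_iff _ _ (by norm_num), prime_4789.dvd_mul]
    tauto
  by_cases hk : 4789 ∣ k
  · rw [psi, if_pos (hd.2 hk), if_pos hk, wt]
    push_cast
    field_simp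
  · rw [psi, if_neg (fun h => hk (hd.1 h)), if_neg hk]

theorem psi_big (k a : ℕ) (ha : ¬ 4789 ∣ a) :
    psi k (wt (a, 14367)) =
      if 4789 ∣ k ∧ (3 ∣ k ∨ 3 ∣ a) then (14367 - a : ℚ) / a else -1 := by
  have e : (k : ℚ) * wt (a, 14367) = ((k * a : ℕ) : ℚ) / ((14367 : ℕ) : ℚ) := by
    rw [wt]; push_cast; ring
  have a0 : (a : ℚ) ≠ 0 := by
    intro h
    apply ha
    have : a = 0 := by exact_mod_cast h
    rw [this]; exact dvd_zero _
  have h1 : 14367 ∣ k * a ↔ 4789 ∣ k ∧ (3 ∣ k ∨ 3 ∣ a) := by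
    have h2 : 14367 ∣ k * a ↔ 4789 ∣ k * a ∧ 3 ∣ k * a := by
      constructor
      · intro h
        exact ⟨(by decide : 4789 ∣ 14367).trans h, (by decide : 3 ∣ 14367).trans h⟩
      · rintro ⟨h, h'⟩
        have := Nat.Coprime.mul_dvd_of_dvd_of_dvd (by norm_num : Nat.Coprime 4789 3) h h'
        simpa using this
    rw [h2, prime_4789.dvd_mul, Nat.prime_three.dvd_mul]
    tauto
  have hd : ((k : ℚ) * wt (a, 14367)).den = 1 ↔ 4789 ∣ k ∧ (3 ∣ k ∨ 3 ∣ a) := by
    rw [e, Rat.den_div_natCast_eq_one_iff _ _ (by norm_num), h1]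
  by_cases hk : 4789 ∣ k ∧ (3 ∣ k ∨ 3 ∣ a)
  · rw [psi, if_pos (hd.2 hk), if_pos hk, wt]
    push_cast
    field_simp
  · rw [psi, if_neg (fun h => hk (hd.1 h)), if_neg hk]

/-- The value of `wList` under a function, as a product over the certificate. -/
theorem wList_map_prod {M : Type*} [CommMonoid M] (F : (ℕ × ℕ) × ℤ → M) :
    (wList.map F).prod = (certList.map fun p =>
      F ((p.1, 14367), p.2) * (F ((4789 - p.1, 14367), -p.2) *
        (F ((4789 + p.1, 14367), -p.2) * F ((p.1, 4789), -p.2)))).prod := by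
  rw [wList]
  induction certList with
  | nil => simp
  | cons a l ih => 
    rw [List.flatMap_cons, List.map_append, List.prod_append, ih, List.map_cons, List.prod_cons]
    simp

theorem listA_map_prod :
    pv nu listA = (certList.map fun p =>
      nu (14367 - p.1) ^ p.2 * (nu (4789 + p.1) ^ p.2 *
        (nu (9578 + p.1) ^ (-p.2) * nu (9578 - p.1) ^ (-p.2)))).prod := by
  rw [listA]
  induction certList with
  | nil => simp
  | cons a l ih => 
    rw [List.flatMap_cons, pv_append, ih, List.map_cons, List.prod_cons]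
    simp

/-- the factor of `(v, t)` for the weights of denominator `4789` -/
noncomputable def facB (p : ℕ × ℤ) : ℚˣ :=
  if p.1 % 3 = 0 then nu (14367 - p.1) ^ p.2 * nu (4789 - p.1) ^ (-p.2)
  else if p.1 % 3 = 1 then nu p.1 ^ p.2 * nu (9578 + p.1) ^ (-p.2)
  else nu (4789 + p.1) ^ p.2 * (nu p.1 ^ p.2 *
    (nu (9578 - p.1) ^ (-p.2) * nu (4789 - p.1) ^ (-p.2)))

theorem listB_map_prod : pv nu listB = (certList.map facB).prod := by
  rw [listB]
  induction certList with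
  | nil => simp
  | cons a l ih => 
    rw [List.flatMap_cons, pv_append, ih, List.map_cons, List.prod_cons]
    congr 1
    rw [facB]
    split_ifs <;> simp

theorem coe_list_prod (l : List (ℕ × ℤ)) (F : ℕ × ℤ → ℚˣ) :
    (((l.map F).prod : ℚˣ) : ℚ) = (l.map fun p => (F p : ℚ)).prod := by
  induction l with
  | nil => simp
  | cons a l ih => simp [ih]

theorem list_prod_sq (l : List (ℕ × ℤ)) (F : ℕ × ℤ → ℚ) :
    (l.map F).prod ^ 2 = (l.map fun p => F p ^ 2).prod := by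
  induction l with
  | nil => simp
  | cons a l ih => simp [mul_pow, ih]

theorem neg_one_zpow_sq (n : ℤ) : ((-1 : ℚ) ^ n) ^ 2 = 1 := by
  rw [← zpow_natCast, ← zpow_mul, mul_comm, zpow_mul]
  norm_num

theorem zpow_sq_comm (x : ℚ) (n : ℤ) : (x ^ n) ^ 2 = (x ^ 2) ^ n := by
  rw [← zpow_natCast, ← zpow_natCast, ← zpow_mul, ← zpow_mul, mul_comm]

theorem psi_C (k : ℕ) (hk : ¬ 4789 ∣ k) :
    ((wList.map fun p => psi k (wt p.1) ^ p.2).prod) ^ 2 = 1 := by
  rw [wList_map_prod (fun p => psi k (wt p.1) ^ p.2), list_prod_sq]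
  apply List.prod_eq_one
  intro x hx
  rw [List.mem_map] at hx
  obtain ⟨p, hp, rfl⟩ := hx
  obtain ⟨h1, h2⟩ := cert_range p hp
  dsimp only
  rw [psi_big k p.1 (not_dvd_of_lt h1 (by omega)),
    psi_big k (4789 - p.1) (not_dvd_of_lt (by omega) (by omega)),
    psi_big k (4789 + p.1) (fun h => not_dvd_of_lt h1 (by omega)
      ((Nat.dvd_add_right (dvd_refl 4789)).1 h)),
    psi_small k p.1 (not_dvd_of_lt h1 (by omega))]
  rw [if_neg (by tauto), if_neg (by tauto), if_neg (by tauto), if_neg hk, mul_pow, mul_pow, mul_pow]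
  simp only [neg_one_zpow_sq, mul_one]

/-- the rational identity behind `E_14367 * E_4789` -/
theorem psi_A (k : ℕ) (hk : 4789 ∣ k) (h3 : 3 ∣ k) :
    (wList.map fun p => psi k (wt p.1) ^ p.2).prod = 1 := by
  have hA := congrArg (fun x : ℚˣ => (x : ℚ)) pv_listA
  simp only [Units.val_one] at hA
  rw [listA_map_prod, coe_list_prod] at hA
  rw [wList_map_prod (fun p => psi k (wt p.1) ^ p.2), ← hA]
  congr 1
  apply List.map_congr_left
  intro p hp
  obtain ⟨h1, h2⟩ := cert_range p hp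
  dsimp only
  rw [psi_big k p.1 (not_dvd_of_lt h1 (by omega)),
    psi_big k (4789 - p.1) (not_dvd_of_lt (by omega) (by omega)),
    psi_big k (4789 + p.1) (fun h => not_dvd_of_lt h1 (by omega)
      ((Nat.dvd_add_right (dvd_refl 4789)).1 h)),
    psi_small k p.1 (not_dvd_of_lt h1 (by omega)),
    if_pos ⟨hk, Or.inl h3⟩, if_pos ⟨hk, Or.inl h3⟩, if_pos ⟨hk, Or.inl h3⟩, if_pos hk]
  rw [Units.val_mul, Units.val_mul, Units.val_mul, Units.val_zpow_eq_zpow_val,
    Units.val_zpow_eq_zpow_val, Units.val_zpow_eq_zpow_val, Units.val_zpow_eq_zpow_val,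
    nu_val (by omega), nu_val (by omega), nu_val (by omega), nu_val (by omega)]
  simp only [zpow_neg, ← mul_zpow, ← inv_zpow]
  congr 1
  have e1 : ((14367 - p.1 : ℕ) : ℚ) = 14367 - p.1 := by
    rw [Nat.cast_sub (by omega)]; norm_num
  have e2 : ((4789 - p.1 : ℕ) : ℚ) = 4789 - p.1 := by
    rw [Nat.cast_sub (by omega)]; norm_num
  have e3 : ((9578 - p.1 : ℕ) : ℚ) = 9578 - p.1 := by
    rw [Nat.cast_sub (by omega)]; norm_num
  have e4 : ((4789 + p.1 : ℕ) : ℚ) = 4789 + p.1 := by push_cast; norm_num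
  have e5 : ((9578 + p.1 : ℕ) : ℚ) = 9578 + p.1 := by push_cast; norm_num
  rw [e1, e2, e3, e4, e5]
  have c1 : (0 : ℚ) < p.1 := by exact_mod_cast h1
  have c2 : 2 * (p.1 : ℚ) < 4789 := by exact_mod_cast h2
  have d1 : (4789 - p.1 : ℚ) ≠ 0 := by linarith
  have d2 : (4789 + p.1 : ℚ) ≠ 0 := by linarith
  have d3 : (9578 - p.1 : ℚ) ≠ 0 := by linarith
  have d4 : (9578 + p.1 : ℚ) ≠ 0 := by linarith
  have f1 : (14367 - (4789 - p.1) : ℚ) = 9578 + p.1 := by ring
  have f2 : (14367 - (4789 + p.1) : ℚ) = 9578 - p.1 := by ring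
  rw [f1, f2]
  field_simp

end Vale.Agent.P268.Z
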