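import Mathlib
import Vale.Agent.P268.Z.ADefs
import Vale.Agent.P268.Z.A3Rng
import Vale.Agent.P268.Z.A3Psi

/-!
# P268, part A3: the trace condition and the cotangent condition
-/

namespace Vale.Agent.P268.Z

theorem psi_B (k : ℕ) (hk : 4789 ∣ k) (h3 : ¬ 3 ∣ k) :
    ((wList.map fun p => psi k (wt p.1) ^ p.2).prod) ^ 2 = 1 := by
  have hB := congrArg (fun x : ℚˣ => (x : ℚ)) pv_listB
  simp only [Units.val_one] at hB
  rw [listB_map_prod, coe_list_prod] at hB
  have hB2 : (certList.map fun p => (facB p : ℚ)).prod ^ 2 = 1 := by rw [hB]; norm_num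
  rw [wList_map_prod (fun p => psi k (wt p.1) ^ p.2), ← hB2, list_prod_sq, list_prod_sq]
  congr 1
  apply List.map_congr_left
  intro p hp
  obtain ⟨h1, h2⟩ := cert_range p hp
  dsimp only
  rw [psi_big k p.1 (not_dvd_of_lt h1 (by omega)),
    psi_big k (4789 - p.1) (not_dvd_of_lt (by omega) (by omega)),
    psi_big k (4789 + p.1) (fun h => not_dvd_of_lt h1 (by omega)
      ((Nat.dvd_add_right (dvd_refl 4789)).1 h)),
    psi_small k p.1 (not_dvd_of_lt h1 (by omega)), if_pos hk]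
  have e0 : ((14367 - p.1 : ℕ) : ℚ) = 14367 - p.1 := by
    rw [Nat.cast_sub (by omega)]; norm_num
  have e2 : ((4789 - p.1 : ℕ) : ℚ) = 4789 - p.1 := by
    rw [Nat.cast_sub (by omega)]; norm_num
  have e3 : ((9578 - p.1 : ℕ) : ℚ) = 9578 - p.1 := by
    rw [Nat.cast_sub (by omega)]; norm_num
  have e4 : ((4789 + p.1 : ℕ) : ℚ) = 4789 + p.1 := by push_cast; norm_num
  have e5 : ((9578 + p.1 : ℕ) : ℚ) = 9578 + p.1 := by push_cast; norm_num
  have c1 : (0 : ℚ) < p.1 := by exact_mod_cast h1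
  have c2 : 2 * (p.1 : ℚ) < 4789 := by exact_mod_cast h2
  have d1 : (4789 - p.1 : ℚ) ≠ 0 := by linarith
  have d2 : (4789 + p.1 : ℚ) ≠ 0 := by linarith
  have d3 : (9578 - p.1 : ℚ) ≠ 0 := by linarith
  have d4 : (9578 + p.1 : ℚ) ≠ 0 := by linarith
  have f1 : (14367 - (4789 - p.1) : ℚ) = 9578 + p.1 := by ring
  have f2 : (14367 - (4789 + p.1) : ℚ) = 9578 - p.1 := by ring
  have hr : p.1 % 3 = 0 ∨ p.1 % 3 = 1 ∨ p.1 % 3 = 2 := by omega
  rcases hr with hr | hr | hr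
  · rw [if_pos ⟨hk, Or.inr (by omega)⟩, if_neg (by omega), if_neg (by omega), facB, if_pos hr]
    rw [Units.val_mul, Units.val_zpow_eq_zpow_val, Units.val_zpow_eq_zpow_val,
      nu_val (by omega), nu_val (by omega), e0, e2]
    simp only [mul_pow, neg_one_zpow_sq, one_mul]
    simp only [zpow_neg, ← mul_zpow, ← inv_zpow, zpow_sq_comm]
    congr 1
    field_simp
  · rw [if_neg (by omega), if_pos ⟨hk, Or.inr (by omega)⟩, if_neg (by omega), facB,
      if_neg (by omega), if_pos hr]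
    rw [Units.val_mul, Units.val_zpow_eq_zpow_val, Units.val_zpow_eq_zpow_val,
      nu_val (by omega), nu_val (by omega), e2, e5, f1]
    simp only [mul_pow, neg_one_zpow_sq, one_mul]
    simp only [zpow_neg, ← mul_zpow, ← inv_zpow, zpow_sq_comm]
    congr 1
    field_simp
  · rw [if_neg (by omega), if_neg (by omega), if_pos ⟨hk, Or.inr (by omega)⟩, facB,
      if_neg (by omega), if_neg (by omega)]
    rw [Units.val_mul, Units.val_mul, Units.val_mul, Units.val_zpow_eq_zpow_val,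
      Units.val_zpow_eq_zpow_val, Units.val_zpow_eq_zpow_val, Units.val_zpow_eq_zpow_val,
      nu_val (by omega), nu_val (by omega), nu_val (by omega), nu_val (by omega), e2, e3, e4, f2]
    simp only [mul_pow, neg_one_zpow_sq, one_mul]
    simp only [zpow_neg, ← mul_zpow, ← inv_zpow, zpow_sq_comm]
    congr 1
    field_simp

/-- the trace condition -/
theorem wList_psi (k : ℕ) :
    ((wList.map fun p => psi k (wt p.1) ^ p.2).prod) ^ 2 = 1 := by
  by_cases hk : 4789 ∣ k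
  · by_cases h3 : 3 ∣ k
    · rw [psi_A k hk h3, one_pow]
    · exact psi_B k hk h3
  · exact psi_C k hk

theorem cot_rel (x y : ℝ) (hA : Real.sin y ^ 2 = 1 / 4) (hB : Real.cos y ^ 2 = 3 / 4)
    (h6 : Real.sin (6 * x) ≠ 0) :
    Real.cot x * ((Real.cot (y - x))⁻¹ * ((Real.cot (y + x))⁻¹ * (Real.cot (3 * x))⁻¹)) = 1 := by
  have e6 : Real.sin (6 * x) = 2 * Real.sin (3 * x) * Real.cos (3 * x) := by
    rw [← Real.sin_two_mul]; ring_nf
  rw [e6] at h6
  have hs3 : Real.sin (3 * x) ≠ 0 := fun h => h6 (by rw [h]; ring)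
  have hc3 : Real.cos (3 * x) ≠ 0 := fun h => h6 (by rw [h]; ring)
  have es : Real.sin (3 * x) = Real.sin x * (3 * Real.cos x ^ 2 - Real.sin x ^ 2) := by
    rw [Real.sin_three_mul]
    have := Real.sin_sq_add_cos_sq x
    have : Real.cos x ^ 2 = 1 - Real.sin x ^ 2 := by linarith
    rw [this]; ring
  have ec : Real.cos (3 * x) = Real.cos x * (Real.cos x ^ 2 - 3 * Real.sin x ^ 2) := by
    rw [Real.cos_three_mul]
    have := Real.sin_sq_add_cos_sq x
    have : Real.sin x ^ 2 = 1 - Real.cos x ^ 2 := by linarith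
    rw [this]; ring
  have hs : Real.sin x ≠ 0 := fun h => hs3 (by rw [es, h, zero_mul])
  have hc : Real.cos x ≠ 0 := fun h => hc3 (by rw [ec, h, zero_mul])
  have hs' : 3 * Real.cos x ^ 2 - Real.sin x ^ 2 ≠ 0 := fun h => hs3 (by rw [es, h, mul_zero])
  have hc' : Real.cos x ^ 2 - 3 * Real.sin x ^ 2 ≠ 0 := fun h => hc3 (by rw [ec, h, mul_zero])
  have h1 : Real.cos (y - x) * Real.cos (y + x) =
      (3 * Real.cos x ^ 2 - Real.sin x ^ 2) / 4 := by
    rw [Real.cos_sub, Real.cos_add]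
    have : (Real.cos y * Real.cos x + Real.sin y * Real.sin x) *
        (Real.cos y * Real.cos x - Real.sin y * Real.sin x) =
        Real.cos y ^ 2 * Real.cos x ^ 2 - Real.sin y ^ 2 * Real.sin x ^ 2 := by ring
    rw [this, hA, hB]; ring
  have h2 : Real.sin (y - x) * Real.sin (y + x) =
      (Real.cos x ^ 2 - 3 * Real.sin x ^ 2) / 4 := by
    rw [Real.sin_sub, Real.sin_add]
    have : (Real.sin y * Real.cos x - Real.cos y * Real.sin x) *
        (Real.sin y * Real.cos x + Real.cos y * Real.sin x) =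
        Real.sin y ^ 2 * Real.cos x ^ 2 - Real.cos y ^ 2 * Real.sin x ^ 2 := by ring
    rw [this, hA, hB]; ring
  have h3 : Real.cot (y - x) * Real.cot (y + x) =
      (3 * Real.cos x ^ 2 - Real.sin x ^ 2) / (Real.cos x ^ 2 - 3 * Real.sin x ^ 2) := by
    rw [Real.cot_eq_cos_div_sin, Real.cot_eq_cos_div_sin, div_mul_div_comm, h1, h2]
    rw [div_div_div_cancel_right₀ (by norm_num)]
  rw [← mul_assoc (Real.cot (y - x))⁻¹, ← mul_inv, ← mul_inv, h3, Real.cot_eq_cos_div_sin,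
    Real.cot_eq_cos_div_sin, es, ec]
  generalize 3 * Real.cos x ^ 2 - Real.sin x ^ 2 = a at hs' ⊢
  generalize Real.cos x ^ 2 - 3 * Real.sin x ^ 2 = b at hc' ⊢
  field_simp

theorem sin_kappa (κ : ℕ) (h3 : ¬ 3 ∣ κ) (h2 : Odd κ) :
    Real.sin (Real.pi * κ / 6) ^ 2 = 1 / 4 ∧ Real.cos (Real.pi * κ / 6) ^ 2 = 3 / 4 := by
  have hc3 : Real.cos (3 * (Real.pi * κ / 6)) = 0 := by
    rw [Real.cos_eq_zero_iff]
    obtain ⟨m, hm⟩ := h2
    refine ⟨m, ?_⟩
    rw [hm]; push_cast; ring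
  have hc : Real.cos (Real.pi * κ / 6) ≠ 0 := by
    intro h
    rw [Real.cos_eq_zero_iff] at h
    obtain ⟨k, hk⟩ := h
    have h4 : (κ : ℝ) * Real.pi = (3 * (2 * k + 1) : ℝ) * Real.pi := by linarith
    have h5 : (κ : ℝ) = 3 * (2 * k + 1) := mul_right_cancel₀ Real.pi_ne_zero h4
    have h6 : (κ : ℤ) = 3 * (2 * k + 1) := by exact_mod_cast h5
    apply h3
    have : (3 : ℤ) ∣ (κ : ℤ) := ⟨_, h6⟩
    exact_mod_cast this
  rw [Real.cos_three_mul] at hc3
  have h7 : Real.cos (Real.pi * κ / 6) * (4 * Real.cos (Real.pi * κ / 6) ^ 2 - 3) = 0 := by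
    linarith
  have h8 : 4 * Real.cos (Real.pi * κ / 6) ^ 2 - 3 = 0 := by
    rcases mul_eq_zero.1 h7 with h | h
    · exact absurd h hc
    · exact h
  have h9 := Real.sin_sq_add_cos_sq (Real.pi * κ / 6)
  constructor <;> linarith

theorem sin_six (κ v : ℕ) (h : ¬ 4789 ∣ κ * v) :
    Real.sin (6 * (Real.pi * κ * v / (6 * 4789))) ≠ 0 := by
  intro h0
  rw [Real.sin_eq_zero_iff] at h0
  obtain ⟨n, hn⟩ := h0
  have h4 : ((κ * v : ℕ) : ℝ) * Real.pi = (4789 * n : ℝ) * Real.pi := by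
    push_cast; linarith
  have h5 := mul_right_cancel₀ Real.pi_ne_zero h4
  have h6 : ((κ * v : ℕ) : ℤ) = 4789 * n := by exact_mod_cast h5
  apply h
  have : (4789 : ℤ) ∣ ((κ * v : ℕ) : ℤ) := ⟨_, h6⟩
  exact_mod_cast this

/-- the signature condition -/
theorem wList_cot (κ : ℕ) (hκ : κ.Coprime 14367) (h2 : Odd κ) :
    ((wList.map fun p => Real.cot (Real.pi * κ * (wt p.1 : ℝ) / 2) ^ p.2).prod) ^ 2 = 1 := by
  have h3 : ¬ 3 ∣ κ := fun h => by
    have := Nat.dvd_gcd h (by decide : 3 ∣ 14367)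
    rw [hκ] at this
    omega
  have hu : ¬ 4789 ∣ κ := fun h => by
    have := Nat.dvd_gcd h (by decide : 4789 ∣ 14367)
    rw [hκ] at this
    omega
  obtain ⟨hA, hB⟩ := sin_kappa κ h3 h2
  rw [wList_map_prod (fun p => Real.cot (Real.pi * κ * (wt p.1 : ℝ) / 2) ^ p.2)]
  rw [List.prod_eq_one, one_pow]
  intro x hx
  rw [List.mem_map] at hx
  obtain ⟨p, hp, rfl⟩ := hx
  obtain ⟨h1, h2⟩ := cert_range p hp
  dsimp only
  have h6 := sin_six κ p.1 (fun h => by
    rcases prime_4789.dvd_mul.1 h with h | h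
    · exact hu h
    · exact not_dvd_of_lt h1 (by omega) h)
  have key := cot_rel _ _ hA hB h6
  have e2 : ((4789 - p.1 : ℕ) : ℝ) = 4789 - p.1 := by
    rw [Nat.cast_sub (by omega)]; norm_num
  have t1 : Real.pi * κ * (wt (p.1, 14367) : ℝ) / 2 = Real.pi * κ * p.1 / (6 * 4789) := by
    rw [wt]; push_cast; ring
  have t2 : Real.pi * κ * (wt (4789 - p.1, 14367) : ℝ) / 2 =
      Real.pi * κ / 6 - Real.pi * κ * p.1 / (6 * 4789) := by
    rw [wt]; push_cast [e2]; ring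
  have t3 : Real.pi * κ * (wt (4789 + p.1, 14367) : ℝ) / 2 =
      Real.pi * κ / 6 + Real.pi * κ * p.1 / (6 * 4789) := by
    rw [wt]; push_cast; ring
  have t4 : Real.pi * κ * (wt (p.1, 4789) : ℝ) / 2 = 3 * (Real.pi * κ * p.1 / (6 * 4789)) := by
    rw [wt]; push_cast; ring
  rw [t1, t2, t3, t4]
  simp only [zpow_neg, ← mul_zpow, ← inv_zpow]
  rw [key, one_zpow]

end Vale.Agent.P268.Z
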