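import Vale.Agent.P268.Z.ADefs

/-!
# P268, part A: interfaces A3 / A4 (statements only, NOT to be imported by the final file)
-/

namespace Vale.Agent.P268.Z

open Matrix

/-! ### A3 (helper5) -/

/-- range of the weights of the certificate -/
theorem wList_range : ∀ p ∈ wList, 0 < p.1.1 ∧ 2 * p.1.1 < p.1.2 ∧ p.1.2 ∣ 14367 := sorry

theorem wList_sum : 0 < (wList.map Prod.snd).sum := sorry

/-- the trace condition -/
theorem wList_psi (k : ℕ) :
    ((wList.map fun p => psi k (wt p.1) ^ p.2).prod) ^ 2 = 1 := sorry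

/-- the signature condition -/
theorem wList_cot (κ : ℕ) (hκ : κ.Coprime 14367) (h2 : Odd κ) :
    ((wList.map fun p => Real.cot (Real.pi * κ * (wt p.1 : ℝ) / 2) ^ p.2).prod) ^ 2 = 1 := sorry

/-! ### A4a (helper590): from the numerical conditions to the real isometry -/

theorem iso_of_num {D : ℕ} [NeZero D] (hD : Odd D) {a b : ℕ}
    (f : Fin a → List ℕ) (g : Fin b → List ℕ)
    (hf : ∀ i, ChainOK D (f i)) (hg : ∀ i, ChainOK D (g i))
    (hwf : ∀ i, ∀ w ∈ weights (f i), ∃ z : ℤ, (D : ℚ) * w = z)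
    (hwg : ∀ i, ∀ w ∈ weights (g i), ∃ z : ℤ, (D : ℚ) * w = z)
    (htr : ∀ k : ℕ, (∏ i, ((weights (f i)).map (psi k)).prod) ^ 2 =
      (∏ i, ((weights (g i)).map (psi k)).prod) ^ 2)
    (hsg : ∀ k : ℕ,
      ((∃ i q, f i = [q] ∧ q ∣ 2 * k + D) ∧ (∃ i q, g i = [q] ∧ q ∣ 2 * k + D)) ∨
      ((∀ i, ∀ w ∈ weights (f i), (((2 * k + D : ℕ) : ℚ) * w).den ≠ 1) ∧
        (∀ i, ∀ w ∈ weights (g i), (((2 * k + D : ℕ) : ℚ) * w).den ≠ 1) ∧
        (∏ i, ((weights (f i)).map fun w : ℚ =>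
            Real.cot (Real.pi * ((2 * k + D : ℕ) : ℝ) * (w : ℝ) / 2)).prod) ^ 2 =
          (∏ i, ((weights (g i)).map fun w : ℚ =>
            Real.cot (Real.pi * ((2 * k + D : ℕ) : ℝ) * (w : ℝ) / 2)).prod) ^ 2)) :
    GForm.Iso (((sumForm D hD f hf).mul (sumForm D hD f hf)).map (Int.castRingHom ℝ))
      (((sumForm D hD g hg).mul (sumForm D hD g hg)).map (Int.castRingHom ℝ)) := sorry

/-! ### A4b (helper262): Euclid chains and `partA` -/

end Vale.Agent.P268.Z
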