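import Vale.Agent.P268.Z.AIface
namespace Vale.Agent.P268.Z
open Matrix
theorem chainSeifert_det (c : List ℕ) : (chainSeifert c).det = 1 := sorry

theorem chain_order (D : ℕ) (c : List ℕ) (hc : c ≠ []) (h2 : ∀ a ∈ c, 2 ≤ a)
    (hw : ∀ w ∈ weights c, ∃ z : ℤ, (D : ℚ) * w = z) :
    (mono (sgn c) (chainSeifert c)) ^ D = 1 := sorry
end Vale.Agent.P268.Z
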