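import Vale.Agent.P268.Z.ApiRep

/-!
# P268: API of `GForm` (helper603)
-/

namespace Vale.Agent.P268.Z

open Matrix

namespace GForm

section Basic

variable {R : Type} [CommRing R] {S : Type} [CommRing S] {G : Type} [CommGroup G]
  {H : Type} [CommGroup H] {e e' e₁ e₂ e₃ e₄ : ℤˣ} {ι κ ν μ : Type} [Fintype ι] [DecidableEq ι]
  [Fintype κ] [DecidableEq κ] [Fintype ν] [DecidableEq ν] [Fintype μ] [DecidableEq μ]

theorem add_g (A : GForm R G e ι) (B : GForm R G e κ) :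
    (A.add B).g = fromBlocks A.g 0 0 B.g := rfl

theorem add_ρ (A : GForm R G e ι) (B : GForm R G e κ) :
    (A.add B).ρ = repSum A.ρ B.ρ := rfl

theorem mul_g (A : GForm R G e ι) (B : GForm R G e' κ) :
    (A.mul B).g = kroneckerMap (· * ·) A.g B.g := rfl

theorem mul_ρ (A : GForm R G e ι) (B : GForm R G e' κ) :
    (A.mul B).ρ = repTensor A.ρ B.ρ := rfl

theorem comap_g (φ : H →* G) (A : GForm R G e ι) : (A.comap φ).g = A.g := rfl

theorem comap_ρ (φ : H →* G) (A : GForm R G e ι) : (A.comap φ).ρ = A.ρ.comp φ := rfl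

theorem ext_g (A : GForm R G e ι) (B : GForm R H e' κ) :
    (A.ext B).g = kroneckerMap (· * ·) A.g B.g := rfl

theorem ext_ρ (A : GForm R G e ι) (B : GForm R H e' κ) :
    (A.ext B).ρ = repExt A.ρ B.ρ := rfl

theorem map_g (f : R →+* S) (A : GForm R G e ι) : (A.map f).g = A.g.map f := rfl

theorem map_ρ (f : R →+* S) (A : GForm R G e ι) : (A.map f).ρ = repMap f A.ρ := rfl

theorem hyp_g (ρ : G →* Matrix ι ι R) :
    (hyp e ρ).g = fromBlocks 0 1 (((e : ℤ) : R) • 1) 0 := rfl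

theorem hyp_ρ (ρ : G →* Matrix ι ι R) : (hyp e ρ).ρ = repSum ρ (repDual ρ) := rfl

theorem bar_g (A : GForm R G e ι) : A.bar.g = A.g := rfl

theorem bar_ρ (A : GForm R G e ι) : A.bar.ρ = repBar A.ρ := rfl

theorem neg_g (A : GForm R G e ι) : A.neg.g = -A.g := rfl

theorem neg_ρ (A : GForm R G e ι) : A.neg.ρ = A.ρ := rfl

theorem repExt_apply (ρ : G →* Matrix ι ι R) (σ : H →* Matrix κ κ R) (a : G × H) :
    repExt ρ σ a = kroneckerMap (· * ·) (ρ a.1) (σ a.2) := rfl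

attribute [local simp] add_g add_ρ mul_g mul_ρ comap_g comap_ρ ext_g ext_ρ map_g map_ρ hyp_g
  hyp_ρ bar_g bar_ρ neg_g neg_ρ repExt_apply

private theorem sign_sq_aux (e : ℤˣ) : (((e : ℤ) : R)) * ((e : ℤ) : R) = 1 := by
  rw [← Int.cast_mul, ← Units.val_mul, Int.units_mul_self]
  simp

/-- `g ρ(a) = ρ(a⁻¹)ᵀ g`. -/
theorem g_mul_ρ (A : GForm R G e ι) (a : G) : A.g * A.ρ a = (A.ρ a⁻¹)ᵀ * A.g := by
  have h := A.inv a
  have h1 : (A.ρ a⁻¹)ᵀ * (A.ρ a)ᵀ = 1 := by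
    rw [← transpose_mul, ← map_mul]
    simp
  calc A.g * A.ρ a = ((A.ρ a⁻¹)ᵀ * (A.ρ a)ᵀ) * A.g * A.ρ a := by rw [h1, Matrix.one_mul]
    _ = (A.ρ a⁻¹)ᵀ * ((A.ρ a)ᵀ * A.g * A.ρ a) := by simp only [Matrix.mul_assoc]
    _ = (A.ρ a⁻¹)ᵀ * A.g := by rw [h]

theorem Iso.refl (A : GForm R G e ι) : A.Iso A := ⟨1, 1, by simp, by simp, by simp, by simp⟩

theorem Iso.symm {A : GForm R G e ι} {B : GForm R G e' κ} (h : A.Iso B) : B.Iso A := by
  obtain ⟨P, Q, h1, h2, h3, h4⟩ := h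
  refine ⟨Q, P, h2, h1, ?_, fun a => ?_⟩
  · have h5 : Qᵀ * Pᵀ = 1 := by rw [← transpose_mul, h2, transpose_one]
    calc Qᵀ * A.g * Q = Qᵀ * (Pᵀ * B.g * P) * Q := by rw [h3]
      _ = (Qᵀ * Pᵀ) * B.g * (P * Q) := by simp only [Matrix.mul_assoc]
      _ = B.g := by rw [h5, h2, Matrix.one_mul, Matrix.mul_one]
  · calc Q * B.ρ a = Q * B.ρ a * (P * Q) := by rw [h2, Matrix.mul_one]
      _ = Q * (B.ρ a * P) * Q := by simp only [Matrix.mul_assoc]
      _ = Q * (P * A.ρ a) * Q := by rw [h4]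
      _ = (Q * P) * A.ρ a * Q := by simp only [Matrix.mul_assoc]
      _ = A.ρ a * Q := by rw [h1, Matrix.one_mul]

theorem Iso.trans {A : GForm R G e₁ ι} {B : GForm R G e₂ κ} {C : GForm R G e₃ ν}
    (h : A.Iso B) (h' : B.Iso C) : A.Iso C := by
  obtain ⟨P, Q, h1, h2, h3, h4⟩ := h
  obtain ⟨P', Q', h1', h2', h3', h4'⟩ := h'
  refine ⟨P' * P, Q * Q', ?_, ?_, ?_, fun a => ?_⟩
  · calc Q * Q' * (P' * P) = Q * (Q' * P') * P := by simp only [Matrix.mul_assoc]
      _ = 1 := by rw [h1', Matrix.mul_one, h1]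
  · calc P' * P * (Q * Q') = P' * (P * Q) * Q' := by simp only [Matrix.mul_assoc]
      _ = 1 := by rw [h2, Matrix.mul_one, h2']
  · calc (P' * P)ᵀ * C.g * (P' * P) = Pᵀ * (P'ᵀ * C.g * P') * P := by
          simp only [transpose_mul, Matrix.mul_assoc]
      _ = A.g := by rw [h3', h3]
  · rw [Matrix.mul_assoc, h4, ← Matrix.mul_assoc, h4', Matrix.mul_assoc]

theorem Iso.rep {A : GForm R G e ι} {B : GForm R G e' κ} (h : A.Iso B) : RepIso A.ρ B.ρ := by
  obtain ⟨P, Q, h1, h2, _, h4⟩ := h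
  exact ⟨P, Q, h1, h2, h4⟩

theorem Iso.of_equiv {A : GForm R G e ι} {B : GForm R G e' κ} (f : ι ≃ κ)
    (hg : ∀ i j, A.g i j = B.g (f i) (f j)) (hρ : ∀ a i j, A.ρ a i j = B.ρ a (f i) (f j)) :
    A.Iso B := by
  refine ⟨(1 : Matrix κ κ R).submatrix id f, (1 : Matrix κ κ R).submatrix f id, ?_, ?_, ?_,
    fun a => ?_⟩
  · have h0 : (1 : Matrix κ κ R).submatrix f id * (1 : Matrix κ κ R).submatrix id f =
        ((1 : Matrix κ κ R) * 1).submatrix f f :=
      Matrix.submatrix_mul_equiv 1 1 f (Equiv.refl κ) f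
    rw [h0, Matrix.one_mul, submatrix_one_equiv]
  · rw [Matrix.submatrix_mul_equiv, Matrix.one_mul, submatrix_id_id]
  · have h1 : A.g = B.g.submatrix f f := by
      ext i j
      exact hg i j
    have h2 : ((1 : Matrix κ κ R).submatrix id f)ᵀ * B.g = (1 * B.g).submatrix f id := by
      rw [transpose_submatrix, transpose_one]
      exact Matrix.submatrix_mul_equiv 1 B.g f (Equiv.refl κ) id
    have h3 : (B.g.submatrix f id) * (1 : Matrix κ κ R).submatrix id f =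
        (B.g * 1).submatrix f f :=
      Matrix.submatrix_mul_equiv B.g 1 f (Equiv.refl κ) f
    rw [h2, Matrix.one_mul, h3, Matrix.mul_one, h1]
  · have h1 : A.ρ a = (B.ρ a).submatrix f f := by
      ext i j
      exact hρ a i j
    have h2 : B.ρ a * (1 : Matrix κ κ R).submatrix id f = (B.ρ a * 1).submatrix id f :=
      Matrix.submatrix_mul_equiv (B.ρ a) 1 id (Equiv.refl κ) f
    rw [h1, Matrix.submatrix_mul_equiv, Matrix.one_mul, h2, Matrix.mul_one]

/-- Forms with the same matrices are isometric. -/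
theorem Iso.of_eq {A : GForm R G e ι} {B : GForm R G e' ι} (hg : A.g = B.g) (hρ : A.ρ = B.ρ) :
    A.Iso B := ⟨1, 1, by simp, by simp, by simp [hg], by simp [hρ]⟩

theorem Iso.add {A : GForm R G e ι} {B : GForm R G e' κ} {C : GForm R G e ν}
    {D : GForm R G e' μ} (h : A.Iso B) (h' : C.Iso D) : (A.add C).Iso (B.add D) := by
  obtain ⟨P, Q, h1, h2, h3, h4⟩ := h
  obtain ⟨P', Q', h1', h2', h3', h4'⟩ := h'
  refine ⟨fromBlocks P 0 0 P', fromBlocks Q 0 0 Q', ?_, ?_, ?_, fun a => ?_⟩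
  · simp [fromBlocks_multiply, h1, h1', fromBlocks_one]
  · simp [fromBlocks_multiply, h2, h2', fromBlocks_one]
  · simp [fromBlocks_transpose, fromBlocks_multiply, h3, h3']
  · simp [fromBlocks_multiply, h4, h4']

theorem Iso.mul {A : GForm R G e₁ ι} {B : GForm R G e₂ κ} {C : GForm R G e₃ ν}
    {D : GForm R G e₄ μ} (h : A.Iso B) (h' : C.Iso D) : (A.mul C).Iso (B.mul D) := by
  obtain ⟨P, Q, h1, h2, h3, h4⟩ := h
  obtain ⟨P', Q', h1', h2', h3', h4'⟩ := h'
  refine ⟨kroneckerMap (· * ·) P P', kroneckerMap (· * ·) Q Q', ?_, ?_, ?_, fun a => ?_⟩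
  · rw [← Matrix.mul_kronecker_mul, h1, h1']; simp
  · rw [← Matrix.mul_kronecker_mul, h2, h2']; simp
  · rw [← kroneckerMap_transpose, mul_g, mul_g, ← Matrix.mul_kronecker_mul,
      ← Matrix.mul_kronecker_mul, h3, h3']
  · rw [mul_ρ, mul_ρ, repTensor_apply, repTensor_apply, ← Matrix.mul_kronecker_mul,
      ← Matrix.mul_kronecker_mul, h4, h4']

theorem Iso.comap (φ : H →* G) {A : GForm R G e ι} {B : GForm R G e' κ} (h : A.Iso B) :
    (A.comap φ).Iso (B.comap φ) := by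
  obtain ⟨P, Q, h1, h2, h3, h4⟩ := h
  exact ⟨P, Q, h1, h2, h3, fun a => h4 (φ a)⟩

theorem Iso.ext {A : GForm R G e₁ ι} {B : GForm R G e₂ κ} {C : GForm R H e₃ ν}
    {D : GForm R H e₄ μ} (h : A.Iso B) (h' : C.Iso D) : (A.ext C).Iso (B.ext D) :=
  (h.comap _).mul (h'.comap _)

theorem Iso.bar {A : GForm R G e ι} {B : GForm R G e' κ} (h : A.Iso B) : A.bar.Iso B.bar :=
  h.comap _

theorem Iso.neg {A : GForm R G e ι} {B : GForm R G e' κ} (h : A.Iso B) : A.neg.Iso B.neg := by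
  obtain ⟨P, Q, h1, h2, h3, h4⟩ := h
  exact ⟨P, Q, h1, h2, by rw [neg_g, neg_g, Matrix.mul_neg, Matrix.neg_mul, h3], h4⟩

theorem Iso.map (f : R →+* S) {A : GForm R G e ι} {B : GForm R G e' κ} (h : A.Iso B) :
    (A.map f).Iso (B.map f) := by
  obtain ⟨P, Q, h1, h2, h3, h4⟩ := h
  refine ⟨P.map f, Q.map f, ?_, ?_, ?_, fun a => ?_⟩
  · rw [← Matrix.map_mul, h1]; simp
  · rw [← Matrix.map_mul, h2]; simp
  · rw [map_g, map_g, ← transpose_map, ← Matrix.map_mul, ← Matrix.map_mul, h3]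
  · rw [map_ρ, map_ρ, repMap_apply, repMap_apply, ← Matrix.map_mul, ← Matrix.map_mul, h4]

theorem Iso.pow {A : GForm R G e ι} {B : GForm R G e' κ} (h : A.Iso B) :
    (GForm.pow ν A).Iso (GForm.pow ν B) := by
  obtain ⟨P, Q, h1, h2, h3, h4⟩ := h
  refine ⟨piMat fun _ => P, piMat fun _ => Q, ?_, ?_, ?_, fun a => ?_⟩
  · rw [← piMat_mul, h1, piMat_one]
  · rw [← piMat_mul, h2, piMat_one]
  · change (piMat fun _ => P)ᵀ * (piMat fun _ => B.g) * (piMat fun _ => P) = piMat fun _ => A.g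
    rw [piMat_transpose, ← piMat_mul, ← piMat_mul, h3]
  · change (piMat fun _ => P) * (piMat fun _ => A.ρ a) = (piMat fun _ => B.ρ a) * piMat fun _ => P
    rw [← piMat_mul, ← piMat_mul, h4]

theorem add_comm (A : GForm R G e ι) (B : GForm R G e κ) : (A.add B).Iso (B.add A) := by
  refine Iso.of_equiv (Equiv.sumComm ι κ) ?_ ?_
  · rintro (i | i) (j | j) <;> simp
  · rintro a (i | i) (j | j) <;> simp

theorem add_assoc (A : GForm R G e ι) (B : GForm R G e κ) (C : GForm R G e ν) :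
    ((A.add B).add C).Iso (A.add (B.add C)) := by
  refine Iso.of_equiv (Equiv.sumAssoc ι κ ν) ?_ ?_
  · rintro ((i | i) | i) ((j | j) | j) <;> simp
  · rintro a ((i | i) | i) ((j | j) | j) <;> simp

theorem mul_comm (A : GForm R G e ι) (B : GForm R G e' κ) : (A.mul B).Iso (B.mul A) := by
  refine Iso.of_equiv (Equiv.prodComm ι κ) ?_ ?_
  · rintro ⟨i, i'⟩ ⟨j, j'⟩
    simp [_root_.mul_comm]
  · rintro a ⟨i, i'⟩ ⟨j, j'⟩
    simp [_root_.mul_comm]

theorem mul_assoc (A : GForm R G e₁ ι) (B : GForm R G e₂ κ) (C : GForm R G e₃ ν) :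
    ((A.mul B).mul C).Iso (A.mul (B.mul C)) := by
  refine Iso.of_equiv (Equiv.prodAssoc ι κ ν) ?_ ?_
  · rintro ⟨⟨i, i'⟩, i''⟩ ⟨⟨j, j'⟩, j''⟩
    simp [_root_.mul_assoc]
  · rintro a ⟨⟨i, i'⟩, i''⟩ ⟨⟨j, j'⟩, j''⟩
    simp [_root_.mul_assoc]

theorem mul_add (A : GForm R G e ι) (B : GForm R G e' κ) (C : GForm R G e' ν) :
    (A.mul (B.add C)).Iso ((A.mul B).add (A.mul C)) := by
  refine Iso.of_equiv (Equiv.prodSumDistrib ι κ ν) ?_ ?_
  · rintro ⟨i, i' | i'⟩ ⟨j, j' | j'⟩ <;> simp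
  · rintro a ⟨i, i' | i'⟩ ⟨j, j' | j'⟩ <;> simp

theorem add_mul (A : GForm R G e' ι) (B : GForm R G e' κ) (C : GForm R G e ν) :
    ((A.add B).mul C).Iso ((A.mul C).add (B.mul C)) := by
  refine Iso.of_equiv (Equiv.sumProdDistrib ι κ ν) ?_ ?_
  · rintro ⟨i | i, i'⟩ ⟨j | j, j'⟩ <;> simp
  · rintro a ⟨i | i, i'⟩ ⟨j | j, j'⟩ <;> simp

/-- `(A ⊠ E) ⊗ (X ∘ fst) ≅ (A ⊗ X) ⊠ E`. -/
theorem ext_mul (A : GForm R G e₁ ι) (E : GForm R H e₂ κ) (X : GForm R G e₃ ν) :
    ((A.ext E).mul (X.comap (MonoidHom.fst G H))).Iso ((A.mul X).ext E) := by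
  refine Iso.of_equiv ⟨fun x => ((x.1.1, x.2), x.1.2), fun x => ((x.1.1, x.2), x.1.2),
    fun _ => rfl, fun _ => rfl⟩ ?_ ?_
  · rintro ⟨⟨i, i'⟩, i''⟩ ⟨⟨j, j'⟩, j''⟩
    simp only [mul_g, ext_g, comap_g, kroneckerMap_apply, Equiv.coe_fn_mk]
    ring
  · rintro a ⟨⟨i, i'⟩, i''⟩ ⟨⟨j, j'⟩, j''⟩
    simp only [mul_ρ, ext_ρ, comap_ρ, repTensor_apply, repExt_apply, MonoidHom.coe_comp,
      Function.comp_apply, MonoidHom.coe_fst, kroneckerMap_apply, Equiv.coe_fn_mk]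
    ring

theorem pow_mul (A : GForm R G e ι) : (GForm.pow (ν ⊕ μ) A).Iso
    ((GForm.pow ν A).mul (GForm.pow μ A)) := by
  refine Iso.of_equiv (Equiv.sumArrowEquivProdArrow ν μ ι) ?_ ?_
  · intro x y
    exact Fintype.prod_sum_type fun k => A.g (x k) (y k)
  · intro a x y
    exact Fintype.prod_sum_type fun k => A.ρ a (x k) (y k)

theorem pow_unit (A : GForm R G e ι) : (GForm.pow Unit A).Iso A := by
  refine Iso.of_equiv (Equiv.funUnique Unit ι) ?_ ?_
  · intro x y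
    exact Fintype.prod_unique fun k => A.g (x k) (y k)
  · intro a x y
    exact Fintype.prod_unique fun k => A.ρ a (x k) (y k)

theorem pow_pow (A : GForm R G e ι) : (GForm.pow (ν × μ) A).Iso
    (GForm.pow ν (GForm.pow μ A)) := by
  refine Iso.of_equiv (Equiv.curry ν μ ι) ?_ ?_
  · intro x y
    exact Fintype.prod_prod_type fun k => A.g (x k) (y k)
  · intro a x y
    exact Fintype.prod_prod_type fun k => A.ρ a (x k) (y k)

theorem pow_congr_idx (f : ν ≃ μ) (A : GForm R G e ι) :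
    (GForm.pow ν A).Iso (GForm.pow μ A) := by
  refine Iso.of_equiv (Equiv.arrowCongr f (Equiv.refl ι)) ?_ ?_
  · intro x y
    change ∏ k, A.g (x k) (y k) = ∏ k, A.g (x (f.symm k)) (y (f.symm k))
    exact (Equiv.prod_comp f.symm fun k => A.g (x k) (y k)).symm
  · intro a x y
    change ∏ k, A.ρ a (x k) (y k) = ∏ k, A.ρ a (x (f.symm k)) (y (f.symm k))
    exact (Equiv.prod_comp f.symm fun k => A.ρ a (x k) (y k)).symm

theorem map_add (f : R →+* S) (A : GForm R G e ι) (B : GForm R G e κ) :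
    ((A.add B).map f).Iso ((A.map f).add (B.map f)) :=
  Iso.of_eq (by simp [fromBlocks_map]) (repMap_repSum f A.ρ B.ρ)

theorem map_mul (f : R →+* S) (A : GForm R G e ι) (B : GForm R G e' κ) :
    ((A.mul B).map f).Iso ((A.map f).mul (B.map f)) := by
  refine Iso.of_eq ?_ (repMap_repTensor f A.ρ B.ρ)
  ext ⟨i, i'⟩ ⟨j, j'⟩
  simp

theorem map_ext (f : R →+* S) (A : GForm R G e ι) (B : GForm R H e' κ) :
    ((A.ext B).map f).Iso ((A.map f).ext (B.map f)) :=
  map_mul f (A.comap _) (B.comap _)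

theorem map_pow (f : R →+* S) (A : GForm R G e ι) :
    ((GForm.pow ν A).map f).Iso (GForm.pow ν (A.map f)) := by
  refine Iso.of_eq ?_ ?_
  · ext x y
    change f (∏ k, A.g (x k) (y k)) = ∏ k, f (A.g (x k) (y k))
    rw [map_prod]
  · ext a x y
    change f (∏ k, A.ρ a (x k) (y k)) = ∏ k, f (A.ρ a (x k) (y k))
    rw [map_prod]

theorem map_hyp (f : R →+* S) (ρ : G →* Matrix ι ι R) :
    ((hyp e ρ).map f).Iso (hyp e (repMap f ρ)) := by
  refine Iso.of_eq ?_ ?_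
  · ext (i | i) (j | j)
    · simp
    · simp [Matrix.one_apply, apply_ite f]
    · simp [Matrix.one_apply, apply_ite f]
    · simp
  · rw [map_ρ, hyp_ρ, hyp_ρ, repMap_repSum, repMap_dual]

theorem hyp_congr {ρ : G →* Matrix ι ι R} {σ : G →* Matrix κ κ R} (h : RepIso ρ σ) :
    (hyp e ρ).Iso (hyp e σ) := by
  obtain ⟨P', Q', h1', h2', h3'⟩ := h
  refine ⟨fromBlocks P' 0 0 Q'ᵀ, fromBlocks Q' 0 0 P'ᵀ, ?_, ?_, ?_, fun a => ?_⟩
  · rw [fromBlocks_multiply]
    simp only [Matrix.mul_zero, Matrix.zero_mul, add_zero, zero_add, h1']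
    rw [← transpose_mul, h1', transpose_one, fromBlocks_one]
  · rw [fromBlocks_multiply]
    simp only [Matrix.mul_zero, Matrix.zero_mul, add_zero, zero_add, h2']
    rw [← transpose_mul, h2', transpose_one, fromBlocks_one]
  · rw [hyp_g, hyp_g, fromBlocks_transpose, fromBlocks_multiply, fromBlocks_multiply]
    simp only [Matrix.mul_zero, Matrix.zero_mul, add_zero, zero_add, transpose_zero,
      transpose_transpose, Matrix.mul_one, Matrix.mul_smul, Matrix.smul_mul, h1', smul_zero]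
    rw [← transpose_mul, h1', transpose_one]
  · have h5 : ρ a⁻¹ * Q' = Q' * σ a⁻¹ := by
      calc ρ a⁻¹ * Q' = (Q' * P') * ρ a⁻¹ * Q' := by rw [h1', Matrix.one_mul]
        _ = Q' * (P' * ρ a⁻¹) * Q' := by simp only [Matrix.mul_assoc]
        _ = Q' * (σ a⁻¹ * P') * Q' := by rw [h3']
        _ = Q' * σ a⁻¹ * (P' * Q') := by simp only [Matrix.mul_assoc]
        _ = Q' * σ a⁻¹ := by rw [h2', Matrix.mul_one]
    rw [hyp_ρ, hyp_ρ, repSum_apply, repSum_apply, repDual_apply, repDual_apply,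
      fromBlocks_multiply, fromBlocks_multiply]
    simp only [Matrix.mul_zero, Matrix.zero_mul, add_zero, zero_add, h3']
    rw [← transpose_mul, ← transpose_mul, h5]

theorem hyp_sum (ρ : G →* Matrix ι ι R) (σ : G →* Matrix κ κ R) :
    (hyp e (repSum ρ σ)).Iso ((hyp e ρ).add (hyp e σ)) := by
  refine Iso.of_equiv (Equiv.sumSumSumComm ι κ ι κ) ?_ ?_
  · rintro ((i | i) | (i | i)) ((j | j) | (j | j)) <;>
      simp [Equiv.sumSumSumComm, Matrix.one_apply]
  · rintro a ((i | i) | (i | i)) ((j | j) | (j | j)) <;>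
      simp [Equiv.sumSumSumComm]

theorem hyp_dual (ρ : G →* Matrix ι ι R) : (hyp e (repDual ρ)).Iso (hyp e ρ) := by
  refine ⟨fromBlocks 0 (((e : ℤ) : R) • 1) 1 0, fromBlocks 0 1 (((e : ℤ) : R) • 1) 0,
    ?_, ?_, ?_, fun a => ?_⟩
  · rw [fromBlocks_multiply]
    simp [smul_smul, sign_sq_aux, fromBlocks_one]
  · rw [fromBlocks_multiply]
    simp [smul_smul, sign_sq_aux, fromBlocks_one]
  · rw [hyp_g, hyp_g, fromBlocks_transpose, fromBlocks_multiply, fromBlocks_multiply]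
    simp [smul_smul, sign_sq_aux]
  · rw [hyp_ρ, hyp_ρ, repDual_dual, repSum_apply, repSum_apply, fromBlocks_multiply,
      fromBlocks_multiply]
    simp

theorem hyp_bar (ρ : G →* Matrix ι ι R) : (hyp e ρ).bar.Iso (hyp e (repBar ρ)) :=
  Iso.of_eq rfl (by
    rw [bar_ρ, hyp_ρ, hyp_ρ, repBar_repSum, repBar_dual, repDual_bar])

theorem hyp_neg (ρ : G →* Matrix ι ι R) : (hyp e ρ).neg.Iso (hyp e ρ) := by
  refine ⟨fromBlocks 1 0 0 (-1), fromBlocks 1 0 0 (-1), ?_, ?_, ?_, fun a => ?_⟩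
  · rw [fromBlocks_multiply]
    simp [fromBlocks_one]
  · rw [fromBlocks_multiply]
    simp [fromBlocks_one]
  · rw [neg_g, hyp_g, fromBlocks_transpose, fromBlocks_multiply, fromBlocks_multiply,
      fromBlocks_neg]
    simp
  · rw [neg_ρ, hyp_ρ, repSum_apply, fromBlocks_multiply, fromBlocks_multiply]
    simp

theorem hyp_comap (φ : H →* G) (ρ : G →* Matrix ι ι R) :
    ((hyp e ρ).comap φ).Iso (hyp e (ρ.comp φ)) :=
  Iso.of_eq rfl (by rw [comap_ρ, hyp_ρ, hyp_ρ, repComp_repSum, repComp_dual])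

/-- A unimodular form identifies the representation with its contragredient. -/
theorem rep_dual (A : GForm R G e ι) : RepIso A.ρ (repDual A.ρ) :=
  ⟨A.g, A.g⁻¹, Matrix.nonsing_inv_mul _ A.unimod, Matrix.mul_nonsing_inv _ A.unimod,
    fun a => by rw [repDual_apply, g_mul_ρ]⟩

/-- `A ⊗ H(P) = H(A ⊗ P)`. -/
theorem mul_hyp (A : GForm R G e ι) (ρ : G →* Matrix κ κ R) :
    (A.mul (hyp e' ρ)).Iso (hyp (e * e') (repTensor A.ρ ρ)) := by
  -- first reindex
  have key : ((hyp (e * e') (repTensor A.ρ ρ))).Iso (A.mul (hyp e' ρ)) := by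
    have hu1 : A.g⁻¹ * A.g = 1 := Matrix.nonsing_inv_mul _ A.unimod
    have hu2 : A.g * A.g⁻¹ = 1 := Matrix.mul_nonsing_inv _ A.unimod
    -- X = A.g ⊗ 1
    set X : Matrix (ι × κ) (ι × κ) R := kroneckerMap (· * ·) A.g 1 with hX
    set Y : Matrix (ι × κ) (ι × κ) R := kroneckerMap (· * ·) A.g⁻¹ 1 with hY
    have hXY : X * Y = 1 := by rw [hX, hY, ← Matrix.mul_kronecker_mul, hu2]; simp
    have hYX : Y * X = 1 := by rw [hX, hY, ← Matrix.mul_kronecker_mul, hu1]; simp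
    let f : ι × (κ ⊕ κ) ≃ (ι × κ) ⊕ (ι × κ) := Equiv.prodSumDistrib ι κ κ
    -- the intermediate form on the sum index
    have hXT : Xᵀ = ((e : ℤ) : R) • X := by
      rw [hX, ← kroneckerMap_transpose, A.symm, transpose_one]
      ext ⟨i, i'⟩ ⟨j, j'⟩
      simp only [kroneckerMap_apply, Matrix.smul_apply, smul_eq_mul]
      ring
    have hcomm : ∀ a, X * repTensor A.ρ (repDual ρ) a = repDual (repTensor A.ρ ρ) a * X := by
      intro a
      rw [repDual_repTensor, repTensor_apply, repTensor_apply, hX, ← Matrix.mul_kronecker_mul,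
        ← Matrix.mul_kronecker_mul, repDual_apply, repDual_apply, g_mul_ρ, Matrix.one_mul,
        Matrix.mul_one]
    -- A.mul (hyp e' ρ) in blocks
    have hg : (A.mul (hyp e' ρ)).g = (fromBlocks 0 X (((e' : ℤ) : R) • X) 0).submatrix f f := by
      ext ⟨i, i' | i'⟩ ⟨j, j' | j'⟩
      · simp [f, hX]
      · simp [f, hX]
      · simp only [f, hX, mul_g, hyp_g, kroneckerMap_apply, fromBlocks_apply₂₁,
          Matrix.smul_apply, smul_eq_mul, submatrix_apply, Equiv.prodSumDistrib_apply_right,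
          Equiv.prodSumDistrib_apply_left]
        ring
      · simp [f, hX]
    have hr : ∀ a, (A.mul (hyp e' ρ)).ρ a = (fromBlocks (repTensor A.ρ ρ a) 0 0
        (repTensor A.ρ (repDual ρ) a)).submatrix f f := by
      intro a
      ext ⟨i, i' | i'⟩ ⟨j, j' | j'⟩ <;> simp [f]
    obtain ⟨W, hW⟩ : ∃ W : Matrix ((ι × κ) ⊕ (ι × κ)) ((ι × κ) ⊕ (ι × κ)) R,
        W = fromBlocks 1 0 0 X := ⟨_, rfl⟩
    obtain ⟨V, hV⟩ : ∃ V : Matrix ((ι × κ) ⊕ (ι × κ)) ((ι × κ) ⊕ (ι × κ)) R,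
        V = fromBlocks 1 0 0 Y := ⟨_, rfl⟩
    have hVW : V * W = 1 := by
      rw [hW, hV, fromBlocks_multiply]
      simp [hYX, fromBlocks_one]
    have hWV : W * V = 1 := by
      rw [hW, hV, fromBlocks_multiply]
      simp [hXY, fromBlocks_one]
    have hs : (((e * e' : ℤˣ) : ℤ) : R) * ((e : ℤ) : R) = ((e' : ℤ) : R) := by
      rw [Units.val_mul, Int.cast_mul]
      calc ((e : ℤ) : R) * ((e' : ℤ) : R) * ((e : ℤ) : R) =
          (((e : ℤ) : R) * ((e : ℤ) : R)) * ((e' : ℤ) : R) := by ring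
        _ = ((e' : ℤ) : R) := by rw [sign_sq_aux, one_mul]
    have hWg : Wᵀ * (hyp (e * e') (repTensor A.ρ ρ)).g * W =
        fromBlocks 0 X (((e' : ℤ) : R) • X) 0 := by
      rw [hW, hyp_g, fromBlocks_transpose, fromBlocks_multiply, fromBlocks_multiply]
      simp only [Matrix.mul_zero, Matrix.zero_mul, _root_.add_zero, _root_.zero_add,
        transpose_zero, transpose_one, Matrix.mul_one, Matrix.mul_smul, Matrix.one_mul, hXT,
        smul_smul, smul_zero, hs]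
    have hWρ : ∀ a, W * fromBlocks (repTensor A.ρ ρ a) 0 0 (repTensor A.ρ (repDual ρ) a) =
        (hyp (e * e') (repTensor A.ρ ρ)).ρ a * W := by
      intro a
      rw [hW, hyp_ρ, repSum_apply, fromBlocks_multiply, fromBlocks_multiply]
      simp only [Matrix.mul_zero, Matrix.zero_mul, _root_.add_zero, _root_.zero_add,
        Matrix.one_mul, Matrix.mul_one, hcomm]
    refine Iso.symm ⟨W.submatrix id f, V.submatrix f id, ?_, ?_, ?_, fun a => ?_⟩
    · have h0 : V.submatrix f id * W.submatrix id f = (V * W).submatrix f f :=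
        Matrix.submatrix_mul_equiv _ _ f (Equiv.refl _) f
      rw [h0, hVW, submatrix_one_equiv]
    · rw [Matrix.submatrix_mul_equiv, hWV, submatrix_id_id]
    · have h0 : (W.submatrix id f)ᵀ * (hyp (e * e') (repTensor A.ρ ρ)).g =
          (Wᵀ * (hyp (e * e') (repTensor A.ρ ρ)).g).submatrix f id := by
        rw [transpose_submatrix]
        exact Matrix.submatrix_mul_equiv _ _ f (Equiv.refl _) id
      have h1 : (Wᵀ * (hyp (e * e') (repTensor A.ρ ρ)).g).submatrix f id * W.submatrix id f =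
          (Wᵀ * (hyp (e * e') (repTensor A.ρ ρ)).g * W).submatrix f f :=
        Matrix.submatrix_mul_equiv _ _ f (Equiv.refl _) f
      rw [h0, h1, hWg, hg]
    · have h0 : W.submatrix id f * (A.mul (hyp e' ρ)).ρ a =
          (W * fromBlocks (repTensor A.ρ ρ a) 0 0 (repTensor A.ρ (repDual ρ) a)).submatrix
            id f := by
        rw [hr]
        exact Matrix.submatrix_mul_equiv _ _ id f f
      have h1 : (hyp (e * e') (repTensor A.ρ ρ)).ρ a * W.submatrix id f =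
          ((hyp (e * e') (repTensor A.ρ ρ)).ρ a * W).submatrix id f :=
        Matrix.submatrix_mul_equiv _ _ id (Equiv.refl _) f
      rw [h0, h1, hWρ]
  exact key.symm

theorem bar_mul (A : GForm R G e ι) (B : GForm R G e' κ) :
    ((A.mul B).bar).Iso (A.bar.mul B.bar) := Iso.of_eq rfl rfl

theorem bar_ext (A : GForm R G e ι) (B : GForm R H e' κ) :
    ((A.ext B).bar).Iso (A.bar.ext B.bar) :=
  Iso.of_eq rfl (by rw [bar_ρ, ext_ρ, ext_ρ, repBar_ext, bar_ρ, bar_ρ])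

theorem bar_add (A : GForm R G e ι) (B : GForm R G e κ) :
    ((A.add B).bar).Iso (A.bar.add B.bar) := Iso.of_eq rfl rfl

theorem neg_mul (A : GForm R G e ι) (B : GForm R G e' κ) :
    (A.neg.mul B).Iso (A.mul B).neg := by
  refine Iso.of_eq ?_ rfl
  ext ⟨i, i'⟩ ⟨j, j'⟩
  simp

theorem mul_neg (A : GForm R G e ι) (B : GForm R G e' κ) :
    (A.mul B.neg).Iso (A.mul B).neg := by
  refine Iso.of_eq ?_ rfl
  ext ⟨i, i'⟩ ⟨j, j'⟩
  simp

theorem neg_add (A : GForm R G e ι) (B : GForm R G e κ) :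
    ((A.add B).neg).Iso (A.neg.add B.neg) := by
  refine Iso.of_eq ?_ rfl
  rw [neg_g, add_g, add_g, fromBlocks_neg]
  simp

end Basic

end GForm

end Vale.Agent.P268.Z
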