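import Vale.Agent.P268.Z.ApiRep
import Vale.Agent.P268.Z.ApiForm

/-!
# P268: API of representations (`ApiRep`) and forms (`ApiForm`)
-/
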