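import Vale.Agent.P268.Z.Form

/-!
# P268: API of representations in matrix form (helper93)
-/

namespace Vale.Agent.P268.Z

open Matrix

section RepApi

variable {R : Type} [CommRing R] {S : Type} [CommRing S] {G : Type} [CommGroup G]
  {H : Type} [CommGroup H] {ι κ ν μ : Type} [Fintype ι] [DecidableEq ι] [Fintype κ]
  [DecidableEq κ] [Fintype ν] [DecidableEq ν] [Fintype μ] [DecidableEq μ]

@[simp] theorem repSum_apply (ρ : G →* Matrix ι ι R) (σ : G →* Matrix κ κ R) (a : G) :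
    repSum ρ σ a = fromBlocks (ρ a) 0 0 (σ a) := rfl

@[simp] theorem repTensor_apply (ρ : G →* Matrix ι ι R) (σ : G →* Matrix κ κ R) (a : G) :
    repTensor ρ σ a = kroneckerMap (· * ·) (ρ a) (σ a) := rfl

theorem repTensor_apply_apply (ρ : G →* Matrix ι ι R) (σ : G →* Matrix κ κ R) (a : G)
    (x y : ι × κ) : repTensor ρ σ a x y = ρ a x.1 y.1 * σ a x.2 y.2 := rfl

@[simp] theorem repCopies_apply (ρ : G →* Matrix ι ι R) (a : G) :
    repCopies ν ρ a = kroneckerMap (· * ·) (1 : Matrix ν ν R) (ρ a) := rfl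

theorem repCopies_apply_apply (ρ : G →* Matrix ι ι R) (a : G) (x y : ν × ι) :
    repCopies ν ρ a x y = (1 : Matrix ν ν R) x.1 y.1 * ρ a x.2 y.2 := rfl

@[simp] theorem repSharp_apply (ρ : G →* Matrix ι ι R) (a : G) : repSharp ρ a = (ρ a)ᵀ := rfl

@[simp] theorem repBar_apply (ρ : G →* Matrix ι ι R) (a : G) : repBar ρ a = ρ a⁻¹ := rfl

@[simp] theorem repDual_apply (ρ : G →* Matrix ι ι R) (a : G) : repDual ρ a = (ρ a⁻¹)ᵀ := rfl

@[simp] theorem repMap_apply (f : R →+* S) (ρ : G →* Matrix ι ι R) (a : G) :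
    repMap f ρ a = (ρ a).map f := rfl

@[simp] theorem repReg_apply [Fintype G] [DecidableEq G] (a x y : G) :
    repReg R G a x y = if x = a * y then 1 else 0 := rfl

theorem RepIso.refl (ρ : G →* Matrix ι ι R) : RepIso ρ ρ := ⟨1, 1, by simp, by simp, by simp⟩

theorem RepIso.symm {ρ : G →* Matrix ι ι R} {σ : G →* Matrix κ κ R} (h : RepIso ρ σ) :
    RepIso σ ρ := by
  obtain ⟨P, Q, h1, h2, h3⟩ := h
  refine ⟨Q, P, h2, h1, fun a => ?_⟩
  calc Q * σ a = Q * σ a * (P * Q) := by rw [h2, Matrix.mul_one]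
    _ = Q * (σ a * P) * Q := by simp only [Matrix.mul_assoc]
    _ = Q * (P * ρ a) * Q := by rw [h3]
    _ = (Q * P) * ρ a * Q := by simp only [Matrix.mul_assoc]
    _ = ρ a * Q := by rw [h1, Matrix.one_mul]

theorem RepIso.trans {ρ : G →* Matrix ι ι R} {σ : G →* Matrix κ κ R} {τ : G →* Matrix ν ν R}
    (h : RepIso ρ σ) (h' : RepIso σ τ) : RepIso ρ τ := by
  obtain ⟨P, Q, h1, h2, h3⟩ := h
  obtain ⟨P', Q', h1', h2', h3'⟩ := h'
  refine ⟨P' * P, Q * Q', ?_, ?_, fun a => ?_⟩
  · calc Q * Q' * (P' * P) = Q * (Q' * P') * P := by simp only [Matrix.mul_assoc]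
      _ = 1 := by rw [h1', Matrix.mul_one, h1]
  · calc P' * P * (Q * Q') = P' * (P * Q) * Q' := by simp only [Matrix.mul_assoc]
      _ = 1 := by rw [h2, Matrix.mul_one, h2']
  · rw [Matrix.mul_assoc, h3, ← Matrix.mul_assoc, h3', Matrix.mul_assoc]

theorem RepIso.sum {ρ : G →* Matrix ι ι R} {σ : G →* Matrix κ κ R} {ρ' : G →* Matrix ν ν R}
    {σ' : G →* Matrix μ μ R} (h : RepIso ρ σ) (h' : RepIso ρ' σ') :
    RepIso (repSum ρ ρ') (repSum σ σ') := by
  obtain ⟨P, Q, h1, h2, h3⟩ := h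
  obtain ⟨P', Q', h1', h2', h3'⟩ := h'
  refine ⟨fromBlocks P 0 0 P', fromBlocks Q 0 0 Q', ?_, ?_, fun a => ?_⟩
  · simp [fromBlocks_multiply, h1, h1', fromBlocks_one]
  · simp [fromBlocks_multiply, h2, h2', fromBlocks_one]
  · simp [fromBlocks_multiply, h3, h3']

theorem RepIso.tensor {ρ : G →* Matrix ι ι R} {σ : G →* Matrix κ κ R} {ρ' : G →* Matrix ν ν R}
    {σ' : G →* Matrix μ μ R} (h : RepIso ρ σ) (h' : RepIso ρ' σ') :
    RepIso (repTensor ρ ρ') (repTensor σ σ') := by
  obtain ⟨P, Q, h1, h2, h3⟩ := h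
  obtain ⟨P', Q', h1', h2', h3'⟩ := h'
  refine ⟨kroneckerMap (· * ·) P P', kroneckerMap (· * ·) Q Q', ?_, ?_, fun a => ?_⟩
  · rw [← Matrix.mul_kronecker_mul, h1, h1']; simp
  · rw [← Matrix.mul_kronecker_mul, h2, h2']; simp
  · rw [repTensor_apply, repTensor_apply, ← Matrix.mul_kronecker_mul, ← Matrix.mul_kronecker_mul,
      h3, h3']

theorem RepIso.map (f : R →+* S) {ρ : G →* Matrix ι ι R} {σ : G →* Matrix κ κ R}
    (h : RepIso ρ σ) : RepIso (repMap f ρ) (repMap f σ) := by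
  obtain ⟨P, Q, h1, h2, h3⟩ := h
  refine ⟨P.map f, Q.map f, ?_, ?_, fun a => ?_⟩
  · rw [← Matrix.map_mul, h1]; simp
  · rw [← Matrix.map_mul, h2]; simp
  · rw [repMap_apply, repMap_apply, ← Matrix.map_mul, ← Matrix.map_mul, h3]

theorem RepIso.comp (φ : H →* G) {ρ : G →* Matrix ι ι R} {σ : G →* Matrix κ κ R}
    (h : RepIso ρ σ) : RepIso (ρ.comp φ) (σ.comp φ) := by
  obtain ⟨P, Q, h1, h2, h3⟩ := h
  exact ⟨P, Q, h1, h2, fun a => h3 (φ a)⟩

theorem RepIso.sharp {ρ : G →* Matrix ι ι R} {σ : G →* Matrix κ κ R} (h : RepIso ρ σ) :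
    RepIso (repSharp ρ) (repSharp σ) := by
  obtain ⟨Q, P, h2, h1, h3⟩ := h.symm
  refine ⟨Qᵀ, Pᵀ, ?_, ?_, fun a => ?_⟩
  · rw [← transpose_mul, h1, transpose_one]
  · rw [← transpose_mul, h2, transpose_one]
  · rw [repSharp_apply, repSharp_apply, ← transpose_mul, ← transpose_mul, h3]

theorem RepIso.bar {ρ : G →* Matrix ι ι R} {σ : G →* Matrix κ κ R} (h : RepIso ρ σ) :
    RepIso (repBar ρ) (repBar σ) := h.comp _

theorem RepIso.dual {ρ : G →* Matrix ι ι R} {σ : G →* Matrix κ κ R} (h : RepIso ρ σ) :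
    RepIso (repDual ρ) (repDual σ) := h.bar.sharp

theorem RepIso.trace_eq {ρ : G →* Matrix ι ι R} {σ : G →* Matrix κ κ R} (h : RepIso ρ σ) (a : G) :
    (ρ a).trace = (σ a).trace := by
  obtain ⟨P, Q, h1, h2, h3⟩ := h
  calc (ρ a).trace = (Q * (P * ρ a)).trace := by rw [← Matrix.mul_assoc, h1, Matrix.one_mul]
    _ = (Q * (σ a * P)).trace := by rw [h3]
    _ = (σ a * P * Q).trace := by rw [Matrix.trace_mul_comm]
    _ = (σ a).trace := by rw [Matrix.mul_assoc, h2, Matrix.mul_one]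

/-- Equal representations are isomorphic. -/
theorem RepIso.of_eq {ρ σ : G →* Matrix ι ι R} (h : ρ = σ) : RepIso ρ σ := h ▸ RepIso.refl ρ

/-- Reindexing along an equivalence. -/
theorem RepIso.of_equiv {ρ : G →* Matrix ι ι R} {σ : G →* Matrix κ κ R} (e : ι ≃ κ)
    (h : ∀ a i j, ρ a i j = σ a (e i) (e j)) : RepIso ρ σ := by
  refine ⟨(1 : Matrix κ κ R).submatrix id e, (1 : Matrix κ κ R).submatrix e id, ?_, ?_,
    fun a => ?_⟩
  · have h0 : (1 : Matrix κ κ R).submatrix e id * (1 : Matrix κ κ R).submatrix id e =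
        ((1 : Matrix κ κ R) * 1).submatrix e e :=
      Matrix.submatrix_mul_equiv 1 1 e (Equiv.refl κ) e
    rw [h0, Matrix.one_mul, submatrix_one_equiv]
  · rw [Matrix.submatrix_mul_equiv, Matrix.one_mul, submatrix_id_id]
  · have h1 : ρ a = (σ a).submatrix e e := by
      ext i j
      exact h a i j
    have h2 : σ a * (1 : Matrix κ κ R).submatrix id e = (σ a * 1).submatrix id e :=
      Matrix.submatrix_mul_equiv (σ a) 1 id (Equiv.refl κ) e
    rw [h1, Matrix.submatrix_mul_equiv, Matrix.one_mul, h2, Matrix.mul_one]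

theorem repSum_comm (ρ : G →* Matrix ι ι R) (σ : G →* Matrix κ κ R) :
    RepIso (repSum ρ σ) (repSum σ ρ) := by
  refine RepIso.of_equiv (Equiv.sumComm ι κ) ?_
  rintro a (i | i) (j | j) <;> simp

theorem repSum_assoc (ρ : G →* Matrix ι ι R) (σ : G →* Matrix κ κ R) (τ : G →* Matrix ν ν R) :
    RepIso (repSum (repSum ρ σ) τ) (repSum ρ (repSum σ τ)) := by
  refine RepIso.of_equiv (Equiv.sumAssoc ι κ ν) ?_
  rintro a ((i | i) | i) ((j | j) | j) <;> simp

theorem repTensor_comm (ρ : G →* Matrix ι ι R) (σ : G →* Matrix κ κ R) :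
    RepIso (repTensor ρ σ) (repTensor σ ρ) := by
  refine RepIso.of_equiv (Equiv.prodComm ι κ) ?_
  rintro a ⟨i, i'⟩ ⟨j, j'⟩
  simp [mul_comm]

theorem repTensor_assoc (ρ : G →* Matrix ι ι R) (σ : G →* Matrix κ κ R) (τ : G →* Matrix ν ν R) :
    RepIso (repTensor (repTensor ρ σ) τ) (repTensor ρ (repTensor σ τ)) := by
  refine RepIso.of_equiv (Equiv.prodAssoc ι κ ν) ?_
  rintro a ⟨⟨i, i'⟩, i''⟩ ⟨⟨j, j'⟩, j''⟩
  simp [mul_assoc]

theorem repTensor_sum (ρ : G →* Matrix ι ι R) (σ : G →* Matrix κ κ R) (τ : G →* Matrix ν ν R) :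
    RepIso (repTensor ρ (repSum σ τ)) (repSum (repTensor ρ σ) (repTensor ρ τ)) := by
  refine RepIso.of_equiv (Equiv.prodSumDistrib ι κ ν) ?_
  rintro a ⟨i, i' | i'⟩ ⟨j, j' | j'⟩ <;> simp

theorem repSum_tensor (ρ : G →* Matrix ι ι R) (σ : G →* Matrix κ κ R) (τ : G →* Matrix ν ν R) :
    RepIso (repTensor (repSum ρ σ) τ) (repSum (repTensor ρ τ) (repTensor σ τ)) := by
  refine RepIso.of_equiv (Equiv.sumProdDistrib ι κ ν) ?_
  rintro a ⟨i | i, i'⟩ ⟨j | j, j'⟩ <;> simp

theorem repTensor_trivial (ρ : G →* Matrix ι ι R) :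
    RepIso (repTensor (1 : G →* Matrix Unit Unit R) ρ) ρ := by
  refine RepIso.of_equiv (Equiv.punitProd ι) ?_
  rintro a ⟨i, i'⟩ ⟨j, j'⟩
  simp

theorem repCopies_congr_idx (e : ν ≃ μ) (ρ : G →* Matrix ι ι R) :
    RepIso (repCopies ν ρ) (repCopies μ ρ) := by
  refine RepIso.of_equiv (Equiv.prodCongr e (Equiv.refl ι)) ?_
  rintro a ⟨i, i'⟩ ⟨j, j'⟩
  simp [Matrix.one_apply]

theorem repCopies_congr {ρ : G →* Matrix ι ι R} {σ : G →* Matrix κ κ R} (h : RepIso ρ σ) :
    RepIso (repCopies ν ρ) (repCopies ν σ) := (RepIso.refl _).tensor h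

theorem repCopies_sum (ρ : G →* Matrix ι ι R) :
    RepIso (repSum (repCopies ν ρ) (repCopies μ ρ)) (repCopies (ν ⊕ μ) ρ) := by
  refine RepIso.symm (RepIso.of_equiv (Equiv.sumProdDistrib ν μ ι) ?_)
  rintro a ⟨i | i, i'⟩ ⟨j | j, j'⟩ <;> simp [Matrix.one_apply]

theorem repCopies_copies (ρ : G →* Matrix ι ι R) :
    RepIso (repCopies ν (repCopies μ ρ)) (repCopies (ν × μ) ρ) := by
  refine RepIso.symm (RepIso.of_equiv (Equiv.prodAssoc ν μ ι) ?_)
  rintro a ⟨⟨i, i'⟩, i''⟩ ⟨⟨j, j'⟩, j''⟩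
  simp only [repCopies_apply, kroneckerMap_apply, Matrix.one_apply, Equiv.prodAssoc_apply,
    Prod.mk.injEq]
  by_cases h1 : i = j <;> by_cases h2 : i' = j' <;> simp [h1, h2]

theorem repTensor_copies (ρ : G →* Matrix ι ι R) (σ : G →* Matrix κ κ R) :
    RepIso (repTensor ρ (repCopies ν σ)) (repCopies ν (repTensor ρ σ)) := by
  refine (repTensor_assoc _ _ _).symm.trans (((repTensor_comm _ _).tensor (RepIso.refl _)).trans
    (repTensor_assoc _ _ _))

theorem repCopies_tensor (ρ : G →* Matrix ι ι R) (σ : G →* Matrix κ κ R) :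
    RepIso (repTensor (repCopies ν ρ) σ) (repCopies ν (repTensor ρ σ)) :=
  repTensor_assoc _ _ _

theorem repCopies_repSum (ρ : G →* Matrix ι ι R) (σ : G →* Matrix κ κ R) :
    RepIso (repCopies ν (repSum ρ σ)) (repSum (repCopies ν ρ) (repCopies ν σ)) :=
  repTensor_sum _ _ _

theorem repCopies_unit (ρ : G →* Matrix ι ι R) : RepIso (repCopies Unit ρ) ρ :=
  repTensor_trivial ρ

theorem repDual_dual (ρ : G →* Matrix ι ι R) : repDual (repDual ρ) = ρ := by
  ext a : 1
  simp

theorem repBar_bar (ρ : G →* Matrix ι ι R) : repBar (repBar ρ) = ρ := by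
  ext a : 1
  simp

theorem repSharp_sharp (ρ : G →* Matrix ι ι R) : repSharp (repSharp ρ) = ρ := by
  ext a : 1
  simp

theorem repSharp_bar (ρ : G →* Matrix ι ι R) : repSharp (repBar ρ) = repDual ρ := rfl

theorem repBar_sharp (ρ : G →* Matrix ι ι R) : repBar (repSharp ρ) = repDual ρ := rfl

theorem repDual_bar (ρ : G →* Matrix ι ι R) : repDual (repBar ρ) = repSharp ρ := by
  ext a : 1
  simp

theorem repBar_dual (ρ : G →* Matrix ι ι R) : repBar (repDual ρ) = repSharp ρ := by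
  ext a : 1
  simp

theorem repDual_sharp (ρ : G →* Matrix ι ι R) : repDual (repSharp ρ) = repBar ρ := by
  ext a : 1
  simp

theorem repSharp_dual (ρ : G →* Matrix ι ι R) : repSharp (repDual ρ) = repBar ρ := by
  ext a : 1
  simp

theorem repDual_repSum (ρ : G →* Matrix ι ι R) (σ : G →* Matrix κ κ R) :
    repDual (repSum ρ σ) = repSum (repDual ρ) (repDual σ) := by
  ext a : 1
  simp [fromBlocks_transpose]

theorem repBar_repSum (ρ : G →* Matrix ι ι R) (σ : G →* Matrix κ κ R) :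
    repBar (repSum ρ σ) = repSum (repBar ρ) (repBar σ) := rfl

theorem repSharp_repSum (ρ : G →* Matrix ι ι R) (σ : G →* Matrix κ κ R) :
    repSharp (repSum ρ σ) = repSum (repSharp ρ) (repSharp σ) := by
  ext a : 1
  simp [fromBlocks_transpose]

theorem repDual_repTensor (ρ : G →* Matrix ι ι R) (σ : G →* Matrix κ κ R) :
    repDual (repTensor ρ σ) = repTensor (repDual ρ) (repDual σ) := rfl

theorem repBar_repTensor (ρ : G →* Matrix ι ι R) (σ : G →* Matrix κ κ R) :
    repBar (repTensor ρ σ) = repTensor (repBar ρ) (repBar σ) := rfl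

theorem repSharp_repTensor (ρ : G →* Matrix ι ι R) (σ : G →* Matrix κ κ R) :
    repSharp (repTensor ρ σ) = repTensor (repSharp ρ) (repSharp σ) := rfl

theorem repDual_repCopies (ρ : G →* Matrix ι ι R) :
    repDual (repCopies ν ρ) = repCopies ν (repDual ρ) := by
  ext a : 1
  rw [repDual_apply, repCopies_apply, repCopies_apply, repDual_apply, ← kroneckerMap_transpose,
    transpose_one]

theorem repBar_repCopies (ρ : G →* Matrix ι ι R) :
    repBar (repCopies ν ρ) = repCopies ν (repBar ρ) := rfl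

theorem repSharp_repCopies (ρ : G →* Matrix ι ι R) :
    repSharp (repCopies ν ρ) = repCopies ν (repSharp ρ) := by
  ext a : 1
  rw [repSharp_apply, repCopies_apply, repCopies_apply, repSharp_apply, ← kroneckerMap_transpose,
    transpose_one]

theorem repMap_repSum (f : R →+* S) (ρ : G →* Matrix ι ι R) (σ : G →* Matrix κ κ R) :
    repMap f (repSum ρ σ) = repSum (repMap f ρ) (repMap f σ) := by
  ext a : 1
  simp [fromBlocks_map]

theorem repMap_repTensor (f : R →+* S) (ρ : G →* Matrix ι ι R) (σ : G →* Matrix κ κ R) :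
    repMap f (repTensor ρ σ) = repTensor (repMap f ρ) (repMap f σ) := by
  ext a : 1
  ext ⟨i, i'⟩ ⟨j, j'⟩
  simp

theorem repMap_one (f : R →+* S) :
    repMap f (1 : G →* Matrix ι ι R) = 1 := by
  ext a : 1
  simp

theorem repMap_repCopies (f : R →+* S) (ρ : G →* Matrix ι ι R) :
    repMap f (repCopies ν ρ) = repCopies ν (repMap f ρ) := by
  rw [repCopies, repMap_repTensor, repMap_one, repCopies]

theorem repMap_dual (f : R →+* S) (ρ : G →* Matrix ι ι R) :
    repMap f (repDual ρ) = repDual (repMap f ρ) := rfl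

theorem repMap_bar (f : R →+* S) (ρ : G →* Matrix ι ι R) :
    repMap f (repBar ρ) = repBar (repMap f ρ) := rfl

theorem repMap_sharp (f : R →+* S) (ρ : G →* Matrix ι ι R) :
    repMap f (repSharp ρ) = repSharp (repMap f ρ) := rfl

theorem repMap_comp (f : R →+* S) (φ : H →* G) (ρ : G →* Matrix ι ι R) :
    repMap f (ρ.comp φ) = (repMap f ρ).comp φ := rfl

theorem repMap_ext (f : R →+* S) (ρ : G →* Matrix ι ι R) (σ : H →* Matrix κ κ R) :
    repMap f (repExt ρ σ) = repExt (repMap f ρ) (repMap f σ) := by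
  rw [repExt, repMap_repTensor, repMap_comp, repMap_comp, repExt]

/-- block-diagonal matrix with blocks `M x`, `x : G`. -/
def blk (G : Type) [DecidableEq G] (M : G → Matrix ι κ R) : Matrix (ι × G) (κ × G) R :=
  Matrix.of fun x y => if x.2 = y.2 then M x.2 x.1 y.1 else 0

theorem blk_apply [DecidableEq G] (M : G → Matrix ι κ R) (i : ι) (x : G) (j : κ) (y : G) :
    blk G M (i, x) (j, y) = if x = y then M x i j else 0 := rfl

theorem blk_mul [Fintype G] [DecidableEq G] (M : G → Matrix ι κ R) (N : G → Matrix κ ν R) :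
    blk G M * blk G N = blk G fun x => M x * N x := by
  ext ⟨i, x⟩ ⟨j, y⟩
  rw [Matrix.mul_apply, Fintype.sum_prod_type, blk_apply]
  simp only [blk_apply]
  rw [Finset.sum_comm, Finset.sum_eq_single x]
  · by_cases h : x = y
    · simp [h, Matrix.mul_apply]
    · simp [h]
  · intro z _ hz
    simp [Ne.symm hz]
  · simp

theorem blk_one [DecidableEq G] : blk G (fun _ => (1 : Matrix ι ι R)) = 1 := by
  ext ⟨i, x⟩ ⟨j, y⟩
  rw [blk_apply, Matrix.one_apply, Matrix.one_apply]
  by_cases h : x = y <;> by_cases h' : i = j <;> simp [h, h']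

theorem blk_mul_tensor [Fintype G] [DecidableEq G] (M : G → Matrix κ ι R) (N : Matrix ι ι R)
    (a : G) : blk G M * (kroneckerMap (· * ·) N (repReg R G a)) =
      Matrix.of fun x y => if x.2 = a * y.2 then (M x.2 * N) x.1 y.1 else 0 := by
  ext ⟨i, x⟩ ⟨j, y⟩
  rw [Matrix.mul_apply, Fintype.sum_prod_type, Matrix.of_apply]
  simp only [blk_apply, kroneckerMap_apply]
  rw [Finset.sum_comm, Finset.sum_eq_single x]
  · by_cases h : x = a * y
    · simp [h, Matrix.mul_apply, repReg]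
    · simp [h, repReg]
  · intro z _ hz
    simp [Ne.symm hz]
  · simp

theorem tensor_mul_blk [Fintype G] [DecidableEq G] (M : G → Matrix κ ι R) (N : Matrix κ κ R)
    (a : G) : (kroneckerMap (· * ·) N (repReg R G a)) * blk G M =
      Matrix.of fun x y => if x.2 = a * y.2 then (N * M y.2) x.1 y.1 else 0 := by
  ext ⟨i, x⟩ ⟨j, y⟩
  rw [Matrix.mul_apply, Fintype.sum_prod_type, Matrix.of_apply]
  simp only [blk_apply, kroneckerMap_apply]
  rw [Finset.sum_comm, Finset.sum_eq_single y]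
  · by_cases h : x = a * y
    · simp [h, Matrix.mul_apply, repReg]
    · simp [h, repReg]
  · intro z _ hz
    simp [hz]
  · simp

/-- Untwisting: `X ⊗ R[G]` is free. -/
theorem repTensor_reg [Fintype G] [DecidableEq G] (ρ : G →* Matrix ι ι R) :
    RepIso (repTensor ρ (repReg R G)) (repCopies ι (repReg R G)) := by
  refine ⟨blk G fun x => ρ x⁻¹, blk G fun x => ρ x, ?_, ?_, fun a => ?_⟩
  · rw [blk_mul]
    simp only [← map_mul, mul_inv_cancel, map_one, blk_one]
  · rw [blk_mul]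
    simp only [← map_mul, inv_mul_cancel, map_one, blk_one]
  · change blk G _ * kroneckerMap (· * ·) (ρ a) (repReg R G a) =
      kroneckerMap (· * ·) (1 : Matrix ι ι R) (repReg R G a) * blk G _
    rw [blk_mul_tensor, tensor_mul_blk]
    ext ⟨i, x⟩ ⟨j, y⟩
    simp only [Matrix.of_apply, ← map_mul, Matrix.one_mul]
    by_cases h : x = a * y
    · rw [if_pos h, if_pos h, h, _root_.mul_inv_rev, mul_assoc, inv_mul_cancel, mul_one]
    · rw [if_neg h, if_neg h]

theorem repReg_dual_eq [Fintype G] [DecidableEq G] : repDual (repReg R G) = repReg R G := by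
  ext a x y
  simp only [repDual_apply, transpose_apply, repReg_apply]
  congr 1
  exact propext ⟨fun h => by rw [h]; simp, fun h => by rw [h]; simp⟩

theorem repReg_dual [Fintype G] [DecidableEq G] : RepIso (repDual (repReg R G)) (repReg R G) :=
  RepIso.of_eq repReg_dual_eq

theorem repReg_bar [Fintype G] [DecidableEq G] : RepIso (repBar (repReg R G)) (repReg R G) := by
  refine RepIso.of_equiv (Equiv.inv G) fun a x y => ?_
  change (if x = a⁻¹ * y then (1 : R) else 0) = if x⁻¹ = a * y⁻¹ then 1 else 0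
  congr 1
  refine propext ⟨fun h => by rw [h, _root_.mul_inv_rev, inv_inv, mul_comm], fun h => ?_⟩
  rw [← inv_inv x, h, _root_.mul_inv_rev, inv_inv, mul_comm]

theorem repReg_sharp [Fintype G] [DecidableEq G] : RepIso (repSharp (repReg R G)) (repReg R G) := by
  have h := (repReg_bar (R := R) (G := G)).sharp
  rw [repSharp_bar, repReg_dual_eq] at h
  exact h.symm

theorem repMap_reg [Fintype G] [DecidableEq G] (f : R →+* S) :
    repMap f (repReg R G) = repReg S G := by
  ext a x y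
  simp only [repMap_apply, map_apply, repReg_apply]
  split_ifs <;> simp

theorem repComp_repSum (φ : H →* G) (ρ : G →* Matrix ι ι R) (σ : G →* Matrix κ κ R) :
    (repSum ρ σ).comp φ = repSum (ρ.comp φ) (σ.comp φ) := rfl

theorem repComp_repTensor (φ : H →* G) (ρ : G →* Matrix ι ι R) (σ : G →* Matrix κ κ R) :
    (repTensor ρ σ).comp φ = repTensor (ρ.comp φ) (σ.comp φ) := rfl

theorem repComp_one (φ : H →* G) :
    (1 : G →* Matrix ι ι R).comp φ = 1 := rfl

theorem repComp_repCopies (φ : H →* G) (ρ : G →* Matrix ι ι R) :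
    (repCopies ν ρ).comp φ = repCopies ν (ρ.comp φ) := by
  rw [repCopies, repComp_repTensor, repComp_one, repCopies]

theorem repComp_dual (φ : H →* G) (ρ : G →* Matrix ι ι R) :
    repDual (ρ.comp φ) = (repDual ρ).comp φ := by
  ext a : 1
  simp

theorem repComp_bar (φ : H →* G) (ρ : G →* Matrix ι ι R) :
    repBar (ρ.comp φ) = (repBar ρ).comp φ := by
  ext a : 1
  simp

theorem repComp_sharp (φ : H →* G) (ρ : G →* Matrix ι ι R) :
    repSharp (ρ.comp φ) = (repSharp ρ).comp φ := rfl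

/-- Untwisting for external products: `(X ∘ fst) ⊗ (R[G] ⊠ σ) ≅ copies of R[G] ⊠ σ`. -/
theorem repTensor_ext_reg [Fintype G] [DecidableEq G] (ρ : G →* Matrix ι ι R)
    (σ : H →* Matrix κ κ R) :
    RepIso (repTensor (ρ.comp (MonoidHom.fst G H)) (repExt (repReg R G) σ))
      (repCopies ι (repExt (repReg R G) σ)) := by
  have h := (repTensor_reg ρ).comp (MonoidHom.fst G H)
  rw [repComp_repTensor, repComp_repCopies] at h
  rw [repExt]
  exact (repTensor_assoc _ _ _).symm.trans ((h.tensor (RepIso.refl _)).trans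
    (repCopies_tensor _ _))

/-- Free modules: `R[G] ⊗ (X ⊠ σ) ≅ copies of R[G] ⊠ σ` (`R[G]` with trivial `H`-action). -/
theorem repReg_tensor_ext [Fintype G] [DecidableEq G] (ρ : G →* Matrix ι ι R)
    (σ : H →* Matrix κ κ R) :
    RepIso (repTensor (repExt ρ σ) ((repReg R G).comp (MonoidHom.fst G H)))
      (repCopies ι (repExt (repReg R G) σ)) := by
  have h := repTensor_ext_reg ρ σ
  rw [repExt] at h ⊢
  rw [repExt]
  exact (repTensor_assoc _ _ _).trans (((RepIso.refl _).tensor (repTensor_comm _ _)).trans h)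

/-- Cancellation of the order of summands: middle four interchange. -/
theorem repSum_comm4 (ρ : G →* Matrix ι ι R) (σ : G →* Matrix κ κ R) (τ : G →* Matrix ν ν R)
    (υ : G →* Matrix μ μ R) :
    RepIso (repSum (repSum ρ σ) (repSum τ υ)) (repSum (repSum ρ τ) (repSum σ υ)) := by
  refine RepIso.of_equiv (Equiv.sumSumSumComm ι κ ν μ) ?_
  rintro a ((i | i) | (i | i)) ((j | j) | (j | j)) <;> simp [Equiv.sumSumSumComm]

theorem RepIso.ext {ρ : G →* Matrix ι ι R} {σ : G →* Matrix κ κ R} {ρ' : H →* Matrix ν ν R}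
    {σ' : H →* Matrix μ μ R} (h : RepIso ρ σ) (h' : RepIso ρ' σ') :
    RepIso (repExt ρ ρ') (repExt σ σ') :=
  (h.comp _).tensor (h'.comp _)

theorem repExt_sum (ρ : G →* Matrix ι ι R) (σ : H →* Matrix κ κ R) (τ : H →* Matrix ν ν R) :
    RepIso (repExt ρ (repSum σ τ)) (repSum (repExt ρ σ) (repExt ρ τ)) := by
  rw [repExt, repComp_repSum, repExt, repExt]
  exact repTensor_sum _ _ _

theorem repSum_ext (ρ : G →* Matrix ι ι R) (σ : G →* Matrix κ κ R) (τ : H →* Matrix ν ν R) :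
    RepIso (repExt (repSum ρ σ) τ) (repSum (repExt ρ τ) (repExt σ τ)) := by
  rw [repExt, repComp_repSum, repExt, repExt]
  exact repSum_tensor _ _ _

theorem repCopies_ext (ρ : G →* Matrix ι ι R) (σ : H →* Matrix κ κ R) :
    RepIso (repExt (repCopies ν ρ) σ) (repCopies ν (repExt ρ σ)) := by
  rw [repExt, repComp_repCopies, repExt]
  exact repCopies_tensor _ _

theorem repExt_repCopies (ρ : G →* Matrix ι ι R) (σ : H →* Matrix κ κ R) :
    RepIso (repExt ρ (repCopies ν σ)) (repCopies ν (repExt ρ σ)) := by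
  rw [repExt, repComp_repCopies, repExt]
  exact repTensor_copies _ _

theorem repDual_ext (ρ : G →* Matrix ι ι R) (σ : H →* Matrix κ κ R) :
    repDual (repExt ρ σ) = repExt (repDual ρ) (repDual σ) := by
  rw [repExt, repDual_repTensor, repComp_dual, repComp_dual, repExt]

theorem repBar_ext (ρ : G →* Matrix ι ι R) (σ : H →* Matrix κ κ R) :
    repBar (repExt ρ σ) = repExt (repBar ρ) (repBar σ) := by
  rw [repExt, repBar_repTensor, repComp_bar, repComp_bar, repExt]

theorem repSharp_ext (ρ : G →* Matrix ι ι R) (σ : H →* Matrix κ κ R) :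
    repSharp (repExt ρ σ) = repExt (repSharp ρ) (repSharp σ) := by
  rw [repExt, repSharp_repTensor, repComp_sharp, repComp_sharp, repExt]

theorem trace_repSum (ρ : G →* Matrix ι ι R) (σ : G →* Matrix κ κ R) (a : G) :
    (repSum ρ σ a).trace = (ρ a).trace + (σ a).trace := by
  simp [Matrix.trace]

theorem trace_repTensor (ρ : G →* Matrix ι ι R) (σ : G →* Matrix κ κ R) (a : G) :
    (repTensor ρ σ a).trace = (ρ a).trace * (σ a).trace := by
  rw [repTensor_apply]
  exact trace_kronecker _ _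

theorem trace_repCopies (ρ : G →* Matrix ι ι R) (a : G) :
    (repCopies ν ρ a).trace = Fintype.card ν * (ρ a).trace := by
  rw [repCopies, trace_repTensor, MonoidHom.one_apply, trace_one]

end RepApi

end Vale.Agent.P268.Z
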