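import Vale.Agent.P268.Z.Conv

/-!
# P268: Seifert matrices of families indexed by sums and products of types
-/

namespace Vale.Agent.P268.Z

open Matrix

set_option synthInstance.maxSize 2000

section Fam

variable {α β ν : Type} [Fintype α] [DecidableEq α] [Fintype β] [DecidableEq β] [Fintype ν]
  [DecidableEq ν]

/-- Reindexing a family. -/
theorem seifert_reindex (e : α ≃ β) (F : β → List ℕ) :
    CongR (seifert fun i => F (e i)) (seifert F) := by
  refine CongR.of_equiv (Equiv.piCongrLeft (fun b => Fin (mu (F b))) e) ?_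
  intro x y
  rw [seifert, seifert, ← Equiv.prod_comp e]
  simp [Equiv.piCongrLeft_apply_apply]

theorem seifert_sum (F : α → List ℕ) (G : β → List ℕ) :
    CongR (seifert (Sum.elim F G)) (kroneckerMap (· * ·) (seifert F) (seifert G)) := by
  refine CongR.of_equiv (Equiv.sumPiEquivProdPi (fun i => Fin (mu (Sum.elim F G i)))) ?_
  intro x y
  simp only [seifert, Fintype.prod_sum_type, kroneckerMap_apply]
  rfl

theorem seifert_prod (F : α → List ℕ) :
    CongR (seifert fun p : ν × α => F p.2) (piMat fun _ : ν => seifert F) := by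
  refine CongR.of_equiv ⟨fun x k i => x (k, i), fun x p => x p.1 p.2, fun x => rfl, fun x => rfl⟩ ?_
  intro x y
  simp [seifert, piMat_apply, Fintype.prod_prod_type]

theorem seifert_unit (c : List ℕ) : CongR (seifert fun _ : Unit => c) (chainSeifert c) := by
  refine CongR.of_equiv (Equiv.funUnique Unit (Fin (mu c))) ?_
  intro x y
  simp [seifert]

theorem seifert_const_eq_piMat (c : List ℕ) :
    seifert (fun _ : ν => c) = piMat fun _ : ν => chainSeifert c := rfl

theorem CongR.pi {R : Type} [CommRing R] {ι κ : ν → Type}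
    [∀ k, Fintype (ι k)] [∀ k, DecidableEq (ι k)] [∀ k, Fintype (κ k)] [∀ k, DecidableEq (κ k)]
    {M : ∀ k, Matrix (ι k) (ι k) R} {N : ∀ k, Matrix (κ k) (κ k) R} (h : ∀ k, CongR (M k) (N k)) :
    CongR (piMat M) (piMat N) := by
  choose P Q h1 h2 h3 using h
  refine ⟨piMat P, piMat Q, ?_, ?_, ?_⟩
  · rw [← piMat_mul]; simp only [h1, piMat_one]
  · rw [← piMat_mul]; simp only [h2, piMat_one]
  · rw [piMat_transpose, ← piMat_mul, ← piMat_mul]; simp only [h3]

theorem chainSeifert_two (i j : Fin (mu [2])) : chainSeifert [2] i j = 1 := by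
  rw [chainSeifert_single]
  have h : mu [2] = 1 := by rw [mu_single]
  have := i.2; have := j.2
  rw [if_pos (by omega)]

/-- Adding squares does not change the Seifert matrix. -/
theorem seifert_add_two (F : α → List ℕ) :
    CongR (seifert (Sum.elim F fun _ : ν => [2])) (seifert F) := by
  refine (seifert_sum F fun _ : ν => [2]).trans ?_
  have h : mu [2] = 1 := by rw [mu_single]
  have hs : Subsingleton (Fin (mu [2])) := by rw [h]; infer_instance
  have hn : Nonempty (Fin (mu [2])) := by rw [h]; infer_instance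
  have : Unique (ν → Fin (mu [2])) :=
    { default := fun _ => hn.some, uniq := fun x => funext fun i => Subsingleton.elim _ _ }
  refine CongR.of_equiv (Equiv.prodUnique _ _) ?_
  intro x y
  simp [kroneckerMap_apply, seifert, chainSeifert_two]

end Fam

/-! ## Change of the sign index -/

namespace GForm

variable {R : Type} [CommRing R] {G : Type} [CommGroup G] {e e' : ℤˣ} {ι : Type} [Fintype ι]
  [DecidableEq ι]

/-- The same form, with an equal sign. -/
def castE (h : e = e') (A : GForm R G e ι) : GForm R G e' ι where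
  g := A.g
  ρ := A.ρ
  symm := by rw [← h]; exact A.symm
  inv := A.inv
  unimod := A.unimod

end GForm

/-! ## The big families -/

section Big

/-- The index type of the big family: `4 k` copies of `α`, `3 m` points and one point. -/
abbrev BigIdx (k m : ℕ) (α : Type) : Type :=
  (((Fin k × (α ⊕ α)) ⊕ (Fin k × (α ⊕ α))) ⊕ (Fin m × Fin 3)) ⊕ Unit

/-- `4 k` copies of `f`, `3 m` copies of `[D]` and one `[5]`. -/
def bigFam (k m D : ℕ) {α : Type} (f : α → List ℕ) : BigIdx k m α → List ℕ :=
  Sum.elim (Sum.elim (Sum.elim (fun p : Fin k × (α ⊕ α) => Sum.elim f f p.2)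
    (fun p : Fin k × (α ⊕ α) => Sum.elim f f p.2))
    (fun p : Fin m × Fin 3 => (fun _ : Fin 3 => [D]) p.2)) (fun _ : Unit => [5])

variable {D : ℕ} [NeZero D] {α : Type} [Fintype α] [DecidableEq α]

theorem bigFam_congR (hD : Odd D) (hD3 : 3 ≤ D) (f : α → List ℕ) (hf : ∀ i, ChainOK D (f i))
    (k m : ℕ) {e : ℤˣ} (he : (∏ i, sgn (f i)) * (∏ i, sgn (f i)) = e) :
    CongR (seifert (bigFam k m D f))
      ((((GForm.pow (Fin k) (((sumForm D hD f hf).mul (sumForm D hD f hf)).castE he)).mul
        (GForm.pow (Fin k) (((sumForm D hD f hf).mul (sumForm D hD f hf)).castE he))).mul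
        (GForm.pow (Fin m) (C3 D hD hD3))).ext E5).seif5 := by
  rw [ext_E5_seif5, GForm.mul_seif, GForm.mul_seif, GForm.pi_seif, GForm.pi_seif]
  have h1 : (((sumForm D hD f hf).mul (sumForm D hD f hf)).castE he).seif =
      kroneckerMap (· * ·) (seifert f) (seifert f) := by
    change ((sumForm D hD f hf).mul (sumForm D hD f hf)).seif = _
    rw [GForm.mul_seif, sumForm_seif]
  have h2 : (C3 D hD hD3).seif = seifert (fun _ : Fin 3 => [D]) := by
    rw [C3, GForm.pi_seif, chainForm_seif]
    rfl
  simp only [h1, h2]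
  have h3 : CongR (seifert fun p : Fin k × (α ⊕ α) => Sum.elim f f p.2)
      (piMat fun _ : Fin k => kroneckerMap (· * ·) (seifert f) (seifert f)) :=
    (seifert_prod (ν := Fin k) (Sum.elim f f)).trans (CongR.pi fun _ => seifert_sum f f)
  refine (seifert_sum _ _).trans (CongR.kron ?_ (seifert_unit [5]))
  refine (seifert_sum _ _).trans (CongR.kron ?_ (seifert_prod (ν := Fin m) fun _ : Fin 3 => [D]))
  exact (seifert_sum _ _).trans (CongR.kron h3 h3)

omit [Fintype α] [DecidableEq α] in
theorem bigFam_forall (k m D : ℕ) (f : α → List ℕ) (P : List ℕ → Prop) (hf : ∀ i, P (f i))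
    (hD : P [D]) (h5 : P [5]) : ∀ i, P (bigFam k m D f i) := by
  rintro (((⟨_, i | i⟩ | ⟨_, i | i⟩) | i) | i)
  · exact hf i
  · exact hf i
  · exact hf i
  · exact hf i
  · exact hD
  · exact h5

omit [DecidableEq α] in
theorem bigFam_length (k m D : ℕ) (f : α → List ℕ) :
    ∑ i, (bigFam k m D f i).length = 4 * k * ∑ i, (f i).length + 3 * m + 1 := by
  simp only [bigFam, Fintype.sum_sum_type, Sum.elim_inl, Sum.elim_inr, Fintype.sum_prod_type,
    List.length_cons, List.length_nil, Finset.sum_const, Finset.card_univ, Fintype.card_fin,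
    smul_eq_mul]
  simp
  ring

end Big

/-- Reindexing a family by `Fin N`. -/
theorem seifert_fin {α : Type} [Fintype α] [DecidableEq α] (F : α → List ℕ) :
    CongR (seifert fun i => F ((Fintype.equivFin α).symm i)) (seifert F) :=
  seifert_reindex _ F

theorem length_fin {α : Type} [Fintype α] (F : α → List ℕ) :
    ∑ i, (F ((Fintype.equivFin α).symm i)).length = ∑ i, (F i).length :=
  Equiv.sum_comp (Fintype.equivFin α).symm fun i => (F i).length

theorem asm_mu_pos {c : List ℕ} (h : ∀ a ∈ c, 2 ≤ a) : 0 < mu c ∧ mu c ≤ c.prod := by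
  induction c with
  | nil => simp [mu]
  | cons a c ih =>
    obtain ⟨h1, h2⟩ := ih fun b hb => h b (List.mem_cons_of_mem _ hb)
    have ha := h a List.mem_cons_self
    have h3 : 2 * c.prod ≤ a * c.prod := Nat.mul_le_mul_right _ ha
    rw [mu, List.prod_cons]
    omega

end Vale.Agent.P268.Z
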