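import Vale.Agent.P268.Z.Seif

/-!
# P268: the chain `[D]`, the form `E5` of `z ^ 5`, the ring `Λ = ℤ[ζ₅][C_D]`
-/

namespace Vale.Agent.P268.Z

open Matrix

/-! ## The chain `[D]` -/

section Single

theorem mu_single (D : ℕ) : mu [D] = D - 1 := by simp [mu]

theorem qser_single (D : ℕ) : qser [D] = 1 - PowerSeries.X := by
  have h : PowerSeries.invOfUnit (1 : PowerSeries ℤ) 1 = 1 := by
    have := PowerSeries.mul_invOfUnit (1 : PowerSeries ℤ) 1 (by simp)
    simpa using this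
  simp [qser, h]

theorem chainSeifert_single (D : ℕ) (i j : Fin (mu [D])) :
    chainSeifert [D] i j = if (i : ℕ) = j then 1 else if (i : ℕ) + 1 = j then -1 else 0 := by
  unfold chainSeifert
  rw [qser_single, map_sub, PowerSeries.coeff_one, PowerSeries.coeff_X]
  split_ifs <;> first | omega | simp

theorem chainSeifert_single_det (D : ℕ) : (chainSeifert [D]).det = 1 := by
  rw [Matrix.det_of_upperTriangular]
  · simp [chainSeifert_single]
  · intro i j hij
    have hij' : (j : ℕ) < i := hij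
    rw [chainSeifert_single, if_neg (by omega), if_neg (by omega)]

/-- The companion matrix of `1 + x + … + x ^ n`. -/
def compMat (n : ℕ) : Matrix (Fin n) (Fin n) ℤ :=
  fun i j => if (j : ℕ) + 1 = n then -1 else if (i : ℕ) = j + 1 then 1 else 0

theorem seifert_mul_compMat (D : ℕ) :
    chainSeifert [D] * compMat (mu [D]) = -(chainSeifert [D])ᵀ := by
  ext i j
  rw [Matrix.mul_apply, Matrix.neg_apply, Matrix.transpose_apply]
  simp only [chainSeifert_single, compMat]
  by_cases hi : (i : ℕ) + 1 < mu [D]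
  · rw [Finset.sum_eq_add i ⟨i + 1, hi⟩ (by intro h; have := congrArg Fin.val h; simp at this)]
    · have := j.2
      simp only [Nat.succ_ne_self, if_true]
      split_ifs <;> simp <;> omega
    · intro c _ hc
      have h1 : (i : ℕ) ≠ c := fun h => hc.1 (Fin.ext h.symm)
      have h2 : (i : ℕ) + 1 ≠ c := fun h => hc.2 (Fin.ext h.symm)
      simp [h1, h2]
    · simp
    · simp
  · have hi' : (i : ℕ) + 1 = mu [D] := by have := i.2; omega
    rw [Finset.sum_eq_single i]
    · have := j.2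
      split_ifs <;> simp <;> omega
    · intro c _ hc
      have h1 : (i : ℕ) ≠ c := fun h => hc (Fin.ext h.symm)
      have h2 : (i : ℕ) + 1 ≠ c := by have := c.2; omega
      simp [h1, h2]
    · simp

theorem mono_single (D : ℕ) : mono (-1) (chainSeifert [D]) = compMat (mu [D]) := by
  have hd : IsUnit (chainSeifert [D]).det := by rw [chainSeifert_single_det]; exact isUnit_one
  have h := seifert_mul_compMat D
  have h2 : (chainSeifert [D])⁻¹ * (chainSeifert [D] * compMat (mu [D])) =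
      (chainSeifert [D])⁻¹ * -(chainSeifert [D])ᵀ := by rw [h]
  rw [← Matrix.mul_assoc, Matrix.nonsing_inv_mul _ hd, Matrix.one_mul] at h2
  rw [h2, mono, Matrix.mul_neg]
  simp

/-- The vectors `e_0, …, e_{n-1}, e_n = -∑ e_i`, continued periodically. -/
def cvec (n : ℕ) (k : ℕ) : Fin n → ℤ :=
  fun i => if k % (n + 1) = n then -1 else if (i : ℕ) = k % (n + 1) then 1 else 0

theorem compMat_mulVec (n : ℕ) (k : ℕ) : compMat n *ᵥ cvec n k = cvec n (k + 1) := by
  ext i
  have hn := i.2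
  have hk : k % (n + 1) < n + 1 := Nat.mod_lt _ (by omega)
  rw [Matrix.mulVec, dotProduct]
  simp only [cvec, compMat]
  rcases Nat.lt_or_ge (k % (n + 1)) n with h | h
  · have h1 : (k + 1) % (n + 1) = k % (n + 1) + 1 := by
      rw [Nat.add_mod]
      rcases Nat.eq_zero_or_pos n with rfl | hpos
      · omega
      · rw [Nat.mod_eq_of_lt (show 1 < n + 1 by omega), Nat.mod_eq_of_lt (by omega)]
    rw [h1]
    rw [Finset.sum_eq_single ⟨k % (n + 1), h⟩]
    · have h2 : k % (n + 1) ≠ n := by omega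
      simp [h2]
    · intro c _ hc
      have h2 : (c : ℕ) ≠ k % (n + 1) := fun h => hc (Fin.ext h)
      have h3 : k % (n + 1) ≠ n := by omega
      simp [h2, h3]
    · simp
  · have hkn : k % (n + 1) = n := by omega
    have h1 : (k + 1) % (n + 1) = 0 := by
      rw [Nat.add_mod, hkn]
      rcases Nat.eq_zero_or_pos n with rfl | hpos
      · omega
      · rw [Nat.mod_eq_of_lt (show 1 < n + 1 by omega), Nat.mod_self]
    rw [h1, hkn]
    simp only [if_true]
    have h0 : (0 : ℕ) ≠ n := by omega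
    simp only [h0, if_false]
    obtain ⟨m, rfl⟩ : ∃ m, n = m + 1 := ⟨n - 1, by omega⟩
    by_cases hi : (i : ℕ) = 0
    · rw [Finset.sum_eq_single (Fin.last m)]
      · simp [hi]
      · intro c _ hc
        have h2 : (c : ℕ) ≠ m := fun h => hc (Fin.ext (by simp [h]))
        simp [h2, hi]
      · simp
    · have hi' : (i : ℕ) - 1 < m + 1 := by omega
      rw [Finset.sum_eq_add (Fin.last m) ⟨(i : ℕ) - 1, hi'⟩
        (by intro h; have := congrArg Fin.val h; simp at this; omega)]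
      · have h3 : (i : ℕ) - 1 + 1 ≠ m + 1 := by omega
        have h4 : (i : ℕ) = (i : ℕ) - 1 + 1 := by omega
        have h5 : (Fin.last m : ℕ) + 1 = m + 1 := by simp
        rw [if_pos h5, if_neg h3, if_pos h4, if_neg hi]
        simp
      · intro c _ hc
        have h2 : (c : ℕ) ≠ m := fun h => hc.1 (Fin.ext (by simp [h]))
        have h3 : (i : ℕ) ≠ c + 1 := fun h => hc.2 (Fin.ext (by simp [h]))
        simp [h2, h3]
      · simp
      · simp

theorem compMat_pow_mulVec (n m k : ℕ) : (compMat n) ^ m *ᵥ cvec n k = cvec n (k + m) := by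
  induction m with
  | zero => simp
  | succ m ih => rw [pow_succ', ← Matrix.mulVec_mulVec, ih, compMat_mulVec, Nat.add_assoc]

theorem cvec_of_lt {n : ℕ} (k : Fin n) : cvec n k = Pi.single k 1 := by
  ext i
  have hk := k.2
  have h1 : (k : ℕ) % (n + 1) = k := Nat.mod_eq_of_lt (by omega)
  rw [cvec, h1, if_neg (by omega), Pi.single_apply]
  simp [Fin.ext_iff]

theorem compMat_pow (n : ℕ) : (compMat n) ^ (n + 1) = 1 := by
  ext i j
  have h := compMat_pow_mulVec n (n + 1) j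
  have h2 : cvec n ((j : ℕ) + (n + 1)) = cvec n j := by
    ext i; simp [cvec]
  rw [h2, cvec_of_lt j, Matrix.mulVec_single_one] at h
  have := congrFun h i
  rw [Matrix.col_apply] at this
  rw [this, Pi.single_apply, Matrix.one_apply]

theorem chainOK_single' {D : ℕ} (hD : 2 ≤ D) : ChainOK D [D] where
  ne := by simp
  two a ha := by simp at ha; omega
  det := by rw [chainSeifert_single_det]; exact isUnit_one
  ord := by
    have h : sgn [D] = -1 := by simp [sgn]
    have h1 : D = mu [D] + 1 := by rw [mu_single]; omega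
    rw [h, mono_single]
    exact (congrArg (fun k => compMat (mu [D]) ^ k) h1).trans (compMat_pow _)

theorem chainOK_single {D : ℕ} [NeZero D] (_hD : Odd D) (hD3 : 3 ≤ D) : ChainOK D [D] :=
  chainOK_single' (by omega)

end Single

/-! ## the form `E5` of `z ^ 5`, the ring `Λ = ℤ[ζ₅][C_D]` -/

theorem chainOK_five : ChainOK 5 [5] := chainOK_single' (by norm_num)

/-- The form of `z ^ 5`: the lattice `ℤ[ζ₅]`. -/
noncomputable def E5 : GForm ℤ (Cyc 5) (sgn [5]) (Fin (mu [5])) :=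
  chainForm 5 (by decide) [5] chainOK_five

/-- The index type of a `ℤ`-basis of `Λ = ℤ[ζ₅][C_D]`. -/
def LIdx (D : ℕ) : Type := Cyc D × Fin (mu [5])

instance (D : ℕ) [NeZero D] : Fintype (LIdx D) := inferInstanceAs (Fintype (Cyc D × Fin (mu [5])))

instance (D : ℕ) [NeZero D] : DecidableEq (LIdx D) :=
  inferInstanceAs (DecidableEq (Cyc D × Fin (mu [5])))

/-- The representation `Λ = ℤ[ζ₅][C_D]` of `C_D × C_5`. -/
noncomputable def Lam (D : ℕ) [NeZero D] :
    Cyc D × Cyc 5 →* Matrix (LIdx D) (LIdx D) ℤ :=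
  repExt (repReg ℤ (Cyc D)) E5.ρ

/-- `1 + ζ + ζ² + ζ³ + ζ⁴ = 0` for the generator `ζ` of the factor `C_5`. -/
def Phi5 {D : ℕ} {R : Type} [CommRing R] {ι : Type} [Fintype ι] [DecidableEq ι]
    (ρ : Cyc D × Cyc 5 →* Matrix ι ι R) : Prop :=
  ∑ i : ZMod 5, ρ (1, Multiplicative.ofAdd i) = 0

/-- The form of `z₁ ^ D + z₂ ^ D + z₃ ^ D`. -/
noncomputable def C3 (D : ℕ) [NeZero D] (hD : Odd D) (hD3 : 3 ≤ D) :
    GForm ℤ (Cyc D) (∏ _k : Fin 3, sgn [D]) (Fin 3 → Fin (mu [D])) :=
  GForm.pow (Fin 3) (chainForm D hD [D] (chainOK_single hD hD3))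

/-! ## `Phi5` -/

section Phi5

theorem compMat_sum : 1 + compMat 4 + compMat 4 ^ 2 + compMat 4 ^ 3 + compMat 4 ^ 4 = 0 := by
  decide +kernel

theorem E5_rho (a : Cyc 5) : E5.ρ a = (compMat (mu [5])) ^ (Multiplicative.toAdd a).val := by
  change (mono (sgn [5]) (chainSeifert [5])) ^ _ = _
  rw [show sgn [5] = -1 by simp [sgn], mono_single]

theorem E5_phi5 : ∑ i : ZMod 5, E5.ρ (Multiplicative.ofAdd i) = 0 := by
  simp only [E5_rho]
  have h := compMat_sum
  change ∑ i : Fin 5, compMat 4 ^ (i : ℕ) = 0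
  rw [Fin.sum_univ_five]
  simpa using h

variable {D : ℕ} {R S : Type} [CommRing R] [CommRing S] {ι κ : Type} [Fintype ι] [DecidableEq ι]
  [Fintype κ] [DecidableEq κ] {e : ℤˣ}

/-- If `∑ σ i = 0` and `τ` is trivial on the factor `C_5` then `τ ⊗ σ` satisfies `Phi5`. -/
theorem phi5_tensor (τ : Cyc D × Cyc 5 →* Matrix ι ι R) (σ : Cyc D × Cyc 5 →* Matrix κ κ R)
    (hτ : ∀ a : Cyc 5, τ (1, a) = 1) (hσ : Phi5 σ) : Phi5 (repTensor τ σ) := by
  unfold Phi5 at *
  ext ⟨i, j⟩ ⟨i', j'⟩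
  have h := congrFun (congrFun hσ j) j'
  rw [Matrix.sum_apply] at h ⊢
  simp only [repTensor, MonoidHom.coe_mk, OneHom.coe_mk, kroneckerMap_apply, hτ]
  rw [← Finset.mul_sum, h]
  simp

theorem phi5_tensor_fst (X : Cyc D →* Matrix ι ι R) (σ : Cyc D × Cyc 5 →* Matrix κ κ R)
    (hσ : Phi5 σ) : Phi5 (repTensor (X.comp (MonoidHom.fst _ _)) σ) :=
  phi5_tensor _ _ (fun a => by simp) hσ

theorem phi5_E5 : Phi5 (E5.ρ.comp (MonoidHom.snd (Cyc D) (Cyc 5))) := by
  unfold Phi5
  simpa using E5_phi5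

theorem phi5_repExt (X : Cyc D →* Matrix ι ι ℤ) : Phi5 (repExt X E5.ρ) :=
  phi5_tensor_fst X _ phi5_E5

theorem phi5_Lam [NeZero D] : Phi5 (Lam D) := phi5_repExt _

theorem phi5_ext (A : GForm ℤ (Cyc D) e ι) : Phi5 (A.ext E5).ρ := phi5_repExt A.ρ

theorem Phi5.map (f : R →+* S) {ρ : Cyc D × Cyc 5 →* Matrix ι ι R} (h : Phi5 ρ) :
    Phi5 (repMap f ρ) := by
  unfold Phi5 at *
  have := congrArg f.mapMatrix h
  rw [map_sum, map_zero] at this
  exact this

theorem Phi5.sum {ρ : Cyc D × Cyc 5 →* Matrix ι ι R} {σ : Cyc D × Cyc 5 →* Matrix κ κ R}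
    (h : Phi5 ρ) (h' : Phi5 σ) : Phi5 (repSum ρ σ) := by
  unfold Phi5 at *
  ext (i | i) (j | j)
  · have := congrFun (congrFun h i) j
    rw [Matrix.sum_apply] at this ⊢
    simpa [repSum] using this
  · rw [Matrix.sum_apply]; simp [repSum]
  · rw [Matrix.sum_apply]; simp [repSum]
  · have := congrFun (congrFun h' i) j
    rw [Matrix.sum_apply] at this ⊢
    simpa [repSum] using this

theorem Phi5.copies (ν : Type) [Fintype ν] [DecidableEq ν]
    {ρ : Cyc D × Cyc 5 →* Matrix ι ι R} (h : Phi5 ρ) : Phi5 (repCopies ν ρ) :=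
  phi5_tensor _ _ (fun a => by simp) h

theorem Phi5.sharp {ρ : Cyc D × Cyc 5 →* Matrix ι ι R} (h : Phi5 ρ) : Phi5 (repSharp ρ) := by
  unfold Phi5 at *
  have := congrArg Matrix.transpose h
  rw [Matrix.transpose_sum, Matrix.transpose_zero] at this
  exact this

theorem Phi5.bar {ρ : Cyc D × Cyc 5 →* Matrix ι ι R} (h : Phi5 ρ) : Phi5 (repBar ρ) := by
  unfold Phi5 at *
  rw [← h]
  refine Fintype.sum_equiv (Equiv.neg (ZMod 5)) _ _ fun i => ?_
  simp only [repBar, MonoidHom.comp_apply, Equiv.neg_apply, ofAdd_neg]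
  congr 1
  simp

theorem Phi5.dual {ρ : Cyc D × Cyc 5 →* Matrix ι ι R} (h : Phi5 ρ) : Phi5 (repDual ρ) :=
  h.bar.sharp

theorem Phi5.hyp {ρ : Cyc D × Cyc 5 →* Matrix ι ι R} (h : Phi5 ρ) : Phi5 (GForm.hyp e ρ).ρ :=
  h.sum h.dual

theorem Phi5.add {A : GForm R (Cyc D × Cyc 5) e ι} {B : GForm R (Cyc D × Cyc 5) e κ}
    (h : Phi5 A.ρ) (h' : Phi5 B.ρ) : Phi5 (A.add B).ρ :=
  Phi5.sum h h'

theorem Phi5.mapForm (f : R →+* S) {A : GForm R (Cyc D × Cyc 5) e ι} (h : Phi5 A.ρ) :
    Phi5 (A.map f).ρ :=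
  Phi5.map f h

end Phi5

end Vale.Agent.P268.Z
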