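import Vale.Agent.P268.Z.Api
import Vale.Agent.P268.Z.E5

/-!
# P268: stable isomorphism of representations, tensor powers, bar-invariance
-/

namespace Vale.Agent.P268.Z

open Matrix

section St

variable {R : Type} [CommRing R] {G : Type} [CommGroup G] {ι κ ν μ π : Type} [Fintype ι]
  [DecidableEq ι] [Fintype κ] [DecidableEq κ] [Fintype ν] [DecidableEq ν] [Fintype μ]
  [DecidableEq μ] [Fintype π] [DecidableEq π]

theorem repCopies_add (s t : ℕ) (τ : G →* Matrix μ μ R) :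
    RepIso (repCopies (Fin (s + t)) τ) (repSum (repCopies (Fin s) τ) (repCopies (Fin t) τ)) :=
  ((repCopies_sum τ).trans (repCopies_congr_idx finSumFinEquiv τ)).symm

/-- Stable isomorphism: isomorphism after adding `s` copies of `τ`, for all large `s`. -/
def StIso (τ : G →* Matrix μ μ R) (ρ : G →* Matrix ι ι R) (σ : G →* Matrix κ κ R) : Prop :=
  ∃ s₀ : ℕ, ∀ s, s₀ ≤ s →
    RepIso (repSum ρ (repCopies (Fin s) τ)) (repSum σ (repCopies (Fin s) τ))

theorem RepIso.sum_copies_add {τ : G →* Matrix μ μ R} {ρ : G →* Matrix ι ι R}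
    {σ : G →* Matrix κ κ R} {s : ℕ} (t : ℕ)
    (h : RepIso (repSum ρ (repCopies (Fin s) τ)) (repSum σ (repCopies (Fin s) τ))) :
    RepIso (repSum ρ (repCopies (Fin (s + t)) τ)) (repSum σ (repCopies (Fin (s + t)) τ)) := by
  have h1 : RepIso (repSum ρ (repCopies (Fin (s + t)) τ))
      (repSum (repSum ρ (repCopies (Fin s) τ)) (repCopies (Fin t) τ)) :=
    ((RepIso.refl ρ).sum (repCopies_add s t τ)).trans (repSum_assoc _ _ _).symm
  have h2 : RepIso (repSum σ (repCopies (Fin (s + t)) τ))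
      (repSum (repSum σ (repCopies (Fin s) τ)) (repCopies (Fin t) τ)) :=
    ((RepIso.refl σ).sum (repCopies_add s t τ)).trans (repSum_assoc _ _ _).symm
  exact h1.trans ((h.sum (RepIso.refl _)).trans h2.symm)

theorem StIso.mk {τ : G →* Matrix μ μ R} {ρ : G →* Matrix ι ι R} {σ : G →* Matrix κ κ R} (s : ℕ)
    (h : RepIso (repSum ρ (repCopies (Fin s) τ)) (repSum σ (repCopies (Fin s) τ))) :
    StIso τ ρ σ := by
  refine ⟨s, fun s' hs => ?_⟩
  obtain ⟨t, rfl⟩ := Nat.exists_eq_add_of_le hs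
  exact h.sum_copies_add t

theorem StIso.of_repIso {τ : G →* Matrix μ μ R} {ρ : G →* Matrix ι ι R} {σ : G →* Matrix κ κ R}
    (h : RepIso ρ σ) : StIso τ ρ σ := ⟨0, fun _ _ => h.sum (RepIso.refl _)⟩

theorem StIso.symm {τ : G →* Matrix μ μ R} {ρ : G →* Matrix ι ι R} {σ : G →* Matrix κ κ R}
    (h : StIso τ ρ σ) : StIso τ σ ρ := by
  obtain ⟨s, hs⟩ := h
  exact ⟨s, fun s' h' => (hs s' h').symm⟩

theorem StIso.trans {τ : G →* Matrix μ μ R} {ρ : G →* Matrix ι ι R} {σ : G →* Matrix κ κ R}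
    {υ : G →* Matrix ν ν R} (h : StIso τ ρ σ) (h' : StIso τ σ υ) : StIso τ ρ υ := by
  obtain ⟨s, hs⟩ := h
  obtain ⟨t, ht⟩ := h'
  exact ⟨max s t, fun s' h' => (hs s' (le_trans (le_max_left _ _) h')).trans
    (ht s' (le_trans (le_max_right _ _) h'))⟩

/-- `X ⊗ τ ^ s` is `s * dim X` copies of `τ` if `τ` absorbs. -/
theorem tensor_copies_absorb {τ : G →* Matrix μ μ R} (X : G →* Matrix ν ν R)
    (hX : RepIso (repTensor X τ) (repCopies ν τ)) (s : ℕ) :
    RepIso (repTensor X (repCopies (Fin s) τ)) (repCopies (Fin (s * Fintype.card ν)) τ) := by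
  refine (repTensor_copies X τ).trans ((repCopies_congr hX).trans
    ((repCopies_copies τ).trans (repCopies_congr_idx ?_ τ)))
  exact (Fintype.equivFinOfCardEq (by rw [Fintype.card_prod, Fintype.card_fin]))

theorem StIso.tensor_left {τ : G →* Matrix μ μ R} {ρ : G →* Matrix ι ι R}
    {σ : G →* Matrix κ κ R} (X : G →* Matrix ν ν R)
    (hX : RepIso (repTensor X τ) (repCopies ν τ)) (h : StIso τ ρ σ) :
    StIso τ (repTensor X ρ) (repTensor X σ) := by
  obtain ⟨s, hs⟩ := h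
  have h1 := hs s le_rfl
  refine StIso.mk (s * Fintype.card ν) ?_
  have h2 := tensor_copies_absorb X hX s
  have h3 : RepIso (repTensor X (repSum ρ (repCopies (Fin s) τ)))
      (repSum (repTensor X ρ) (repCopies (Fin (s * Fintype.card ν)) τ)) :=
    (repTensor_sum _ _ _).trans ((RepIso.refl _).sum h2)
  have h4 : RepIso (repTensor X (repSum σ (repCopies (Fin s) τ)))
      (repSum (repTensor X σ) (repCopies (Fin (s * Fintype.card ν)) τ)) :=
    (repTensor_sum _ _ _).trans ((RepIso.refl _).sum h2)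
  exact h3.symm.trans (((RepIso.refl X).tensor h1).trans h4)

theorem StIso.ext {H : Type} [CommGroup H] {τ : G →* Matrix μ μ R} {ρ : G →* Matrix ι ι R}
    {σ : G →* Matrix κ κ R} (E : H →* Matrix ν ν R) (h : StIso τ ρ σ) :
    StIso (repExt τ E) (repExt ρ E) (repExt σ E) := by
  obtain ⟨s, hs⟩ := h
  refine ⟨s, fun s' h' => ?_⟩
  have h1 := hs s' h'
  have h3 : RepIso (repExt (repSum ρ (repCopies (Fin s') τ)) E)
      (repSum (repExt ρ E) (repCopies (Fin s') (repExt τ E))) :=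
    (repSum_ext _ _ _).trans ((RepIso.refl _).sum (repCopies_ext _ _))
  have h4 : RepIso (repExt (repSum σ (repCopies (Fin s') τ)) E)
      (repSum (repExt σ E) (repCopies (Fin s') (repExt τ E))) :=
    (repSum_ext _ _ _).trans ((RepIso.refl _).sum (repCopies_ext _ _))
  exact h3.symm.trans ((h1.ext (RepIso.refl E)).trans h4)

end St

/-! ## Tensor powers -/

section Pow

variable {R : Type} [CommRing R] {S : Type} [CommRing S] {G : Type} [CommGroup G] {e e' : ℤˣ}
  {ι κ : Type} [Fintype ι] [DecidableEq ι] [Fintype κ] [DecidableEq κ]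

theorem GForm.pow_succ_iso (k : ℕ) (A : GForm R G e ι) :
    (GForm.pow (Fin (k + 1)) A).Iso ((GForm.pow (Fin k) A).mul A) :=
  (GForm.pow_congr_idx (finSumFinEquiv (m := k) (n := 1)).symm A).trans
    ((GForm.pow_mul A).trans ((GForm.Iso.refl _).mul
      ((GForm.pow_congr_idx (Equiv.ofUnique (Fin 1) Unit) A).trans (GForm.pow_unit A))))

theorem GForm.pow_zero_rep (A : GForm R G e ι) (B : GForm R G e' κ) :
    RepIso (GForm.pow (Fin 0) A).ρ (GForm.pow (Fin 0) B).ρ := by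
  have h1 : ∀ a i j, (GForm.pow (Fin 0) A).ρ a i j = 1 := fun a i j =>
    (Finset.prod_of_isEmpty (s := Finset.univ) (f := fun k : Fin 0 => A.ρ a (i k) (j k)))
  have h2 : ∀ a i j, (GForm.pow (Fin 0) B).ρ a i j = 1 := fun a i j =>
    (Finset.prod_of_isEmpty (s := Finset.univ) (f := fun k : Fin 0 => B.ρ a (i k) (j k)))
  refine RepIso.of_equiv (Equiv.ofUnique _ _) ?_
  intro a i j
  rw [h1, h2]

theorem StIso.pow [Fintype G] [DecidableEq G] (f : R →+* S) (A : GForm R G e ι)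
    (B : GForm R G e' κ)
    (h : StIso (repReg S G) (repMap f A.ρ) (repMap f B.ρ)) (k : ℕ) :
    StIso (repReg S G) (repMap f (GForm.pow (Fin k) A).ρ) (repMap f (GForm.pow (Fin k) B).ρ) := by
  induction k with
  | zero => exact StIso.of_repIso ((GForm.pow_zero_rep A B).map f)
  | succ k ih =>
    have hA := ((GForm.pow_succ_iso k A).rep).map f
    have hB := ((GForm.pow_succ_iso k B).rep).map f
    change RepIso _ (repMap f (repTensor _ _)) at hA hB
    rw [repMap_repTensor] at hA hB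
    refine (StIso.of_repIso hA).trans (StIso.trans ?_ (StIso.of_repIso hB).symm)
    refine (h.tensor_left _ (repTensor_reg _)).trans ?_
    refine (StIso.of_repIso (repTensor_comm _ _)).trans
      (StIso.trans ?_ (StIso.of_repIso (repTensor_comm _ _)))
    exact ih.tensor_left _ (repTensor_reg _)

end Pow

/-! ## Bar-invariance -/

section Bar

variable {R : Type} [CommRing R] {G : Type} [CommGroup G] {e : ℤˣ} {ι κ : Type} [Fintype ι]
  [DecidableEq ι]

/-- The form twisted by inversion is the form up to sign. -/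
def GForm.BarPM (A : GForm ℤ G e ι) : Prop :=
  ∃ (s : ℤˣ) (P Q : Matrix ι ι ℤ), Q * P = 1 ∧ P * Q = 1 ∧ Pᵀ * A.g * P = (s : ℤ) • A.g ∧
    ∀ a, P * A.ρ a⁻¹ = A.ρ a * P

theorem GForm.BarPM.of_iso {A : GForm ℤ G e ι} (h : A.bar.Iso A) : A.BarPM := by
  obtain ⟨P, Q, h1, h2, h3, h4⟩ := h
  refine ⟨1, P, Q, h1, h2, ?_, h4⟩
  rw [h3]; simp [GForm.bar, GForm.comap]

theorem GForm.BarPM.of_iso_neg {A : GForm ℤ G e ι} (h : A.bar.Iso A.neg) : A.BarPM := by
  obtain ⟨P, Q, h1, h2, h3, h4⟩ := h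
  refine ⟨-1, P, Q, h1, h2, ?_, h4⟩
  change Pᵀ * (-A.g) * P = A.g at h3
  rw [Matrix.mul_neg, Matrix.neg_mul] at h3
  rw [← neg_eq_iff_eq_neg.mpr (by simpa using h3.symm : A.g = - (Pᵀ * A.g * P))]
  simp

theorem GForm.BarPM.pi {ν : Type} [Fintype ν] [DecidableEq ν] {ι : ν → Type}
    [∀ k, Fintype (ι k)] [∀ k, DecidableEq (ι k)] {e : ν → ℤˣ}
    (A : ∀ k, GForm ℤ G (e k) (ι k)) (h : ∀ k, (A k).BarPM) : (GForm.pi A).BarPM := by
  choose s P Q h1 h2 h3 h4 using h
  refine ⟨∏ k, s k, piMat P, piMat Q, ?_, ?_, ?_, fun a => ?_⟩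
  · rw [← piMat_mul]; simp only [h1, piMat_one]
  · rw [← piMat_mul]; simp only [h2, piMat_one]
  · change (piMat P)ᵀ * (piMat fun k => (A k).g) * piMat P = _ • piMat fun k => (A k).g
    rw [piMat_transpose, ← piMat_mul, ← piMat_mul]
    ext x y
    simp only [piMat_apply, h3, Matrix.smul_apply, smul_eq_mul, Finset.prod_mul_distrib,
      Units.coe_prod]
  · change piMat P * piMat (fun k => (A k).ρ a⁻¹) = piMat (fun k => (A k).ρ a) * piMat P
    rw [← piMat_mul, ← piMat_mul]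
    simp only [h4]

theorem GForm.BarPM.sq {A : GForm ℤ G e ι} (h : A.BarPM) : (A.mul A).bar.Iso (A.mul A) := by
  obtain ⟨s, P, Q, h1, h2, h3, h4⟩ := h
  refine ⟨kroneckerMap (· * ·) P P, kroneckerMap (· * ·) Q Q, ?_, ?_, ?_, fun a => ?_⟩
  · rw [← Matrix.mul_kronecker_mul, h1]; simp
  · rw [← Matrix.mul_kronecker_mul, h2]; simp
  · change _ * kroneckerMap (· * ·) A.g A.g * _ = kroneckerMap (· * ·) A.g A.g
    rw [← kroneckerMap_transpose, ← Matrix.mul_kronecker_mul, ← Matrix.mul_kronecker_mul, h3]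
    ext ⟨i, j⟩ ⟨i', j'⟩
    simp only [kroneckerMap_apply, Matrix.smul_apply, smul_eq_mul]
    have hs : (s : ℤ) * (s : ℤ) = 1 := by rw [← Units.val_mul, Int.units_mul_self]; rfl
    calc (s : ℤ) * A.g i i' * ((s : ℤ) * A.g j j') = ((s : ℤ) * s) * (A.g i i' * A.g j j') := by
          ring
      _ = _ := by rw [hs, one_mul]
  · change _ * kroneckerMap (· * ·) (A.ρ a⁻¹) (A.ρ a⁻¹) = kroneckerMap (· * ·) (A.ρ a) (A.ρ a) * _
    rw [← Matrix.mul_kronecker_mul, ← Matrix.mul_kronecker_mul, h4]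

theorem GForm.bar_pow_iso {ν : Type} [Fintype ν] [DecidableEq ν] {A : GForm ℤ G e ι}
    (h : A.bar.Iso A) : (GForm.pow ν A).bar.Iso (GForm.pow ν A) := by
  have h1 : (GForm.pow ν A).bar = GForm.pow ν A.bar := rfl
  rw [h1]
  exact h.pow

end Bar

end Vale.Agent.P268.Z
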