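import Vale.Agent.P268.Z.Conv
import Vale.Agent.P268.H294.B1

/-!
# P268, block B1: rational isometry of tensor powers
-/

namespace Vale.Agent.P268.Z

open Matrix Vale.Agent.P268.H294

theorem congM_of_congR {R : Type} [CommRing R] {α β : Type} [Fintype α] [DecidableEq α]
    [Fintype β] [DecidableEq β] {A : Matrix α α R} {B : Matrix β β R} (h : CongR A B) :
    CongM B A := by
  obtain ⟨P, Q, h1, h2, h3⟩ := h
  exact ⟨P, Q, h2, h1, h3⟩

theorem congR_of_congM {R : Type} [CommRing R] {α β : Type} [Fintype α] [DecidableEq α]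
    [Fintype β] [DecidableEq β] {A : Matrix α α R} {B : Matrix β β R} (h : CongM B A) :
    CongR A B := by
  obtain ⟨P, Q, h1, h2, h3⟩ := h
  exact ⟨P, Q, h2, h1, h3⟩

/-- the `k`-th power in the semiring of classes is the class of `piMat` -/
theorem cl_pow_eq {ι : Type} [Fintype ι] [DecidableEq ι] (A : Matrix ι ι ℚ) (k : ℕ) :
    cl A ^ k = cl (piMat (fun _ : Fin k => A)) := by
  induction k with
  | zero =>
    rw [pow_zero, CL.one_def, cl_eq]
    refine CongM.of_equiv (Equiv.ofUnique Unit (Fin 0 → ι)) _ _ ?_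
    intro i j
    simp [piMat_apply]
  | succ k ih =>
    rw [pow_succ, ih, CL.mul_def, cl_eq]
    refine CongM.of_equiv ((Equiv.prodComm _ _).trans (Fin.consEquiv fun _ : Fin (k + 1) => ι))
      _ _ ?_
    rintro ⟨x, i⟩ ⟨y, j⟩
    simp only [Matrix.kroneckerMap_apply, piMat_apply, Equiv.trans_apply, Equiv.prodComm_apply,
      Prod.swap_prod_mk, Fin.consEquiv_apply, Fin.prod_univ_succ, Fin.cons_zero, Fin.cons_succ]
    exact mul_comm _ _

theorem piMat_map {R S : Type} [CommRing R] [CommRing S] {ν : Type} [Fintype ν] [DecidableEq ν]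
    {ι : ν → Type} (M : ∀ k, Matrix (ι k) (ι k) R) (f : R →+* S) :
    (piMat M).map f = piMat fun k => (M k).map f := by
  ext x y
  simp [piMat_apply]

theorem cl_chain5 : cl ((chainSeifert [5]).map (Int.castRingHom ℚ)) = cl L5 := by
  rw [cl_eq]
  have h4 : mu [5] = 4 := by rw [mu_single]
  refine CongM.of_equiv (finCongr h4) _ _ ?_
  intro i j
  rw [Matrix.map_apply, chainSeifert_single]
  obtain ⟨i, hi⟩ := i
  obtain ⟨j, hj⟩ := j
  rw [h4] at hi hj
  interval_cases i <;> interval_cases j <;> simp [L5]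

theorem B1 {D : ℕ} [NeZero D] {e : ℤˣ} {ι κ : Type} [Fintype ι] [DecidableEq ι] [Fintype κ]
    [DecidableEq κ] (hD : Odd D) (hD5 : D.Coprime 5)
    (A : GForm ℤ (Cyc D) e ι) (B : GForm ℤ (Cyc D) e κ)
    (h : GForm.Iso (A.map (Int.castRingHom ℝ)) (B.map (Int.castRingHom ℝ))) :
    ∃ k : ℕ, 0 < k ∧ GForm.Iso
      (((GForm.pow (Fin k) A).ext E5).map (Int.castRingHom ℚ))
      (((GForm.pow (Fin k) B).ext E5).map (Int.castRingHom ℚ)) := by
  have hR : (Rat.castHom ℝ).comp (Int.castRingHom ℚ) = Int.castRingHom ℝ := by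
    ext; simp
  have h1 := congM_of_congR ((GForm.iso_iff_seif hD _ _).mp h)
  rw [GForm.map_seif, GForm.map_seif] at h1
  have hdet : ∀ {ι : Type} [Fintype ι] [DecidableEq ι] (A : GForm ℤ (Cyc D) e ι),
      IsUnit (A.seif.map (Int.castRingHom ℚ)).det := by
    intro ι _ _ A
    have h2 := (Int.castRingHom ℚ).map_det A.seif
    have h3 := A.seif_det.map (Int.castRingHom ℚ)
    rw [h2] at h3
    exact h3
  have hcomp : ∀ {ι : Type} [Fintype ι] [DecidableEq ι] (L : Matrix ι ι ℤ),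
      (L.map (Int.castRingHom ℚ)).map (Rat.castHom ℝ) = L.map (Int.castRingHom ℝ) := by
    intro ι _ _ L
    ext i j
    simp
  obtain ⟨M, hM⟩ := b1 (hdet B) (hdet A) (by rw [hcomp, hcomp]; exact h1)
  refine ⟨2 ^ M, by positivity, ?_⟩
  have h4 := hM (2 ^ M) dvd_rfl
  rw [cl_pow_eq, cl_pow_eq, ← cl_chain5, CL.mul_def, CL.mul_def, cl_eq] at h4
  rw [GForm.iso_iff_seif5 hD hD5, GForm.map_seif5, GForm.map_seif5, ext_E5_seif5, ext_E5_seif5,
    GForm.pi_seif, GForm.pi_seif]
  have hk : ∀ {α β : Type} (M : Matrix α α ℤ) (N : Matrix β β ℤ),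
      (kroneckerMap (· * ·) M N).map (Int.castRingHom ℚ)
        = kroneckerMap (· * ·) (M.map (Int.castRingHom ℚ)) (N.map (Int.castRingHom ℚ)) := by
    intro α β M N
    ext ⟨i, k⟩ ⟨j, l⟩
    simp
  rw [hk, hk, piMat_map, piMat_map]
  exact congR_of_congM h4

end Vale.Agent.P268.Z
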