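import Vale.Agent.P268.Z.Chain
import Vale.Agent.P268.Z.Form

/-!
# P268: from Seifert matrices to `GForm`s
-/

namespace Vale.Agent.P268.Z

open Matrix

/-- The cyclic group of order `D`, written multiplicatively. -/
abbrev Cyc (D : ℕ) : Type := Multiplicative (ZMod D)

/-- The standard generator. -/
def Cyc.gen (D : ℕ) : Cyc D := Multiplicative.ofAdd 1

section

variable {R : Type} [CommRing R] {ι κ : Type} [Fintype ι] [DecidableEq ι]
  [Fintype κ] [DecidableEq κ]

/-- The representation of the cyclic group given by a matrix of order dividing `D`. -/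
def cycRep (D : ℕ) [NeZero D] (T : Matrix ι ι R) (h : T ^ D = 1) : Cyc D →* Matrix ι ι R where
  toFun a := T ^ (Multiplicative.toAdd a).val
  map_one' := by simp
  map_mul' a b := by
    rw [toAdd_mul, ZMod.val_add, ← pow_add]
    conv_rhs => rw [← Nat.mod_add_div ((Multiplicative.toAdd a).val + (Multiplicative.toAdd b).val) D]
    rw [pow_add, pow_mul, h, one_pow, mul_one]

/-- The monodromy `e • L⁻¹ Lᵀ` of a Seifert matrix `L` (so `Lᵀ = e • L * mono e L`). -/
noncomputable def mono (e : ℤˣ) (L : Matrix ι ι R) : Matrix ι ι R := ((e : ℤ) : R) • (L⁻¹ * Lᵀ)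

end

section Mono

variable {R : Type} [CommRing R] {ι : Type} [Fintype ι] [DecidableEq ι]

theorem sign_mul_self (e : ℤˣ) : (((e : ℤ) : R)) * ((e : ℤ) : R) = 1 := by
  rw [← Int.cast_mul, ← Units.val_mul, Int.units_mul_self]; simp

/-- `L h = e Lᵀ`. -/
theorem mul_mono (e : ℤˣ) {L : Matrix ι ι R} (hL : IsUnit L.det) :
    L * mono e L = ((e : ℤ) : R) • Lᵀ := by
  rw [mono, Matrix.mul_smul, ← Matrix.mul_assoc, Matrix.mul_nonsing_inv _ hL, Matrix.one_mul]

theorem transpose_eq_mono (e : ℤˣ) {L : Matrix ι ι R} (hL : IsUnit L.det) :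
    Lᵀ = ((e : ℤ) : R) • (L * mono e L) := by
  rw [mul_mono e hL, smul_smul, sign_mul_self, one_smul]

/-- The monodromy preserves the Seifert form. -/
theorem mono_isom (e : ℤˣ) {L : Matrix ι ι R} (hL : IsUnit L.det) :
    (mono e L)ᵀ * L * mono e L = L := by
  have hL' : IsUnit Lᵀ.det := by rwa [det_transpose]
  rw [Matrix.mul_assoc, mul_mono e hL, mono, transpose_smul, transpose_mul, transpose_transpose,
    Matrix.smul_mul, Matrix.mul_smul, smul_smul, sign_mul_self, one_smul, Matrix.mul_assoc,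
    transpose_nonsing_inv, Matrix.nonsing_inv_mul _ hL', Matrix.mul_one]

theorem mono_pow_isom (e : ℤˣ) {L : Matrix ι ι R} (hL : IsUnit L.det) (j : ℕ) :
    ((mono e L) ^ j)ᵀ * L * (mono e L) ^ j = L := by
  induction j with
  | zero => simp
  | succ j ih =>
    calc ((mono e L) ^ (j + 1))ᵀ * L * (mono e L) ^ (j + 1) =
        ((mono e L) ^ j)ᵀ * ((mono e L)ᵀ * L * mono e L) * (mono e L) ^ j := by
          rw [pow_succ', transpose_mul]
          simp only [Matrix.mul_assoc]
      _ = L := by rw [mono_isom e hL, ih]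

end Mono

/-- A unimodular Seifert matrix whose monodromy has odd order dividing `D`, as a form with an
action of the cyclic group of order `D`: Gram matrix `L * h ^ ((D + 1) / 2)`, action `h`. -/
noncomputable def ofSeifert {ι : Type} [Fintype ι] [DecidableEq ι] (D : ℕ) [NeZero D]
    (hD : Odd D) (e : ℤˣ) (L : Matrix ι ι ℤ) (hL : IsUnit L.det) (hh : (mono e L) ^ D = 1) :
    GForm ℤ (Cyc D) e ι where
  g := L * (mono e L) ^ ((D + 1) / 2)
  ρ := cycRep D (mono e L) hh
  symm := by
    obtain ⟨m, rfl⟩ := hD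
    have hk : (2 * m + 1 + 1) / 2 = m + 1 := by omega
    have h1 : mono e L = (mono e L) ^ (m + 1) * (mono e L) ^ (m + 1) := by
      rw [← pow_add, show m + 1 + (m + 1) = (2 * m + 1) + 1 by ring, pow_succ, hh, Matrix.one_mul]
    have h2 : L * mono e L = L * (mono e L) ^ (m + 1) * (mono e L) ^ (m + 1) := by
      rw [Matrix.mul_assoc, ← h1]
    rw [hk, transpose_mul, transpose_eq_mono e hL, h2, Matrix.mul_smul, ← Matrix.mul_assoc,
      ← Matrix.mul_assoc, mono_pow_isom e hL]
  inv a := by
    change ((mono e L) ^ _)ᵀ * (L * (mono e L) ^ ((D + 1) / 2)) * (mono e L) ^ _ = _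
    rw [Matrix.mul_assoc, Matrix.mul_assoc, ← pow_add, Nat.add_comm ((D + 1) / 2), pow_add,
      ← Matrix.mul_assoc, ← Matrix.mul_assoc, mono_pow_isom e hL]
  unimod := by
    rw [det_mul, det_pow]
    refine hL.mul (IsUnit.pow _ ?_)
    have h1 : (mono e L).det ^ D = 1 := by rw [← det_pow, hh, det_one]
    exact IsUnit.of_pow_eq_one h1 (NeZero.ne D)

/-- The sign of a chain. -/
def sgn (c : List ℕ) : ℤˣ := (-1) ^ c.length

/-- The conditions on a chain: nonempty, all exponents at least two, monodromy of order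
dividing `D`, unimodular Seifert matrix. -/
structure ChainOK (D : ℕ) (c : List ℕ) : Prop where
  ne : c ≠ []
  two : ∀ a ∈ c, 2 ≤ a
  det : IsUnit (chainSeifert c).det
  ord : (mono (sgn c) (chainSeifert c)) ^ D = 1

/-- The form of a chain. -/
noncomputable def chainForm (D : ℕ) [NeZero D] (hD : Odd D) (c : List ℕ) (h : ChainOK D c) :
    GForm ℤ (Cyc D) (sgn c) (Fin (mu c)) :=
  ofSeifert D hD (sgn c) (chainSeifert c) h.det h.ord

/-- The form of a sum of chains. -/
noncomputable def sumForm (D : ℕ) [NeZero D] (hD : Odd D) {ι : Type} [Fintype ι] [DecidableEq ι]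
    (F : ι → List ℕ) (h : ∀ i, ChainOK D (F i)) :
    GForm ℤ (Cyc D) (∏ i, sgn (F i)) ((i : ι) → Fin (mu (F i))) :=
  GForm.pi fun i => chainForm D hD (F i) (h i)

end Vale.Agent.P268.Z
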