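import Vale.Agent.P268.Z.B2aEq
import Vale.Agent.P268.Z.Seif

/-!
# P268 / B2a: the syzygy module `R[G] / R` of a cyclic group, and complements of
representations of a cyclic group of invertible order (helper996)
-/

namespace Vale.Agent.P268.Z

set_option linter.unusedSectionVars false

open Matrix

section

variable (R : Type) [CommRing R] (G : Type) [CommGroup G] [Fintype G] [DecidableEq G]

/-- The projection `R[G] → R[G] / R`. -/
def syzQ : Matrix {g : G // g ≠ 1} G R :=
  Matrix.of fun x g => (if (x : G) = g then 1 else 0) - (if g = 1 then 1 else 0)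

/-- The section of `syzQ`. -/
def syzS : Matrix G {g : G // g ≠ 1} R := Matrix.of fun g x => if g = (x : G) then 1 else 0

/-- The norm element `R → R[G]`. -/
def syzI : Matrix G Unit R := Matrix.of fun _ _ => 1

/-- The retraction of `syzI`. -/
def syzR : Matrix Unit G R := Matrix.of fun _ g => if g = 1 then 1 else 0

theorem syzR_I : syzR R G * syzI R G = 1 := by
  ext ⟨⟩ ⟨⟩
  simp [Matrix.mul_apply, syzR, syzI]

theorem syz_SQ_apply (g h : G) : (syzS R G * syzQ R G) g h =
    if g = 1 then 0 else (if g = h then 1 else 0) - (if h = 1 then 1 else 0) := by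
  rw [Matrix.mul_apply]
  by_cases hg : g = 1
  · rw [if_pos hg]
    refine Finset.sum_eq_zero fun x _ => ?_
    have : g ≠ (x : G) := fun h => x.2 (h ▸ hg)
    simp [syzS, this]
  · rw [if_neg hg, Finset.sum_eq_single ⟨g, hg⟩]
    · simp [syzS, syzQ]
    · intro x _ hx
      have : g ≠ (x : G) := fun h => hx (Subtype.ext h.symm)
      simp [syzS, this]
    · simp

theorem syz_irsq : syzI R G * syzR R G + syzS R G * syzQ R G = 1 := by
  ext g h
  rw [Matrix.add_apply, syz_SQ_apply, Matrix.mul_apply]
  simp only [syzI, syzR, Matrix.of_apply, Finset.univ_unique, Finset.sum_singleton,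
    one_mul, Matrix.one_apply]
  by_cases hg : g = 1
  · subst hg
    rw [if_pos rfl, add_zero]
    exact if_congr eq_comm rfl rfl
  · rw [if_neg hg]
    ring

theorem syzQ_S : syzQ R G * syzS R G = 1 := by
  ext x y
  rw [Matrix.mul_apply, Finset.sum_eq_single (y : G)]
  · simp only [syzQ, syzS, Matrix.of_apply, if_true, mul_one, if_neg y.2, sub_zero,
      Matrix.one_apply, Subtype.ext_iff]
  · intro z _ hz
    simp [syzS, hz]
  · simp

theorem reg_mul_I (a : G) : repReg R G a * syzI R G = syzI R G := by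
  ext g ⟨⟩
  rw [Matrix.mul_apply, Finset.sum_eq_single (a⁻¹ * g)]
  · simp [syzI]
  · intro z _ hz
    have : ¬ g = a * z := fun h => hz (by rw [h]; simp)
    simp [this]
  · simp

theorem syzQ_I : syzQ R G * syzI R G = 0 := by
  have h := congrArg (fun X => syzQ R G * X * syzI R G) (syz_irsq R G)
  simp only [Matrix.mul_add, Matrix.add_mul, Matrix.mul_one] at h
  rw [← Matrix.mul_assoc (syzQ R G) (syzS R G), syzQ_S, Matrix.one_mul,
    ← Matrix.mul_assoc (syzQ R G) (syzI R G), Matrix.mul_assoc _ (syzR R G), syzR_I,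
    Matrix.mul_one] at h
  simpa using h

theorem syz_SQ : syzS R G * syzQ R G = 1 - syzI R G * syzR R G := by
  rw [← syz_irsq R G]; abel

/-- The representation `J = R[G] / R`. -/
def syzJ : G →* Matrix {g : G // g ≠ 1} {g : G // g ≠ 1} R where
  toFun a := syzQ R G * repReg R G a * syzS R G
  map_one' := by rw [map_one, Matrix.mul_one, syzQ_S]
  map_mul' a b := by
    have h : syzQ R G * repReg R G a * syzS R G * (syzQ R G * repReg R G b * syzS R G) =
        syzQ R G * (repReg R G a * (syzS R G * syzQ R G) * repReg R G b) * syzS R G := by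
      simp only [Matrix.mul_assoc]
    rw [h, syz_SQ, Matrix.mul_sub, ← Matrix.mul_assoc _ (syzI R G), reg_mul_I, Matrix.mul_one,
      Matrix.sub_mul, Matrix.mul_sub, Matrix.mul_assoc (syzI R G), ← Matrix.mul_assoc (syzQ R G)
      (syzI R G), syzQ_I, Matrix.zero_mul, sub_zero, ← map_mul]

theorem syzJ_apply (a : G) : syzJ R G a = syzQ R G * repReg R G a * syzS R G := rfl

theorem syzQ_reg (a : G) : syzQ R G * repReg R G a = syzJ R G a * syzQ R G := by
  rw [syzJ_apply, Matrix.mul_assoc _ (syzS R G), syz_SQ, Matrix.mul_sub, Matrix.mul_one,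
    ← Matrix.mul_assoc _ (syzI R G), Matrix.mul_assoc _ _ (syzI R G), reg_mul_I, syzQ_I,
    Matrix.zero_mul, sub_zero]

/-- The sequence `0 → R → R[G] → J → 0`. -/
def syzSES1 : SES (1 : G →* Matrix Unit Unit R) (repReg R G) (syzJ R G) where
  i := syzI R G
  q := syzQ R G
  r := syzR R G
  s := syzS R G
  ri := syzR_I R G
  qs := syzQ_S R G
  irsq := syz_irsq R G
  hi a := by rw [reg_mul_I, MonoidHom.one_apply, Matrix.mul_one]
  hq a := syzQ_reg R G a

/-- Augmentation `R[G] → R`. -/
def syzA : Matrix Unit G R := Matrix.of fun _ _ => 1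

/-- The unit `R → R[G]`. -/
def syzE : Matrix G Unit R := Matrix.of fun g _ => if g = 1 then 1 else 0

theorem syzA_E : syzA R G * syzE R G = 1 := by
  ext ⟨⟩ ⟨⟩
  simp [Matrix.mul_apply, syzA, syzE]

theorem syzA_reg (a : G) : syzA R G * repReg R G a = syzA R G := by
  ext ⟨⟩ g
  rw [Matrix.mul_apply, Finset.sum_eq_single (a * g)]
  · simp [syzA]
  · intro z _ hz
    simp [hz]
  · simp

theorem reg_comm (a b : G) : repReg R G a * repReg R G b = repReg R G b * repReg R G a := by
  rw [← map_mul, mul_comm, map_mul]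

/-- The sequence `0 → J → R[G] → R → 0`, from an element `h` and a matrix `T` with
`(h - 1) T = 1 - e_1 ε` and `T (h - 1) = 1 - N c`. -/
def syzSES2 (h : G) (T : Matrix G G R) (c : Matrix Unit G R)
    (h1 : (repReg R G h - 1) * T + syzE R G * syzA R G = 1)
    (h2 : T * (repReg R G h - 1) = 1 - syzI R G * c) :
    SES (syzJ R G) (repReg R G) (1 : G →* Matrix Unit Unit R) where
  i := (repReg R G h - 1) * syzS R G
  q := syzA R G
  r := syzQ R G * T
  s := syzE R G
  ri := by
    rw [← Matrix.mul_assoc, Matrix.mul_assoc _ T, h2, Matrix.mul_sub, Matrix.mul_one,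
      ← Matrix.mul_assoc _ _ c, syzQ_I, Matrix.zero_mul, sub_zero, syzQ_S]
  qs := syzA_E R G
  irsq := by
    have e : (repReg R G h - 1) * syzS R G * (syzQ R G * T) = (repReg R G h - 1) * T := by
      rw [← Matrix.mul_assoc, Matrix.mul_assoc _ (syzS R G), syz_SQ, Matrix.mul_sub,
        Matrix.mul_one, ← Matrix.mul_assoc _ (syzI R G), Matrix.sub_mul _ _ (syzI R G), reg_mul_I,
        Matrix.one_mul, sub_self, Matrix.zero_mul, sub_zero]
    rw [e, h1]
  hi a := by
    rw [syzJ_apply, ← Matrix.mul_assoc, ← Matrix.mul_assoc, Matrix.mul_assoc _ (syzS R G), syz_SQ,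
      Matrix.mul_sub, Matrix.mul_one, ← Matrix.mul_assoc _ (syzI R G),
      Matrix.sub_mul _ _ (syzI R G), reg_mul_I, Matrix.one_mul, sub_self, Matrix.zero_mul,
      sub_zero, ← Matrix.mul_assoc (repReg R G a)]
    congr 1
    rw [Matrix.sub_mul, Matrix.mul_sub, reg_comm, Matrix.one_mul, Matrix.mul_one]
  hq a := by rw [syzA_reg, MonoidHom.one_apply, Matrix.one_mul]

end

section Cyc

variable (R : Type) [CommRing R] (n : ℕ) [NeZero n]

/-- The matrix of `h ^ k ↦ 1 + h + ⋯ + h ^ (k - 1)`. -/
def cycT : Matrix (Cyc n) (Cyc n) R :=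
  Matrix.of fun x y => if (Multiplicative.toAdd x).val < (Multiplicative.toAdd y).val then 1 else 0

theorem zmod_val_sub_one (x : ZMod n) (hx : x ≠ 0) : (x - 1).val = x.val - 1 := by
  have h1 : 0 < x.val := Nat.pos_of_ne_zero fun h => hx ((ZMod.val_eq_zero x).1 h)
  have h2 : x - 1 = ((x.val - 1 : ℕ) : ZMod n) := by
    rw [Nat.cast_sub h1, ZMod.natCast_zmod_val, Nat.cast_one]
  rw [h2, ZMod.val_natCast_of_lt]
  exact lt_of_le_of_lt (Nat.sub_le _ _) (ZMod.val_lt x)

theorem zmod_val_add_one (y : ZMod n) (hy : y ≠ -1) : (y + 1).val = y.val + 1 := by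
  have hy' : y + 1 ≠ 0 := fun h => hy (by rw [eq_neg_iff_add_eq_zero, h])
  have h := zmod_val_sub_one n (y + 1) hy'
  rw [add_sub_cancel_right] at h
  have h1 : 0 < (y + 1).val := Nat.pos_of_ne_zero fun h => hy' ((ZMod.val_eq_zero _).1 h)
  omega

theorem zmod_val_neg_one_max (x : ZMod n) : x.val ≤ (-1 : ZMod n).val := by
  have h : ((-1 : ZMod n)).val = n - 1 := by
    obtain ⟨m, hm⟩ := Nat.exists_eq_succ_of_ne_zero (NeZero.ne n)
    subst hm
    exact ZMod.val_neg_one m
  have := ZMod.val_lt x
  omega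

theorem cycT_left : (repReg R (Cyc n) (Cyc.gen n) - 1) * cycT R n +
    syzE R (Cyc n) * syzA R (Cyc n) = 1 := by
  ext x y
  have e1 : (repReg R (Cyc n) (Cyc.gen n) * cycT R n) x y =
      if (Multiplicative.toAdd x - 1).val < (Multiplicative.toAdd y).val then 1 else 0 := by
    rw [Matrix.mul_apply, Finset.sum_eq_single ((Cyc.gen n)⁻¹ * x)]
    · have : (Multiplicative.toAdd ((Cyc.gen n)⁻¹ * x)) = Multiplicative.toAdd x - 1 := by
        change -1 + Multiplicative.toAdd x = _
        ring
      simp only [repReg_apply, cycT, Matrix.of_apply, this]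
      simp
    · intro z _ hz
      have : ¬ x = Cyc.gen n * z := fun h => hz (by rw [h]; simp)
      simp [this]
    · simp
  rw [Matrix.add_apply, Matrix.sub_mul, Matrix.sub_apply, e1, Matrix.one_mul, Matrix.mul_apply]
  simp only [syzE, syzA, Matrix.of_apply, Finset.univ_unique, Finset.sum_singleton,
    mul_one, Matrix.one_apply, cycT]
  have hx1 : x = 1 ↔ Multiplicative.toAdd x = 0 := Iff.rfl
  have hxy : x = y ↔ Multiplicative.toAdd x = Multiplicative.toAdd y := Iff.rfl
  rw [if_congr hx1 rfl rfl, if_congr hxy rfl rfl]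
  generalize Multiplicative.toAdd x = u
  generalize Multiplicative.toAdd y = v
  by_cases hu : u = 0
  · subst hu
    rw [if_neg, ZMod.val_zero]
    · by_cases hv : 0 = v
      · subst hv; simp
      · have : 0 < v.val := Nat.pos_of_ne_zero fun h => hv ((ZMod.val_eq_zero v).1 h).symm
        simp [this, hv]
    · rw [zero_sub]
      exact not_lt.2 (zmod_val_neg_one_max n v)
  · rw [zmod_val_sub_one n u hu]
    have h1 : 0 < u.val := Nat.pos_of_ne_zero fun h => hu ((ZMod.val_eq_zero u).1 h)
    have huv : u = v ↔ u.val = v.val := ⟨fun h => by rw [h], fun h => ZMod.val_injective n h⟩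
    rw [if_congr huv rfl rfl, if_neg hu, add_zero]
    rcases lt_trichotomy u.val v.val with h | h | h
    · rw [if_pos (by omega), if_pos h, if_neg (by omega), sub_self]
    · rw [if_pos (by omega), if_neg (by omega), if_pos h, sub_zero]
    · rw [if_neg (by omega), if_neg (by omega), if_neg (by omega), sub_self]

/-- The functional of the last element. -/
def cycC : Matrix Unit (Cyc n) R :=
  Matrix.of fun _ y => if Multiplicative.toAdd y = -1 then 1 else 0

theorem cycT_right : cycT R n * (repReg R (Cyc n) (Cyc.gen n) - 1) =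
    1 - syzI R (Cyc n) * cycC R n := by
  ext x y
  have e1 : (cycT R n * repReg R (Cyc n) (Cyc.gen n)) x y =
      if (Multiplicative.toAdd x).val < (Multiplicative.toAdd y + 1).val then 1 else 0 := by
    rw [Matrix.mul_apply, Finset.sum_eq_single (Cyc.gen n * y)]
    · have : (Multiplicative.toAdd (Cyc.gen n * y)) = Multiplicative.toAdd y + 1 := by
        change 1 + Multiplicative.toAdd y = _
        ring
      simp only [repReg_apply, cycT, Matrix.of_apply, this]
      simp
    · intro z _ hz
      simp [hz]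
    · simp
  rw [Matrix.mul_sub, Matrix.sub_apply, e1, Matrix.mul_one, Matrix.sub_apply, Matrix.mul_apply]
  simp only [syzI, Matrix.of_apply, Finset.univ_unique, Finset.sum_singleton,
    one_mul, Matrix.one_apply, cycT, cycC]
  have hxy : x = y ↔ Multiplicative.toAdd x = Multiplicative.toAdd y := Iff.rfl
  rw [if_congr hxy rfl rfl]
  generalize Multiplicative.toAdd x = u
  generalize Multiplicative.toAdd y = v
  have huv : u = v ↔ u.val = v.val := ⟨fun h => by rw [h], fun h => ZMod.val_injective n h⟩
  by_cases hv : v = -1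
  · subst hv
    rw [neg_add_cancel, ZMod.val_zero, if_neg (Nat.not_lt_zero _), if_pos rfl,
      if_congr huv rfl rfl]
    have h1 := zmod_val_neg_one_max n u
    rcases lt_or_eq_of_le h1 with h | h
    · rw [if_pos h, if_neg (by omega)]
    · rw [if_neg (by omega), if_pos h, sub_zero, sub_self]
  · rw [zmod_val_add_one n v hv, if_neg hv, sub_zero, if_congr huv rfl rfl]
    rcases lt_trichotomy u.val v.val with h | h | h
    · rw [if_pos (by omega), if_pos h, if_neg (by omega), sub_self]
    · rw [if_pos (by omega), if_neg (by omega), if_pos h, sub_zero]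
    · rw [if_neg (by omega), if_neg (by omega), if_neg (by omega), sub_self]

/-- The syzygy data of a cyclic group. -/
def cycSyz : Syz (Cyc n) (syzJ R (Cyc n)) where
  S1 := syzSES1 R (Cyc n)
  S2 := syzSES2 R (Cyc n) (Cyc.gen n) (cycT R n) _ (cycT_left R n) (cycT_right R n)

theorem exists_syz : ∃ (ν : Type) (_ : Fintype ν) (_ : DecidableEq ν)
    (J : Cyc n →* Matrix ν ν R), Nonempty (Syz (Cyc n) J) :=
  ⟨_, inferInstance, inferInstance, syzJ R (Cyc n), ⟨cycSyz R n⟩⟩

end Cyc

section Compl

variable {R : Type} [CommRing R] {H : Type} [CommGroup H] [Fintype H] [DecidableEq H]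

/-- Complements: `X ⊕ Y ≅ R[H]^α` when the order of `H` is invertible. -/
theorem exists_compl (hH : IsUnit ((Fintype.card H : ℕ) : R)) (α : Type) [Fintype α]
    [DecidableEq α] (X : H →* Matrix α α R) :
    ∃ (β : Type) (_ : Fintype β) (_ : DecidableEq β) (Y : H →* Matrix β β R),
      RepIso (repSum X Y) (repCopies α (repReg R H)) := by
  have hHig : Hig (1 : H →* Matrix Unit Unit R) := by
    obtain ⟨u, hu⟩ := hH
    refine ⟨((u⁻¹ : Rˣ) : R) • 1, ?_⟩
    simp only [MonoidHom.one_apply, Matrix.one_mul, Matrix.mul_one, Finset.sum_const,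
      Finset.card_univ]
    ext i j
    rw [Matrix.smul_apply, Matrix.smul_apply, nsmul_eq_mul, smul_eq_mul, ← hu, ← mul_assoc,
      Units.mul_inv, one_mul]
  have h1 : RepIso (repReg R H) (repSum (1 : H →* Matrix Unit Unit R) (syzJ R H)) :=
    (syzSES1 R H).split hHig
  have h2 : RepIso X (repTensor X (1 : H →* Matrix Unit Unit R)) :=
    ((repTensor_comm X _).trans (repTensor_trivial X)).symm
  refine ⟨_, inferInstance, inferInstance, repTensor X (syzJ R H), ?_⟩
  exact (h2.sum (RepIso.refl _)).trans ((repTensor_sum X _ _).symm.trans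
    (((RepIso.refl X).tensor h1.symm).trans (repTensor_reg X)))

end Compl

end Vale.Agent.P268.Z
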