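import Vale.Agent.P268.Z.B2aAsm
import Vale.Agent.P268.Z.B2aSyz

/-!
# P268: block B2a
-/

namespace Vale.Agent.P268.Z

open Matrix

theorem B2a {D : ℕ} [NeZero D] (hD : Odd D) (hD2 : Squarefree D) {α β : Type} [Fintype α]
    [DecidableEq α] [Fintype β] [DecidableEq β] (f : α → List ℕ) (g : β → List ℕ)
    (hf : ∀ i, ChainOK D (f i)) (hg : ∀ i, ChainOK D (g i))
    (htr : ∀ a, (((sumForm D hD f hf).mul (sumForm D hD f hf)).ρ a).trace =
      (((sumForm D hD g hg).mul (sumForm D hD g hg)).ρ a).trace)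
    (p : ℕ) [Fact p.Prime] (hp : p ∣ D) :
    ∃ s : ℕ, RepIso
      (repMap (Int.castRingHom ℤ_[p]) (repSum ((sumForm D hD f hf).mul (sumForm D hD f hf)).ρ
        (repCopies (Fin s) (repReg ℤ (Cyc D)))))
      (repMap (Int.castRingHom ℤ_[p]) (repSum ((sumForm D hD g hg).mul (sumForm D hD g hg)).ρ
        (repCopies (Fin s) (repReg ℤ (Cyc D))))) := by
  refine B2a_of (fun p _ _ => ?_) (fun p _ n _ hn α _ _ X => ?_) hD hD2 f g hf hg htr p hp
  · exact exists_syz ℤ_[p] p
  · refine exists_compl ?_ α X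
    rw [Fintype.card_multiplicative, ZMod.card]
    exact hn

end Vale.Agent.P268.Z
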