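import Vale.Agent.P268.Z.B2bA

/-!
# P268, block B2b, part 2: approximate isometries over `ℤ_p`
-/

namespace Vale.Agent.P268.Z

open Matrix

section

variable {p : ℕ} [Fact p.Prime] {ι : Type} [Fintype ι] [DecidableEq ι]

/-- A matrix over `ℤ_p` which vanishes mod `p` is divisible by `p`. -/
theorem b2b_dvd (x : Matrix ι ι ℤ_[p])
    (h : (PadicInt.toZMod : ℤ_[p] →+* ZMod p).mapMatrix x = 0) :
    ∃ y : Matrix ι ι ℤ_[p], x = (p : Matrix ι ι ℤ_[p]) * y := by
  have : ∀ i j, ∃ y : ℤ_[p], x i j = (p : ℤ_[p]) * y := by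
    intro i j
    have h1 : (PadicInt.toZMod : ℤ_[p] →+* ZMod p) (x i j) = 0 := by
      have := congrFun (congrFun h i) j
      simpa using this
    have h2 : x i j ∈ RingHom.ker (PadicInt.toZMod : ℤ_[p] →+* ZMod p) := h1
    rw [PadicInt.ker_toZMod, PadicInt.maximalIdeal_eq_span_p, Ideal.mem_span_singleton] at h2
    exact h2
  choose y hy using this
  refine ⟨Matrix.of y, ?_⟩
  ext i j
  rw [hy i j]
  have : (p : Matrix ι ι ℤ_[p]) = (p : ℤ_[p]) • (1 : Matrix ι ι ℤ_[p]) := by
    ext a b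
    simp [Matrix.natCast_apply, Matrix.one_apply]
  rw [this, Matrix.smul_mul, Matrix.one_mul, Matrix.smul_apply, Matrix.of_apply, smul_eq_mul]

/-- The main construction: `c` self-adjoint for `g`, commuting with `z`; `z` a root of
`Φ₅` with adjoint `w = z⁻¹`. Then `c` is approximately `u* u`. -/
theorem b2b_approx (hp2 : p ≠ 2) (hp5 : p ≠ 5) (g z w c c' : Matrix ι ι ℤ_[p])
    (hzw : z * w = 1) (hwz : w * z = 1) (hΦ : z ^ 2 + z + 1 + w + w ^ 2 = 0)
    (hzg : zᵀ * g = g * w) (hwg : wᵀ * g = g * z)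
    (hc : c * c' = 1) (hc' : c' * c = 1) (hcg : cᵀ * g = g * c)
    (hcz : c * z = z * c) (hcw : c * w = w * c) (n : ℕ) :
    ∃ u : Matrix ι ι ℤ_[p],
      (∀ x, x * z = z * x → x * w = w * x → x * c = c * x → u * x = x * u) ∧
      ∃ y : Matrix ι ι ℤ_[p], uᵀ * g * u = g * c + (p : Matrix ι ι ℤ_[p]) ^ n * y := by
  classical
  have hp : p.Prime := Fact.out
  set θ : Matrix ι ι ℤ_[p] := z + w with hθ
  set η : Matrix ι ι ℤ_[p] := z - w with hη
  -- relations
  have hθ2 : θ * θ = 1 - θ := by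
    have h1 : θ * θ = z ^ 2 + 2 + w ^ 2 := by
      rw [hθ, add_mul, mul_add, mul_add, hzw, hwz, ← pow_two, ← pow_two]
      have : (2 : Matrix ι ι ℤ_[p]) = 1 + 1 := by norm_num
      rw [this]; abel
    rw [h1, hθ]
    have h2 : (2 : Matrix ι ι ℤ_[p]) = 1 + 1 := by norm_num
    rw [h2]
    have h3 : z ^ 2 + (1 + 1) + w ^ 2 - (1 - (z + w)) = z ^ 2 + z + 1 + w + w ^ 2 := by abel
    rw [← sub_eq_zero, h3, hΦ]
  have hη2 : η * η = -(3 + θ) := by
    have h1 : η * η = z ^ 2 - 2 + w ^ 2 := by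
      rw [hη, sub_mul, mul_sub, mul_sub, hzw, hwz, ← pow_two, ← pow_two]
      have : (2 : Matrix ι ι ℤ_[p]) = 1 + 1 := by norm_num
      rw [this]; abel
    rw [h1, hθ]
    have h2 : (2 : Matrix ι ι ℤ_[p]) = 1 + 1 := by norm_num
    have h4 : (3 : Matrix ι ι ℤ_[p]) = 1 + 1 + 1 := by norm_num
    rw [h2, h4]
    have h3 : z ^ 2 - (1 + 1) + w ^ 2 - -(1 + 1 + 1 + (z + w)) = z ^ 2 + z + 1 + w + w ^ 2 := by
      abel
    rw [← sub_eq_zero, h3, hΦ]
  have hcθ : c * θ = θ * c := by rw [hθ, mul_add, add_mul, hcz, hcw]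
  have hθz : θ * z = z * θ := by rw [hθ, mul_add, add_mul, hzw, hwz]
  have hθw : θ * w = w * θ := by rw [hθ, mul_add, add_mul, hzw, hwz]
  have hθg : θᵀ * g = g * θ := by
    rw [hθ, transpose_add, Matrix.add_mul, hzg, hwg, Matrix.mul_add]; abel
  have hηg : ηᵀ * g = -(g * η) := by
    rw [hη, transpose_sub, Matrix.sub_mul, hzg, hwg, Matrix.mul_sub]; abel
  -- the commutative ring generated by `c` and `θ`
  have hcomm : ∀ x ∈ ({c, θ} : Set (Matrix ι ι ℤ_[p])), ∀ y ∈ ({c, θ} : Set (Matrix ι ι ℤ_[p])),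
      x * y = y * x := by
    rintro x (rfl | rfl) y (rfl | rfl)
    · rfl
    · exact hcθ
    · exact hcθ.symm
    · rfl
  set T := Subring.closure ({c, θ} : Set (Matrix ι ι ℤ_[p])) with hT
  -- elements of `T` commute with everything which commutes with `c` and `θ`
  have hTc : ∀ x : Matrix ι ι ℤ_[p], x * c = c * x → x * θ = θ * x → ∀ t ∈ T, x * t = t * x := by
    intro x h1 h2 t ht
    induction ht using Subring.closure_induction with
    | mem y hy =>
      rcases hy with rfl | rfl
      · exact h1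
      · exact h2
    | zero => simp
    | one => simp
    | add a b _ _ ha hb => rw [mul_add, add_mul, ha, hb]
    | neg a _ ha => rw [mul_neg, neg_mul, ha]
    | mul a b _ _ ha hb => rw [← mul_assoc, ha, mul_assoc, hb, mul_assoc]
  have hTT : ∀ s ∈ T, ∀ t ∈ T, s * t = t * s := by
    intro s hs t ht
    exact hTc s (hTc c rfl hcθ s hs).symm (hTc θ hcθ.symm rfl s hs).symm t ht
  have hTg : ∀ t ∈ T, tᵀ * g = g * t := by
    intro t ht
    induction ht using Subring.closure_induction with
    | mem y hy =>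
      rcases hy with rfl | rfl
      · exact hcg
      · exact hθg
    | zero => simp
    | one => simp
    | add a b _ _ ha hb => rw [transpose_add, Matrix.add_mul, Matrix.mul_add, ha, hb]
    | neg a _ ha => rw [transpose_neg, Matrix.neg_mul, Matrix.mul_neg, ha]
    | mul a b ha' hb' ha hb =>
      rw [transpose_mul, Matrix.mul_assoc, ha, ← Matrix.mul_assoc, hb, Matrix.mul_assoc,
        hTT b hb' a ha']
  have hcmem : c ∈ T := Subring.subset_closure (by simp)
  have hθmem : θ ∈ T := Subring.subset_closure (by simp)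
  have hd : (3 + θ) * (2 - θ) = 5 := by
    have e1 : (3 + θ) * (2 - θ) = 6 - θ - θ * θ := by
      rw [add_mul, mul_sub, mul_sub]
      have a1 : (3 : Matrix ι ι ℤ_[p]) * 2 = 6 := by norm_num
      have a2 : (3 : Matrix ι ι ℤ_[p]) * θ = θ + θ + θ := by
        have : (3 : Matrix ι ι ℤ_[p]) = 1 + 1 + 1 := by norm_num
        rw [this]; simp only [add_mul, one_mul]
      have a3 : θ * (2 : Matrix ι ι ℤ_[p]) = θ + θ := by
        have : (2 : Matrix ι ι ℤ_[p]) = 1 + 1 := by norm_num
        rw [this]; simp only [mul_add, mul_one]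
      rw [a1, a2, a3]; abel
    rw [e1, hθ2]
    have a1 : (6 : Matrix ι ι ℤ_[p]) = 5 + 1 := by norm_num
    rw [a1]; abel
  have hpm : ((p : ℕ) : Matrix ι ι (ZMod p)) = 0 := by
    ext i j
    rw [Matrix.natCast_apply]
    split_ifs <;> simp
  obtain ⟨A, hAT, B, hBT, m, hker2⟩ := b2b_alg p hp hp2 hp5
    (PadicInt.toZMod : ℤ_[p] →+* ZMod p).mapMatrix hpm T hTT c θ hcmem hθmem hd
  obtain ⟨y0, hy0⟩ := b2b_dvd _ hker2
  set E : Matrix ι ι ℤ_[p] := A ^ 2 + (3 + θ) * B ^ 2 with hE
  have h3mem : (3 : Matrix ι ι ℤ_[p]) ∈ T := by exact_mod_cast natCast_mem T 3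
  have hET : E ∈ T :=
    T.add_mem (T.pow_mem hAT 2) (T.mul_mem (T.add_mem h3mem hθmem) (T.pow_mem hBT 2))
  -- `c'` commutes with whatever commutes with `c`
  have hc'x : ∀ x : Matrix ι ι ℤ_[p], x * c = c * x → x * c' = c' * x := by
    intro x hx
    calc x * c' = c' * c * (x * c') := by rw [hc', one_mul]
      _ = c' * (c * x) * c' := by simp only [mul_assoc]
      _ = c' * (x * c) * c' := by rw [hx]
      _ = c' * x := by simp only [mul_assoc, hc, mul_one]
  have hc'g : c'ᵀ * g = g * c' := by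
    have h1 : c'ᵀ * cᵀ = 1 := by rw [← transpose_mul, hc, transpose_one]
    calc c'ᵀ * g = c'ᵀ * (g * c) * c' := by simp only [mul_assoc, hc, mul_one]
      _ = c'ᵀ * (cᵀ * g) * c' := by rw [hcg]
      _ = g * c' := by rw [← mul_assoc, h1, one_mul]
  set s : Matrix ι ι ℤ_[p] := c' * E with hs
  have hEc : E * c = c * E := hTT E hET c hcmem
  have hEc' : E * c' = c' * E := hc'x E hEc
  have hr : (s - 1) = c' * (E - c) := by rw [hs, mul_sub, hc']
  have hpow : (s - 1) ^ m = (p : Matrix ι ι ℤ_[p]) * (c' ^ m * y0) := by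
    have h1 : Commute c' (E - c) := by
      have h2 : c * c = c * c := rfl
      have h3 := hc'x c h2
      change c' * (E - c) = (E - c) * c'
      rw [mul_sub, sub_mul, hEc', h3]
    rw [hr, h1.mul_pow, hy0, ← mul_assoc, ← mul_assoc,
      ((Nat.cast_commute p (c' ^ m)).eq)]
  obtain ⟨k, y1, hk⟩ := b2b_pow p hp (s - 1) _ m hpow n
  have h1s : 1 + (s - 1) = s := by abel
  rw [h1s] at hk
  obtain ⟨N, hN⟩ : ∃ N, p ^ k = 2 * N + 1 := by
    have : Odd (p ^ k) := (hp.odd_of_ne_two hp2).pow
    exact this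
  have hsc : ∀ x : Matrix ι ι ℤ_[p], x * z = z * x → x * w = w * x → x * c = c * x →
      x * s = s * x := by
    intro x h1 h2 h3
    have h4 : x * θ = θ * x := by rw [hθ, mul_add, add_mul, h1, h2]
    have h5 := hTc x h3 h4 E hET
    rw [hs, ← mul_assoc, hc'x x h3, mul_assoc, h5, mul_assoc]
  have hsg : sᵀ * g = g * s := by
    rw [hs, transpose_mul, mul_assoc, hc'g, ← mul_assoc, hTg E hET, mul_assoc, hEc']
  have hsNg : ∀ j : ℕ, (s ^ j)ᵀ * g = g * s ^ j := by
    intro j
    induction j with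
    | zero => simp
    | succ j ih => rw [pow_succ, transpose_mul, mul_assoc, ih, ← mul_assoc, hsg, mul_assoc,
        ← pow_succ', ← pow_succ]
  refine ⟨(A + B * η) * s ^ N, ?_, g * c * y1, ?_⟩
  · intro x h1 h2 h3
    have h4 : x * θ = θ * x := by rw [hθ, mul_add, add_mul, h1, h2]
    have h5 : x * η = η * x := by rw [hη, mul_sub, sub_mul, h1, h2]
    have hxs : Commute x s := hsc x h1 h2 h3
    have hxA : Commute x A := hTc x h3 h4 A hAT
    have hxB : Commute x B := hTc x h3 h4 B hBT
    have hxη : Commute x η := h5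
    exact (((hxA.add_right (hxB.mul_right hxη)).mul_right (hxs.pow_right N)).eq).symm
  · -- the computation
    have hηc : η * c = c * η := by rw [hη, mul_sub, sub_mul, hcz, hcw]
    have hηθ : η * θ = θ * η := by rw [hη, sub_mul, mul_sub, hθz, hθw]
    have hηA : η * A = A * η := hTc η hηc hηθ A hAT
    have hηB : η * B = B * η := hTc η hηc hηθ B hBT
    have hAB : A * B = B * A := hTT A hAT B hBT
    have hηz : η * z = z * η := by rw [hη, sub_mul, mul_sub, hzw, hwz]
    have hηw : η * w = w * η := by rw [hη, sub_mul, mul_sub, hzw, hwz]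
    have hsη : η * s = s * η := hsc η hηz hηw hηc
    have hu0 : (B * η)ᵀ * g = -(g * (B * η)) := by
      calc (B * η)ᵀ * g = ηᵀ * (Bᵀ * g) := by rw [transpose_mul, mul_assoc]
        _ = ηᵀ * g * B := by rw [hTg B hBT, mul_assoc]
        _ = -(g * (η * B)) := by rw [hηg, neg_mul, mul_assoc]
        _ = -(g * (B * η)) := by rw [hηB]
    have hu1 : (A + B * η)ᵀ * g = g * (A - B * η) := by
      rw [transpose_add, add_mul, hTg A hAT, hu0, mul_sub g A (B * η), sub_eq_add_neg]
    have hu2 : (A - B * η) * (A + B * η) = E := by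
      have e1 : (A - B * η) * (A + B * η) = A * A + (A * (B * η) - B * η * A)
          - B * η * (B * η) := by
        rw [sub_mul, mul_add, mul_add]; abel
      have e2 : B * η * A = A * (B * η) := by
        rw [mul_assoc, hηA, ← mul_assoc, ← hAB, mul_assoc]
      have e3 : B * η * (B * η) = -((3 + θ) * B ^ 2) := by
        have : B * η * (B * η) = B * B * (η * η) := by
          rw [mul_assoc, ← mul_assoc η, hηB]; simp only [mul_assoc]
        rw [this, hη2, mul_neg, pow_two]
        have h34 : B * B * (3 + θ) = (3 + θ) * (B * B) :=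
          hTT _ (T.mul_mem hBT hBT) _ (T.add_mem h3mem hθmem)
        rw [h34]
      rw [e1, e2, e3, hE]
      rw [sub_self, add_zero, sub_neg_eq_add, pow_two A]
    have hAs : A * s = s * A := by
      have := hsc A (hTc z (hcz.symm) (hθz.symm) A hAT).symm
        (hTc w (hcw.symm) (hθw.symm) A hAT).symm (hTT A hAT c hcmem)
      exact this
    have hBs : B * s = s * B := by
      have := hsc B (hTc z (hcz.symm) (hθz.symm) B hBT).symm
        (hTc w (hcw.symm) (hθw.symm) B hBT).symm (hTT B hBT c hcmem)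
      exact this
    have hABs : Commute (A - B * η) (s ^ N) := by
      have h1 : Commute A s := hAs
      have h2 : Commute B s := hBs
      have h3 : Commute η s := hsη
      exact ((h1.sub_left (h2.mul_left h3))).pow_right N
    have hEs : Commute E (s ^ N) := by
      have : Commute E s := by
        change E * s = s * E
        rw [hs, ← mul_assoc, hEc']
      exact this.pow_right N
    have hcs : c * s = E := by rw [hs, ← mul_assoc, hc, one_mul]
    calc ((A + B * η) * s ^ N)ᵀ * g * ((A + B * η) * s ^ N)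
        = (s ^ N)ᵀ * ((A + B * η)ᵀ * g) * ((A + B * η) * s ^ N) := by
          rw [transpose_mul]; simp only [mul_assoc]
      _ = (s ^ N)ᵀ * g * ((A - B * η) * (A + B * η)) * s ^ N := by
          rw [hu1]; simp only [mul_assoc]
      _ = g * (s ^ N * E * s ^ N) := by rw [hsNg N, hu2]; simp only [mul_assoc]
      _ = g * (E * (s ^ N * s ^ N)) := by
          rw [← hEs.eq]; simp only [mul_assoc]
      _ = g * (c * s ^ (p ^ k)) := by
          rw [← pow_add, ← hcs, mul_assoc, ← pow_succ', hN, two_mul]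
      _ = g * c + (p : Matrix ι ι ℤ_[p]) ^ n * (g * c * y1) := by
          rw [hk, mul_add, mul_one, mul_add]
          congr 1
          have h1 : Commute ((p : Matrix ι ι ℤ_[p]) ^ n) (g * c) :=
            (Nat.cast_commute p (g * c)).pow_left n
          rw [← mul_assoc, ← mul_assoc, ← h1.eq, mul_assoc, mul_assoc]

end

end Vale.Agent.P268.Z
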