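import Vale.Agent.P268.Z.Seif
import Vale.Agent.P268.Z.B2bB

/-!
# P268, block B2b: unimodular `C_D × C_5`-forms over `ℤ_p`, `p ≠ 2, 5`, on which the generator of
`C_5` is a root of `Φ₅`, are determined by the representation.
-/

namespace Vale.Agent.P268.Z

open Matrix

section

variable {p : ℕ} [Fact p.Prime] {ι : Type} [Fintype ι] [DecidableEq ι]

theorem b2b_natCast_pow_mul (n : ℕ) (y : Matrix ι ι ℤ_[p]) (i j : ι) :
    ((p : Matrix ι ι ℤ_[p]) ^ n * y) i j = (p : ℤ_[p]) ^ n * y i j := by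
  have : (p : Matrix ι ι ℤ_[p]) ^ n = ((p : ℤ_[p]) ^ n) • (1 : Matrix ι ι ℤ_[p]) := by
    rw [← Nat.cast_pow]
    ext a b
    simp [Matrix.natCast_apply, Matrix.one_apply]
  rw [this, Matrix.smul_mul, Matrix.one_mul, Matrix.smul_apply, smul_eq_mul]

/-- Approximate isometries in a closed commutant give an exact one. -/
theorem b2b_compact {G : Type} (ρ : G → Matrix ι ι ℤ_[p]) (g g' : Matrix ι ι ℤ_[p])
    (h : ∀ n : ℕ, ∃ u : Matrix ι ι ℤ_[p], (∀ a, u * ρ a = ρ a * u) ∧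
      ∃ y : Matrix ι ι ℤ_[p], uᵀ * g * u = g' + (p : Matrix ι ι ℤ_[p]) ^ n * y) :
    ∃ u : Matrix ι ι ℤ_[p], (∀ a, u * ρ a = ρ a * u) ∧ uᵀ * g * u = g' := by
  have : CompactSpace (Matrix ι ι ℤ_[p]) := inferInstanceAs (CompactSpace (ι → ι → ℤ_[p]))
  let t : ℕ → Set (Matrix ι ι ℤ_[p]) := fun n =>
    {u | (∀ a, u * ρ a = ρ a * u) ∧
      ∀ i j, ‖(uᵀ * g * u) i j - g' i j‖ ≤ (p : ℝ) ^ (-(n : ℤ))}
  have hp1 : (1 : ℝ) < p := by exact_mod_cast (Fact.out : p.Prime).one_lt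
  have hcl : ∀ n, IsClosed (t n) := by
    intro n
    have ht : t n = (⋂ a, {u : Matrix ι ι ℤ_[p] | u * ρ a = ρ a * u}) ∩ ⋂ i, ⋂ j,
        {u : Matrix ι ι ℤ_[p] | ‖(uᵀ * g * u) i j - g' i j‖ ≤ (p : ℝ) ^ (-(n : ℤ))} := by
      ext u
      simp [t]
    rw [ht]
    refine IsClosed.inter ?_ ?_
    · refine isClosed_iInter fun a => isClosed_eq ?_ ?_
      · exact continuous_id.matrix_mul continuous_const
      · exact continuous_const.matrix_mul continuous_id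
    · refine isClosed_iInter fun i => isClosed_iInter fun j => isClosed_le ?_ continuous_const
      have h1 : Continuous fun u : Matrix ι ι ℤ_[p] => uᵀ * g * u :=
        (continuous_id.matrix_transpose.matrix_mul continuous_const).matrix_mul continuous_id
      exact ((h1.matrix_elem i j).sub continuous_const).norm
  have hne : ∀ n, (t n).Nonempty := by
    intro n
    obtain ⟨u, hu, y, hy⟩ := h n
    refine ⟨u, hu, fun i j => ?_⟩
    rw [hy, Matrix.add_apply, add_sub_cancel_left, b2b_natCast_pow_mul, norm_mul,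
      PadicInt.norm_p_pow]
    have := PadicInt.norm_le_one (y i j)
    have h0 : (0 : ℝ) ≤ (p : ℝ) ^ (-(n : ℤ)) := by positivity
    nlinarith [norm_nonneg (y i j)]
  have hdec : ∀ n, t (n + 1) ⊆ t n := by
    intro n u hu
    refine ⟨hu.1, fun i j => (hu.2 i j).trans ?_⟩
    exact zpow_le_zpow_right₀ hp1.le (by push_cast; omega)
  obtain ⟨u, hu⟩ := IsCompact.nonempty_iInter_of_sequence_nonempty_isCompact_isClosed t hdec hne
    (hcl 0).isCompact hcl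
  rw [Set.mem_iInter] at hu
  refine ⟨u, (hu 0).1, ?_⟩
  ext i j
  rw [← sub_eq_zero, ← norm_le_zero_iff]
  refine le_of_forall_pos_le_add fun ε hε => ?_
  obtain ⟨n, hn⟩ := exists_pow_lt_of_lt_one hε (inv_lt_one_of_one_lt₀ hp1)
  have h1 := (hu n).2 i j
  rw [_root_.zpow_neg, zpow_natCast, ← inv_pow] at h1
  linarith

end

section

variable {D : ℕ} [NeZero D] {e : ℤˣ} {ι κ : Type} [Fintype ι] [DecidableEq ι] [Fintype κ]
  [DecidableEq κ]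

omit [NeZero D] in
/-- The same representation on both sides. -/
theorem b2b_same (p : ℕ) [Fact p.Prime] (hp2 : p ≠ 2) (hp5 : p ≠ 5)
    (A : GForm ℤ_[p] (Cyc D × Cyc 5) e ι) (g' : Matrix ι ι ℤ_[p])
    (hs : g'ᵀ = ((e : ℤ) : ℤ_[p]) • g') (hi : ∀ a, (A.ρ a)ᵀ * g' * A.ρ a = g')
    (hu : IsUnit g'.det)
    (hA : ∑ i : ZMod 5, A.ρ (1, Multiplicative.ofAdd i) = 0) :
    ∃ u : Matrix ι ι ℤ_[p], (∀ a, u * A.ρ a = A.ρ a * u) ∧ uᵀ * A.g * u = g' := by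
  set g := A.g with hg
  have hgi : g⁻¹ * g = 1 := Matrix.nonsing_inv_mul _ A.unimod
  have hgi' : g * g⁻¹ = 1 := Matrix.mul_nonsing_inv _ A.unimod
  have hg'i : g'⁻¹ * g' = 1 := Matrix.nonsing_inv_mul _ hu
  have hg'i' : g' * g'⁻¹ = 1 := Matrix.mul_nonsing_inv _ hu
  have hρ : ∀ a b, A.ρ a * A.ρ b = A.ρ (a * b) := fun a b => (map_mul _ _ _).symm
  have hinv : ∀ a, A.ρ a * A.ρ a⁻¹ = 1 := fun a => by rw [hρ, mul_inv_cancel, map_one]
  have hinv' : ∀ a, A.ρ a⁻¹ * A.ρ a = 1 := fun a => by rw [hρ, inv_mul_cancel, map_one]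
  have hadj : ∀ a, (A.ρ a)ᵀ * g = g * A.ρ a⁻¹ := by
    intro a
    calc (A.ρ a)ᵀ * g = (A.ρ a)ᵀ * g * (A.ρ a * A.ρ a⁻¹) := by rw [hinv, mul_one]
      _ = ((A.ρ a)ᵀ * g * A.ρ a) * A.ρ a⁻¹ := by rw [← mul_assoc]
      _ = g * A.ρ a⁻¹ := by rw [A.inv]
  have hadj' : ∀ a, (A.ρ a)ᵀ * g' = g' * A.ρ a⁻¹ := by
    intro a
    calc (A.ρ a)ᵀ * g' = (A.ρ a)ᵀ * g' * (A.ρ a * A.ρ a⁻¹) := by rw [hinv, mul_one]
      _ = ((A.ρ a)ᵀ * g' * A.ρ a) * A.ρ a⁻¹ := by rw [← mul_assoc]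
      _ = g' * A.ρ a⁻¹ := by rw [hi]
  have hcancel : ∀ x y : Matrix ι ι ℤ_[p], g * x = g * y → x = y := by
    intro x y hxy
    rw [← one_mul x, ← hgi, mul_assoc, hxy, ← mul_assoc, hgi, one_mul]
  set c := g⁻¹ * g' with hc
  set c' := g'⁻¹ * g with hc'
  have hgc : g * c = g' := by rw [hc, ← mul_assoc, hgi', one_mul]
  have hcc' : c * c' = 1 := by
    rw [hc, hc', mul_assoc, ← mul_assoc g', hg'i', one_mul, hgi]
  have hc'c : c' * c = 1 := by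
    rw [hc, hc', mul_assoc, ← mul_assoc g, hgi', one_mul, hg'i]
  have hcρ : ∀ a, c * A.ρ a = A.ρ a * c := by
    intro a
    apply hcancel
    have h1 : g * A.ρ a = (A.ρ a⁻¹)ᵀ * g := by rw [hadj, inv_inv]
    have h2 : g' * A.ρ a = (A.ρ a⁻¹)ᵀ * g' := by rw [hadj', inv_inv]
    rw [← mul_assoc, hgc, h2, ← mul_assoc, h1, mul_assoc, hgc]
  have hee : (((e : ℤ) : ℤ_[p])) * ((e : ℤ) : ℤ_[p]) = 1 := by
    rw [← Int.cast_mul, ← Units.val_mul, Int.units_mul_self]; simp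
  have hcg : cᵀ * g = g * c := by
    have h1 : (g⁻¹)ᵀ * g = ((e : ℤ) : ℤ_[p]) • (1 : Matrix ι ι ℤ_[p]) := by
      have h2 : (g⁻¹)ᵀ * gᵀ = 1 := by rw [← transpose_mul, hgi', transpose_one]
      rw [A.symm] at h2
      calc (g⁻¹)ᵀ * g = (((e : ℤ) : ℤ_[p]) * ((e : ℤ) : ℤ_[p])) • ((g⁻¹)ᵀ * g) := by
            rw [hee, one_smul]
        _ = ((e : ℤ) : ℤ_[p]) • ((g⁻¹)ᵀ * (((e : ℤ) : ℤ_[p]) • g)) := by
            rw [Matrix.mul_smul, smul_smul]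
        _ = _ := by rw [h2]
    rw [hgc, hc, transpose_mul, mul_assoc, h1, Matrix.mul_smul, mul_one, hs, smul_smul, hee,
      one_smul]
  -- the generator of `C_5`
  set Z : ZMod 5 → Matrix ι ι ℤ_[p] := fun i => A.ρ (1, Multiplicative.ofAdd i) with hZ
  have hZmul : ∀ i j, Z i * Z j = Z (i + j) := by
    intro i j
    simp only [hZ, hρ, Prod.mk_mul_mk, one_mul, ofAdd_add]
  have hZ0 : Z 0 = 1 := map_one A.ρ
  have hsum : Z 0 + Z 1 + Z 2 + Z 3 + Z 4 = 0 := by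
    have : ∑ i : ZMod 5, Z i = Z 0 + Z 1 + Z 2 + Z 3 + Z 4 := Fin.sum_univ_five (f := Z)
    rw [← this]
    exact hA
  have hinv5 : ∀ i : ZMod 5, ((1, Multiplicative.ofAdd i) : Cyc D × Cyc 5)⁻¹ =
      (1, Multiplicative.ofAdd (-i)) := by
    intro i
    rw [Prod.inv_mk, inv_one, ofAdd_neg]
  have h14 : (-1 : ZMod 5) = 4 := by decide
  have h41 : (-4 : ZMod 5) = 1 := by decide
  have key := b2b_approx hp2 hp5 g (Z 1) (Z 4) c c'
    (by rw [hZmul]; exact hZ0) (by rw [hZmul]; exact hZ0)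
    (by
      have e1 : Z 1 ^ 2 = Z 2 := by rw [pow_two, hZmul]; rfl
      have e2 : Z 4 ^ 2 = Z 3 := by rw [pow_two, hZmul]; rfl
      rw [e1, e2, ← hZ0, ← hsum]
      abel)
    (by rw [hadj, hinv5, h14])
    (by rw [hadj, hinv5, h41])
    hcc' hc'c hcg (hcρ _) (hcρ _)
  apply b2b_compact
  intro n
  obtain ⟨u, hu1, y, hy⟩ := key n
  refine ⟨u, fun a => ?_, y, ?_⟩
  · refine hu1 _ ?_ ?_ (hcρ a).symm
    · rw [hρ, hρ, mul_comm]
    · rw [hρ, hρ, mul_comm]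
  · rw [hy, hgc]

theorem B2b' (p : ℕ) [Fact p.Prime] (hp2 : p ≠ 2) (hp5 : p ≠ 5)
    (A : GForm ℤ_[p] (Cyc D × Cyc 5) e ι) (B : GForm ℤ_[p] (Cyc D × Cyc 5) e κ)
    (hA : ∑ i : ZMod 5, A.ρ (1, Multiplicative.ofAdd i) = 0) (h : RepIso A.ρ B.ρ) :
    A.Iso B := by
  obtain ⟨P, Q, hQP, hPQ, hP⟩ := h
  have hdet : IsUnit (Pᵀ * B.g * P).det := by
    rw [← Matrix.isUnit_iff_isUnit_det]
    refine IsUnit.of_mul_eq_one (Q * B.g⁻¹ * Qᵀ) ?_
    have h1 : B.g * B.g⁻¹ = 1 := Matrix.mul_nonsing_inv _ B.unimod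
    calc Pᵀ * B.g * P * (Q * B.g⁻¹ * Qᵀ) = Pᵀ * B.g * (P * Q) * B.g⁻¹ * Qᵀ := by
          simp only [Matrix.mul_assoc]
      _ = Pᵀ * (B.g * B.g⁻¹) * Qᵀ := by rw [hPQ, Matrix.mul_one, Matrix.mul_assoc Pᵀ]
      _ = (Q * P)ᵀ := by rw [h1, Matrix.mul_one, transpose_mul]
      _ = 1 := by rw [hQP, transpose_one]
  obtain ⟨u, hu, hug⟩ := b2b_same p hp2 hp5 A (Pᵀ * B.g * P)
    (by
      rw [transpose_mul, transpose_mul, transpose_transpose, B.symm, Matrix.smul_mul,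
        Matrix.mul_smul, Matrix.mul_assoc])
    (by
      intro a
      calc (A.ρ a)ᵀ * (Pᵀ * B.g * P) * A.ρ a = (P * A.ρ a)ᵀ * B.g * (P * A.ρ a) := by
            rw [transpose_mul]; simp only [Matrix.mul_assoc]
        _ = Pᵀ * ((B.ρ a)ᵀ * B.g * B.ρ a) * P := by
            rw [hP, transpose_mul]; simp only [Matrix.mul_assoc]
        _ = Pᵀ * B.g * P := by rw [B.inv])
    hdet hA
  have hudet : IsUnit u.det := by
    have h1 := congrArg det hug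
    rw [det_mul, det_mul, det_transpose] at h1
    have h2 : IsUnit (u.det * A.g.det * u.det) := h1 ▸ hdet
    exact isUnit_of_mul_isUnit_right h2
  have hu1 : u * u⁻¹ = 1 := Matrix.mul_nonsing_inv _ hudet
  have hu2 : u⁻¹ * u = 1 := Matrix.nonsing_inv_mul _ hudet
  refine ⟨P * u⁻¹, u * Q, ?_, ?_, ?_, ?_⟩
  · calc u * Q * (P * u⁻¹) = u * (Q * P) * u⁻¹ := by simp only [Matrix.mul_assoc]
      _ = 1 := by rw [hQP, Matrix.mul_one, hu1]
  · calc P * u⁻¹ * (u * Q) = P * (u⁻¹ * u) * Q := by simp only [Matrix.mul_assoc]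
      _ = 1 := by rw [hu2, Matrix.mul_one, hPQ]
  · calc (P * u⁻¹)ᵀ * B.g * (P * u⁻¹) = (u⁻¹)ᵀ * (Pᵀ * B.g * P) * u⁻¹ := by
          rw [transpose_mul]; simp only [Matrix.mul_assoc]
      _ = (u * u⁻¹)ᵀ * A.g * (u * u⁻¹) := by
          rw [← hug, transpose_mul]; simp only [Matrix.mul_assoc]
      _ = A.g := by rw [hu1, transpose_one, Matrix.one_mul, Matrix.mul_one]
  · intro a
    have h3 : u⁻¹ * A.ρ a = A.ρ a * u⁻¹ := by
      calc u⁻¹ * A.ρ a = u⁻¹ * (A.ρ a * u) * u⁻¹ := by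
            rw [Matrix.mul_assoc, Matrix.mul_assoc, hu1, Matrix.mul_one]
        _ = u⁻¹ * u * A.ρ a * u⁻¹ := by rw [← hu a]; simp only [Matrix.mul_assoc]
        _ = A.ρ a * u⁻¹ := by rw [hu2, Matrix.one_mul]
    rw [Matrix.mul_assoc, h3, ← Matrix.mul_assoc, hP, Matrix.mul_assoc]

end

end Vale.Agent.P268.Z
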