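import Mathlib

/-!
# P268, block B3: central twists
-/

namespace Vale.Agent.P268.Z.B3

open Matrix

section

variable {K : Type} [Field K] {ι : Type} [Fintype ι] [DecidableEq ι]

/-- roots of `1 + x + x² + x³ + x⁴` satisfy `x ^ 4 ≠ x`. -/
theorem root_ne [CharZero K] (w : K) (h : 1 + w + w ^ 2 + w ^ 3 + w ^ 4 = 0) : w ^ 4 ≠ w := by
  intro h1
  have h5 : w ^ 5 = 1 := by linear_combination (w - 1) * h
  have h2 : w ^ 2 = 1 := by linear_combination h5 - w * h1
  have h3 : w = 1 := by linear_combination -h1 + (w ^ 2 + 1) * h2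
  rw [h3] at h
  norm_num at h

theorem finite_bad_end {L V : Type} [Field L] [IsAlgClosed L] [CharZero L] [AddCommGroup V]
    [Module L V] [FiniteDimensional L V] (Z g : Module.End L V)
    (hZ : 1 + Z + Z ^ 2 + Z ^ 3 + Z ^ 4 = 0) (hc : Z * g = g * Z) :
    {n : ℕ | ∃ v : V, v ≠ 0 ∧ (((n : Module.End L V) + Z ^ 4) +
      ((n : Module.End L V) + Z) * g) v = 0}.Finite := by
  have hfin : ({p : L × L | Z.HasEigenvalue p.1 ∧ g.HasEigenvalue p.2}).Finite := by
    have h1 : {w : L | Z.HasEigenvalue w}.Finite := Module.End.finite_hasEigenvalue Z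
    have h2 : {w : L | g.HasEigenvalue w}.Finite := Module.End.finite_hasEigenvalue g
    exact (h1.prod h2).subset fun p hp => ⟨hp.1, hp.2⟩
  refine (hfin.biUnion (t := fun p => {n : ℕ | p.1 ^ 4 ≠ p.1 ∧
    ((n : L) + p.1 ^ 4) + ((n : L) + p.1) * p.2 = 0}) fun p _ => ?_).subset ?_
  · refine Set.Subsingleton.finite fun n hn m hm => ?_
    obtain ⟨hw, hn⟩ := hn
    obtain ⟨-, hm⟩ := hm
    have h1 : ((n : L) - m) * (1 + p.2) = 0 := by linear_combination hn - hm
    rcases mul_eq_zero.mp h1 with h | h
    · exact_mod_cast sub_eq_zero.mp h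
    · exact absurd (by linear_combination hn - (n + p.1) * h) hw
  · rintro n ⟨v, hv, hnv⟩
    set M : Module.End L V := (((n : Module.End L V) + Z ^ 4) +
      ((n : Module.End L V) + Z) * g) with hM
    have hcomm : Commute Z M := by
      have hn : Commute Z (n : Module.End L V) := (Nat.cast_commute n Z).symm
      have hz : Commute Z (Z ^ 4) := (Commute.refl Z).pow_right 4
      exact (hn.add_right hz).add_right ((hn.add_right (Commute.refl Z)).mul_right hc)
    -- the kernel of `M` is stable under `Z`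
    have hmaps : ∀ x ∈ LinearMap.ker M, Z x ∈ LinearMap.ker M := by
      intro x hx
      rw [LinearMap.mem_ker] at hx ⊢
      have : M (Z x) = Z (M x) := by
        have := LinearMap.congr_fun hcomm.eq x
        simpa using this.symm
      rw [this, hx, map_zero]
    have : Nontrivial (LinearMap.ker M) := by
      refine ⟨⟨⟨v, hnv⟩, 0, fun h => hv ?_⟩⟩
      simpa using congrArg Subtype.val h
    obtain ⟨w, hw⟩ := Module.End.exists_eigenvalue (Z.restrict hmaps)
    obtain ⟨⟨x, hx⟩, hx1⟩ := hw.exists_hasEigenvector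
    have hx0 : x ≠ 0 := fun h => hx1.2 (Subtype.ext h)
    have hZx : Z x = w • x := by
      have := congrArg Subtype.val (Module.End.mem_eigenspace_iff.mp hx1.1)
      simpa using this
    have hpow : ∀ k : ℕ, (Z ^ k) x = w ^ k • x := by
      intro k
      induction k with
      | zero => simp
      | succ k ih => rw [pow_succ', Module.End.mul_apply, ih, map_smul, hZx, smul_smul, pow_succ]
    have hroot : 1 + w + w ^ 2 + w ^ 3 + w ^ 4 = 0 := by
      have h := LinearMap.congr_fun hZ x
      simp only [LinearMap.add_apply, Module.End.one_apply, hpow, hZx, LinearMap.zero_apply] at h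
      have h' : (1 + w + w ^ 2 + w ^ 3 + w ^ 4) • x = 0 := by
        rw [add_smul, add_smul, add_smul, add_smul, one_smul]; exact h
      exact (smul_eq_zero.mp h').resolve_right hx0
    have hwne := root_ne w hroot
    have hZg : Z (g x) = w • g x := by
      have := LinearMap.congr_fun hc x
      simp only [Module.End.mul_apply] at this
      rw [this, hZx, map_smul]
    have hMx : ((n : L) + w ^ 4) • x + ((n : L) + w) • g x = 0 := by
      have h : M x = 0 := hx
      rw [hM] at h
      simp only [LinearMap.add_apply, Module.End.mul_apply, Module.End.natCast_apply, hpow, hZg] at h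
      rw [add_smul, add_smul, Nat.cast_smul_eq_nsmul, Nat.cast_smul_eq_nsmul]
      exact h
    have hnw : (n : L) + w ≠ 0 := by
      intro h0
      rw [h0, zero_smul, add_zero] at hMx
      have h1 := (smul_eq_zero.mp hMx).resolve_right hx0
      exact hwne (by linear_combination h1 - h0)
    have hgx : g x = (-((n : L) + w)⁻¹ * ((n : L) + w ^ 4)) • x := by
      have h1 : ((n : L) + w)⁻¹ • (((n : L) + w) • g x) = ((n : L) + w)⁻¹ • (-(((n : L) + w ^ 4) • x)) := by
        rw [← eq_neg_of_add_eq_zero_right hMx]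
      rw [smul_smul, inv_mul_cancel₀ hnw, one_smul] at h1
      rw [h1, smul_neg, smul_smul, neg_mul, neg_smul]
    rw [Set.mem_iUnion₂]
    refine ⟨(w, -((n : L) + w)⁻¹ * ((n : L) + w ^ 4)), ⟨?_, ?_⟩, ?_, ?_⟩
    · exact Module.End.hasEigenvalue_of_hasEigenvector
        ⟨Module.End.mem_eigenspace_iff.mpr hZx, hx0⟩
    · exact Module.End.hasEigenvalue_of_hasEigenvector
        ⟨Module.End.mem_eigenspace_iff.mpr hgx, hx0⟩
    · exact hwne
    · simp only
      field_simp
      ring

theorem finite_bad [CharZero K] (Z g : Matrix ι ι K) (hZ : 1 + Z + Z ^ 2 + Z ^ 3 + Z ^ 4 = 0)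
    (hc : Z * g = g * Z) :
    {n : ℕ | ¬ IsUnit (((n : Matrix ι ι K) + Z ^ 4) +
      ((n : Matrix ι ι K) + Z) * g).det}.Finite := by
  let L := AlgebraicClosure K
  let f : K →+* L := algebraMap K L
  have : CharZero L := charZero_of_injective_algebraMap (algebraMap K L).injective
  let T : Matrix ι ι K →+* Module.End L (ι → L) :=
    ((Matrix.toLinAlgEquiv' (R := L) (n := ι)).toRingEquiv : Matrix ι ι L →+* _).comp f.mapMatrix
  have h := finite_bad_end (T Z) (T g) (by rw [← map_pow, ← map_pow, ← map_pow, ← map_one T,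
    ← map_add, ← map_add, ← map_add, ← map_add, hZ, map_zero]) (by rw [← map_mul, hc, map_mul])
  refine h.subset fun n hn => ?_
  simp only [Set.mem_ofPred_eq] at hn ⊢
  rw [isUnit_iff_ne_zero, not_not] at hn
  have hdet : (f.mapMatrix (((n : Matrix ι ι K) + Z ^ 4) + ((n : Matrix ι ι K) + Z) * g)).det = 0 := by
    rw [← RingHom.map_det, hn, map_zero]
  obtain ⟨v, hv, hv0⟩ := Matrix.exists_mulVec_eq_zero_iff.mpr hdet
  refine ⟨v, hv, ?_⟩
  have e : T (((n : Matrix ι ι K) + Z ^ 4) + ((n : Matrix ι ι K) + Z) * g) =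
      ((n : Module.End L (ι → L)) + (T Z) ^ 4) + ((n : Module.End L (ι → L)) + T Z) * T g := by
    rw [map_add, map_mul, map_add, map_add, map_pow, map_natCast]
  rw [← e]
  exact hv0

end

end Vale.Agent.P268.Z.B3
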