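import Vale.Agent.P268.Z.B3Cayley
import Vale.Agent.P268.Z.B3Twist

/-!
# P268, block B3: the central twist `(n + Z) / (n + Z⁻¹)`
-/

namespace Vale.Agent.P268.Z.B3

open Matrix

section

variable {K : Type} [Field K] {ι : Type} [Fintype ι] [DecidableEq ι]

/-- the central twist `(n + Z) / (n + Z⁻¹)` -/
noncomputable def tw (n : ℕ) (Z : Matrix ι ι K) : Matrix ι ι K :=
  ((n : Matrix ι ι K) + Z) * ((n : Matrix ι ι K) + Z ^ 4)⁻¹

theorem pow_five {Z : Matrix ι ι K} (hZ : 1 + Z + Z ^ 2 + Z ^ 3 + Z ^ 4 = 0) : Z ^ 5 = 1 := by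
  have h1 : Z * (1 + Z + Z ^ 2 + Z ^ 3 + Z ^ 4) = 0 := by rw [hZ, Matrix.mul_zero]
  have h2 : Z * (1 + Z + Z ^ 2 + Z ^ 3 + Z ^ 4) =
      Z ^ 5 - 1 + (1 + Z + Z ^ 2 + Z ^ 3 + Z ^ 4) := by noncomm_ring
  rw [h1, hZ, add_zero] at h2
  exact (sub_eq_zero.mp h2.symm)

theorem adj_pow {G Z : Matrix ι ι K} (hZ5 : Z ^ 5 = 1) (hG : Zᵀ * G * Z = G) (k : ℕ) :
    (Z ^ k)ᵀ * G = G * Z ^ (4 * k) := by
  have h1 : Zᵀ * G = G * Z ^ 4 := by
    have h := congrArg (· * Z ^ 4) hG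
    simp only [Matrix.mul_assoc] at h
    rw [← pow_succ', hZ5, Matrix.mul_one] at h
    exact h
  induction k with
  | zero => simp
  | succ k ih =>
    rw [pow_succ, transpose_mul, Matrix.mul_assoc, ih, ← Matrix.mul_assoc, h1, Matrix.mul_assoc,
      ← pow_add]
    congr 2
    ring

theorem inv_comm {M a : Matrix ι ι K} (h : IsUnit M.det) (hc : M * a = a * M) :
    M⁻¹ * a = a * M⁻¹ := by
  calc M⁻¹ * a = M⁻¹ * (a * M) * M⁻¹ := by
        rw [Matrix.mul_assoc, Matrix.mul_assoc a, Matrix.mul_nonsing_inv _ h, Matrix.mul_one]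
    _ = a * M⁻¹ := by
        rw [← hc, ← Matrix.mul_assoc M⁻¹, Matrix.nonsing_inv_mul _ h, Matrix.one_mul]

theorem natCast_comm (n : ℕ) (a : Matrix ι ι K) : (n : Matrix ι ι K) * a = a * n :=
  (Nat.cast_commute n a).eq

theorem tw_comm (n : ℕ) (Z a : Matrix ι ι K) (hc : Z * a = a * Z)
    (h : IsUnit ((n : Matrix ι ι K) + Z ^ 4).det) : tw n Z * a = a * tw n Z := by
  have hc4 : Z ^ 4 * a = a * Z ^ 4 := ((show Commute Z a from hc).pow_left 4).eq
  have h1 : ((n : Matrix ι ι K) + Z ^ 4) * a = a * ((n : Matrix ι ι K) + Z ^ 4) := by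
    rw [Matrix.add_mul, Matrix.mul_add, hc4, natCast_comm]
  have h2 : ((n : Matrix ι ι K) + Z) * a = a * ((n : Matrix ι ι K) + Z) := by
    rw [Matrix.add_mul, Matrix.mul_add, hc, natCast_comm]
  rw [tw, Matrix.mul_assoc, inv_comm h h1, ← Matrix.mul_assoc, h2, Matrix.mul_assoc]

theorem comm_tw (n : ℕ) (Z : Matrix ι ι K) :
    ((n : Matrix ι ι K) + Z ^ 4) * ((n : Matrix ι ι K) + Z) =
      ((n : Matrix ι ι K) + Z) * ((n : Matrix ι ι K) + Z ^ 4) := by
  have h1 : Commute ((n : Matrix ι ι K) + Z ^ 4) ((n : Matrix ι ι K) + Z) :=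
    Commute.add_left (Nat.cast_commute n _)
      (Commute.add_right (Nat.cast_commute n _).symm ((Commute.refl Z).pow_left 4))
  exact h1.eq

theorem tw_isom (G Z : Matrix ι ι K) (n : ℕ) (hZ : 1 + Z + Z ^ 2 + Z ^ 3 + Z ^ 4 = 0)
    (hG : Zᵀ * G * Z = G) (h : IsUnit ((n : Matrix ι ι K) + Z ^ 4).det) :
    (tw n Z)ᵀ * G * tw n Z = G := by
  have h5 := pow_five hZ
  have hn : (n : Matrix ι ι K)ᵀ = n := by
    rw [← Matrix.diagonal_natCast, diagonal_transpose]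
  have e1 : ((n : Matrix ι ι K) + Z)ᵀ * G = G * ((n : Matrix ι ι K) + Z ^ 4) := by
    have := adj_pow h5 hG 1
    rw [pow_one, mul_one] at this
    rw [transpose_add, Matrix.add_mul, Matrix.mul_add, this, hn, natCast_comm]
  have e4 : ((n : Matrix ι ι K) + Z ^ 4)ᵀ * G = G * ((n : Matrix ι ι K) + Z) := by
    have := adj_pow h5 hG 4
    have h16 : Z ^ (4 * 4) = Z := by
      rw [show 4 * 4 = 5 * 3 + 1 from rfl, pow_add, pow_mul, h5, one_pow, one_mul, pow_one]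
    rw [h16] at this
    rw [transpose_add, Matrix.add_mul, Matrix.mul_add, this, hn, natCast_comm]
  have hu : IsUnit ((n : Matrix ι ι K) + Z ^ 4)ᵀ.det := by rw [det_transpose]; exact h
  have hc := comm_tw n Z
  rw [tw, transpose_mul, transpose_nonsing_inv]
  calc (((n : Matrix ι ι K) + Z ^ 4)ᵀ)⁻¹ * ((n : Matrix ι ι K) + Z)ᵀ * G *
        (((n : Matrix ι ι K) + Z) * ((n : Matrix ι ι K) + Z ^ 4)⁻¹)
      = (((n : Matrix ι ι K) + Z ^ 4)ᵀ)⁻¹ * (((n : Matrix ι ι K) + Z)ᵀ * G) *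
        ((n : Matrix ι ι K) + Z) * ((n : Matrix ι ι K) + Z ^ 4)⁻¹ := by
          simp only [Matrix.mul_assoc]
    _ = (((n : Matrix ι ι K) + Z ^ 4)ᵀ)⁻¹ * G * (((n : Matrix ι ι K) + Z) *
        ((n : Matrix ι ι K) + Z ^ 4)) * ((n : Matrix ι ι K) + Z ^ 4)⁻¹ := by
          rw [e1, ← hc]; simp only [Matrix.mul_assoc]
    _ = (((n : Matrix ι ι K) + Z ^ 4)ᵀ)⁻¹ * (G * ((n : Matrix ι ι K) + Z)) := by
          simp only [Matrix.mul_assoc]
          rw [Matrix.mul_nonsing_inv _ h, Matrix.mul_one]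
    _ = G := by
          rw [← e4, ← Matrix.mul_assoc, Matrix.nonsing_inv_mul _ hu, Matrix.one_mul]

theorem one_add_tw (Z g : Matrix ι ι K) (n : ℕ) (h : IsUnit ((n : Matrix ι ι K) + Z ^ 4).det)
    (h' : IsUnit (((n : Matrix ι ι K) + Z ^ 4) + ((n : Matrix ι ι K) + Z) * g).det) :
    IsUnit (1 + tw n Z * g).det := by
  have hc := comm_tw n Z
  have e : 1 + tw n Z * g = ((n : Matrix ι ι K) + Z ^ 4)⁻¹ *
      (((n : Matrix ι ι K) + Z ^ 4) + ((n : Matrix ι ι K) + Z) * g) := by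
    rw [Matrix.mul_add, Matrix.nonsing_inv_mul _ h, ← Matrix.mul_assoc, inv_comm h hc, tw]
  rw [e, det_mul]
  exact ((Matrix.isUnit_nonsing_inv_det_iff).mpr h).mul h'

end

section Map

variable {K L : Type} [Field K] [Field L] {ι : Type} [Fintype ι] [DecidableEq ι] (f : K →+* L)

theorem map_inv_of_isUnit (M : Matrix ι ι K) (h : IsUnit M.det) :
    f.mapMatrix M⁻¹ = (f.mapMatrix M)⁻¹ := by
  refine (Matrix.inv_eq_right_inv ?_).symm
  rw [← map_mul, Matrix.mul_nonsing_inv _ h, map_one]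

theorem map_tw (n : ℕ) (Z : Matrix ι ι K) (h : IsUnit ((n : Matrix ι ι K) + Z ^ 4).det) :
    f.mapMatrix (tw n Z) = tw n (f.mapMatrix Z) := by
  rw [tw, map_mul, map_inv_of_isUnit f _ h, map_add, map_add, map_pow, map_natCast, tw]

theorem map_cay (X : Matrix ι ι K) (h : IsUnit (1 + X).det) :
    f.mapMatrix (cay X) = cay (f.mapMatrix X) := by
  rw [cay, map_mul, map_inv_of_isUnit f _ h, map_add, map_sub, map_one, cay]

theorem isUnit_map_iff (M : Matrix ι ι K) : IsUnit (f.mapMatrix M).det ↔ IsUnit M.det := by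
  rw [← RingHom.map_det, isUnit_iff_ne_zero, isUnit_iff_ne_zero, map_ne_zero]

end Map

section Cont

variable {K : Type} [Field K] [TopologicalSpace K] [IsTopologicalRing K] [ContinuousInv₀ K]
  {ι : Type} [Fintype ι] [DecidableEq ι]

theorem continuousAt_cay (X : Matrix ι ι K) (h : IsUnit (1 + X).det) : ContinuousAt cay X := by
  have h1 : ContinuousAt (fun Y : Matrix ι ι K => (1 + Y)⁻¹) X := by
    have : (fun Y : Matrix ι ι K => (1 + Y)⁻¹) =
        fun Y => ((1 + Y).det)⁻¹ • (1 + Y).adjugate := by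
      ext1 Y
      rw [Matrix.inv_def, Ring.inverse_eq_inv']
    rw [this]
    have hc : Continuous (fun Y : Matrix ι ι K => 1 + Y) := by fun_prop
    have hd : ContinuousAt (fun Y : Matrix ι ι K => ((1 + Y).det)⁻¹) X :=
      ContinuousAt.inv₀ (hc.matrix_det).continuousAt h.ne_zero
    have ha : ContinuousAt (fun Y : Matrix ι ι K => (1 + Y).adjugate) X :=
      (hc.matrix_adjugate).continuousAt
    exact hd.smul ha
  have h2 : ContinuousAt (fun Y : Matrix ι ι K => (1 - Y)) X := by fun_prop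
  exact h2.mul h1

end Cont

end Vale.Agent.P268.Z.B3
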