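import Vale.Agent.P268.Z.Seif
import Vale.Agent.P268.Z.B3Tw

/-!
# P268, block B3: isometries with explicit matrices
-/

namespace Vale.Agent.P268.Z.B3

open Matrix

section

variable {R : Type} [CommRing R] {S : Type} [CommRing S] {G : Type} [CommGroup G]
  {e e' e'' : ℤˣ} {ι κ ν : Type} [Fintype ι] [DecidableEq ι] [Fintype κ] [DecidableEq κ]
  [Fintype ν] [DecidableEq ν]

/-- isometry with explicit matrix and inverse matrix -/
structure IsoM (A : GForm R G e ι) (B : GForm R G e' κ) (P : Matrix κ ι R)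
    (Q : Matrix ι κ R) : Prop where
  qp : Q * P = 1
  pq : P * Q = 1
  g : Pᵀ * B.g * P = A.g
  ρ : ∀ a, P * A.ρ a = B.ρ a * P

theorem IsoM.symm {A : GForm R G e ι} {B : GForm R G e' κ} {P : Matrix κ ι R}
    {Q : Matrix ι κ R} (h : IsoM A B P Q) : IsoM B A Q P where
  qp := h.pq
  pq := h.qp
  g := by
    have h1 : Qᵀ * Pᵀ = 1 := by rw [← transpose_mul, h.pq, transpose_one]
    rw [← h.g]
    calc Qᵀ * (Pᵀ * B.g * P) * Q = (Qᵀ * Pᵀ) * B.g * (P * Q) := by simp only [Matrix.mul_assoc]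
      _ = B.g := by rw [h1, h.pq, Matrix.one_mul, Matrix.mul_one]
  ρ a := by
    calc Q * B.ρ a = Q * (B.ρ a * P) * Q := by
          rw [Matrix.mul_assoc Q, Matrix.mul_assoc (B.ρ a), h.pq, Matrix.mul_one]
      _ = (Q * P) * A.ρ a * Q := by rw [← h.ρ]; simp only [Matrix.mul_assoc]
      _ = A.ρ a * Q := by rw [h.qp, Matrix.one_mul]

theorem IsoM.comp {A : GForm R G e ι} {B : GForm R G e' κ} {C : GForm R G e'' ν}
    {P : Matrix κ ι R} {Q : Matrix ι κ R} {P' : Matrix ν κ R} {Q' : Matrix κ ν R}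
    (h : IsoM A B P Q) (h' : IsoM B C P' Q') : IsoM A C (P' * P) (Q * Q') where
  qp := by
    calc Q * Q' * (P' * P) = Q * (Q' * P') * P := by simp only [Matrix.mul_assoc]
      _ = 1 := by rw [h'.qp, Matrix.mul_one, h.qp]
  pq := by
    calc P' * P * (Q * Q') = P' * (P * Q) * Q' := by simp only [Matrix.mul_assoc]
      _ = 1 := by rw [h.pq, Matrix.mul_one, h'.pq]
  g := by
    rw [transpose_mul]
    calc Pᵀ * P'ᵀ * C.g * (P' * P) = Pᵀ * (P'ᵀ * C.g * P') * P := by simp only [Matrix.mul_assoc]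
      _ = A.g := by rw [h'.g, h.g]
  ρ a := by
    rw [Matrix.mul_assoc, h.ρ, ← Matrix.mul_assoc, h'.ρ, Matrix.mul_assoc]

theorem IsoM.map {A : GForm R G e ι} {B : GForm R G e' κ} {P : Matrix κ ι R}
    {Q : Matrix ι κ R} (h : IsoM A B P Q) (f : R →+* S) :
    IsoM (A.map f) (B.map f) (P.map f) (Q.map f) where
  qp := by rw [← Matrix.map_mul, h.qp]; simp
  pq := by rw [← Matrix.map_mul, h.pq]; simp
  g := by
    change (P.map f)ᵀ * B.g.map f * P.map f = A.g.map f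
    rw [← transpose_map, ← Matrix.map_mul, ← Matrix.map_mul, h.g]
  ρ a := by
    change P.map f * (A.ρ a).map f = (B.ρ a).map f * P.map f
    rw [← Matrix.map_mul, ← Matrix.map_mul, h.ρ]

theorem map_map' {T : Type} [CommRing T] (A : GForm R G e ι) (f : R →+* S) (g : S →+* T) :
    (A.map f).map g = A.map (g.comp f) := rfl

/-- the inverse of an isometry, through the adjoint -/
theorem IsoM.q_eq {A : GForm R G e ι} {B : GForm R G e' κ} {P : Matrix κ ι R}
    {Q : Matrix ι κ R} (h : IsoM A B P Q) {H : Matrix ι ι R} (hH : H * A.g = 1) :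
    Q = H * Pᵀ * B.g := by
  have h1 : H * Pᵀ * B.g * P = 1 := by
    rw [Matrix.mul_assoc H, Matrix.mul_assoc H, h.g, hH]
  calc Q = (H * Pᵀ * B.g * P) * Q := by rw [h1, Matrix.one_mul]
    _ = H * Pᵀ * B.g := by rw [Matrix.mul_assoc, h.pq, Matrix.mul_one]

end

section Field

variable {K : Type} [Field K] [CharZero K] {G : Type} [CommGroup G]
  {e : ℤˣ} {ι : Type} [Fintype ι] [DecidableEq ι]

theorem isUnit_of_isom {g U : Matrix ι ι K} (hg : IsUnit g.det) (h : Uᵀ * g * U = g) :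
    IsUnit U.det := by
  have := congrArg Matrix.det h
  rw [det_mul, det_mul, det_transpose] at this
  rw [isUnit_iff_ne_zero] at hg ⊢
  intro h0
  rw [h0] at this
  simp at this
  exact hg this.symm

theorem IsoM.of_self (A : GForm K G e ι) (U : Matrix ι ι K) (h : Uᵀ * A.g * U = A.g)
    (hc : ∀ a, U * A.ρ a = A.ρ a * U) : IsoM A A U U⁻¹ where
  qp := Matrix.nonsing_inv_mul _ (isUnit_of_isom A.unimod h)
  pq := Matrix.mul_nonsing_inv _ (isUnit_of_isom A.unimod h)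
  g := h
  ρ := hc

theorem IsoM.cay (A : GForm K G e ι) (X : Matrix ι ι K) (hX : Xᵀ * A.g + A.g * X = 0)
    (hc : ∀ a, X * A.ρ a = A.ρ a * X) (hu : IsUnit (1 + X).det) :
    IsoM A A (cay X) (cay X)⁻¹ :=
  IsoM.of_self A _ (cay_isom _ _ hX hu) fun a => cay_comm _ _ (hc a) hu

theorem IsoM.tw (A : GForm K G e ι) (z : G) (n : ℕ)
    (hZ : 1 + A.ρ z + A.ρ z ^ 2 + A.ρ z ^ 3 + A.ρ z ^ 4 = 0)
    (hu : IsUnit ((n : Matrix ι ι K) + A.ρ z ^ 4).det) :
    IsoM A A (tw n (A.ρ z)) (tw n (A.ρ z))⁻¹ := by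
  refine IsoM.of_self A _ (tw_isom _ _ n hZ (A.inv z) hu) fun a => tw_comm n _ _ ?_ hu
  rw [← map_mul, ← map_mul, mul_comm]

end Field

end Vale.Agent.P268.Z.B3
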