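import Mathlib

/-!
# P268, block B3: the averaging projector onto skew matrices commuting with a finite group
-/

namespace Vale.Agent.P268.Z.B3

open Matrix

section

variable {K : Type} [Field K] [CharZero K] {Γ : Type} [CommGroup Γ] [Fintype Γ]
  {ι : Type} [Fintype ι] [DecidableEq ι]

/-- averaging over the group -/
noncomputable def avg (ρ : Γ →* Matrix ι ι K) (X : Matrix ι ι K) : Matrix ι ι K :=
  ((Fintype.card Γ : K)⁻¹) • ∑ a, ρ a * X * ρ a⁻¹

/-- skew-symmetrisation -/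
noncomputable def skw (G H X : Matrix ι ι K) : Matrix ι ι K := (2 : K)⁻¹ • (X - H * Xᵀ * G)

/-- the projector -/
noncomputable def prj (ρ : Γ →* Matrix ι ι K) (G H X : Matrix ι ι K) : Matrix ι ι K :=
  avg ρ (skw G H X)

theorem avg_comm (ρ : Γ →* Matrix ι ι K) (X : Matrix ι ι K) (b : Γ) :
    avg ρ X * ρ b = ρ b * avg ρ X := by
  rw [avg, Matrix.smul_mul, Matrix.mul_smul]
  congr 1
  rw [Finset.sum_mul, Finset.mul_sum]
  refine (Fintype.sum_equiv (Equiv.mulLeft b) _ _ fun a => ?_).symm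
  simp only [Equiv.coe_mulLeft]
  rw [map_mul, _root_.mul_inv_rev, map_mul, Matrix.mul_assoc _ _ (ρ b), Matrix.mul_assoc (ρ a⁻¹) _ (ρ b),
    ← map_mul ρ b⁻¹ b, inv_mul_cancel, map_one, Matrix.mul_one]
  simp only [Matrix.mul_assoc]

theorem avg_eq (ρ : Γ →* Matrix ι ι K) (X : Matrix ι ι K) (h : ∀ a, X * ρ a = ρ a * X) :
    avg ρ X = X := by
  have h1 : ∀ a, ρ a * X * ρ a⁻¹ = X := fun a => by
    rw [← h, Matrix.mul_assoc, ← map_mul, mul_inv_cancel, map_one, Matrix.mul_one]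
  rw [avg, Finset.sum_congr rfl fun a _ => h1 a, Finset.sum_const, Finset.card_univ,
    ← Nat.cast_smul_eq_nsmul K, smul_smul, inv_mul_cancel₀, one_smul]
  exact_mod_cast Fintype.card_ne_zero

theorem avg_skew (ρ : Γ →* Matrix ι ι K) (G : Matrix ι ι K) (hρ : ∀ a, (ρ a)ᵀ * G * ρ a = G)
    (X : Matrix ι ι K) (hX : Xᵀ * G + G * X = 0) : (avg ρ X)ᵀ * G + G * avg ρ X = 0 := by
  have key : ∀ a, (ρ a * X * ρ a⁻¹)ᵀ * G + G * (ρ a * X * ρ a⁻¹) = 0 := fun a => by
    have h1 : ρ a * ρ a⁻¹ = 1 := by rw [← map_mul, mul_inv_cancel, map_one]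
    have h1' : ρ a⁻¹ * ρ a = 1 := by rw [← map_mul, inv_mul_cancel, map_one]
    have h2 : (ρ a)ᵀ * G = G * ρ a⁻¹ := by
      have := congrArg (· * ρ a⁻¹) (hρ a)
      simp only [Matrix.mul_assoc, h1, Matrix.mul_one] at this
      exact this
    have h3 : G * ρ a = (ρ a⁻¹)ᵀ * G := by
      have h4 : (ρ a⁻¹)ᵀ * (ρ a)ᵀ = 1 := by rw [← transpose_mul, h1, transpose_one]
      have := congrArg ((ρ a⁻¹)ᵀ * ·) (hρ a)
      simp only [← Matrix.mul_assoc, h4, Matrix.one_mul] at this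
      exact this
    have e1 : (ρ a * X * ρ a⁻¹)ᵀ * G = (ρ a⁻¹)ᵀ * (Xᵀ * G) * ρ a⁻¹ := by
      rw [transpose_mul, transpose_mul]
      simp only [Matrix.mul_assoc, h2]
    have e2 : G * (ρ a * X * ρ a⁻¹) = (ρ a⁻¹)ᵀ * (G * X) * ρ a⁻¹ := by
      simp only [← Matrix.mul_assoc, h3]
    rw [e1, e2, ← Matrix.add_mul, ← Matrix.mul_add, hX, Matrix.mul_zero, Matrix.zero_mul]
  rw [avg, transpose_smul, Matrix.smul_mul, Matrix.mul_smul, ← smul_add, transpose_sum,
    Finset.sum_mul, Finset.mul_sum, ← Finset.sum_add_distrib, Finset.sum_congr rfl fun a _ => key a]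
  simp

theorem skw_skew (G H X : Matrix ι ι K) (hH : G * H = 1) (e : ℤˣ)
    (hG : Gᵀ = ((e : ℤ) : K) • G) : (skw G H X)ᵀ * G + G * skw G H X = 0 := by
  have hHG : H * G = 1 := mul_eq_one_comm.mp hH
  have hee : ((e : ℤ) : K) * ((e : ℤ) : K) = 1 := by
    rw [← Int.cast_mul, ← Units.val_mul, Int.units_mul_self]; simp
  have hHt : Hᵀ = ((e : ℤ) : K) • H := by
    have h1 : Hᵀ * Gᵀ = 1 := by rw [← transpose_mul, hH, transpose_one]
    have h2 : Hᵀ * Gᵀ * (((e : ℤ) : K) • H) = Hᵀ := by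
      rw [hG, Matrix.mul_smul, Matrix.mul_smul, Matrix.smul_mul, smul_smul, hee, one_smul,
        Matrix.mul_assoc, hH, Matrix.mul_one]
    rw [h1, Matrix.one_mul] at h2
    exact h2.symm
  have e1 : (H * Xᵀ * G)ᵀ * G = G * X := by
    rw [transpose_mul, transpose_mul, transpose_transpose, hG, hHt]
    simp only [Matrix.smul_mul, Matrix.mul_smul, smul_smul, hee, one_smul, Matrix.mul_assoc, hHG,
      Matrix.mul_one]
  have e2 : G * (H * Xᵀ * G) = Xᵀ * G := by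
    simp only [← Matrix.mul_assoc, hH, Matrix.one_mul]
  rw [skw, transpose_smul, transpose_sub, Matrix.smul_mul, Matrix.mul_smul, ← smul_add,
    Matrix.sub_mul, Matrix.mul_sub, e1, e2]
  simp

theorem skw_eq (G H X : Matrix ι ι K) (hH : G * H = 1) (hX : Xᵀ * G + G * X = 0) :
    skw G H X = X := by
  have hHG : H * G = 1 := mul_eq_one_comm.mp hH
  have h1 : Xᵀ * G = - (G * X) := eq_neg_of_add_eq_zero_left hX
  rw [skw, Matrix.mul_assoc, h1, Matrix.mul_neg, ← Matrix.mul_assoc, hHG, Matrix.one_mul,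
    sub_neg_eq_add, ← two_smul K X, smul_smul, inv_mul_cancel₀ two_ne_zero, one_smul]

theorem prj_comm (ρ : Γ →* Matrix ι ι K) (G H X : Matrix ι ι K) (b : Γ) :
    prj ρ G H X * ρ b = ρ b * prj ρ G H X := avg_comm _ _ _

theorem prj_skew (ρ : Γ →* Matrix ι ι K) (G H X : Matrix ι ι K)
    (hρ : ∀ a, (ρ a)ᵀ * G * ρ a = G) (hH : G * H = 1) (e : ℤˣ)
    (hG : Gᵀ = ((e : ℤ) : K) • G) :
    (prj ρ G H X)ᵀ * G + G * prj ρ G H X = 0 :=
  avg_skew ρ G hρ _ (skw_skew G H X hH e hG)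

theorem prj_eq (ρ : Γ →* Matrix ι ι K) (G H X : Matrix ι ι K) (hH : G * H = 1)
    (hX : Xᵀ * G + G * X = 0) (h : ∀ a, X * ρ a = ρ a * X) : prj ρ G H X = X := by
  rw [prj, skw_eq G H X hH hX, avg_eq ρ X h]

end

section Map

variable {K L : Type} [Field K] [CharZero K] [Field L] [CharZero L] {Γ : Type} [CommGroup Γ]
  [Fintype Γ] {ι : Type} [Fintype ι] [DecidableEq ι] (f : K →+* L)

theorem prj_map (ρ : Γ →* Matrix ι ι K) (ρ' : Γ →* Matrix ι ι L)
    (h : ∀ a, ρ' a = f.mapMatrix (ρ a)) (G H X : Matrix ι ι K) :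
    f.mapMatrix (prj ρ G H X) = prj ρ' (f.mapMatrix G) (f.mapMatrix H) (f.mapMatrix X) := by
  have hs : ∀ (c : K) (M : Matrix ι ι K), f.mapMatrix (c • M) = f c • f.mapMatrix M := by
    intro c M; ext i j; simp
  have ht : ∀ (M : Matrix ι ι K), f.mapMatrix Mᵀ = (f.mapMatrix M)ᵀ := by
    intro M; ext i j; simp
  simp only [prj, avg, skw, hs, map_sum, map_mul, map_sub, ht, h, map_inv₀, map_natCast,
    map_ofNat]

end Map

section Cont

variable {K : Type} [Field K] [TopologicalSpace K] [IsTopologicalRing K]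
  {Γ : Type} [CommGroup Γ] [Fintype Γ] {ι : Type} [Fintype ι] [DecidableEq ι]

theorem continuous_prj (ρ : Γ →* Matrix ι ι K) (G H : Matrix ι ι K) :
    Continuous (prj ρ G H) := by
  unfold prj avg skw
  fun_prop

end Cont

end Vale.Agent.P268.Z.B3
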