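import Vale.Agent.P268.Z.B3Approx
import Vale.Agent.P268.Z.B3Proj
import Vale.Agent.P268.Z.B3Iso
import Vale.Agent.P268.Z.E5

/-!
# P268, block B3: weak approximation for isometries

A rational isometry and `p`-adic integral isometries for `p ∈ S` give a rational isometry which is
`p`-integral for all `p ∈ S`.
-/

namespace Vale.Agent.P268.Z.B3

open Matrix Filter Topology

section Aux

variable {D : ℕ} {ι κ : Type} [Fintype ι] [DecidableEq ι] [Fintype κ] [DecidableEq κ]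

/-- the element `ζ` of the group -/
def zel (D : ℕ) : Cyc D × Cyc 5 := (1, Multiplicative.ofAdd 1)

theorem zeta_rel {R : Type} [CommRing R] (ρ : Cyc D × Cyc 5 →* Matrix ι ι R)
    (h : ∑ i : ZMod 5, ρ (1, Multiplicative.ofAdd i) = 0) :
    1 + ρ (zel D) + ρ (zel D) ^ 2 + ρ (zel D) ^ 3 + ρ (zel D) ^ 4 = 0 := by
  have hk : ∀ k : ℕ, ρ (1, Multiplicative.ofAdd (k : ZMod 5)) = ρ (zel D) ^ k := by
    intro k
    rw [← map_pow]
    congr 1
    ext
    · simp [zel]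
    · simp [zel, ← ofAdd_nsmul]
  have h2 : ∑ i : Fin 5, ρ (1, Multiplicative.ofAdd (((i : ℕ) : ZMod 5))) = 0 := by
    rw [← h]
    refine Finset.sum_congr rfl fun i _ => ?_
    congr 3
    exact ZMod.natCast_zmod_val (n := 5) i
  rw [Fin.sum_univ_five] at h2
  simp only [hk] at h2
  simpa using h2

theorem zeta_rel_map {R S : Type} [CommRing R] [CommRing S] (f : R →+* S) (Z : Matrix ι ι R)
    (h : 1 + Z + Z ^ 2 + Z ^ 3 + Z ^ 4 = 0) :
    1 + f.mapMatrix Z + f.mapMatrix Z ^ 2 + f.mapMatrix Z ^ 3 + f.mapMatrix Z ^ 4 = 0 := by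
  rw [← map_pow, ← map_pow, ← map_pow, ← map_one f.mapMatrix, ← map_add, ← map_add, ← map_add,
    ← map_add, h, map_zero]

theorem not_dvd_den {p : ℕ} [Fact p.Prime] {x : ℚ} (h : ‖(x : ℚ_[p])‖ ≤ 1) : ¬ p ∣ x.den := by
  intro hd
  have h1 : ¬ (p : ℤ) ∣ x.num := by
    intro hn
    have h2 : p ∣ x.num.natAbs := Int.natCast_dvd.mp hn
    have h3 := Nat.dvd_gcd h2 hd
    rw [x.reduced] at h3
    exact (Fact.out : p.Prime).one_lt.ne' (Nat.dvd_one.mp h3)
  have h4 : ‖((x.num : ℤ) : ℚ_[p])‖ = 1 := by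
    refine le_antisymm (Padic.norm_int_le_one _) ?_
    by_contra hlt
    exact h1 ((Padic.norm_intCast_lt_one_iff).mp (not_le.mp hlt))
  have h5 : ‖((x.den : ℤ) : ℚ_[p])‖ < 1 :=
    (Padic.norm_intCast_lt_one_iff).mpr (by exact_mod_cast hd)
  have h6 : (x : ℚ_[p]) * ((x.den : ℤ) : ℚ_[p]) = ((x.num : ℤ) : ℚ_[p]) := by
    exact_mod_cast congrArg (fun t : ℚ => (t : ℚ_[p])) (Rat.mul_den_eq_num x)
  have h7 := congrArg norm h6
  rw [norm_mul, h4] at h7
  nlinarith [norm_nonneg ((x.den : ℤ) : ℚ_[p]), norm_nonneg (x : ℚ_[p])]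

theorem norm_mul_le_one {p : ℕ} [Fact p.Prime] {α β γ : Type} [Fintype β] (M : Matrix α β ℚ_[p])
    (N : Matrix β γ ℚ_[p]) (hM : ∀ a b, ‖M a b‖ ≤ 1) (hN : ∀ a b, ‖N a b‖ ≤ 1) (a : α) (c : γ) :
    ‖(M * N) a c‖ ≤ 1 := by
  have : (M * N) a c ∈ PadicInt.subring p := by
    rw [Matrix.mul_apply]
    exact sum_mem fun b _ => mul_mem (hM a b) (hN b c)
  exact this

end Aux

section Local

variable {p : ℕ} [Fact p.Prime] {Γ : Type} [CommGroup Γ] [Fintype Γ] {e : ℤˣ}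
  {ι κ : Type} [Fintype ι] [DecidableEq ι] [Fintype κ] [DecidableEq κ]

/-- The neighbourhood on which the Cayley approximation is integral. -/
theorem nbhd (A : GForm ℚ_[p] Γ e ι) (H : Matrix ι ι ℚ_[p]) (hH : A.g * H = 1)
    (M : Matrix κ ι ℚ_[p]) (X : Matrix ι ι ℚ_[p]) (hX : Xᵀ * A.g + A.g * X = 0)
    (hc : ∀ a, X * A.ρ a = A.ρ a * X) (hu : IsUnit (1 + X).det)
    (hint : ∀ a b, ‖(M * cay X) a b‖ ≤ 1) :
    {Y : Matrix ι ι ℚ_[p] | IsUnit (1 + prj A.ρ A.g H Y).det ∧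
      ∀ a b, ‖(M * cay (prj A.ρ A.g H Y)) a b‖ ≤ 1} ∈ 𝓝 X := by
  have hprj : prj A.ρ A.g H X = X := prj_eq A.ρ A.g H X hH hX hc
  have hcp : Continuous (prj A.ρ A.g H) := continuous_prj A.ρ A.g H
  have h1 : ∀ᶠ Y in 𝓝 X, IsUnit (1 + prj A.ρ A.g H Y).det := by
    have hcd : Continuous (fun Y => (1 + prj A.ρ A.g H Y).det) :=
      (continuous_const.add hcp).matrix_det
    have hne : (1 + prj A.ρ A.g H X).det ≠ 0 := by rw [hprj]; exact hu.ne_zero
    filter_upwards [hcd.continuousAt.eventually_ne hne] with Y hY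
    exact isUnit_iff_ne_zero.mpr hY
  have h2 : ContinuousAt (fun Y => M * cay (prj A.ρ A.g H Y)) X := by
    have h3 : ContinuousAt (fun Y => cay (prj A.ρ A.g H Y)) X := by
      refine ContinuousAt.comp (f := prj A.ρ A.g H) (g := cay) ?_ hcp.continuousAt
      rw [hprj]
      exact continuousAt_cay X hu
    have h4 : Continuous (fun N : Matrix ι ι ℚ_[p] => M * N) := by fun_prop
    exact h4.continuousAt.comp h3
  have h5 : ∀ᶠ Y in 𝓝 X, ∀ a b, ‖(M * cay (prj A.ρ A.g H Y)) a b‖ ≤ 1 := by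
    rw [eventually_all]
    intro a
    rw [eventually_all]
    intro b
    have h6 : ContinuousAt (fun Y => (M * cay (prj A.ρ A.g H Y)) a b) X := by
      have h7 : Continuous (fun N : Matrix κ ι ℚ_[p] => N a b) := by fun_prop
      exact h7.continuousAt.comp h2
    have h8 := (Metric.tendsto_nhds.mp h6) 1 one_pos
    filter_upwards [h8] with Y hY
    have h9 : (M * cay (prj A.ρ A.g H X)) a b ∈ PadicInt.subring p := by
      rw [hprj]; exact hint a b
    have h10 : (M * cay (prj A.ρ A.g H Y)) a b - (M * cay (prj A.ρ A.g H X)) a b ∈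
        PadicInt.subring p := by
      rw [dist_eq_norm] at hY
      exact hY.le
    have h11 := add_mem h10 h9
    rw [sub_add_cancel] at h11
    exact h11
  exact h1.and h5

end Local

section Main

variable {D : ℕ} [NeZero D] {e : ℤˣ} {ι κ : Type} [Fintype ι] [DecidableEq ι] [Fintype κ]
  [DecidableEq κ]

theorem main (S : Finset ℕ) (hS : ∀ p ∈ S, p.Prime)
    (A : GForm ℤ (Cyc D × Cyc 5) e ι) (B : GForm ℤ (Cyc D × Cyc 5) e κ)
    (hA : ∑ i : ZMod 5, A.ρ (1, Multiplicative.ofAdd i) = 0)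
    (hQ : GForm.Iso (A.map (Int.castRingHom ℚ)) (B.map (Int.castRingHom ℚ)))
    (hp : ∀ p ∈ S, ∀ [Fact p.Prime],
      GForm.Iso (A.map (Int.castRingHom ℤ_[p])) (B.map (Int.castRingHom ℤ_[p]))) :
    ∃ (P : Matrix κ ι ℚ) (Q : Matrix ι κ ℚ),
      IsoM (A.map (Int.castRingHom ℚ)) (B.map (Int.castRingHom ℚ)) P Q ∧
      ∀ p ∈ S, (∀ i j, ¬ p ∣ (P i j).den) ∧ (∀ i j, ¬ p ∣ (Q i j).den) := by
  classical
  obtain ⟨P0, Q0, h1, h2, h3, h4⟩ := hQ
  have hM0 : IsoM (A.map (Int.castRingHom ℚ)) (B.map (Int.castRingHom ℚ)) P0 Q0 :=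
    ⟨h1, h2, h3, h4⟩
  rcases S.eq_empty_or_nonempty with rfl | hne
  · exact ⟨P0, Q0, hM0, by simp⟩
  -- index type
  let I := {p // p ∈ S}
  let q : I → ℕ := fun i => i.1
  have hq : Function.Injective q := Subtype.val_injective
  have hfact : ∀ i : I, Fact (q i).Prime := fun i => ⟨hS i.1 i.2⟩
  have hloc : ∀ i : I, ∃ (P : Matrix κ ι ℤ_[q i]) (Q : Matrix ι κ ℤ_[q i]),
      IsoM (A.map (Int.castRingHom ℤ_[q i])) (B.map (Int.castRingHom ℤ_[q i])) P Q := fun i => by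
    obtain ⟨P, Q, a, b, c, d⟩ := hp i.1 i.2
    exact ⟨P, Q, a, b, c, d⟩
  choose Pi Qi hPi using hloc
  let f : ∀ i : I, ℚ →+* ℚ_[q i] := fun i => Rat.castHom ℚ_[q i]
  let c : ∀ i : I, ℤ_[q i] →+* ℚ_[q i] := fun i => PadicInt.Coe.ringHom
  -- the rational and local forms
  let AQ := A.map (Int.castRingHom ℚ)
  let BQ := B.map (Int.castRingHom ℚ)
  have hAi : ∀ i, (A.map (Int.castRingHom ℤ_[q i])).map (c i) = AQ.map (f i) := fun i => by
    rw [map_map', map_map']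
    congr 1
  have hBi : ∀ i, (B.map (Int.castRingHom ℤ_[q i])).map (c i) = BQ.map (f i) := fun i => by
    rw [map_map', map_map']
    congr 1
  have hloc' : ∀ i, IsoM (AQ.map (f i)) (BQ.map (f i)) ((Pi i).map (c i)) ((Qi i).map (c i)) :=
    fun i => by
      have := (hPi i).map (c i)
      rwa [hAi, hBi] at this
  let g : ∀ i : I, Matrix ι ι ℚ_[q i] := fun i => Q0.map (f i) * (Pi i).map (c i)
  have hg : ∀ i, IsoM (AQ.map (f i)) (AQ.map (f i)) (g i) ((Qi i).map (c i) * P0.map (f i)) :=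
    fun i => (hloc' i).comp (hM0.symm.map (f i))
  -- the element `ζ`
  let Z : Matrix ι ι ℚ := AQ.ρ (zel D)
  have hZ : 1 + Z + Z ^ 2 + Z ^ 3 + Z ^ 4 = 0 :=
    zeta_rel_map (Int.castRingHom ℚ) _ (zeta_rel A.ρ hA)
  have hZi : ∀ i, 1 + (f i).mapMatrix Z + (f i).mapMatrix Z ^ 2 + (f i).mapMatrix Z ^ 3 +
      (f i).mapMatrix Z ^ 4 = 0 := fun i => zeta_rel_map (f i) Z hZ
  -- the choice of `n`
  obtain ⟨n, hn0, hn⟩ : ∃ n : ℕ, IsUnit ((n : Matrix ι ι ℚ) + Z ^ 4).det ∧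
      ∀ i, IsUnit (((n : Matrix ι ι ℚ_[q i]) + (f i).mapMatrix Z ^ 4) +
        ((n : Matrix ι ι ℚ_[q i]) + (f i).mapMatrix Z) * g i).det := by
    have hb0 := finite_bad Z 0 hZ (by simp)
    have hbi := fun i => finite_bad ((f i).mapMatrix Z) (g i) (hZi i) ((hg i).ρ (zel D)).symm
    have hfin := hb0.union (Set.finite_iUnion hbi)
    obtain ⟨n, hn⟩ := hfin.infinite_compl.nonempty
    simp only [Set.mem_compl_iff, Set.mem_union, Set.mem_iUnion, not_or, not_exists] at hn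
    refine ⟨n, ?_, fun i => ?_⟩
    · have := hn.1
      simpa using this
    · have := hn.2 i
      simpa using this
  -- the twist
  let W := tw n Z
  have hW : IsoM AQ AQ W W⁻¹ := IsoM.tw AQ (zel D) n hZ hn0
  have hWi : ∀ i, W.map (f i) = tw n ((f i).mapMatrix Z) := fun i => map_tw (f i) n Z hn0
  have hn0i : ∀ i, IsUnit ((n : Matrix ι ι ℚ_[q i]) + (f i).mapMatrix Z ^ 4).det := fun i => by
    have := (isUnit_map_iff (f i) ((n : Matrix ι ι ℚ) + Z ^ 4)).mpr hn0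
    rwa [map_add, map_pow, map_natCast] at this
  have hWg : ∀ i, IsoM (AQ.map (f i)) (AQ.map (f i)) (W.map (f i) * g i) _ :=
    fun i => (hg i).comp (hW.map (f i))
  have hWu : ∀ i, IsUnit (1 + W.map (f i) * g i).det := fun i => by
    rw [hWi]
    exact one_add_tw _ _ n (hn0i i) (hn i)
  let X : ∀ i : I, Matrix ι ι ℚ_[q i] := fun i => cay (W.map (f i) * g i)
  have hXu : ∀ i, IsUnit (1 + X i).det := fun i => (cay_cay _ (hWu i)).1
  have hXX : ∀ i, cay (X i) = W.map (f i) * g i := fun i => (cay_cay _ (hWu i)).2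
  have hXs : ∀ i, (X i)ᵀ * (AQ.map (f i)).g + (AQ.map (f i)).g * X i = 0 :=
    fun i => cay_skew _ _ (hWg i).g (hWu i)
  have hXc : ∀ i a, X i * (AQ.map (f i)).ρ a = (AQ.map (f i)).ρ a * X i :=
    fun i a => cay_comm _ _ ((hWg i).ρ a) (hWu i)
  -- the inverse Gram matrix
  let H0 : Matrix ι ι ℤ := A.g⁻¹
  have hH0 : H0 * A.g = 1 := Matrix.nonsing_inv_mul _ A.unimod
  have hH0' : A.g * H0 = 1 := Matrix.mul_nonsing_inv _ A.unimod
  let H : Matrix ι ι ℚ := H0.map (Int.castRingHom ℚ)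
  have hH : AQ.g * H = 1 := by
    change A.g.map (Int.castRingHom ℚ) * H0.map (Int.castRingHom ℚ) = 1
    rw [← Matrix.map_mul, hH0']
    simp
  have hH' : H * AQ.g = 1 := mul_eq_one_comm.mp hH
  have hHi : ∀ i, (AQ.map (f i)).g * H.map (f i) = 1 := fun i => by
    change AQ.g.map (f i) * H.map (f i) = 1
    rw [← Matrix.map_mul, hH]
    simp
  -- the neighbourhoods
  let M : ∀ i : I, Matrix κ ι ℚ_[q i] := fun i => (P0 * W⁻¹).map (f i)
  have hMX : ∀ i, M i * cay (X i) = (Pi i).map (c i) := fun i => by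
    have e1 : (P0 * W⁻¹).map (f i) * W.map (f i) = P0.map (f i) := by
      rw [← Matrix.map_mul, Matrix.mul_assoc, hW.qp, Matrix.mul_one]
    have e2 : P0.map (f i) * Q0.map (f i) = 1 := by
      rw [← Matrix.map_mul, hM0.pq]; simp
    rw [hXX]
    change (P0 * W⁻¹).map (f i) * (W.map (f i) * (Q0.map (f i) * (Pi i).map (c i))) = _
    rw [← Matrix.mul_assoc, e1, ← Matrix.mul_assoc, e2, Matrix.one_mul]
  have hnb : ∀ i, {Y : Matrix ι ι ℚ_[q i] |
      IsUnit (1 + prj (AQ.map (f i)).ρ (AQ.map (f i)).g (H.map (f i)) Y).det ∧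
      ∀ a b, ‖(M i * cay (prj (AQ.map (f i)).ρ (AQ.map (f i)).g (H.map (f i)) Y)) a b‖ ≤ 1} ∈
        𝓝 (X i) := fun i => by
    refine nbhd (AQ.map (f i)) (H.map (f i)) (hHi i) (M i) (X i) (hXs i) (hXc i) (hXu i) ?_
    intro a b
    rw [hMX]
    exact (Pi i a b).2
  -- weak approximation
  obtain ⟨y, hy⟩ := weak_approx q hq (α := ι × ι) (fun i ab => X i ab.1 ab.2)
    (fun i => (fun w : ι × ι → ℚ_[q i] => Matrix.of fun a b => w (a, b)) ⁻¹'
      {Y : Matrix ι ι ℚ_[q i] |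
      IsUnit (1 + prj (AQ.map (f i)).ρ (AQ.map (f i)).g (H.map (f i)) Y).det ∧
      ∀ a b, ‖(M i * cay (prj (AQ.map (f i)).ρ (AQ.map (f i)).g (H.map (f i)) Y)) a b‖ ≤ 1})
    (fun i => by
      have hc : Continuous (fun w : ι × ι → ℚ_[q i] =>
          (Matrix.of fun a b => w (a, b) : Matrix ι ι ℚ_[q i])) :=
        continuous_matrix fun a b => continuous_apply (a, b)
      exact hc.continuousAt (hnb i))
  let Y : Matrix ι ι ℚ := Matrix.of fun a b => y (a, b)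
  have hY : ∀ i, IsUnit (1 + prj (AQ.map (f i)).ρ (AQ.map (f i)).g (H.map (f i)) (Y.map (f i))).det ∧
      ∀ a b, ‖(M i * cay (prj (AQ.map (f i)).ρ (AQ.map (f i)).g (H.map (f i)) (Y.map (f i)))) a b‖
        ≤ 1 := fun i => hy i
  let X' : Matrix ι ι ℚ := prj AQ.ρ AQ.g H Y
  have hX'i : ∀ i, (f i).mapMatrix X' =
      prj (AQ.map (f i)).ρ (AQ.map (f i)).g (H.map (f i)) (Y.map (f i)) := fun i =>
    prj_map (f i) AQ.ρ (AQ.map (f i)).ρ (fun _ => rfl) AQ.g H Y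
  have hX'u : IsUnit (1 + X').det := by
    obtain ⟨p, hpS⟩ := hne
    let i : I := ⟨p, hpS⟩
    have := (hY i).1
    rw [← hX'i, ← map_one (f i).mapMatrix, ← map_add, isUnit_map_iff] at this
    exact this
  have hcay : IsoM AQ AQ (cay X') (cay X')⁻¹ :=
    IsoM.cay AQ X' (prj_skew AQ.ρ AQ.g H Y AQ.inv hH e AQ.symm)
      (fun a => prj_comm AQ.ρ AQ.g H Y a) hX'u
  have hP : IsoM AQ BQ (P0 * (W⁻¹ * cay X')) ((cay X')⁻¹ * W * Q0) :=
    (hcay.comp hW.symm).comp hM0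
  have hPint : ∀ (i : I) a b, ‖(((P0 * (W⁻¹ * cay X')) a b : ℚ) : ℚ_[q i])‖ ≤ 1 := by
    intro i a b
    have e1 : (P0 * (W⁻¹ * cay X')).map (f i) =
        M i * cay (prj (AQ.map (f i)).ρ (AQ.map (f i)).g (H.map (f i)) (Y.map (f i))) := by
      rw [← hX'i, ← map_cay (f i) X' hX'u, ← Matrix.mul_assoc, Matrix.map_mul]
      rfl
    have e2 := (hY i).2 a b
    rw [← e1] at e2
    exact e2
  have hQint : ∀ (i : I) a b, ‖((((cay X')⁻¹ * W * Q0) a b : ℚ) : ℚ_[q i])‖ ≤ 1 := by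
    intro i a b
    have e1 := hP.q_eq hH'
    have e2 : ((cay X')⁻¹ * W * Q0).map (f i) =
        H.map (f i) * (P0 * (W⁻¹ * cay X'))ᵀ.map (f i) * BQ.g.map (f i) := by
      rw [e1, Matrix.map_mul, Matrix.map_mul]
    have e3 : ‖(((cay X')⁻¹ * W * Q0).map (f i)) a b‖ ≤ 1 := by
      rw [e2]
      refine norm_mul_le_one _ _ (norm_mul_le_one _ _ ?_ ?_) ?_ a b
      · intro a b
        have : (H.map (f i)) a b = ((H0 a b : ℤ) : ℚ_[q i]) := by
          change ((((H0 a b : ℤ) : ℚ)) : ℚ_[q i]) = _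
          push_cast; rfl
        rw [this]
        exact Padic.norm_int_le_one _
      · intro a b
        exact hPint i b a
      · intro a b
        have : (BQ.g.map (f i)) a b = ((B.g a b : ℤ) : ℚ_[q i]) := by
          change ((((B.g a b : ℤ) : ℚ)) : ℚ_[q i]) = _
          push_cast; rfl
        rw [this]
        exact Padic.norm_int_le_one _
    exact e3
  refine ⟨_, _, hP, fun p hpS => ⟨fun a b => ?_, fun a b => ?_⟩⟩
  · have := hfact ⟨p, hpS⟩
    exact not_dvd_den (p := q ⟨p, hpS⟩) (hPint ⟨p, hpS⟩ a b)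
  · have := hfact ⟨p, hpS⟩
    exact not_dvd_den (p := q ⟨p, hpS⟩) (hQint ⟨p, hpS⟩ a b)

end Main

end Vale.Agent.P268.Z.B3

namespace Vale.Agent.P268.Z

open Matrix

section

variable {D : ℕ} [NeZero D] {e : ℤˣ} {ι κ : Type} [Fintype ι] [DecidableEq ι] [Fintype κ]
  [DecidableEq κ]

set_option linter.unusedVariables false in
/-- Weak approximation for isometries. -/
theorem B3 (S : Finset ℕ) (hS : ∀ p ∈ S, p.Prime)
    (A : GForm ℤ (Cyc D × Cyc 5) e ι) (B : GForm ℤ (Cyc D × Cyc 5) e κ)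
    (hA : Phi5 A.ρ) (hB : Phi5 B.ρ)
    (hQ : GForm.Iso (A.map (Int.castRingHom ℚ)) (B.map (Int.castRingHom ℚ)))
    (hp : ∀ p ∈ S, ∀ [Fact p.Prime],
      GForm.Iso (A.map (Int.castRingHom ℤ_[p])) (B.map (Int.castRingHom ℤ_[p]))) :
    ∃ (P : Matrix κ ι ℚ) (Q : Matrix ι κ ℚ), Q * P = 1 ∧ P * Q = 1 ∧
      Pᵀ * (B.map (Int.castRingHom ℚ)).g * P = (A.map (Int.castRingHom ℚ)).g ∧
      (∀ a, P * (A.map (Int.castRingHom ℚ)).ρ a = (B.map (Int.castRingHom ℚ)).ρ a * P) ∧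
      ∀ p ∈ S, (∀ i j, ¬ p ∣ (P i j).den) ∧ (∀ i j, ¬ p ∣ (Q i j).den) := by
  obtain ⟨P, Q, h, h'⟩ := B3.main S hS A B hA hQ hp
  exact ⟨P, Q, h.qp, h.pq, h.g, h.ρ, h'⟩

end

end Vale.Agent.P268.Z
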