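import Vale.Agent.P268.Z.Cls
import Vale.Agent.P268.Z.E5

/-!
# P268, block B5: killing `σ`
-/

namespace Vale.Agent.P268.Z

open Matrix

section B5

variable {D : ℕ} [NeZero D] {e e₁ e₂ : ℤˣ} {ι κ ν μ : Type} [Fintype ι] [DecidableEq ι]
  [Fintype κ] [DecidableEq κ] [Fintype ν] [DecidableEq ν] [Fintype μ] [DecidableEq μ]

theorem hyp_sign {R : Type} [CommRing R] {G : Type} [CommGroup G] (h : e₁ = e₂)
    (ρ : G →* Matrix ι ι R) : (GForm.hyp e₁ ρ).Iso (GForm.hyp e₂ ρ) := by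
  subst h
  exact GForm.Iso.refl _

omit [NeZero D] in
/-- Multiplication of a stable isometry by a form of `C_D`. -/
theorem b5_mul (A : GForm ℤ (Cyc D) e ι) (B : GForm ℤ (Cyc D) e κ) (C : GForm ℤ (Cyc D) e ν)
    {α β : Type} [Fintype α] [DecidableEq α] [Fintype β] [DecidableEq β]
    (σ : Cyc D × Cyc 5 →* Matrix α α ℤ) (τ : Cyc D × Cyc 5 →* Matrix β β ℤ)
    (h : ((B.ext E5).add (GForm.hyp _ σ)).Iso ((C.ext E5).add (GForm.hyp _ τ))) :
    (((A.mul B).ext E5).add (GForm.hyp _ (repTensor (A.ρ.comp (MonoidHom.fst _ _)) σ))).Iso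
      (((A.mul C).ext E5).add
        (GForm.hyp _ (repTensor (A.ρ.comp (MonoidHom.fst _ _)) τ))) := by
  have key : ∀ {ι' : Type} [Fintype ι'] [DecidableEq ι'] (X : GForm ℤ (Cyc D) e ι')
      {α' : Type} [Fintype α'] [DecidableEq α'] (υ : Cyc D × Cyc 5 →* Matrix α' α' ℤ),
      ((A.comap (MonoidHom.fst (Cyc D) (Cyc 5))).mul ((X.ext E5).add (GForm.hyp _ υ))).Iso
      (((A.mul X).ext E5).add
        (GForm.hyp _ (repTensor (A.ρ.comp (MonoidHom.fst _ _)) υ))) := by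
    intro ι' _ _ X α' _ _ υ
    refine (GForm.mul_add _ _ _).trans ?_
    refine GForm.Iso.add ?_ ?_
    · refine (GForm.mul_comm _ _).trans ((GForm.ext_mul X E5 A).trans ?_)
      exact GForm.Iso.ext (GForm.mul_comm X A) (GForm.Iso.refl _)
    · refine (GForm.mul_hyp _ _).trans ?_
      exact hyp_sign (by rw [← _root_.mul_assoc]) _
  exact (key B σ).symm.trans ((GForm.Iso.mul (GForm.Iso.refl _) h).trans (key C τ))

theorem E5_gmat : E5.g = chainSeifert [5] * (compMat (mu [5])) ^ 3 := by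
  change (chainSeifert [5]) * (mono (sgn [5]) (chainSeifert [5])) ^ _ = _
  rw [show sgn [5] = -1 by simp [sgn], mono_single]

end B5

/-- reversal -/
def rev4 : Matrix (Fin 4) (Fin 4) ℤ := fun i j => if (i : ℕ) + j = 3 then 1 else 0

/-- reversal, on the index type of `E5` -/
def rev5 : Matrix (Fin (mu [5])) (Fin (mu [5])) ℤ :=
  fun i j => if (i : ℕ) + j = 3 then 1 else 0

theorem rev4_sq : rev4 * rev4 = 1 := by decide +kernel

/-- the Seifert matrix of `z ^ 5` -/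
def L5m : Matrix (Fin 4) (Fin 4) ℤ :=
  fun i j => if (i : ℕ) = j then 1 else if (i : ℕ) + 1 = j then -1 else 0

theorem rev4_g : rev4ᵀ * (-(L5m * compMat 4 ^ 3)) * rev4 = L5m * compMat 4 ^ 3 := by
  decide +kernel

theorem rev4_rho : ∀ a : ZMod 5, rev4 * compMat 4 ^ (-a).val = compMat 4 ^ a.val * rev4 := by
  decide +kernel

theorem E5_bar : E5.bar.Iso E5.neg := by
  have hL : chainSeifert [5] = (L5m : Matrix (Fin 4) (Fin 4) ℤ) := by
    ext i j
    rw [chainSeifert_single]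
    rfl
  refine ⟨rev5, rev5, rev4_sq, rev4_sq, ?_, fun a => ?_⟩
  · change rev5ᵀ * (-E5.g) * rev5 = E5.g
    rw [E5_gmat, hL]
    exact rev4_g
  · change rev5 * E5.ρ a⁻¹ = E5.ρ a * rev5
    rw [E5_rho, E5_rho]
    exact rev4_rho (Multiplicative.toAdd a)


section B5

variable {D : ℕ} [NeZero D] {e e₁ e₂ : ℤˣ} {ι κ ν μ : Type} [Fintype ι] [DecidableEq ι]
  [Fintype κ] [DecidableEq κ] [Fintype ν] [DecidableEq ν] [Fintype μ] [DecidableEq μ]

omit [NeZero D] in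
/-- Bar of a stable isometry. -/
theorem b5_bar (A : GForm ℤ (Cyc D) e ι) (B : GForm ℤ (Cyc D) e κ)
    (hA : A.bar.Iso A) (hB : B.bar.Iso B)
    (σ : Cyc D × Cyc 5 →* Matrix ν ν ℤ) (τ : Cyc D × Cyc 5 →* Matrix μ μ ℤ)
    (h : ((A.ext E5).add (GForm.hyp _ σ)).Iso ((B.ext E5).add (GForm.hyp _ τ))) :
    ((A.ext E5).add (GForm.hyp _ (repBar σ))).Iso
      ((B.ext E5).add (GForm.hyp _ (repBar τ))) := by
  have key : ∀ {ι' : Type} [Fintype ι'] [DecidableEq ι'] (X : GForm ℤ (Cyc D) e ι')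
      (_ : X.bar.Iso X)
      {α' : Type} [Fintype α'] [DecidableEq α'] (υ : Cyc D × Cyc 5 →* Matrix α' α' ℤ),
      (((X.ext E5).add (GForm.hyp _ υ)).bar.neg).Iso
        ((X.ext E5).add (GForm.hyp _ (repBar υ))) := by
    intro ι' _ _ X hX α' _ _ υ
    have h1 : (X.ext E5).bar.Iso (X.ext E5).neg :=
      (GForm.bar_ext X E5).trans ((GForm.Iso.ext hX E5_bar).trans (GForm.mul_neg _ _))
    have h2 : (X.ext E5).neg.neg.Iso (X.ext E5) :=
      GForm.Iso.of_equiv (Equiv.refl _) (fun i j => by simp [GForm.neg])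
        (fun a i j => rfl)
    refine ((GForm.bar_add _ _).trans (h1.add (GForm.hyp_bar υ))).neg.trans ?_
    refine (GForm.neg_add _ _).trans (h2.add (GForm.hyp_neg _))
  exact (key A hA σ).symm.trans (h.bar.neg.trans (key B hB τ))

theorem Lam_bar (D : ℕ) [NeZero D] : RepIso (repBar (Lam D)) (Lam D) := by
  have h : RepIso (repBar E5.ρ) E5.ρ := E5_bar.rep
  have := (repReg_bar (R := ℤ) (G := Cyc D)).ext h
  rw [← repBar_ext] at this
  exact this

/-- `X ⊗ Λ` is free. -/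
theorem tensor_Lam (X : Cyc D →* Matrix ι ι ℤ) :
    RepIso (repTensor (X.comp (MonoidHom.fst (Cyc D) (Cyc 5))) (Lam D)) (repCopies ι (Lam D)) :=
  repTensor_ext_reg X E5.ρ

theorem tensor_Lam_copies (X : Cyc D →* Matrix ι ι ℤ) :
    RepIso (repTensor (X.comp (MonoidHom.fst (Cyc D) (Cyc 5))) (repCopies ν (Lam D)))
      (repCopies (ν × ι) (Lam D)) :=
  (repTensor_copies _ _).trans ((repCopies_congr (tensor_Lam X)).trans (repCopies_copies _))

/-- Isometric forms over `ℤ` have the same rank. -/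
theorem iso_card {G : Type} [CommGroup G] {A : GForm ℤ G e₁ ι} {B : GForm ℤ G e₂ κ}
    (h : A.Iso B) : Fintype.card ι = Fintype.card κ := by
  have := h.rep.trace_eq 1
  rw [map_one, map_one, trace_one, trace_one] at this
  exact_mod_cast this

omit [NeZero D] [Fintype ι] [DecidableEq ι] [Fintype κ] [DecidableEq κ] [Fintype ν]
  [DecidableEq ν] [Fintype μ] [DecidableEq μ] in
theorem b5_abs {M : Type*} [AddCommSemigroup M] {x y y' z p₁ p₂ q₁ q₂ q₃ t : M}
    (h1 : x + p₁ = y + q₁) (h2 : y' + p₂ = z + q₂) (h3 : y = y') (h4 : z + q₂ = z + q₃)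
    (h5 : q₁ + t = q₂ + t) : x + (p₁ + (p₂ + t)) = z + ((q₂ + q₃) + t) := by
  calc x + (p₁ + (p₂ + t)) = (x + p₁) + (p₂ + t) := by ac_rfl
    _ = (y' + p₂) + (q₁ + t) := by rw [h1, h3]; ac_rfl
    _ = (z + q₃) + (q₂ + t) := by rw [h2, h4, h5]
    _ = z + ((q₂ + q₃) + t) := by ac_rfl

theorem b5_card {G : Type} [CommGroup G] {A : GForm ℤ G e₁ ι} {B : GForm ℤ G e₂ κ}
    {σ : G →* Matrix ν ν ℤ} {τ : G →* Matrix μ μ ℤ}
    (h : (A.add (GForm.hyp _ σ)).Iso (B.add (GForm.hyp _ τ))) :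
    Fintype.card ι + (Fintype.card ν + Fintype.card ν) =
      Fintype.card κ + (Fintype.card μ + Fintype.card μ) := by
  have := iso_card h
  simpa using this

theorem b5_congr {G : Type} [CommGroup G] {A : GForm ℤ G e₁ ι} {B : GForm ℤ G e₂ κ}
    {σ : G →* Matrix ν ν ℤ} {τ : G →* Matrix μ μ ℤ}
    (h : (A.add (GForm.hyp _ σ)).Iso (B.add (GForm.hyp _ τ)))
    {α β : Type} [Fintype α] [DecidableEq α] [Fintype β] [DecidableEq β]
    {σ' : G →* Matrix α α ℤ} {τ' : G →* Matrix β β ℤ} (h1 : RepIso σ σ') (h2 : RepIso τ τ') :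
    (A.add (GForm.hyp _ σ')).Iso (B.add (GForm.hyp _ τ')) :=
  ((GForm.Iso.refl _).add (GForm.hyp_congr h1)).symm.trans
    (h.trans ((GForm.Iso.refl _).add (GForm.hyp_congr h2)))

theorem b5_ciso {G : Type} [CommGroup G] {A : GForm ℤ G e₁ ι} {B : GForm ℤ G e₁ κ}
    {σ : G →* Matrix ν ν ℤ} {τ : G →* Matrix μ μ ℤ}
    (h : A.cls + (GForm.hyp _ σ).cls = B.cls + (GForm.hyp _ τ).cls) :
    (A.add (GForm.hyp _ σ)).Iso (B.add (GForm.hyp _ τ)) := GForm.cls_eq.1 h

theorem B5 (A : GForm ℤ (Cyc D) e ι) (B : GForm ℤ (Cyc D) e κ)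
    (htr : ∀ a, (A.ρ a).trace = (B.ρ a).trace)
    (hA : A.bar.Iso A) (hB : B.bar.Iso B)
    (n r : ℕ) (σ : Cyc D × Cyc 5 →* Matrix (Fin n) (Fin n) ℤ)
    (h1 : GForm.Iso ((A.ext E5).add (GForm.hyp _ (repCopies (Fin r) (Lam D))))
      ((B.ext E5).add (GForm.hyp _ σ)))
    (h2 : ∃ a : ℕ, RepIso (repSum σ (repSharp σ)) (repCopies (Fin a) (Lam D)))
    (h3 : ∀ (α β : Type) [Fintype α] [DecidableEq α] [Fintype β] [DecidableEq β]
        (X : Cyc D →* Matrix α α ℤ) (Y : Cyc D →* Matrix β β ℤ),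
        (∀ a, (X a).trace = (Y a).trace) → ∃ a : ℕ, RepIso
          (repSum (repTensor (X.comp (MonoidHom.fst _ _)) σ) (repCopies (Fin a) (Lam D)))
          (repSum (repTensor (Y.comp (MonoidHom.fst _ _)) σ) (repCopies (Fin a) (Lam D)))) :
    ∃ s : ℕ, GForm.Iso
      (((A.mul A).ext E5).add (GForm.hyp _ (repCopies (Fin s) (Lam D))))
      (((B.mul B).ext E5).add (GForm.hyp _ (repCopies (Fin s) (Lam D)))) := by
  obtain ⟨a', h2⟩ := h2
  obtain ⟨a, h3⟩ := h3 ι κ A.ρ B.ρ htr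
  -- (i)
  have hLr : RepIso (repBar (repCopies (Fin r) (Lam D))) (repCopies (Fin r) (Lam D)) := by
    rw [repBar_repCopies]
    exact repCopies_congr (Lam_bar D)
  have hi : ((B.ext E5).add (GForm.hyp _ σ)).Iso ((B.ext E5).add (GForm.hyp _ (repBar σ))) := by
    refine h1.symm.trans (GForm.Iso.trans ?_ (b5_bar A B hA hB _ _ h1))
    exact (GForm.Iso.refl _).add (GForm.hyp_congr hLr.symm)
  -- (ii)
  have hAA := b5_mul A A B _ _ h1
  have hBB := b5_mul B A B _ _ h1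
  have hB2 := b5_mul B B B _ _ hi
  have hAB : ((A.mul B).ext E5).Iso ((B.mul A).ext E5) :=
    GForm.Iso.ext (GForm.mul_comm A B) (GForm.Iso.refl _)
  -- classes
  let H : ∀ {α : Type} [Fintype α] [DecidableEq α] (_ : Cyc D × Cyc 5 →* Matrix α α ℤ),
    FCls ℤ (Cyc D × Cyc 5) (e * e * sgn [5]) := fun υ => (GForm.hyp _ υ).cls
  have Hc : ∀ {α β : Type} [Fintype α] [DecidableEq α] [Fintype β] [DecidableEq β]
      {υ : Cyc D × Cyc 5 →* Matrix α α ℤ} {φ : Cyc D × Cyc 5 →* Matrix β β ℤ},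
      RepIso υ φ → H υ = H φ := fun h => (GForm.hyp_congr h).cls
  have Hs : ∀ {α β : Type} [Fintype α] [DecidableEq α] [Fintype β] [DecidableEq β]
      (υ : Cyc D × Cyc 5 →* Matrix α α ℤ) (φ : Cyc D × Cyc 5 →* Matrix β β ℤ),
      H (repSum υ φ) = H υ + H φ := fun υ φ => (GForm.hyp_sum υ φ).cls
  have Hd : ∀ {α : Type} [Fintype α] [DecidableEq α] (υ : Cyc D × Cyc 5 →* Matrix α α ℤ),
      H (repDual υ) = H υ := fun υ => (GForm.hyp_dual υ).cls
  have cadd : ∀ {α β γ δ : Type} [Fintype α] [DecidableEq α] [Fintype β] [DecidableEq β]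
      [Fintype γ] [DecidableEq γ] [Fintype δ] [DecidableEq δ]
      {U : GForm ℤ (Cyc D × Cyc 5) (e * e * sgn [5]) α} {V : GForm ℤ (Cyc D × Cyc 5) _ γ}
      {υ : Cyc D × Cyc 5 →* Matrix β β ℤ} {φ : Cyc D × Cyc 5 →* Matrix δ δ ℤ},
      (U.add (GForm.hyp _ υ)).Iso (V.add (GForm.hyp _ φ)) → U.cls + H υ = V.cls + H φ :=
    fun h => h.cls
  have cAA := cadd hAA
  have cBB := cadd hBB
  have cB2 := cadd hB2
  have cAB := hAB.cls
  -- `B ⊗ σ̄` and `B ⊗ σ♯`
  have c5 : H (repTensor (B.ρ.comp (MonoidHom.fst (Cyc D) (Cyc 5))) (repBar σ)) =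
      H (repTensor (B.ρ.comp (MonoidHom.fst (Cyc D) (Cyc 5))) (repSharp σ)) := by
    rw [← Hd, repDual_repTensor, repDual_bar, repComp_dual]
    exact Hc ((B.rep_dual.symm.comp _).tensor (RepIso.refl _))
  have c6 := Hc h3
  rw [Hs, Hs] at c6
  have c7 : H (repTensor (B.ρ.comp (MonoidHom.fst (Cyc D) (Cyc 5))) σ) +
      H (repTensor (B.ρ.comp (MonoidHom.fst (Cyc D) (Cyc 5))) (repSharp σ)) =
      H (repCopies (Fin a' × κ) (Lam D)) := by
    rw [← Hs]
    exact Hc ((repTensor_sum _ _ _).symm.trans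
      (((RepIso.refl _).tensor h2).trans (tensor_Lam_copies _)))
  have c8 := Hc (tensor_Lam_copies (ν := Fin r) A.ρ)
  have c9 := Hc (tensor_Lam_copies (ν := Fin r) B.ρ)
  rw [c8] at cAA
  rw [c9] at cBB
  rw [c5] at cB2
  have final : ((A.mul A).ext E5).cls +
      H (repCopies ((Fin r × ι) ⊕ ((Fin r × κ) ⊕ Fin a)) (Lam D)) =
      ((B.mul B).ext E5).cls + H (repCopies ((Fin a' × κ) ⊕ Fin a) (Lam D)) := by
    rw [← Hc (repCopies_sum (Lam D)), ← Hc (repCopies_sum (Lam D)), Hs, Hs,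
      ← Hc (repCopies_sum (Lam D)), Hs, ← c7]
    exact b5_abs cAA cBB cAB cB2 c6
  have hiso := b5_ciso final
  have hcardAB : Fintype.card ι = Fintype.card κ := by
    have := htr 1
    rw [map_one, map_one, trace_one, trace_one] at this
    exact_mod_cast this
  have hcard := b5_card hiso
  simp only [Fintype.card_sum, Fintype.card_prod, Fintype.card_fin] at hcard
  rw [hcardAB] at hcard
  have hL : 0 < Fintype.card (LIdx D) := by
    have : Fintype.card (LIdx D) = Fintype.card (Cyc D) * Fintype.card (Fin (mu [5])) :=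
      Fintype.card_prod _ _
    rw [this, Fintype.card_fin, mu_single]
    have := Fintype.card_pos (α := Cyc D)
    omega
  have hs : r * Fintype.card κ + (r * Fintype.card κ + a) = a' * Fintype.card κ + a := by
    have h2L : 0 < 2 * Fintype.card (LIdx D) := by omega
    refine Nat.eq_of_mul_eq_mul_right h2L ?_
    linarith
  refine ⟨a' * Fintype.card κ + a, ?_⟩
  have e1 : (Fin r × ι) ⊕ ((Fin r × κ) ⊕ Fin a) ≃ Fin (a' * Fintype.card κ + a) :=
    Fintype.equivFinOfCardEq (by simp [hcardAB, hs])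
  have e2 : (Fin a' × κ) ⊕ Fin a ≃ Fin (a' * Fintype.card κ + a) :=
    Fintype.equivFinOfCardEq (by simp)
  exact b5_congr hiso (repCopies_congr_idx e1 (Lam D)) (repCopies_congr_idx e2 (Lam D))

end B5

end Vale.Agent.P268.Z
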