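import Vale.Agent.P268.Z.Form

/-!
# P268: splitting off a unimodular subform
-/

namespace Vale.Agent.P268.Z

open Matrix

namespace GForm

variable {G : Type} [CommGroup G] {e : ℤˣ} {ι κ : Type} [Fintype ι] [DecidableEq ι]
  [Fintype κ] [DecidableEq κ]

/-- A unimodular subform splits off. -/
theorem split_of_sub (A : GForm ℤ G e ι) (H : GForm ℤ G e κ) (W : Matrix ι κ ℤ)
    (hg : Wᵀ * A.g * W = H.g) (hρ : ∀ a, A.ρ a * W = W * H.ρ a) :
    ∃ (n : ℕ) (C : GForm ℤ G e (Fin n)), A.Iso (C.add H) := by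
  classical
  have hHu := H.unimod
  have hAu := A.unimod
  -- the projection
  set π : Matrix κ ι ℤ := H.g⁻¹ * (Wᵀ * A.g) with hπ
  have hHπ : H.g * π = Wᵀ * A.g := by
    rw [hπ, ← Matrix.mul_assoc, Matrix.mul_nonsing_inv _ hHu, Matrix.one_mul]
  have hπW : π * W = 1 := by
    rw [hπ, Matrix.mul_assoc, hg, Matrix.nonsing_inv_mul _ hHu]
  have hinvρ : ∀ a, H.ρ a * H.ρ a⁻¹ = 1 := fun a => by rw [← map_mul]; simp
  have hinvρ' : ∀ a, A.ρ a * A.ρ a⁻¹ = 1 := fun a => by rw [← map_mul]; simp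
  have hAinv : ∀ a, A.g * A.ρ a = (A.ρ a⁻¹)ᵀ * A.g := fun a => by
    have h1 := A.inv a
    have h2 : (A.ρ a⁻¹)ᵀ * ((A.ρ a)ᵀ * A.g * A.ρ a) = A.g * A.ρ a := by
      rw [Matrix.mul_assoc (A.ρ a)ᵀ, ← Matrix.mul_assoc, ← transpose_mul, hinvρ',
        transpose_one, Matrix.one_mul]
    rw [← h2, h1]
  have hHinv : ∀ a, (H.ρ a⁻¹)ᵀ * H.g = H.g * H.ρ a := fun a => by
    have h1 := H.inv a
    have h2 : (H.ρ a⁻¹)ᵀ * ((H.ρ a)ᵀ * H.g * H.ρ a) = H.g * H.ρ a := by
      rw [Matrix.mul_assoc (H.ρ a)ᵀ, ← Matrix.mul_assoc, ← transpose_mul, hinvρ,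
        transpose_one, Matrix.one_mul]
    rw [← h2, h1]
  have hπρ : ∀ a, π * A.ρ a = H.ρ a * π := fun a => by
    have h1 : H.g * (π * A.ρ a) = H.g * (H.ρ a * π) := by
      rw [← Matrix.mul_assoc, hHπ, Matrix.mul_assoc, hAinv, ← Matrix.mul_assoc, ← transpose_mul,
        hρ, transpose_mul, Matrix.mul_assoc, ← hHπ, ← Matrix.mul_assoc, hHinv, Matrix.mul_assoc]
    have h2 := congrArg (fun M => H.g⁻¹ * M) h1
    simp only [← Matrix.mul_assoc, Matrix.nonsing_inv_mul _ hHu, Matrix.one_mul] at h2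
    exact h2
  -- the kernel
  set pl : (ι → ℤ) →ₗ[ℤ] (κ → ℤ) := Matrix.toLin' π with hpl
  set N : Submodule ℤ (ι → ℤ) := LinearMap.ker pl with hN
  set n : ℕ := Module.finrank ℤ N with hn
  let bN : Module.Basis (Fin n) ℤ N := Module.finBasis ℤ N
  have hmemN : ∀ x : ι → ℤ, x - (W * π) *ᵥ x ∈ N := fun x => by
    rw [hN, LinearMap.mem_ker, hpl, Matrix.toLin'_apply, Matrix.mulVec_sub,
      Matrix.mulVec_mulVec, ← Matrix.mul_assoc, hπW, Matrix.one_mul, sub_self]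
  let p : (ι → ℤ) →ₗ[ℤ] N :=
    LinearMap.codRestrict N (LinearMap.id - Matrix.toLin' (W * π)) (fun x => hmemN x)
  let Bl : (Fin n → ℤ) →ₗ[ℤ] (ι → ℤ) := N.subtype ∘ₗ (bN.equivFun.symm : (Fin n → ℤ) →ₗ[ℤ] N)
  let πl : (ι → ℤ) →ₗ[ℤ] (Fin n → ℤ) := (bN.equivFun : N →ₗ[ℤ] (Fin n → ℤ)) ∘ₗ p
  set B : Matrix ι (Fin n) ℤ := LinearMap.toMatrix' Bl with hB
  set π' : Matrix (Fin n) ι ℤ := LinearMap.toMatrix' πl with hπ'
  have hBπ : B * π' = 1 - W * π := by
    rw [hB, hπ', ← LinearMap.toMatrix'_comp]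
    have : Bl ∘ₗ πl = LinearMap.id - Matrix.toLin' (W * π) := by
      apply LinearMap.ext
      intro x
      simp [Bl, πl, p]
    rw [this, map_sub, LinearMap.toMatrix'_id, LinearMap.toMatrix'_toLin']
  have hpN : ∀ x : N, p x = x := fun x => by
    apply Subtype.ext
    have hx : π *ᵥ (x : ι → ℤ) = 0 := x.2
    change (x : ι → ℤ) - (W * π) *ᵥ (x : ι → ℤ) = x
    rw [← Matrix.mulVec_mulVec, hx, Matrix.mulVec_zero, sub_zero]
  have hπB : π' * B = 1 := by
    rw [hB, hπ', ← LinearMap.toMatrix'_comp, ← LinearMap.toMatrix'_id]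
    congr 1
    apply LinearMap.ext
    intro x
    simp only [Bl, πl, LinearMap.comp_apply, Submodule.subtype_apply, LinearMap.id_apply,
      LinearEquiv.coe_coe]
    rw [hpN, LinearEquiv.apply_symm_apply]
  have hπB0 : π * B = 0 := by
    have h1 : π = LinearMap.toMatrix' pl := by
      rw [hpl, LinearMap.toMatrix'_toLin']
    rw [hB]
    nth_rewrite 1 [h1]
    rw [← LinearMap.toMatrix'_comp]
    have : pl ∘ₗ Bl = 0 := by
      apply LinearMap.ext
      intro x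
      exact (bN.equivFun.symm x).2
    rw [this, map_zero]
  have hπ'W : π' * W = 0 := by
    have h1 : π' = π' * (B * π') := by rw [← Matrix.mul_assoc, hπB, Matrix.one_mul]
    rw [h1, hBπ, Matrix.mul_assoc, Matrix.sub_mul, Matrix.one_mul, Matrix.mul_assoc, hπW,
      Matrix.mul_one, sub_self, Matrix.mul_zero]
  have hWgB : Wᵀ * A.g * B = 0 := by
    rw [← hHπ, Matrix.mul_assoc, hπB0, Matrix.mul_zero]
  have hee : (e : ℤ) * (e : ℤ) = 1 := by
    rw [← Units.val_mul, Int.units_mul_self, Units.val_one]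
  have hAs : A.gᵀ = (e : ℤ) • A.g := by simpa using A.symm
  have hsymm : ∀ {X : Type} {Y : Type} [Fintype X] [Fintype Y] (M : Matrix ι X ℤ)
      (M' : Matrix ι Y ℤ), Mᵀ * A.g * M' = (e : ℤ) • (M'ᵀ * A.g * M)ᵀ := by
    intro X Y _ _ M M'
    rw [transpose_mul, transpose_mul, transpose_transpose, hAs]
    rw [Matrix.smul_mul, Matrix.mul_smul, smul_smul, hee, one_smul, Matrix.mul_assoc]
  have hBgW : Bᵀ * A.g * W = 0 := by
    rw [hsymm, hWgB, transpose_zero, smul_zero]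
  have hBρ : ∀ a, B * (π' * A.ρ a * B) = A.ρ a * B := fun a => by
    rw [← Matrix.mul_assoc, ← Matrix.mul_assoc, hBπ, Matrix.sub_mul, Matrix.sub_mul,
      Matrix.one_mul, Matrix.mul_assoc W, hπρ, Matrix.mul_assoc W, Matrix.mul_assoc (H.ρ a), hπB0,
      Matrix.mul_zero, Matrix.mul_zero, sub_zero]
  let C : GForm ℤ G e (Fin n) :=
    { g := Bᵀ * A.g * B
      ρ :=
        { toFun := fun a => π' * A.ρ a * B
          map_one' := by rw [map_one, Matrix.mul_one, hπB]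
          map_mul' := fun a b => by
            rw [Matrix.mul_assoc (π' * A.ρ a) B, hBρ, map_mul]
            simp only [Matrix.mul_assoc] }
      symm := by
        rw [transpose_mul, transpose_mul, transpose_transpose, hAs, Matrix.smul_mul,
          Matrix.mul_smul, Matrix.mul_assoc, Int.cast_id]
      inv := fun a => by
        change (π' * A.ρ a * B)ᵀ * (Bᵀ * A.g * B) * (π' * A.ρ a * B) = _
        have h0 : (π' * A.ρ a * B)ᵀ * (Bᵀ * A.g * B) * (π' * A.ρ a * B) =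
            (B * (π' * A.ρ a * B))ᵀ * A.g * (B * (π' * A.ρ a * B)) := by
          rw [transpose_mul B]; simp only [Matrix.mul_assoc]
        have h1 : (A.ρ a * B)ᵀ * A.g * (A.ρ a * B) = Bᵀ * ((A.ρ a)ᵀ * A.g * A.ρ a) * B := by
          rw [transpose_mul]; simp only [Matrix.mul_assoc]
        rw [h0, hBρ, h1, A.inv a]
      unimod := by
        rw [← Matrix.isUnit_iff_isUnit_det]
        refine IsUnit.of_mul_eq_one (π' * A.g⁻¹ * π'ᵀ) ?_
        have h1 : Bᵀ * A.g * B * (π' * A.g⁻¹ * π'ᵀ) = Bᵀ * A.g * (B * π') * A.g⁻¹ * π'ᵀ := by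
          simp only [Matrix.mul_assoc]
        rw [h1, hBπ, Matrix.mul_sub, Matrix.mul_one, ← Matrix.mul_assoc (Bᵀ * A.g), hBgW,
          Matrix.zero_mul, sub_zero, Matrix.mul_assoc Bᵀ, Matrix.mul_nonsing_inv _ hAu,
          Matrix.mul_one, ← transpose_mul, hπB, transpose_one] }
  refine ⟨n, C, fromRows π' π, fromCols B W, ?_, ?_, ?_, ?_⟩
  · rw [fromCols_mul_fromRows, hBπ, sub_add_cancel]
  · rw [fromRows_mul_fromCols, hπB, hπ'W, hπB0, hπW, fromBlocks_one]
  · change (fromRows π' π)ᵀ * fromBlocks (Bᵀ * A.g * B) 0 0 H.g * fromRows π' π = A.g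
    rw [transpose_fromRows, fromCols_mul_fromBlocks, fromCols_mul_fromRows]
    simp only [Matrix.mul_zero, add_zero, zero_add]
    have h1 : π'ᵀ * (Bᵀ * A.g * B) * π' = (B * π')ᵀ * A.g * (B * π') := by
      rw [transpose_mul]; simp only [Matrix.mul_assoc]
    have h2 : πᵀ * H.g * π = (W * π)ᵀ * A.g * (W * π) := by
      have h0 : (W * π)ᵀ * A.g * (W * π) = πᵀ * (Wᵀ * A.g * W) * π := by
        rw [transpose_mul]; simp only [Matrix.mul_assoc]
      rw [h0, hg]
    have h3 : (W * π)ᵀ * A.g * (1 - W * π) = 0 := by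
      rw [Matrix.mul_sub, Matrix.mul_one, transpose_mul, Matrix.mul_assoc πᵀ, ← hHπ]
      have h4 : πᵀ * (H.g * π) * (W * π) = πᵀ * (H.g * (π * W) * π) := by
        simp only [Matrix.mul_assoc]
      rw [h4, hπW, Matrix.mul_one, sub_self]
    have h5 : (1 - W * π)ᵀ * A.g * (W * π) = 0 := by
      rw [hsymm, h3, transpose_zero, smul_zero]
    rw [h1, h2, hBπ]
    calc (1 - W * π)ᵀ * A.g * (1 - W * π) + (W * π)ᵀ * A.g * (W * π)
        = ((1 - W * π)ᵀ * A.g * (1 - W * π) + (W * π)ᵀ * A.g * (1 - W * π)) +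
          ((1 - W * π)ᵀ * A.g * (W * π) + (W * π)ᵀ * A.g * (W * π)) := by
          rw [h3, h5]; simp
      _ = ((1 - W * π)ᵀ + (W * π)ᵀ) * A.g * ((1 - W * π) + W * π) := by
          simp only [Matrix.add_mul, Matrix.mul_add]
      _ = A.g := by
          rw [← transpose_add, sub_add_cancel, transpose_one, Matrix.one_mul, Matrix.mul_one]
  · intro a
    change fromRows π' π * A.ρ a = fromBlocks (π' * A.ρ a * B) 0 0 (H.ρ a) * fromRows π' π
    rw [fromRows_mul, fromBlocks_mul_fromRows]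
    simp only [Matrix.zero_mul, add_zero, zero_add]
    congr 1
    · rw [Matrix.mul_assoc, hBπ, Matrix.mul_sub, Matrix.mul_one, ← Matrix.mul_assoc,
        Matrix.mul_assoc π', hρ, ← Matrix.mul_assoc π', hπ'W, Matrix.zero_mul, Matrix.zero_mul,
        sub_zero]
    · exact hπρ a

/-- the bilinear form of a `GForm` -/
def bf (A : GForm ℤ G e ι) (x y : ι → ℤ) : ℤ := x ⬝ᵥ (A.g *ᵥ y)

theorem bf_add_left (A : GForm ℤ G e ι) (x x' y : ι → ℤ) :
    A.bf (x + x') y = A.bf x y + A.bf x' y := by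
  rw [bf, bf, bf, add_dotProduct]

theorem bf_add_right (A : GForm ℤ G e ι) (x y y' : ι → ℤ) :
    A.bf x (y + y') = A.bf x y + A.bf x y' := by
  rw [bf, bf, bf, Matrix.mulVec_add, dotProduct_add]

theorem bf_smul_left (A : GForm ℤ G e ι) (c : ℤ) (x y : ι → ℤ) :
    A.bf (c • x) y = c * A.bf x y := by
  rw [bf, bf, smul_dotProduct, smul_eq_mul]

theorem bf_smul_right (A : GForm ℤ G e ι) (c : ℤ) (x y : ι → ℤ) :
    A.bf x (c • y) = c * A.bf x y := by
  rw [bf, bf, Matrix.mulVec_smul, dotProduct_smul, smul_eq_mul]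

theorem bf_sum_left (A : GForm ℤ G e ι) {τ : Type*} (s : Finset τ) (x : τ → ι → ℤ) (y : ι → ℤ) :
    A.bf (∑ i ∈ s, x i) y = ∑ i ∈ s, A.bf (x i) y := by
  simp only [bf, sum_dotProduct]

theorem bf_sum_right (A : GForm ℤ G e ι) {τ : Type*} (s : Finset τ) (x : ι → ℤ) (y : τ → ι → ℤ) :
    A.bf x (∑ i ∈ s, y i) = ∑ i ∈ s, A.bf x (y i) := by
  simp only [bf, Matrix.mulVec_sum, dotProduct_sum]

theorem bf_swap (A : GForm ℤ G e ι) (x y : ι → ℤ) : A.bf y x = (e : ℤ) * A.bf x y := by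
  have hAs : A.gᵀ = (e : ℤ) • A.g := by simpa using A.symm
  rw [bf, bf, dotProduct_mulVec, ← mulVec_transpose, hAs, Matrix.smul_mulVec, dotProduct_comm,
    dotProduct_smul, smul_eq_mul]

theorem bf_inv (A : GForm ℤ G e ι) (a : G) (x y : ι → ℤ) :
    A.bf (A.ρ a *ᵥ x) (A.ρ a *ᵥ y) = A.bf x y := by
  have h := A.inv a
  rw [bf, bf]
  conv_rhs => rw [← h]
  rw [← Matrix.mulVec_mulVec, ← Matrix.mulVec_mulVec, dotProduct_mulVec x, vecMul_transpose,
    Matrix.mulVec_mulVec]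

theorem bf_act (A : GForm ℤ G e ι) (a b : G) (x y : ι → ℤ) :
    A.bf (A.ρ a *ᵥ x) (A.ρ b *ᵥ y) = A.bf x (A.ρ (a⁻¹ * b) *ᵥ y) := by
  have h : A.ρ b *ᵥ y = A.ρ a *ᵥ (A.ρ (a⁻¹ * b) *ᵥ y) := by
    rw [Matrix.mulVec_mulVec, ← map_mul, mul_inv_cancel_left]
  rw [h, bf_inv]

/-- A hyperbolic pair of vectors splits off the hyperbolic form on the regular representation. -/
theorem split_hyp [Fintype G] [DecidableEq G] (A : GForm ℤ G e ι) (u v : ι → ℤ)
    (huu : ∀ a, A.bf u (A.ρ a *ᵥ u) = 0)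
    (huv : ∀ a, A.bf u (A.ρ a *ᵥ v) = if a = 1 then 1 else 0)
    (hvv : ∀ a, A.bf v (A.ρ a *ᵥ v) = 0) :
    ∃ (n : ℕ) (C : GForm ℤ G e (Fin n)), A.Iso (C.add (hyp e (repReg ℤ G))) := by
  refine A.split_of_sub (hyp e (repReg ℤ G))
    (Matrix.of fun i s => Sum.elim (fun x => (A.ρ x *ᵥ u) i) (fun x => (A.ρ x *ᵥ v) i) s) ?_ ?_
  · ext s t
    have h1 : ((Matrix.of fun i s => Sum.elim (fun x => (A.ρ x *ᵥ u) i)
        (fun x => (A.ρ x *ᵥ v) i) s)ᵀ * A.g * (Matrix.of fun i s =>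
        Sum.elim (fun x => (A.ρ x *ᵥ u) i) (fun x => (A.ρ x *ᵥ v) i) s)) s t =
        A.bf (Sum.elim (fun x => A.ρ x *ᵥ u) (fun x => A.ρ x *ᵥ v) s)
          (Sum.elim (fun x => A.ρ x *ᵥ u) (fun x => A.ρ x *ᵥ v) t) := by
      rw [bf, dotProduct_mulVec, Matrix.mul_apply']
      congr 1
      · ext i
        rw [Matrix.mul_apply']
        cases s <;> rfl
      · ext i
        cases t <;> rfl
    rw [h1]
    rcases s with x | x <;> rcases t with y | y
    · simp only [Sum.elim_inl, bf_act, huu]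
      rfl
    · simp only [Sum.elim_inl, Sum.elim_inr, bf_act, huv]
      change _ = (1 : Matrix G G ℤ) x y
      rw [Matrix.one_apply]
      simp only [inv_mul_eq_one]
    · simp only [Sum.elim_inl, Sum.elim_inr]
      rw [bf_swap]
      simp only [bf_act, huv]
      change _ = (((e : ℤ) : ℤ) • (1 : Matrix G G ℤ)) x y
      rw [Matrix.smul_apply, Matrix.one_apply]
      simp only [inv_mul_eq_one, smul_eq_mul, Int.cast_id, eq_comm]
    · simp only [Sum.elim_inr, bf_act, hvv]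
      rfl
  · intro a
    ext i s
    rcases s with y | y
    · rw [Matrix.mul_apply, Matrix.mul_apply, Fintype.sum_sum_type]
      have h2 : ∀ x : G, (hyp e (repReg ℤ G)).ρ a (Sum.inr x) (Sum.inl y) = 0 := fun x => rfl
      have h3 : ∀ x : G, (hyp e (repReg ℤ G)).ρ a (Sum.inl x) (Sum.inl y) =
          if x = a * y then 1 else 0 := fun x => rfl
      simp only [h2, h3, mul_zero, Finset.sum_const_zero, add_zero, mul_ite, mul_one,
        Finset.sum_ite_eq', Finset.mem_univ, if_true, Matrix.of_apply, Sum.elim_inl]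
      rw [map_mul, ← Matrix.mulVec_mulVec]
      rfl
    · rw [Matrix.mul_apply, Matrix.mul_apply, Fintype.sum_sum_type]
      have h2 : ∀ x : G, (hyp e (repReg ℤ G)).ρ a (Sum.inl x) (Sum.inr y) = 0 := fun x => rfl
      have h3 : ∀ x : G, (hyp e (repReg ℤ G)).ρ a (Sum.inr x) (Sum.inr y) =
          if x = a * y then 1 else 0 := fun x => by
        change (if y = a⁻¹ * x then (1 : ℤ) else 0) = _
        simp only [eq_inv_mul_iff_mul_eq, eq_comm]
      simp only [h2, h3, mul_zero, Finset.sum_const_zero, zero_add, mul_ite, mul_one,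
        Finset.sum_ite_eq', Finset.mem_univ, if_true, Matrix.of_apply, Sum.elim_inr]
      rw [map_mul, ← Matrix.mulVec_mulVec]
      rfl

/-- The second vector of the pair can be corrected to become isotropic. -/
theorem split_hyp' [Fintype G] [DecidableEq G] (A : GForm ℤ G e ι) (u y : ι → ℤ)
    (huu : ∀ a, A.bf u (A.ρ a *ᵥ u) = 0)
    (huy : ∀ a, A.bf u (A.ρ a *ᵥ y) = if a = 1 then 1 else 0) (β : G → ℤ)
    (hβ : ∀ a, A.bf y (A.ρ a *ᵥ y) + β a + (e : ℤ) * β a⁻¹ = 0) :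
    ∃ (n : ℕ) (C : GForm ℤ G e (Fin n)), A.Iso (C.add (hyp e (repReg ℤ G))) := by
  have hact : ∀ a, A.ρ a *ᵥ (y + ∑ b, β b • (A.ρ b *ᵥ u)) =
      A.ρ a *ᵥ y + ∑ b, β b • (A.ρ (a * b) *ᵥ u) := by
    intro a
    rw [Matrix.mulVec_add, Matrix.mulVec_sum]
    congr 1
    refine Finset.sum_congr rfl fun b _ => ?_
    rw [Matrix.mulVec_smul, Matrix.mulVec_mulVec, ← map_mul]
  have hyu : ∀ a, A.bf y (A.ρ a *ᵥ u) = if a = 1 then (e : ℤ) else 0 := by
    intro a
    have h1 : A.bf (A.ρ a *ᵥ u) y = if a = 1 then 1 else 0 := by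
      have h2 := A.bf_act a 1 u y
      rw [map_one, Matrix.one_mulVec, mul_one, huy] at h2
      rw [h2]
      simp only [inv_eq_one]
    rw [bf_swap, h1]
    split_ifs <;> simp
  refine A.split_hyp u (y + ∑ b, β b • (A.ρ b *ᵥ u)) huu ?_ ?_
  · intro a
    rw [hact, bf_add_right, huy, bf_sum_right]
    simp only [bf_smul_right, huu, mul_zero, Finset.sum_const_zero, add_zero]
  · intro a
    rw [hact, bf_add_left, bf_add_right, bf_add_right, bf_sum_right, bf_sum_left, bf_sum_left]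
    have h1 : ∑ b, A.bf y (β b • (A.ρ (a * b) *ᵥ u)) = (e : ℤ) * β a⁻¹ := by
      rw [Finset.sum_eq_single a⁻¹]
      · rw [bf_smul_right, hyu, mul_inv_cancel, if_pos rfl, mul_comm]
      · intro b _ hb
        rw [bf_smul_right, hyu, if_neg, mul_zero]
        intro h
        exact hb (eq_inv_of_mul_eq_one_right h)
      · intro h
        exact (h (Finset.mem_univ _)).elim
    have h2 : ∑ b, A.bf (β b • (A.ρ b *ᵥ u)) (A.ρ a *ᵥ y) = β a := by
      rw [Finset.sum_eq_single a]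
      · rw [bf_smul_left, bf_act, huy, inv_mul_cancel, if_pos rfl, mul_one]
      · intro b _ hb
        rw [bf_smul_left, bf_act, huy, if_neg, mul_zero]
        intro h
        exact hb (inv_mul_eq_one.1 h)
      · intro h
        exact (h (Finset.mem_univ _)).elim
    have h3 : ∑ b, A.bf (β b • (A.ρ b *ᵥ u)) (∑ b, β b • (A.ρ (a * b) *ᵥ u)) = 0 := by
      refine Finset.sum_eq_zero fun b _ => ?_
      rw [bf_sum_right]
      refine Finset.sum_eq_zero fun b' _ => ?_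
      rw [bf_smul_left, bf_smul_right, bf_act, huu, mul_zero, mul_zero]
    rw [h1, h2, h3, add_zero]
    linarith [hβ a]

end GForm

end Vale.Agent.P268.Z
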