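import Vale.Agent.P268.Z.E5
import Vale.Agent.P268.Z.Split

/-!
# P268, block B6a: the form of `z₁ ^ D + z₂ ^ D + z₃ ^ D` contains a hyperbolic plane over `ℤ[C_D]`
-/

namespace Vale.Agent.P268.Z

open Matrix

namespace B6a

/-! ### pure tensors -/

section Pure

variable {R : Type} [CommRing R] {ι : Type} [Fintype ι] [DecidableEq ι] {ν : Type} [Fintype ν]
  [DecidableEq ν]

/-- pure tensor -/
def pv (w : ν → ι → R) : (ν → ι) → R := fun x => ∏ k, w k (x k)

theorem piMat_mulVec_pv (M : ν → Matrix ι ι R) (w : ν → ι → R) :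
    piMat (ι := fun _ => ι) (κ := fun _ => ι) M *ᵥ pv w = pv fun k => M k *ᵥ w k := by
  ext x
  simp only [Matrix.mulVec, dotProduct, pv, piMat_apply, Finset.prod_univ_sum,
    ← Finset.prod_mul_distrib]
  rw [Fintype.piFinset_univ]

theorem pv_dotProduct (w w' : ν → ι → R) : pv w ⬝ᵥ pv w' = ∏ k, w k ⬝ᵥ w' k := by
  simp only [dotProduct, pv, Finset.prod_univ_sum, ← Finset.prod_mul_distrib]
  rw [Fintype.piFinset_univ]

end Pure

/-! ### one variable -/

theorem mu_single (D : ℕ) : mu [D] = D - 1 := by simp [mu]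

theorem qser_single (D : ℕ) : qser [D] = 1 - PowerSeries.X := by
  rw [qser, qser]
  have h : PowerSeries.invOfUnit (1 : PowerSeries ℤ) 1 = 1 := by
    have := PowerSeries.mul_invOfUnit (1 : PowerSeries ℤ) 1 (by simp)
    rwa [one_mul] at this
  rw [h]
  simp

theorem chainSeifert_single (D : ℕ) (i j : Fin (mu [D])) :
    chainSeifert [D] i j = if (i : ℕ) = j then 1 else if (i : ℕ) + 1 = j then -1 else 0 := by
  rw [chainSeifert, qser_single, map_sub, PowerSeries.coeff_one, PowerSeries.coeff_X]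
  by_cases h1 : (i : ℕ) = j
  · simp [h1]
  by_cases h2 : (i : ℕ) + 1 = j
  · have : (j : ℕ) - i = 1 := by omega
    simp [h1, h2, this, show (i : ℕ) ≤ j by omega]
  · by_cases h3 : (i : ℕ) ≤ j
    · have h4 : (j : ℕ) - i ≠ 0 := by omega
      have h5 : (j : ℕ) - i ≠ 1 := by omega
      simp [h1, h2, h3, h4, h5]
    · simp [h1, h2, h3]

section One

variable {D : ℕ} (hok : ChainOK D [D])

/-- the monodromy -/
noncomputable abbrev hm (D : ℕ) : Matrix (Fin (mu [D])) (Fin (mu [D])) ℤ :=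
  mono (sgn [D]) (chainSeifert [D])

include hok in
theorem L_mul_hm : chainSeifert [D] * hm D = -(chainSeifert [D])ᵀ := by
  rw [hm, mono, Matrix.mul_smul, ← Matrix.mul_assoc, Matrix.mul_nonsing_inv _ hok.det,
    Matrix.one_mul]
  simp [sgn]

include hok in
theorem hm_single {i : ℕ} (hi : i + 1 < mu [D]) :
    hm D *ᵥ (Pi.single (⟨i, by omega⟩ : Fin (mu [D])) 1) =
      (Pi.single (⟨i + 1, hi⟩ : Fin (mu [D])) 1 : Fin (mu [D]) → ℤ) := by
  have h1 : chainSeifert [D] *ᵥ (hm D *ᵥ (Pi.single (⟨i, by omega⟩ : Fin (mu [D])) 1)) =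
      chainSeifert [D] *ᵥ (Pi.single (⟨i + 1, hi⟩ : Fin (mu [D])) 1) := by
    rw [Matrix.mulVec_mulVec, L_mul_hm hok, Matrix.neg_mulVec, Matrix.mulVec_single_one,
      Matrix.mulVec_single_one]
    ext k
    simp only [Pi.neg_apply, Matrix.col_apply, Matrix.transpose_apply, chainSeifert_single]
    by_cases h1 : (k : ℕ) = i
    · simp [h1]
    by_cases h2 : (k : ℕ) = i + 1
    · simp [h2]
    · have h3 : ¬ i = (k : ℕ) := fun h => h1 h.symm
      have h4 : ¬ i + 1 = (k : ℕ) := fun h => h2 h.symm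
      simp [h1, h2, h3, h4]
  have h2 := congrArg (fun v => (chainSeifert [D])⁻¹ *ᵥ v) h1
  simp only [Matrix.mulVec_mulVec, ← Matrix.mul_assoc, Matrix.nonsing_inv_mul _ hok.det,
    Matrix.one_mul, Matrix.one_mulVec] at h2
  exact h2

/-- the first basis vector -/
def v0 (D : ℕ) : Fin (mu [D]) → ℤ := fun i => if (i : ℕ) = 0 then 1 else 0

theorem single_eq {i : ℕ} (hi : i < mu [D]) :
    (Pi.single (⟨i, hi⟩ : Fin (mu [D])) 1 : Fin (mu [D]) → ℤ) =
      fun j : Fin (mu [D]) => if (j : ℕ) = i then (1 : ℤ) else 0 := by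
  ext j
  rw [Pi.single_apply]
  simp only [Fin.ext_iff]

include hok in
theorem hm_pow_v0 {k : ℕ} (hk : k < mu [D]) :
    (hm D ^ k) *ᵥ v0 D = fun j : Fin (mu [D]) => if (j : ℕ) = k then (1 : ℤ) else 0 := by
  induction k with
  | zero => rw [pow_zero, Matrix.one_mulVec]; rfl
  | succ k ih =>
    rw [pow_succ', ← Matrix.mulVec_mulVec, ih (by omega), ← single_eq (by omega), hm_single hok hk,
      single_eq]

include hok in
theorem hmt_L : (hm D)ᵀ * chainSeifert [D] * hm D = chainSeifert [D] := by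
  rw [Matrix.mul_assoc, L_mul_hm hok, Matrix.mul_neg, ← transpose_mul, L_mul_hm hok,
    transpose_neg, transpose_transpose, neg_neg]

/-- pairing numbers -/
noncomputable def FF (D k : ℕ) : ℤ := v0 D ⬝ᵥ (chainSeifert [D] *ᵥ ((hm D ^ k) *ᵥ v0 D))

include hok in
theorem FF_small {k : ℕ} (hk : k < mu [D]) :
    FF D k = if k = 0 then 1 else if k = 1 then -1 else 0 := by
  rw [FF, hm_pow_v0 hok hk, ← single_eq hk, Matrix.mulVec_single_one]
  have h0 : 0 < mu [D] := by omega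
  have h1 : v0 D = Pi.single (⟨0, h0⟩ : Fin (mu [D])) 1 := by
    rw [single_eq h0]; rfl
  rw [h1, single_one_dotProduct, Matrix.col_apply, chainSeifert_single]
  simp only [zero_add, eq_comm]

include hok in
theorem FF_add (k : ℕ) : FF D (k + D) = FF D k := by
  rw [FF, FF, pow_add, hok.ord, Matrix.mul_one]

include hok in
theorem FF_shift (a b : ℕ) :
    ((hm D ^ a) *ᵥ v0 D) ⬝ᵥ (chainSeifert [D] *ᵥ ((hm D ^ (a + b)) *ᵥ v0 D)) = FF D b := by
  induction a with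
  | zero => rw [pow_zero, Matrix.one_mulVec, zero_add]; rfl
  | succ a ih =>
    rw [← ih, show a + 1 + b = (a + b) + 1 by ring, pow_succ' (hm D) a, pow_succ' (hm D) (a + b)]
    rw [← Matrix.mulVec_mulVec, ← Matrix.mulVec_mulVec]
    conv_rhs => rw [← hmt_L hok]
    rw [← Matrix.mulVec_mulVec, ← Matrix.mulVec_mulVec (M := (hm D)ᵀ),
      dotProduct_mulVec ((hm D ^ a) *ᵥ v0 D), vecMul_transpose]

include hok in
theorem FF_last (h5 : 5 ≤ D) : FF D (D - 1) = 0 := by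
  -- `L(e₀, h⁻¹ e₀) = - L(h⁻¹ e₀, h e₀) = - L(e₀, h² e₀)`
  have hmu : mu [D] = D - 1 := mu_single D
  have h1 : v0 D ⬝ᵥ (chainSeifert [D] *ᵥ ((hm D ^ (D - 1)) *ᵥ v0 D)) =
      -(((hm D ^ (D - 1)) *ᵥ v0 D) ⬝ᵥ (chainSeifert [D] *ᵥ ((hm D ^ 1) *ᵥ v0 D))) := by
    rw [pow_one, Matrix.mulVec_mulVec (v0 D) (chainSeifert [D]) (hm D), L_mul_hm hok,
      Matrix.neg_mulVec, dotProduct_neg, neg_neg, dotProduct_mulVec ((hm D ^ (D - 1)) *ᵥ v0 D),
      vecMul_transpose, dotProduct_comm]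
  have h2 : (hm D ^ 1) *ᵥ v0 D = (hm D ^ (D - 1 + 2)) *ᵥ v0 D := by
    have : D - 1 + 2 = 1 + D := by omega
    rw [this, pow_add (hm D) 1 D, hok.ord, Matrix.mul_one]
  rw [FF, h1, h2, FF_shift hok, FF_small hok (by omega)]
  simp

end One

/-! ### the numbers -/

/-- `ℓ(s) = [s = 0] - [s = 1]` -/
def ell (D : ℕ) (s : ZMod D) : ℤ := (if s = 0 then 1 else 0) - (if s = 1 then 1 else 0)

theorem cast_ne {D : ℕ} (h5 : 5 ≤ D) {k : ℕ} (h0 : k ≠ 0) (hk : k < 5) : (k : ZMod D) ≠ 0 := by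
  intro h
  rw [ZMod.natCast_eq_zero_iff] at h
  have := Nat.le_of_dvd (by omega) h
  omega

theorem ell_zero {D : ℕ} (h5 : 5 ≤ D) : ell D 0 = 1 := by
  have h1 : (1 : ZMod D) ≠ 0 := by simpa using cast_ne h5 (k := 1) (by norm_num) (by norm_num)
  simp [ell, h1.symm]

theorem ell_one {D : ℕ} (h5 : 5 ≤ D) : ell D 1 = -1 := by
  have h1 : (1 : ZMod D) ≠ 0 := by simpa using cast_ne h5 (k := 1) (by norm_num) (by norm_num)
  simp [ell, h1]

theorem ell_ne {D : ℕ} {s : ZMod D} (h0 : s ≠ 0) (h1 : s ≠ 1) : ell D s = 0 := by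
  simp [ell, h0, h1]

theorem ell_two {D : ℕ} (h5 : 5 ≤ D) : ell D 2 = 0 := by
  have h1 : (1 : ZMod D) ≠ 0 := by simpa using cast_ne h5 (k := 1) (by norm_num) (by norm_num)
  have h2 : (2 : ZMod D) ≠ 0 := by simpa using cast_ne h5 (k := 2) (by norm_num) (by norm_num)
  refine ell_ne h2 fun h => h1 ?_
  linear_combination h

theorem ell_three {D : ℕ} (h5 : 5 ≤ D) : ell D 3 = 0 := by
  have h2 : (2 : ZMod D) ≠ 0 := by simpa using cast_ne h5 (k := 2) (by norm_num) (by norm_num)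
  have h3 : (3 : ZMod D) ≠ 0 := by simpa using cast_ne h5 (k := 3) (by norm_num) (by norm_num)
  refine ell_ne h3 fun h => h2 ?_
  linear_combination h

theorem ell_four {D : ℕ} (h5 : 5 ≤ D) : ell D 4 = 0 := by
  have h3 : (3 : ZMod D) ≠ 0 := by simpa using cast_ne h5 (k := 3) (by norm_num) (by norm_num)
  have h4 : (4 : ZMod D) ≠ 0 := by simpa using cast_ne h5 (k := 4) (by norm_num) (by norm_num)
  refine ell_ne h4 fun h => h3 ?_
  linear_combination h

theorem ell_neg_one {D : ℕ} (h5 : 5 ≤ D) : ell D (-1) = 0 := by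
  have h1 : (1 : ZMod D) ≠ 0 := by simpa using cast_ne h5 (k := 1) (by norm_num) (by norm_num)
  have h2 : (2 : ZMod D) ≠ 0 := by simpa using cast_ne h5 (k := 2) (by norm_num) (by norm_num)
  refine ell_ne (fun h => h1 ?_) fun h => h2 ?_
  · linear_combination -h
  · linear_combination -h

theorem ell_neg_two {D : ℕ} (h5 : 5 ≤ D) : ell D (-2) = 0 := by
  have h2 : (2 : ZMod D) ≠ 0 := by simpa using cast_ne h5 (k := 2) (by norm_num) (by norm_num)
  have h3 : (3 : ZMod D) ≠ 0 := by simpa using cast_ne h5 (k := 3) (by norm_num) (by norm_num)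
  refine ell_ne (fun h => h2 ?_) fun h => h3 ?_
  · linear_combination -h
  · linear_combination -h

theorem ell_neg_three {D : ℕ} (h5 : 5 ≤ D) : ell D (-3) = 0 := by
  have h3 : (3 : ZMod D) ≠ 0 := by simpa using cast_ne h5 (k := 3) (by norm_num) (by norm_num)
  have h4 : (4 : ZMod D) ≠ 0 := by simpa using cast_ne h5 (k := 4) (by norm_num) (by norm_num)
  refine ell_ne (fun h => h3 ?_) fun h => h4 ?_
  · linear_combination -h
  · linear_combination -h

/-- The values of `ℓ` at `J - 1, J, J + 1, J + 2`. -/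
theorem ell_cases {D : ℕ} (h5 : 5 ≤ D) (J : ZMod D) :
    (J = 0 ∧ ell D (J - 1) = 0 ∧ ell D J = 1 ∧ ell D (J + 1) = -1 ∧ ell D (J + 2) = 0) ∨
    (J ≠ 0 ∧ ell D (J - 1) = 0 ∧ ell D J = 0 ∧ ell D (J + 1) = 0 ∧ ell D (J + 2) = 1) ∨
    (J ≠ 0 ∧ ell D (J - 1) = 0 ∧ ell D J = 0 ∧ ell D (J + 1) = 1 ∧ ell D (J + 2) = -1) ∨
    (J ≠ 0 ∧ ell D (J - 1) = 1 ∧ ell D J = -1 ∧ ell D (J + 1) = 0 ∧ ell D (J + 2) = 0) ∨
    (J ≠ 0 ∧ ell D (J - 1) = -1 ∧ ell D J = 0 ∧ ell D (J + 1) = 0 ∧ ell D (J + 2) = 0) ∨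
    (J ≠ 0 ∧ ell D (J - 1) = 0 ∧ ell D J = 0 ∧ ell D (J + 1) = 0 ∧ ell D (J + 2) = 0) := by
  have n1 : (1 : ZMod D) ≠ 0 := by simpa using cast_ne h5 (k := 1) (by norm_num) (by norm_num)
  have n2 : (2 : ZMod D) ≠ 0 := by simpa using cast_ne h5 (k := 2) (by norm_num) (by norm_num)
  by_cases h0 : J = 0
  · left
    subst h0
    refine ⟨rfl, ?_, ell_zero h5, ?_, ?_⟩
    · rw [zero_sub]; exact ell_neg_one h5
    · rw [zero_add]; exact ell_one h5
    · rw [zero_add]; exact ell_two h5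
  right
  by_cases hm2 : J = -2
  · left
    subst hm2
    refine ⟨h0, ?_, ell_neg_two h5, ?_, ?_⟩
    · rw [show (-2 - 1 : ZMod D) = -3 by ring]; exact ell_neg_three h5
    · rw [show (-2 + 1 : ZMod D) = -1 by ring]; exact ell_neg_one h5
    · rw [show (-2 + 2 : ZMod D) = 0 by ring]; exact ell_zero h5
  right
  by_cases hm1 : J = -1
  · left
    subst hm1
    refine ⟨h0, ?_, ell_neg_one h5, ?_, ?_⟩
    · rw [show (-1 - 1 : ZMod D) = -2 by ring]; exact ell_neg_two h5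
    · rw [show (-1 + 1 : ZMod D) = 0 by ring]; exact ell_zero h5
    · rw [show (-1 + 2 : ZMod D) = 1 by ring]; exact ell_one h5
  right
  by_cases h1 : J = 1
  · left
    subst h1
    refine ⟨h0, ?_, ell_one h5, ?_, ?_⟩
    · rw [sub_self]; exact ell_zero h5
    · rw [show (1 + 1 : ZMod D) = 2 by ring]; exact ell_two h5
    · rw [show (1 + 2 : ZMod D) = 3 by ring]; exact ell_three h5
  right
  by_cases h2 : J = 2
  · left
    subst h2
    refine ⟨h0, ?_, ell_two h5, ?_, ?_⟩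
    · rw [show (2 - 1 : ZMod D) = 1 by ring]; exact ell_one h5
    · rw [show (2 + 1 : ZMod D) = 3 by ring]; exact ell_three h5
    · rw [show (2 + 2 : ZMod D) = 4 by ring]; exact ell_four h5
  right
  refine ⟨h0, ell_ne ?_ ?_, ell_ne h0 h1, ell_ne ?_ ?_, ell_ne ?_ ?_⟩
  · intro h; exact h1 (by linear_combination h)
  · intro h; exact h2 (by linear_combination h)
  · intro h; exact hm1 (by linear_combination h)
  · intro h; exact h0 (by linear_combination h)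
  · intro h; exact hm2 (by linear_combination h)
  · intro h; exact hm1 (by linear_combination h)

/-- the six vertices of the cube -/
def SS : Finset (Fin 3 → Fin 2) := Finset.univ.filter fun a => a ≠ 0 ∧ a ≠ 1

/-- index of `t - s` -/
def idx (s t : Fin 2) : Fin 3 := ⟨t + 1 - s, by omega⟩

/-- index of `t - s` -/
def idx' (t : Fin 3) (s : Fin 2) : Fin 4 := ⟨t + 1 - s, by omega⟩

theorem ell_idx {D : ℕ} (J : ZMod D) (s t : Fin 2) :
    ell D (((t : ℕ) : ZMod D) - ((s : ℕ) : ZMod D) + J) =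
      ![ell D (J - 1), ell D J, ell D (J + 1)] (idx s t) := by
  have h : ∀ u v : Fin 2, idx u v = ⟨v + 1 - u, by omega⟩ := fun _ _ => rfl
  fin_cases s <;> fin_cases t <;> simp [idx] <;> congr 1 <;> ring

theorem ell_idx' {D : ℕ} (J : ZMod D) (t : Fin 3) (s : Fin 2) :
    ell D (((t : ℕ) : ZMod D) - ((s : ℕ) : ZMod D) + J) =
      ![ell D (J - 1), ell D J, ell D (J + 1), ell D (J + 2)] (idx' t s) := by
  fin_cases s <;> fin_cases t <;> simp [idx'] <;> congr 1 <;> ring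

theorem comb1 {D : ℕ} (h5 : 5 ≤ D) (J : ZMod D) :
    ∑ s ∈ SS, ∑ t ∈ SS, ∏ k, ell D (((t k : ℕ) : ZMod D) - ((s k : ℕ) : ZMod D) + J) = 0 := by
  simp only [ell_idx]
  rcases ell_cases h5 J with ⟨-, h1, h2, h3, -⟩ | ⟨-, h1, h2, h3, -⟩ | ⟨-, h1, h2, h3, -⟩ |
    ⟨-, h1, h2, h3, -⟩ | ⟨-, h1, h2, h3, -⟩ | ⟨-, h1, h2, h3, -⟩ <;> rw [h1, h2, h3] <;> decide

theorem comb2 {D : ℕ} (h5 : 5 ≤ D) (J : ZMod D) :
    -∑ s ∈ SS, ∏ k, ell D ((((![2, 0, 0] : Fin 3 → Fin 3) k : ℕ) : ZMod D) -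
      ((s k : ℕ) : ZMod D) + J) = if J = 0 then 1 else 0 := by
  simp only [ell_idx']
  rcases ell_cases h5 J with ⟨h0, h1, h2, h3, h4⟩ | ⟨h0, h1, h2, h3, h4⟩ | ⟨h0, h1, h2, h3, h4⟩ |
    ⟨h0, h1, h2, h3, h4⟩ | ⟨h0, h1, h2, h3, h4⟩ | ⟨h0, h1, h2, h3, h4⟩
  · rw [h1, h2, h3, h4, if_pos h0]; decide
  all_goals
    rw [h1, h2, h3, h4, if_neg h0]; decide

/-! ### the forms -/

section Final

variable {D : ℕ} (hok : ChainOK D [D])

include hok in
theorem FF_mod (h5 : 5 ≤ D) (k : ℕ) : FF D k = ell D (k : ZMod D) := by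
  have hmu : mu [D] = D - 1 := mu_single D
  have h1 : ∀ m k : ℕ, FF D (k + D * m) = FF D k := by
    intro m
    induction m with
    | zero => intro k; rw [mul_zero, add_zero]
    | succ m ih => intro k; rw [mul_add, mul_one, ← add_assoc, FF_add hok, ih]
  have h2 : FF D k = FF D (k % D) := by
    conv_lhs => rw [← Nat.mod_add_div k D]
    exact h1 _ _
  have h3 : (k : ZMod D) = ((k % D : ℕ) : ZMod D) := by simp
  rw [h2, h3]
  have hlt : k % D < D := Nat.mod_lt _ (by omega)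
  set r := k % D with hr
  have e0 : (r : ZMod D) = 0 ↔ r = 0 := by
    have : (r : ZMod D) = ((0 : ℕ) : ZMod D) ↔ r = 0 := by
      rw [ZMod.natCast_eq_natCast_iff', Nat.mod_eq_of_lt hlt, Nat.zero_mod]
    simpa using this
  have e1 : (r : ZMod D) = 1 ↔ r = 1 := by
    have : (r : ZMod D) = ((1 : ℕ) : ZMod D) ↔ r = 1 := by
      rw [ZMod.natCast_eq_natCast_iff', Nat.mod_eq_of_lt hlt, Nat.mod_eq_of_lt (by omega)]
    simpa using this
  rw [ell]
  simp only [e0, e1]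
  by_cases h4 : r < D - 1
  · rw [FF_small hok (by omega)]
    by_cases h5 : r = 0
    · simp [h5]
    · by_cases h6 : r = 1
      · simp [h6]
      · simp [h5, h6]
  · have h5' : r = D - 1 := by omega
    rw [h5', FF_last hok h5]
    have h6 : D - 1 ≠ 0 := by omega
    have h7 : D - 1 ≠ 1 := by omega
    simp [h6, h7]

include hok in
theorem pair_nat (h5 : 5 ≤ D) (i j : ℕ) :
    ((hm D ^ i) *ᵥ v0 D) ⬝ᵥ (chainSeifert [D] *ᵥ ((hm D ^ j) *ᵥ v0 D)) =
      ell D ((j : ZMod D) - (i : ZMod D)) := by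
  have h1 : hm D ^ j = hm D ^ (i + (j + (D * i - i))) := by
    have h2 : i + (j + (D * i - i)) = j + D * i := by
      have : i ≤ D * i := Nat.le_mul_of_pos_left i (by omega)
      omega
    rw [h2, pow_add, pow_mul, hok.ord, one_pow, Matrix.mul_one]
  rw [h1, FF_shift hok, FF_mod hok h5]
  congr 1
  have : i ≤ D * i := Nat.le_mul_of_pos_left i (by omega)
  rw [Nat.cast_add, Nat.cast_sub this, Nat.cast_mul]
  simp
  ring

/-- the orbit of the first basis vector -/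
noncomputable def EE (D : ℕ) (s : ZMod D) : Fin (mu [D]) → ℤ := (hm D ^ s.val) *ᵥ v0 D

theorem bf_EE [NeZero D] (hD : Odd D) (h5 : 5 ≤ D) (s t a : ZMod D) :
    (chainForm D hD [D] hok).bf (EE D s)
      ((chainForm D hD [D] hok).ρ (Multiplicative.ofAdd a) *ᵥ EE D t) =
      ell D (t - s + (a + ((((D + 1) / 2 : ℕ) : ZMod D)))) := by
  have h1 : (chainForm D hD [D] hok).ρ (Multiplicative.ofAdd a) = hm D ^ a.val := rfl
  have h2 : (chainForm D hD [D] hok).g = chainSeifert [D] * hm D ^ ((D + 1) / 2) := rfl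
  have h3 : (chainSeifert [D] * hm D ^ ((D + 1) / 2)) *ᵥ
      (hm D ^ a.val *ᵥ ((hm D ^ t.val) *ᵥ v0 D)) =
      chainSeifert [D] *ᵥ ((hm D ^ ((D + 1) / 2 + (a.val + t.val))) *ᵥ v0 D) := by
    rw [pow_add, pow_add, ← Matrix.mulVec_mulVec, ← Matrix.mulVec_mulVec, ← Matrix.mulVec_mulVec]
  rw [GForm.bf, h1, h2, EE, EE, h3, pair_nat hok h5]
  congr 1
  push_cast
  rw [ZMod.natCast_zmod_val, ZMod.natCast_zmod_val, ZMod.natCast_zmod_val]
  ring

variable [NeZero D] (hD : Odd D)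

/-- the form of three variables -/
noncomputable abbrev A3 : GForm ℤ (Cyc D) (∏ _k : Fin 3, sgn [D]) (Fin 3 → Fin (mu [D])) :=
  GForm.pow (Fin 3) (chainForm D hD [D] hok)

theorem bf_pv (a : Cyc D) (w w' : Fin 3 → Fin (mu [D]) → ℤ) :
    (A3 hok hD).bf (pv w) ((A3 hok hD).ρ a *ᵥ pv w') =
      ∏ k, (chainForm D hD [D] hok).bf (w k) ((chainForm D hD [D] hok).ρ a *ᵥ w' k) := by
  have h1 : (A3 hok hD).ρ a = piMat fun _ => (chainForm D hD [D] hok).ρ a := rfl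
  have h2 : (A3 hok hD).g = piMat fun _ => (chainForm D hD [D] hok).g := rfl
  rw [GForm.bf, h1, h2, piMat_mulVec_pv, piMat_mulVec_pv, pv_dotProduct]
  rfl

/-- the first vector -/
noncomputable def del (D : ℕ) : (Fin 3 → Fin (mu [D])) → ℤ :=
  ∑ s ∈ SS, pv fun k => EE D ((s k : ℕ) : ZMod D)

/-- the second vector -/
noncomputable def yy (D : ℕ) : (Fin 3 → Fin (mu [D])) → ℤ :=
  (-1 : ℤ) • pv fun k => EE D ((((![2, 0, 0] : Fin 3 → Fin 3) k : ℕ) : ZMod D) -
    (((D + 1) / 2 : ℕ) : ZMod D))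

theorem bf_del_del (h5 : 5 ≤ D) (a : Cyc D) :
    (A3 hok hD).bf (del D) ((A3 hok hD).ρ a *ᵥ del D) = 0 := by
  obtain ⟨a, rfl⟩ := Multiplicative.ofAdd.surjective a
  rw [del, Matrix.mulVec_sum, GForm.bf_sum_left]
  simp only [GForm.bf_sum_right, bf_pv, bf_EE hok hD h5]
  exact comb1 h5 _

theorem bf_del_yy (h5 : 5 ≤ D) (a : Cyc D) :
    (A3 hok hD).bf (del D) ((A3 hok hD).ρ a *ᵥ yy D) = if a = 1 then 1 else 0 := by
  obtain ⟨a, rfl⟩ := Multiplicative.ofAdd.surjective a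
  rw [del, yy, GForm.bf_sum_left]
  simp only [Matrix.mulVec_smul, GForm.bf_smul_right, bf_pv, bf_EE hok hD h5]
  have h1 : ∀ (s : Fin 3 → Fin 2) (k : Fin 3),
      ((((![2, 0, 0] : Fin 3 → Fin 3) k : ℕ) : ZMod D) - (((D + 1) / 2 : ℕ) : ZMod D)) -
        ((s k : ℕ) : ZMod D) + (a + (((D + 1) / 2 : ℕ) : ZMod D)) =
      (((![2, 0, 0] : Fin 3 → Fin 3) k : ℕ) : ZMod D) - ((s k : ℕ) : ZMod D) + a := by
    intro s k; ring
  simp only [h1]
  rw [← Finset.mul_sum, neg_one_mul, comb2 h5 a]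
  rfl

omit [NeZero D] in
theorem sign_eq : (((∏ _k : Fin 3, sgn [D] : ℤˣ)) : ℤ) = -1 := by
  simp [sgn]

include hD in
theorem main (h5 : 5 ≤ D) :
    ∃ (n : ℕ) (C0 : GForm ℤ (Cyc D) (∏ _k : Fin 3, sgn [D]) (Fin n)),
      (A3 hok hD).Iso (C0.add (GForm.hyp _ (repReg ℤ (Cyc D)))) := by
  classical
  set c : ZMod D → ℤ := fun a =>
    (A3 hok hD).bf (yy D) ((A3 hok hD).ρ (Multiplicative.ofAdd a) *ᵥ yy D) with hc
  have hcneg : ∀ a, c (-a) = -c a := by
    intro a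
    have h1 := (A3 hok hD).bf_act (Multiplicative.ofAdd a) 1 (yy D) (yy D)
    rw [map_one, Matrix.one_mulVec, mul_one] at h1
    have h2 : c (-a) = (A3 hok hD).bf (yy D)
      ((A3 hok hD).ρ (Multiplicative.ofAdd a)⁻¹ *ᵥ yy D) := rfl
    rw [h2, ← h1, GForm.bf_swap, sign_eq]
    simp [hc]
  refine (A3 hok hD).split_hyp' (del D) (yy D) (bf_del_del hok hD h5) (bf_del_yy hok hD h5)
    (fun a => if 0 < (Multiplicative.toAdd a).val ∧ (Multiplicative.toAdd a).val ≤ (D - 1) / 2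
      then -c (Multiplicative.toAdd a) else 0) ?_
  intro a
  obtain ⟨a, rfl⟩ := Multiplicative.ofAdd.surjective a
  rw [sign_eq]
  have h0 : (A3 hok hD).bf (yy D) ((A3 hok hD).ρ (Multiplicative.ofAdd a) *ᵥ yy D) = c a := rfl
  rw [h0, ← ofAdd_neg]
  simp only [toAdd_ofAdd]
  have hlt := ZMod.val_lt a
  obtain ⟨m, hm'⟩ := hD
  by_cases ha : a = 0
  · have h1 := hcneg a
    rw [ha, neg_zero] at h1
    have h2 : c 0 = 0 := by linarith
    rw [ha, neg_zero, h2]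
    simp
  · have hv : 0 < a.val := by
      rw [Nat.pos_iff_ne_zero]
      intro h
      exact ha ((ZMod.val_eq_zero a).1 h)
    have hneg : (-a).val = D - a.val := by
      rw [ZMod.neg_val, if_neg ha]
    rw [hneg, hcneg]
    by_cases hle : a.val ≤ (D - 1) / 2
    · rw [if_pos ⟨hv, hle⟩, if_neg (by omega)]
      ring
    · rw [if_neg (fun h => hle h.2), if_pos (by omega)]
      ring

end Final

end B6a

/-- **Block B6a.** -/
theorem B6a {D : ℕ} [NeZero D] (hD : Odd D) (hD3 : 3 ≤ D) (hD5 : 5 ≤ D) :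
    ∃ (n : ℕ) (C0 : GForm ℤ (Cyc D) (∏ _k : Fin 3, sgn [D]) (Fin n)),
      (C3 D hD hD3).Iso (C0.add (GForm.hyp _ (repReg ℤ (Cyc D)))) :=
  B6a.main (chainOK_single hD hD3) hD hD5

end Vale.Agent.P268.Z
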