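import Vale.Agent.P268.Z.B5

/-!
# P268, block B6b: the absorbing factor

If `C ≅ C₀ + H(ℤ[C_D])` then `C ^ m ≅ C₀ ^ m + H(ℤ[C_D] ^ r)` with `r ≥ m (rk C₀) ^ (m - 1)`, so a
large power of `C` absorbs the hyperbolic summands of a stable isometry.
-/

namespace Vale.Agent.P268.Z

open Matrix

set_option synthInstance.maxSize 2000

section Gen

variable {R : Type} [CommRing R] {G : Type} [CommGroup G] {H : Type} [CommGroup H]
  {e e' e₁ e₂ : ℤˣ} {ι κ ν μ α β : Type} [Fintype ι] [DecidableEq ι]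
  [Fintype κ] [DecidableEq κ] [Fintype ν] [DecidableEq ν] [Fintype μ] [DecidableEq μ]
  [Fintype α] [DecidableEq α] [Fintype β] [DecidableEq β]

/-- `C ^ (m + 1) = C ^ m ⊗ C`. -/
theorem b6_pow_succ (C : GForm R G e μ) (m : ℕ) :
    (GForm.pow (Fin (m + 1)) C).Iso ((GForm.pow (Fin m) C).mul C) :=
  (GForm.pow_congr_idx ((finSumFinEquiv (m := m) (n := 1)).symm.trans
    (Equiv.sumCongr (Equiv.refl (Fin m)) (Equiv.equivPUnit (Fin 1)))) C).trans
    ((GForm.pow_mul C).trans (GForm.Iso.mul (GForm.Iso.refl _) (GForm.pow_unit C)))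

/-- `C ^ 0`. -/
theorem b6_pow_zero (C : GForm R G e μ) (C0 : GForm R G e κ) (ρ : G →* Matrix ι ι R) :
    (GForm.pow (Fin 0) C).Iso
      ((GForm.pow (Fin 0) C0).add (GForm.hyp _ (repCopies (Fin 0) ρ))) := by
  refine GForm.Iso.of_equiv
    ⟨fun _ => Sum.inl Fin.elim0, fun _ => Fin.elim0, ?_, ?_⟩ ?_ ?_
  · intro x; exact Subsingleton.elim _ _
  · rintro (x | ⟨i, _⟩ | ⟨i, _⟩)
    · exact congrArg Sum.inl (Subsingleton.elim _ _)
    · exact i.elim0
    · exact i.elim0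
  · intro i j; simp [GForm.add, GForm.pi, piMat_apply]
  · intro a i j; simp [GForm.add, GForm.pi, repSum, repPi, piMat_apply]

/-- More hyperbolic summands. -/
theorem b6_stab {A : GForm R G e ι}
    {B : GForm R G e κ} (ρ : G →* Matrix ν ν R) {a b : ℕ} (hab : a ≤ b)
    (h : (A.add (GForm.hyp _ (repCopies (Fin a) ρ))).Iso
      (B.add (GForm.hyp _ (repCopies (Fin a) ρ)))) :
    (A.add (GForm.hyp _ (repCopies (Fin b) ρ))).Iso
      (B.add (GForm.hyp _ (repCopies (Fin b) ρ))) := by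
  obtain ⟨c, rfl⟩ := Nat.exists_eq_add_of_le hab
  have key : ∀ {e₃ : ℤˣ} {α : Type} [Fintype α] [DecidableEq α] (U : GForm R G e₃ α),
      (U.add (GForm.hyp _ (repCopies (Fin (a + c)) ρ))).Iso
      ((U.add (GForm.hyp _ (repCopies (Fin a) ρ))).add
        (GForm.hyp _ (repCopies (Fin c) ρ))) := by
    intro e₃ α _ _ U
    refine GForm.Iso.trans ?_ (GForm.add_assoc _ _ _).symm
    refine (GForm.Iso.refl U).add ?_
    refine GForm.Iso.trans ?_ (GForm.hyp_sum _ _)
    exact GForm.hyp_congr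
      ((repCopies_congr_idx finSumFinEquiv.symm ρ).trans (repCopies_sum ρ).symm)
  exact (key A).trans ((GForm.Iso.add h (GForm.Iso.refl _)).trans (key B).symm)

/-- `X ⊗ (C₀ + H(τ)) = X ⊗ C₀ + H(X ⊗ τ)`. -/
theorem b6_mul_add (X : GForm R G e₁ ι) (C0 : GForm R G e₂ κ) (τ : G →* Matrix α α R) :
    (X.mul (C0.add (GForm.hyp _ τ))).Iso
      ((X.mul C0).add (GForm.hyp _ (repTensor X.ρ τ))) :=
  (GForm.mul_add _ _ _).trans ((GForm.Iso.refl _).add (GForm.mul_hyp _ _))

/-- `(X₀ + H(σ)) ⊗ C = X₀ ⊗ C + H(C ⊗ σ)`. -/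
theorem b6_add_mul (X0 : GForm R G e₁ ι) (C : GForm R G e₂ κ) (σ : G →* Matrix α α R) :
    ((X0.add (GForm.hyp _ σ)).mul C).Iso
      ((X0.mul C).add (GForm.hyp _ (repTensor C.ρ σ))) :=
  (GForm.add_mul _ _ _).trans ((GForm.Iso.refl _).add
    ((GForm.mul_comm _ _).trans ((GForm.mul_hyp _ _).trans
      (hyp_sign (_root_.mul_comm _ _) _))))

/-- Tensor product of two stable decompositions. -/
theorem b6_step {X : GForm R G e₁ ι} {X0 : GForm R G e₁ κ}
    {C : GForm R G e₂ μ} {C0 : GForm R G e₂ ν} (σ : G →* Matrix α α R)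
    (τ : G →* Matrix β β R) (hX : X.Iso (X0.add (GForm.hyp _ σ)))
    (hC : C.Iso (C0.add (GForm.hyp _ τ))) :
    (X.mul C).Iso ((X0.mul C0).add
      (GForm.hyp _ (repSum (repTensor X0.ρ τ) (repTensor C.ρ σ)))) := by
  refine (GForm.Iso.mul hX (GForm.Iso.refl C)).trans ((b6_add_mul _ _ _).trans ?_)
  have h1 := ((GForm.Iso.mul (GForm.Iso.refl X0) hC).trans (b6_mul_add X0 C0 τ)).add
    (GForm.Iso.refl (GForm.hyp (e₁ * e₂) (repTensor C.ρ σ)))
  refine h1.trans ((GForm.add_assoc _ _ _).trans ((GForm.Iso.refl _).add ?_))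
  exact (GForm.hyp_sum _ _).symm

/-- `(U + H(σ)) ⊠ E = U ⊠ E + H(σ ⊠ E)`. -/
theorem b6_ext (U : GForm R G e₁ ι) (E : GForm R H e₂ κ) (σ : G →* Matrix α α R) :
    ((U.add (GForm.hyp _ σ)).ext E).Iso
      ((U.ext E).add (GForm.hyp _ (repExt σ E.ρ))) := by
  have h1 : ((U.add (GForm.hyp _ σ)).ext E).Iso
      ((U.ext E).add ((GForm.hyp e₁ σ).ext E)) :=
    GForm.add_mul (U.comap (MonoidHom.fst G H))
      ((GForm.hyp e₁ σ).comap (MonoidHom.fst G H)) (E.comap (MonoidHom.snd G H))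
  refine h1.trans ((GForm.Iso.refl _).add ?_)
  refine (GForm.Iso.mul (GForm.hyp_comap _ _) (GForm.Iso.refl _)).trans
    ((GForm.mul_comm _ _).trans ((GForm.mul_hyp _ _).trans ?_))
  exact (hyp_sign (_root_.mul_comm _ _) _).trans (GForm.hyp_congr (repTensor_comm _ _))

/-- copies of `σ`, external product -/
theorem b6_copies_ext (σ : G →* Matrix α α R) (τ : H →* Matrix β β R) :
    RepIso (repExt (repCopies ν σ) τ) (repCopies ν (repExt σ τ)) := by
  rw [repExt, repComp_repCopies]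
  exact repCopies_tensor _ _

/-- tensor product with copies of the regular representation -/
theorem b6_tensor_copies_reg [Fintype G] [DecidableEq G] (ρ : G →* Matrix ι ι R) :
    RepIso (repTensor ρ (repCopies ν (repReg R G))) (repCopies (ν × ι) (repReg R G)) :=
  (repTensor_copies _ _).trans ((repCopies_congr (repTensor_reg _)).trans
    (repCopies_copies _))

/-- copies on sums -/
theorem b6_copies_fin (σ : G →* Matrix α α R) {n : ℕ} (hn : Fintype.card ν = n) :
    RepIso (repCopies ν σ) (repCopies (Fin n) σ) :=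
  repCopies_congr_idx (Fintype.equivFinOfCardEq hn) σ

end Gen

section B6b

variable {D : ℕ} [NeZero D] {e e' e₁ e₂ : ℤˣ} {ι κ ν μ : Type} [Fintype ι] [DecidableEq ι]
  [Fintype κ] [DecidableEq κ] [Fintype ν] [DecidableEq ν] [Fintype μ] [DecidableEq μ]

/-- The representation in the inductive step. -/
theorem b6_step_rep (X : Cyc D →* Matrix κ κ ℤ) (C : Cyc D →* Matrix μ μ ℤ) (r : ℕ) :
    RepIso (repSum (repTensor X (repReg ℤ (Cyc D)))
      (repTensor C (repCopies (Fin r) (repReg ℤ (Cyc D)))))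
      (repCopies (Fin (Fintype.card κ + r * Fintype.card μ)) (repReg ℤ (Cyc D))) :=
  ((repTensor_reg X).sum (b6_tensor_copies_reg C)).trans
    ((repCopies_sum _).trans (b6_copies_fin _ (by simp)))

/-- Powers of the absorbing factor. -/
theorem b6_pow {C : GForm ℤ (Cyc D) e μ} {C0 : GForm ℤ (Cyc D) e ν}
    (hC : C.Iso (C0.add (GForm.hyp _ (repReg ℤ (Cyc D))))) (m : ℕ) :
    ∃ r : ℕ, m * Fintype.card ν ^ (m - 1) ≤ r ∧ (GForm.pow (Fin m) C).Iso
      ((GForm.pow (Fin m) C0).add (GForm.hyp _ (repCopies (Fin r) (repReg ℤ (Cyc D))))) := by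
  have hcard : Fintype.card ν ≤ Fintype.card μ := by
    have := iso_card hC
    rw [this, Fintype.card_sum]
    omega
  induction m with
  | zero => exact ⟨0, by simp, b6_pow_zero _ _ _⟩
  | succ m ih =>
    obtain ⟨r, hr, hiso⟩ := ih
    refine ⟨Fintype.card (Fin m → ν) + r * Fintype.card μ, ?_, ?_⟩
    · rw [Fintype.card_fun, Fintype.card_fin, Nat.add_sub_cancel]
      rcases Nat.eq_zero_or_pos m with rfl | hm
      · simp
      · have h1 : m * Fintype.card ν ^ m ≤ r * Fintype.card μ := by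
          calc m * Fintype.card ν ^ m = (m * Fintype.card ν ^ (m - 1)) * Fintype.card ν := by
                rw [Nat.mul_assoc, ← pow_succ, Nat.sub_add_cancel hm]
            _ ≤ r * Fintype.card μ := Nat.mul_le_mul hr hcard
        calc (m + 1) * Fintype.card ν ^ m = Fintype.card ν ^ m + m * Fintype.card ν ^ m := by ring
          _ ≤ _ := by omega
    · refine (b6_pow_succ C m).trans ((b6_step _ _ hiso hC).trans ?_)
      refine GForm.Iso.add (b6_pow_succ C0 m).symm ?_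
      exact (hyp_sign (by simp [Finset.prod_const, pow_succ]) _).trans
        (GForm.hyp_congr (b6_step_rep _ _ _))

/-- `(A ⊗ (X + H(reg ^ r))) ⊠ E5 = (A ⊗ X) ⊠ E5 + H(Λ ^ (r · rk A))`. -/
theorem b6_absorb (A : GForm ℤ (Cyc D) e ι) (X : GForm ℤ (Cyc D) e' κ)
    (Y : GForm ℤ (Cyc D) e' μ) (r : ℕ)
    (hY : Y.Iso (X.add (GForm.hyp _ (repCopies (Fin r) (repReg ℤ (Cyc D)))))) :
    ((A.mul Y).ext E5).Iso (((A.mul X).ext E5).add
      (GForm.hyp _ (repCopies (Fin (r * Fintype.card ι)) (Lam D)))) := by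
  have h1 : (A.mul Y).Iso
      ((A.mul X).add (GForm.hyp _ (repCopies (Fin (r * Fintype.card ι))
        (repReg ℤ (Cyc D))))) := by
    refine (GForm.Iso.mul (GForm.Iso.refl A) hY).trans ((b6_mul_add _ _ _).trans ?_)
    exact (GForm.Iso.refl _).add (GForm.hyp_congr
      ((b6_tensor_copies_reg _).trans (b6_copies_fin _ (by simp))))
  refine (GForm.Iso.ext h1 (GForm.Iso.refl _)).trans ((b6_ext _ _ _).trans ?_)
  exact (GForm.Iso.refl _).add (GForm.hyp_congr (b6_copies_ext _ _))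

omit [NeZero D] in
/-- Multiplication of a stable isometry by a form of `C_D`. -/
theorem b6_mul (X : GForm ℤ (Cyc D) e' μ) (A : GForm ℤ (Cyc D) e ι)
    (B : GForm ℤ (Cyc D) e κ) {α β : Type} [Fintype α] [DecidableEq α] [Fintype β]
    [DecidableEq β] (σ : Cyc D × Cyc 5 →* Matrix α α ℤ) (τ : Cyc D × Cyc 5 →* Matrix β β ℤ)
    (h : ((A.ext E5).add (GForm.hyp _ σ)).Iso ((B.ext E5).add (GForm.hyp _ τ))) :
    (((A.mul X).ext E5).add (GForm.hyp _ (repTensor (X.ρ.comp (MonoidHom.fst _ _)) σ))).Iso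
      (((B.mul X).ext E5).add
        (GForm.hyp _ (repTensor (X.ρ.comp (MonoidHom.fst _ _)) τ))) := by
  have key : ∀ {ι' : Type} [Fintype ι'] [DecidableEq ι'] (U : GForm ℤ (Cyc D) e ι')
      {α' : Type} [Fintype α'] [DecidableEq α'] (υ : Cyc D × Cyc 5 →* Matrix α' α' ℤ),
      (((U.ext E5).add (GForm.hyp _ υ)).mul (X.comap (MonoidHom.fst (Cyc D) (Cyc 5)))).Iso
      (((U.mul X).ext E5).add
        (GForm.hyp _ (repTensor (X.ρ.comp (MonoidHom.fst _ _)) υ))) := by
    intro ι' _ _ U α' _ _ υ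
    refine (b6_add_mul _ _ _).trans (GForm.Iso.add (GForm.ext_mul U E5 X) ?_)
    exact hyp_sign (_root_.mul_right_comm _ _ _) _
  exact (key A σ).symm.trans ((GForm.Iso.mul h (GForm.Iso.refl _)).trans (key B τ))

/-- Multiplication of a stable isometry by a form of `C_D`, free case. -/
theorem b6_mul_free (X : GForm ℤ (Cyc D) e' μ) (A : GForm ℤ (Cyc D) e ι)
    (B : GForm ℤ (Cyc D) e κ) (s : ℕ)
    (h : ((A.ext E5).add (GForm.hyp _ (repCopies (Fin s) (Lam D)))).Iso
      ((B.ext E5).add (GForm.hyp _ (repCopies (Fin s) (Lam D))))) :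
    (((A.mul X).ext E5).add
      (GForm.hyp _ (repCopies (Fin (s * Fintype.card μ)) (Lam D)))).Iso
      (((B.mul X).ext E5).add
        (GForm.hyp _ (repCopies (Fin (s * Fintype.card μ)) (Lam D)))) := by
  have hr : RepIso (repTensor (X.ρ.comp (MonoidHom.fst (Cyc D) (Cyc 5)))
      (repCopies (Fin s) (Lam D))) (repCopies (Fin (s * Fintype.card μ)) (Lam D)) :=
    (tensor_Lam_copies X.ρ).trans (b6_copies_fin _ (by simp))
  exact b5_congr (b6_mul X A B _ _ h) hr hr

/-- The last step of `B6b`, abstractly. -/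
theorem b6_final (A : GForm ℤ (Cyc D) e ι) (B : GForm ℤ (Cyc D) e κ) (s r : ℕ)
    (h : GForm.Iso ((A.ext E5).add (GForm.hyp _ (repCopies (Fin s) (Lam D))))
      ((B.ext E5).add (GForm.hyp _ (repCopies (Fin s) (Lam D)))))
    (X : GForm ℤ (Cyc D) e' ν) (Y : GForm ℤ (Cyc D) e' μ)
    (hY : Y.Iso (X.add (GForm.hyp _ (repCopies (Fin r) (repReg ℤ (Cyc D))))))
    (hcard : Fintype.card ι = Fintype.card κ)
    (hle : s * Fintype.card ν ≤ r * Fintype.card ι) :
    GForm.Iso ((A.mul Y).ext E5) ((B.mul Y).ext E5) := by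
  have hA := b6_absorb A X Y r hY
  have hB := b6_absorb B X Y r hY
  rw [← hcard] at hB
  exact hA.trans ((b6_stab (Lam D) hle (b6_mul_free X A B s h)).trans hB.symm)

set_option linter.unusedVariables false in
theorem B6b (hD : Odd D) (A : GForm ℤ (Cyc D) e ι) (B : GForm ℤ (Cyc D) e κ) (s : ℕ)
    (h : GForm.Iso ((A.ext E5).add (GForm.hyp _ (repCopies (Fin s) (Lam D))))
      ((B.ext E5).add (GForm.hyp _ (repCopies (Fin s) (Lam D)))))
    (hne : Nonempty ι)
    {e' : ℤˣ} {μ : Type} [Fintype μ] [DecidableEq μ] (C : GForm ℤ (Cyc D) e' μ) (n : ℕ)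
    (C0 : GForm ℤ (Cyc D) e' (Fin n))
    (hC : C.Iso (C0.add (GForm.hyp _ (repReg ℤ (Cyc D))))) :
    ∃ m : ℕ, GForm.Iso ((A.mul (GForm.pow (Fin m) C)).ext E5)
      ((B.mul (GForm.pow (Fin m) C)).ext E5) := by
  have hmu : mu [5] = 4 := mu_single 5
  have hcard : Fintype.card ι = Fintype.card κ := by
    have := b5_card h
    simp only [Fintype.card_prod, Fintype.card_fin, hmu] at this
    omega
  have hpos : 0 < Fintype.card ι := Fintype.card_pos
  obtain ⟨r, hr, hiso⟩ := b6_pow hC (s * n + 1)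
  refine ⟨s * n + 1, b6_final A B s r h _ _ hiso hcard ?_⟩
  rw [Fintype.card_fun, Fintype.card_fin, Fintype.card_fin]
  rw [Fintype.card_fin, Nat.add_sub_cancel] at hr
  calc s * n ^ (s * n + 1) = (s * n) * n ^ (s * n) := by ring
    _ ≤ (s * n + 1) * n ^ (s * n) := Nat.mul_le_mul_right _ (by omega)
    _ ≤ r := hr
    _ = r * 1 := (Nat.mul_one r).symm
    _ ≤ r * Fintype.card ι := Nat.mul_le_mul_left _ hpos

end B6b

end Vale.Agent.P268.Z
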