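import Vale.Agent.P268.Z.Api
import Vale.Agent.P268.Z.Seif

/-!
# P268: reversal of the Toeplitz Seifert matrix
-/

namespace Vale.Agent.P268.Z

open Matrix

theorem chainSeifert_rev (c : List ℕ) :
    (chainSeifert c).submatrix Fin.revPerm Fin.revPerm = (chainSeifert c)ᵀ := by
  ext i j
  simp only [submatrix_apply, Fin.revPerm_apply, transpose_apply, chainSeifert, Fin.val_rev]
  have hi := i.2
  have hj := j.2
  by_cases h : (j : ℕ) ≤ i
  · rw [if_pos (by omega), if_pos h,
      show mu c - (j + 1) - (mu c - ((i : ℕ) + 1)) = i - j by omega]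
  · rw [if_neg (by omega), if_neg h]

section

variable {n : ℕ} (L : Matrix (Fin n) (Fin n) ℤ)

/-- Reversal of matrices as a ring automorphism. -/
def revHom (n : ℕ) : Matrix (Fin n) (Fin n) ℤ →* Matrix (Fin n) (Fin n) ℤ where
  toFun M := M.submatrix Fin.revPerm Fin.revPerm
  map_one' := submatrix_one_equiv _
  map_mul' M N := (submatrix_mul_equiv M N _ _ _).symm

theorem revHom_smul (z : ℤ) (M : Matrix (Fin n) (Fin n) ℤ) :
    revHom n (z • M) = z • revHom n M := rfl

variable {L}

theorem rev_mono (e : ℤˣ) (hL : IsUnit L.det) (hr : revHom n L = Lᵀ) :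
    revHom n (mono e L) * mono e L = 1 := by
  have hr' : revHom n Lᵀ = L := by
    have h1 : revHom n Lᵀ = (revHom n L)ᵀ := rfl
    rw [h1, hr, transpose_transpose]
  have hLt : IsUnit Lᵀ.det := by rwa [det_transpose]
  have h2 : revHom n L⁻¹ * Lᵀ = 1 := by
    rw [← hr, ← map_mul, Matrix.nonsing_inv_mul _ hL, map_one]
  have h3 : revHom n L⁻¹ = (Lᵀ)⁻¹ := (Matrix.inv_eq_left_inv h2).symm
  have h4 : revHom n (mono e L) = (e : ℤ) • ((Lᵀ)⁻¹ * L) := by
    have : mono e L = (e : ℤ) • (L⁻¹ * Lᵀ) := by simp [mono]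
    rw [this, revHom_smul, map_mul, h3, hr']
  have h5 : mono e L = (e : ℤ) • (L⁻¹ * Lᵀ) := by simp [mono]
  have h6 : (e : ℤ) * (e : ℤ) = 1 := by rw [← Units.val_mul, Int.units_mul_self]; rfl
  rw [h4, h5, Matrix.smul_mul, Matrix.mul_smul, smul_smul, h6, one_smul, Matrix.mul_assoc,
    ← Matrix.mul_assoc L, Matrix.mul_nonsing_inv _ hL, Matrix.one_mul,
    Matrix.nonsing_inv_mul _ hLt]

theorem pow_mul_pow_eq_one {M : Type*} [Monoid M] {a b : M} (h : a * b = 1) (k : ℕ) :
    a ^ k * b ^ k = 1 := by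
  induction k with
  | zero => simp
  | succ k ih =>
    rw [pow_succ, pow_succ', mul_assoc, ← mul_assoc a b, h, one_mul, ih]

theorem rev_ofSeifert (D : ℕ) [NeZero D] (hD : Odd D) (e : ℤˣ) (hL : IsUnit L.det)
    (hh : (mono e L) ^ D = 1) (hr : revHom n L = Lᵀ) :
    (∀ a, revHom n ((ofSeifert D hD e L hL hh).ρ a) = (ofSeifert D hD e L hL hh).ρ a⁻¹) ∧
    revHom n (ofSeifert D hD e L hL hh).g = (e : ℤ) • (ofSeifert D hD e L hL hh).g := by
  have h1 := rev_mono e hL hr
  constructor
  · intro a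
    have h2 : revHom n ((ofSeifert D hD e L hL hh).ρ a) * (ofSeifert D hD e L hL hh).ρ a = 1 := by
      change revHom n ((mono e L) ^ _) * (mono e L) ^ _ = 1
      rw [map_pow]
      exact pow_mul_pow_eq_one h1 _
    have h3 : (ofSeifert D hD e L hL hh).ρ a * (ofSeifert D hD e L hL hh).ρ a⁻¹ = 1 := by
      rw [← map_mul, mul_inv_cancel, map_one]
    exact left_inv_eq_right_inv h2 h3
  · change revHom n (L * (mono e L) ^ ((D + 1) / 2)) = (e : ℤ) • (L * (mono e L) ^ ((D + 1) / 2))
    obtain ⟨m, rfl⟩ := hD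
    have hk : (2 * m + 1 + 1) / 2 = m + 1 := by omega
    rw [hk, map_mul, map_pow, hr]
    have h5 : Lᵀ = (e : ℤ) • (L * mono e L) := by
      have := transpose_eq_mono e hL
      simpa using this
    have h6 : mono e L * (revHom n (mono e L)) ^ (m + 1) = (mono e L) ^ (m + 1) := by
      have h7 : (revHom n (mono e L)) ^ (m + 1) * (mono e L) ^ (m + 1) = 1 :=
        pow_mul_pow_eq_one h1 _
      have h8 : (mono e L) ^ (m + 1) * (mono e L) ^ m = 1 := by
        rw [← pow_add, show m + 1 + m = 2 * m + 1 by ring, hh]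
      have h9 : (revHom n (mono e L)) ^ (m + 1) = (mono e L) ^ m :=
        left_inv_eq_right_inv h7 h8
      rw [h9, pow_succ']
    rw [h5, Matrix.smul_mul, Matrix.mul_assoc, h6]

end

theorem chain_bar (D : ℕ) [NeZero D] (hD : Odd D) (c : List ℕ) (h : ChainOK D c) :
    (chainForm D hD c h).bar.Iso
      (if Odd c.length then (chainForm D hD c h).neg else chainForm D hD c h) := by
  obtain ⟨h1, h2⟩ := rev_ofSeifert D hD (sgn c) h.det h.ord (chainSeifert_rev c)
  change ∀ a, revHom _ ((chainForm D hD c h).ρ a) = (chainForm D hD c h).ρ a⁻¹ at h1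
  change revHom _ (chainForm D hD c h).g = _ • (chainForm D hD c h).g at h2
  split_ifs with ho
  · have hs : ((sgn c : ℤˣ) : ℤ) = -1 := by rw [sgn, Odd.neg_one_pow ho]; rfl
    rw [hs] at h2
    refine GForm.Iso.of_equiv Fin.revPerm (fun i j => ?_) fun a i j => ?_
    · have := congrFun (congrFun h2 i) j
      change (chainForm D hD c h).g (Fin.revPerm i) (Fin.revPerm j) =
        -1 * (chainForm D hD c h).g i j at this
      change (chainForm D hD c h).g i j =
        -(chainForm D hD c h).g (Fin.revPerm i) (Fin.revPerm j)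
      rw [this]; ring
    · exact (congrFun (congrFun (h1 a) i) j).symm
  · have hs : ((sgn c : ℤˣ) : ℤ) = 1 := by
      rw [sgn, Even.neg_one_pow (Nat.not_odd_iff_even.mp ho)]; rfl
    rw [hs, one_smul] at h2
    refine GForm.Iso.of_equiv Fin.revPerm (fun i j => ?_) fun a i j => ?_
    · exact (congrFun (congrFun h2 i) j).symm
    · exact (congrFun (congrFun (h1 a) i) j).symm

end Vale.Agent.P268.Z
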