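import Vale.Agent.P268.Z.ADefs
import Vale.Agent.P268.Z.A0w
import Vale.Agent.P268.Z.A1Spec
import Vale.Agent.P268.Z.A2

/-!
# P268, block A4a: from the numerical conditions to the real isometry
-/

namespace Vale.Agent.P268.Z

open Matrix

set_option linter.unusedSectionVars false

/-! ### Spectral data of tensor products -/

section Pi

variable {ν : Type} [Fintype ν] [DecidableEq ν] {ι : ν → Type} [∀ k, Fintype (ι k)]
  [∀ k, DecidableEq (ι k)] {X : ν → Type} [∀ k, Fintype (X k)] [∀ k, DecidableEq (X k)]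
  {g t : ∀ k, Matrix (ι k) (ι k) ℤ}

theorem piMat_map_cast (g : ∀ k, Matrix (ι k) (ι k) ℤ) :
    (piMat g).map (Int.cast : ℤ → ℂ) = piMat fun k => (g k).map (Int.cast : ℤ → ℂ) := by
  ext x y
  simp [piMat_apply]

theorem piMat_conjTranspose (P : ∀ k, Matrix (ι k) (X k) ℂ) :
    (piMat P)ᴴ = piMat fun k => (P k)ᴴ := by
  ext x y
  simp [piMat_apply, conjTranspose_apply]

theorem piMat_diagonal (d : ∀ k, X k → ℂ) :
    piMat (fun k => diagonal (d k)) = diagonal fun x : (k : ν) → X k => ∏ k, d k (x k) := by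
  ext x y
  simp only [piMat_apply, diagonal_apply]
  split_ifs with h
  · subst h; simp
  · obtain ⟨k, hk⟩ := Function.ne_iff.mp h
    exact Finset.prod_eq_zero (Finset.mem_univ k) (by simp [hk])

/-- Spectral data of a tensor product. -/
noncomputable def SpecData.pi (S : ∀ k, SpecData (g k) (t k) (X k)) :
    SpecData (piMat g) (piMat t) ((k : ν) → X k) where
  u x := ∏ k, (S k).u (x k)
  lam x := ∏ k, (S k).lam (x k)
  bar x k := (S k).bar (x k)
  P := piMat fun k => (S k).P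
  Q := piMat fun k => (S k).Q
  hQP := by
    rw [← piMat_mul, ← piMat_one]
    congr 1
    ext k : 1
    exact (S k).hQP
  hPQ := by
    rw [← piMat_mul, ← piMat_one]
    congr 1
    ext k : 1
    exact (S k).hPQ
  hg := by
    rw [piMat_conjTranspose, piMat_map_cast, ← piMat_mul, ← piMat_mul, ← piMat_diagonal]
    congr 1
    ext k : 1
    exact (S k).hg
  ht := by
    rw [piMat_map_cast, ← piMat_diagonal, ← piMat_mul, ← piMat_mul]
    congr 1
    ext k : 1
    exact (S k).ht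
  hbar x := by
    funext k
    exact (S k).hbar (x k)
  hP i x := by
    simp only [piMat_apply, (S _).hP, star_prod]
  hu x := by
    rw [norm_prod]
    exact Finset.prod_eq_one fun k _ => (S k).hu (x k)

theorem SpecData.pi_sum_lam (S : ∀ k, SpecData (g k) (t k) (X k)) (n : ℕ) :
    ∑ x, (SpecData.pi S).lam x ^ n = ∏ k, ∑ x, (S k).lam x ^ n := by
  rw [Finset.prod_univ_sum, Fintype.piFinset_univ]
  refine Finset.sum_congr rfl fun x _ => ?_
  change (∏ k, (S k).lam (x k)) ^ n = _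
  rw [Finset.prod_pow]

theorem SpecData.pi_sum_u (S : ∀ k, SpecData (g k) (t k) (X k)) (n : ℕ) :
    ∑ x, (SpecData.pi S).u x * (SpecData.pi S).lam x ^ n =
      ∏ k, ∑ x, (S k).u x * (S k).lam x ^ n := by
  rw [Finset.prod_univ_sum, Fintype.piFinset_univ]
  refine Finset.sum_congr rfl fun x _ => ?_
  change (∏ k, (S k).u (x k)) * (∏ k, (S k).lam (x k)) ^ n = _
  rw [Finset.prod_mul_distrib, Finset.prod_pow]

end Pi

section Mul

variable {ι κ : Type} [Fintype ι] [DecidableEq ι] [Fintype κ] [DecidableEq κ] {X Y : Type}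
  [Fintype X] [DecidableEq X] [Fintype Y] [DecidableEq Y] {g t : Matrix ι ι ℤ}
  {g' t' : Matrix κ κ ℤ}

/-- Spectral data of a tensor product of two forms. -/
noncomputable def SpecData.mul (S : SpecData g t X) (T : SpecData g' t' Y) :
    SpecData (kroneckerMap (· * ·) g g') (kroneckerMap (· * ·) t t') (X × Y) where
  u x := S.u x.1 * T.u x.2
  lam x := S.lam x.1 * T.lam x.2
  bar x := (S.bar x.1, T.bar x.2)
  P := kroneckerMap (· * ·) S.P T.P
  Q := kroneckerMap (· * ·) S.Q T.Q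
  hQP := by
    rw [← mul_kronecker_mul, S.hQP, T.hQP]
    simp
  hPQ := by
    rw [← mul_kronecker_mul, S.hPQ, T.hPQ]
    simp
  hg := by
    have h1 : (kroneckerMap (· * ·) S.P T.P)ᴴ = kroneckerMap (· * ·) (S.P)ᴴ (T.P)ᴴ := by
      ext x y
      simp [conjTranspose_apply]
    have h2 : (kroneckerMap (· * ·) g g').map (Int.cast : ℤ → ℂ) =
        kroneckerMap (· * ·) (g.map (Int.cast : ℤ → ℂ)) (g'.map (Int.cast : ℤ → ℂ)) := by
      ext x y
      simp
    have h3 : diagonal (fun x : X × Y => S.u x.1 * T.u x.2) =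
        kroneckerMap (· * ·) (diagonal S.u) (diagonal T.u) :=
      (Matrix.diagonal_kronecker_diagonal _ _).symm
    rw [h1, h2, h3, ← mul_kronecker_mul, ← mul_kronecker_mul, S.hg, T.hg]
  ht := by
    have h2 : (kroneckerMap (· * ·) t t').map (Int.cast : ℤ → ℂ) =
        kroneckerMap (· * ·) (t.map (Int.cast : ℤ → ℂ)) (t'.map (Int.cast : ℤ → ℂ)) := by
      ext x y
      simp
    have h3 : diagonal (fun x : X × Y => S.lam x.1 * T.lam x.2) =
        kroneckerMap (· * ·) (diagonal S.lam) (diagonal T.lam) :=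
      (Matrix.diagonal_kronecker_diagonal _ _).symm
    rw [h2, h3, ← mul_kronecker_mul, ← mul_kronecker_mul, S.ht, T.ht]
  hbar x := by
    ext
    · exact S.hbar x.1
    · exact T.hbar x.2
  hP i x := by
    simp only [kroneckerMap_apply, S.hP, T.hP, star_mul']
  hu x := by
    rw [norm_mul, S.hu, T.hu, mul_one]

theorem SpecData.mul_sum_lam (S : SpecData g t X) (T : SpecData g' t' Y) (n : ℕ) :
    ∑ x, (S.mul T).lam x ^ n = (∑ x, S.lam x ^ n) * ∑ y, T.lam y ^ n := by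
  rw [Fintype.sum_mul_sum, Fintype.sum_prod_type]
  refine Finset.sum_congr rfl fun x _ => Finset.sum_congr rfl fun y _ => ?_
  change (S.lam x * T.lam y) ^ n = _
  rw [mul_pow]

theorem SpecData.mul_sum_u (S : SpecData g t X) (T : SpecData g' t' Y) (n : ℕ) :
    ∑ x, (S.mul T).u x * (S.mul T).lam x ^ n =
      (∑ x, S.u x * S.lam x ^ n) * ∑ y, T.u y * T.lam y ^ n := by
  rw [Fintype.sum_mul_sum, Fintype.sum_prod_type]
  refine Finset.sum_congr rfl fun x _ => Finset.sum_congr rfl fun y _ => ?_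
  change (S.u x * T.u y) * (S.lam x * T.lam y) ^ n = _
  rw [mul_pow]
  ring

end Mul

/-! ### The trace -/

theorem SpecData.sum_lam_pow {ι X : Type} [Fintype ι] [DecidableEq ι] [Fintype X]
    [DecidableEq X] {g t : Matrix ι ι ℤ} (S : SpecData g t X) (k : ℕ) :
    ∑ x, S.lam x ^ k = (((t ^ k).trace : ℤ) : ℂ) := by
  have h1 : (t.map (Int.cast : ℤ → ℂ)) ^ k * S.P = S.P * diagonal S.lam ^ k := by
    induction k with
    | zero => simp
    | succ k ih =>
      rw [pow_succ, Matrix.mul_assoc, S.ht, ← Matrix.mul_assoc, ih, Matrix.mul_assoc, ← pow_succ]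
  have h2 : (t ^ k).map (Int.cast : ℤ → ℂ) = (t.map (Int.cast : ℤ → ℂ)) ^ k := by
    have := map_pow ((Int.castRingHom ℂ).mapMatrix (m := ι)) t k
    exact this
  have h3 : ((t ^ k).map (Int.cast : ℤ → ℂ)).trace = (((t ^ k).trace : ℤ) : ℂ) := by
    simp [Matrix.trace]
  rw [← h3, h2]
  have h4 : (t.map (Int.cast : ℤ → ℂ)) ^ k = S.P * diagonal S.lam ^ k * S.Q := by
    rw [← h1, Matrix.mul_assoc, S.hPQ, Matrix.mul_one]
  rw [h4, Matrix.mul_assoc, Matrix.trace_mul_comm, Matrix.mul_assoc, S.hQP, Matrix.mul_one,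
    diagonal_pow, trace_diagonal]
  rfl

theorem chainForm_gen (D : ℕ) [NeZero D] (hD : Odd D) (c : List ℕ) (h : ChainOK D c) :
    (chainForm D hD c h).ρ (Cyc.gen D) = mono (sgn c) (chainSeifert c) :=
  cycRep_gen D _ h.ord

theorem chain_sum_lam (D : ℕ) [NeZero D] (hD : Odd D) (c : List ℕ) (h : ChainOK D c)
    {X : Type} [Fintype X] [DecidableEq X]
    (S : SpecData (chainForm D hD c h).g ((chainForm D hD c h).ρ (Cyc.gen D)) X) (k : ℕ) :
    ∑ x, S.lam x ^ k = ((((weights c).map (psi k)).prod : ℚ) : ℂ) := by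
  rw [S.sum_lam_pow, chainForm_gen]
  have h1 := chain_trace c h.two k
  have h2 : ((((mono (sgn c) (chainSeifert c)) ^ k).trace : ℚ) : ℂ) =
      ((((weights c).map (psi k)).prod : ℚ) : ℂ) := congrArg _ h1
  rw [← h2, Rat.cast_intCast]

theorem prod_neg_sq {α : Type} (l : List α) (φ : α → ℝ) :
    ((l.map fun w => (-(φ w : ℂ))).prod) ^ 2 = ((((l.map φ).prod ^ 2 : ℝ)) : ℂ) := by
  induction l with
  | nil => simp
  | cons a l ih =>
    rw [List.map_cons, List.prod_cons, mul_pow, ih, List.map_cons, List.prod_cons]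
    push_cast
    ring

/-- The signature sum of the tensor square, at a good exponent. -/
theorem fam_sum_u_good {D : ℕ} [NeZero D] (hD : Odd D) {a : ℕ} (f : Fin a → List ℕ)
    (hf : ∀ i, ChainOK D (f i)) (k : ℕ)
    (X : Fin a → Type) [∀ i, Fintype (X i)] [∀ i, DecidableEq (X i)]
    (S : ∀ i, SpecData (chainForm D hD (f i) (hf i)).g
      ((chainForm D hD (f i) (hf i)).ρ (Cyc.gen D)) (X i))
    (hS : ∀ i, (∀ w ∈ weights (f i), ((((2 * k + D : ℕ) : ℚ)) * w).den ≠ 1) →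
        ∑ x, (S i).u x * (S i).lam x ^ k =
          ((weights (f i)).map fun w : ℚ =>
            (-(Real.cot (Real.pi * (2 * k + D : ℕ) * (w : ℝ) / 2) : ℂ))).prod)
    (hw : ∀ i, ∀ w ∈ weights (f i), (((2 * k + D : ℕ) : ℚ) * w).den ≠ 1) :
    (∏ i, ∑ x, (S i).u x * (S i).lam x ^ k) ^ 2 =
      ((((∏ i, ((weights (f i)).map fun w : ℚ =>
            Real.cot (Real.pi * ((2 * k + D : ℕ) : ℝ) * (w : ℝ) / 2)).prod) ^ 2 : ℝ)) : ℂ) := by
  rw [← Finset.prod_pow, ← Finset.prod_pow, Complex.ofReal_prod]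
  refine Finset.prod_congr rfl fun i _ => ?_
  rw [hS i (hw i)]
  exact prod_neg_sq (weights (f i)) fun w : ℚ =>
    Real.cot (Real.pi * ((2 * k + D : ℕ) : ℝ) * (w : ℝ) / 2)

theorem iso_of_num {D : ℕ} [NeZero D] (hD : Odd D) {a b : ℕ}
    (f : Fin a → List ℕ) (g : Fin b → List ℕ)
    (hf : ∀ i, ChainOK D (f i)) (hg : ∀ i, ChainOK D (g i))
    (hwf : ∀ i, ∀ w ∈ weights (f i), ∃ z : ℤ, (D : ℚ) * w = z)
    (hwg : ∀ i, ∀ w ∈ weights (g i), ∃ z : ℤ, (D : ℚ) * w = z)
    (htr : ∀ k : ℕ, (∏ i, ((weights (f i)).map (psi k)).prod) ^ 2 =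
      (∏ i, ((weights (g i)).map (psi k)).prod) ^ 2)
    (hsg : ∀ k : ℕ,
      ((∃ i q, f i = [q] ∧ q ∣ 2 * k + D) ∧ (∃ i q, g i = [q] ∧ q ∣ 2 * k + D)) ∨
      ((∀ i, ∀ w ∈ weights (f i), (((2 * k + D : ℕ) : ℚ) * w).den ≠ 1) ∧
        (∀ i, ∀ w ∈ weights (g i), (((2 * k + D : ℕ) : ℚ) * w).den ≠ 1) ∧
        (∏ i, ((weights (f i)).map fun w : ℚ =>
            Real.cot (Real.pi * ((2 * k + D : ℕ) : ℝ) * (w : ℝ) / 2)).prod) ^ 2 =
          (∏ i, ((weights (g i)).map fun w : ℚ =>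
            Real.cot (Real.pi * ((2 * k + D : ℕ) : ℝ) * (w : ℝ) / 2)).prod) ^ 2)) :
    GForm.Iso (((sumForm D hD f hf).mul (sumForm D hD f hf)).map (Int.castRingHom ℝ))
      (((sumForm D hD g hg).mul (sumForm D hD g hg)).map (Int.castRingHom ℝ)) := by
  choose X hX1 hX2 S hS4 hS hS0 using fun i => chain_spec D hD (f i) (hf i) (hwf i)
  choose Y hY1 hY2 T hT4 hT hT0 using fun i => chain_spec D hD (g i) (hg i) (hwg i)
  refine real_iso hD (Int.units_mul_self _) (Int.units_mul_self _) _ _ _ _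
    (((SpecData.pi S).mul (SpecData.pi S) :))
    (((SpecData.pi T).mul (SpecData.pi T) :)) ?_ ?_
  · intro k
    have h1 := (SpecData.pi S).mul_sum_lam (SpecData.pi S) k
    have h2 := (SpecData.pi T).mul_sum_lam (SpecData.pi T) k
    rw [SpecData.pi_sum_lam, ← sq] at h1 h2
    refine h1.trans (Eq.trans ?_ h2.symm)
    simp only [chain_sum_lam]
    rw [← Rat.cast_prod, ← Rat.cast_prod, ← Rat.cast_pow, ← Rat.cast_pow, htr k]
  · intro k
    have h1 := (SpecData.pi S).mul_sum_u (SpecData.pi S) k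
    have h2 := (SpecData.pi T).mul_sum_u (SpecData.pi T) k
    rw [SpecData.pi_sum_u, ← sq] at h1 h2
    refine h1.trans (Eq.trans ?_ h2.symm)
    rcases hsg k with ⟨⟨i, q, hi, hq⟩, ⟨j, r, hj, hr⟩⟩ | ⟨h3, h4, h5⟩
    · rw [Finset.prod_eq_zero (Finset.mem_univ i) (hS0 i q k hi hq),
        Finset.prod_eq_zero (Finset.mem_univ j) (hT0 j r k hj hr)]
    · rw [fam_sum_u_good hD f hf k X S (fun i => hS i k) h3,
        fam_sum_u_good hD g hg k Y T (fun i => hT i k) h4, h5]

end Vale.Agent.P268.Z
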