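import Vale.Agent.P268.Z.Euclid
import Vale.Agent.P268.Z.A3
import Vale.Agent.P268.Z.IsoNum

/-!
# P268: part A, the real coincidence
-/

namespace Vale.Agent.P268.Z

open Matrix

/-! ### lists of chains built from a signed list of weights -/

/-- The chains contributed by the weight `p.1` with coefficient `p.2` and sign `s`. -/
def chainsOf (s : ℤ) (p : (ℕ × ℕ) × ℤ) : List (List ℕ) :=
  List.replicate (s * p.2).toNat (eu p.1.2 p.1.1) ++
    List.replicate (-(s * p.2)).toNat (eu p.1.2 (p.1.2 % p.1.1))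

/-- All chains (with the two killers). -/
def mkList (W : List ((ℕ × ℕ) × ℤ)) (s : ℤ) : List (List ℕ) :=
  ([3] :: [4789] :: W.flatMap (chainsOf s)).filter (fun c => !c.isEmpty)

/-- Admissible signed weight lists. -/
def Adm (W : List ((ℕ × ℕ) × ℤ)) : Prop :=
  ∀ p ∈ W, 0 < p.1.1 ∧ 2 * p.1.1 < p.1.2 ∧ p.1.2 ∣ 14367

/-- The property of all chains in the list. -/
def GoodChain (c : List ℕ) : Prop :=
  ∃ u v : ℕ, 0 < v ∧ 2 * v < u ∧ u ∣ 14367 ∧ c = eu u v

theorem eu_three : eu 3 1 = [3] := by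
  rw [eu_pos (by decide)]
  simp [eu_zero]

theorem eu_4789 : eu 4789 1 = [4789] := by
  rw [eu_pos (by decide)]
  simp [eu_zero]

theorem good_three : GoodChain [3] := ⟨3, 1, by norm_num, by norm_num, by norm_num, eu_three.symm⟩

theorem good_4789 : GoodChain [4789] :=
  ⟨4789, 1, by norm_num, by norm_num, by norm_num, eu_4789.symm⟩

theorem good_mem {W : List ((ℕ × ℕ) × ℤ)} (hW : Adm W) (s : ℤ) :
    ∀ c ∈ mkList W s, GoodChain c := by
  intro c hc
  unfold mkList at hc
  rw [List.mem_filter] at hc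
  obtain ⟨hc, hne⟩ := hc
  have hne' : c ≠ [] := by
    intro h
    subst h
    simp at hne
  rcases List.mem_cons.mp hc with h | hc
  · subst h; exact good_three
  rcases List.mem_cons.mp hc with h | hc
  · subst h; exact good_4789
  rw [List.mem_flatMap] at hc
  obtain ⟨p, hp, hc⟩ := hc
  obtain ⟨h1, h2, h3⟩ := hW p hp
  unfold chainsOf at hc
  rcases List.mem_append.mp hc with h | h
  · have := List.eq_of_mem_replicate h
    exact ⟨p.1.2, p.1.1, h1, h2, h3, this⟩
  · have := List.eq_of_mem_replicate h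
    refine ⟨p.1.2, p.1.2 % p.1.1, ?_, ?_, h3, this⟩
    · rcases Nat.eq_zero_or_pos (p.1.2 % p.1.1) with h0 | h0
      · rw [h0, eu_zero] at this
        exact absurd this hne'
      · exact h0
    · have := Nat.mod_lt p.1.2 h1
      omega

theorem good_ne {c : List ℕ} (h : GoodChain c) : c ≠ [] := by
  obtain ⟨u, v, h1, _, _, rfl⟩ := h
  exact eu_ne_nil h1.ne'

theorem good_two {c : List ℕ} (h : GoodChain c) : ∀ a ∈ c, 2 ≤ a := by
  obtain ⟨u, v, _, h2, _, rfl⟩ := h
  exact two_le_eu v h2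

theorem good_last {c : List ℕ} (h : GoodChain c) :
    ∃ (l : List ℕ) (x : ℕ), c = l ++ [x] ∧ 3 ≤ x := by
  obtain ⟨u, v, h1, h2, h3, rfl⟩ := h
  refine eu_last ?_ v h1.ne' h2
  obtain ⟨k, hk⟩ := h3
  have : Odd (u * k) := by rw [← hk]; decide
  exact (Nat.odd_mul.mp this).1

theorem good_weights {c : List ℕ} (h : GoodChain c) :
    ∀ w ∈ weights c, ∃ u v : ℕ, 0 < v ∧ 2 * v < u ∧ u ∣ 14367 ∧ w = (v / u : ℚ) := by
  obtain ⟨u, v, h1, h2, h3, rfl⟩ := h
  intro w hw
  obtain ⟨v', h4, h5, h6⟩ := weights_eu_mem v h2 w hw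
  exact ⟨u, v', h4, h5, h3, h6⟩

theorem good_int {c : List ℕ} (h : GoodChain c) :
    ∀ w ∈ weights c, ∃ z : ℤ, ((14367 : ℕ) : ℚ) * w = z := by
  intro w hw
  obtain ⟨u, v, h1, h2, ⟨k, hk⟩, rfl⟩ := good_weights h w hw
  refine ⟨(k * v : ℕ), ?_⟩
  have hu : (u : ℚ) ≠ 0 := by
    have : 0 < u := by omega
    exact_mod_cast this.ne'
  have hk' : ((14367 : ℕ) : ℚ) = (u : ℚ) * k := by exact_mod_cast hk
  rw [hk']
  push_cast
  field_simp

theorem good_ok {c : List ℕ} (h : GoodChain c) : ChainOK 14367 c where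
  ne := good_ne h
  two := good_two h
  det := by rw [chainSeifert_det]; exact isUnit_one
  ord := chain_order 14367 c (good_ne h) (good_two h) (good_int h)

theorem good_den {c : List ℕ} (h : GoodChain c) {κ : ℕ} (hκ : κ.Coprime 14367) :
    ∀ w ∈ weights c, ((κ : ℚ) * w).den ≠ 1 := by
  intro w hw hden
  obtain ⟨u, v, h1, h2, h3, rfl⟩ := good_weights h w hw
  have hu0 : 0 < u := by omega
  have hu : (u : ℚ) ≠ 0 := by exact_mod_cast hu0.ne'
  have h4 : ((κ : ℚ) * (v / u)) = (((κ : ℚ) * (v / u)).num : ℚ) := by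
    conv_lhs => rw [← Rat.num_div_den ((κ : ℚ) * (v / u)), hden]
    simp
  have h5 : ((κ * v : ℕ) : ℤ) = ((κ : ℚ) * (v / u)).num * (u : ℤ) := by
    have : (κ : ℚ) * v = (((κ : ℚ) * (v / u)).num : ℚ) * u := by
      rw [← h4]
      field_simp
    exact_mod_cast this
  have h6 : (u : ℤ) ∣ ((κ * v : ℕ) : ℤ) := ⟨_, by rw [h5]; ring⟩
  have h7 : u ∣ κ * v := by exact_mod_cast h6
  have h8 : u.Coprime κ := (Nat.Coprime.coprime_dvd_right h3 hκ).symm
  have h9 : u ∣ v := h8.dvd_of_dvd_mul_left h7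
  have := Nat.le_of_dvd h1 h9
  omega

/-! ### products over the lists -/

section Prod

variable {K : Type} [Field K]

/-- The product of `φ` over the weights of a chain. -/
def Phi (φ : ℚ → K) (c : List ℕ) : K := ((weights c).map φ).prod

theorem Phi_nil (φ : ℚ → K) : Phi φ [] = 1 := rfl

theorem Phi_eu (φ : ℚ → K) {u v : ℕ} (hv : 0 < v) (h : 2 * v < u) :
    Phi φ (eu u v) = φ (wt (v, u)) * Phi φ (eu u (u % v)) := by
  unfold Phi
  rw [weights_eu (by omega) hv.ne' (by omega)]
  rfl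

theorem prod_filter_Phi (φ : ℚ → K) (L : List (List ℕ)) :
    ((L.filter (fun c => !c.isEmpty)).map (Phi φ)).prod = (L.map (Phi φ)).prod := by
  induction L with
  | nil => rfl
  | cons c L ih =>
    cases c with
    | nil => simp [Phi_nil, ih]
    | cons a c => simp [ih]

/-- the contribution of one pair -/
def contr (φ : ℚ → K) (s : ℤ) (p : (ℕ × ℕ) × ℤ) : K :=
  Phi φ (eu p.1.2 p.1.1) ^ (s * p.2).toNat *
    Phi φ (eu p.1.2 (p.1.2 % p.1.1)) ^ (-(s * p.2)).toNat

theorem prod_mkList (φ : ℚ → K) (W : List ((ℕ × ℕ) × ℤ)) (s : ℤ) :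
    ((mkList W s).map (Phi φ)).prod =
      Phi φ [3] * (Phi φ [4789] * (W.map (contr φ s)).prod) := by
  unfold mkList
  rw [prod_filter_Phi]
  simp only [List.map_cons, List.prod_cons]
  congr 2
  induction W with
  | nil => rfl
  | cons p W ih =>
    simp only [List.flatMap_cons, List.map_append, List.prod_append, List.map_cons,
      List.prod_cons]
    rw [ih]
    congr 1
    simp [chainsOf, contr]

theorem contr_one (φ : ℚ → K) {p : (ℕ × ℕ) × ℤ} (h1 : 0 < p.1.1) (h2 : 2 * p.1.1 < p.1.2)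
    (h : φ (wt p.1) ^ p.2 ≠ 0) :
    contr φ 1 p = φ (wt p.1) ^ p.2 * contr φ (-1) p := by
  unfold contr
  rw [Phi_eu φ h1 h2]
  have hw : wt (p.1.1, p.1.2) = wt p.1 := rfl
  rw [hw]
  set x := φ (wt p.1) with hx
  set y := Phi φ (eu p.1.2 (p.1.2 % p.1.1))
  generalize p.2 = n at h ⊢
  rcases le_or_gt 0 n with hn | hn
  · lift n to ℕ using hn
    simp only [one_mul, Int.toNat_natCast, neg_mul, neg_neg, zpow_natCast]
    have h0 : (-(n : ℤ)).toNat = 0 := by omega
    rw [h0, mul_pow]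
    ring
  · obtain ⟨m, hm⟩ : ∃ m : ℕ, n = -(m : ℤ) := ⟨(-n).toNat, by omega⟩
    subst hm
    have hx0 : x ≠ 0 := by
      intro h0
      rw [h0, _root_.zero_zpow _ (by omega)] at h
      exact h rfl
    simp only [one_mul, neg_mul, neg_neg, Int.toNat_natCast]
    have h0 : (-(m : ℤ)).toNat = 0 := by omega
    rw [h0, _root_.zpow_neg, zpow_natCast, mul_pow]
    field_simp
    rw [mul_pow]
    ring

theorem prod_contr (φ : ℚ → K) (W : List ((ℕ × ℕ) × ℤ)) (hW : Adm W)
    (h : (W.map fun p => φ (wt p.1) ^ p.2).prod ≠ 0) :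
    (W.map (contr φ 1)).prod =
      (W.map fun p => φ (wt p.1) ^ p.2).prod * (W.map (contr φ (-1))).prod := by
  induction W with
  | nil => simp
  | cons p W ih =>
    simp only [List.map_cons, List.prod_cons] at h ⊢
    have h1 := left_ne_zero_of_mul h
    have h2 := right_ne_zero_of_mul h
    have hp := hW p (List.mem_cons_self ..)
    rw [ih (fun q hq => hW q (List.mem_cons_of_mem _ hq)) h2, contr_one φ hp.1 hp.2.1 h1]
    ring

/-- The squared products over the two lists agree. -/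
theorem prod_sq_eq (φ : ℚ → K) (W : List ((ℕ × ℕ) × ℤ)) (hW : Adm W)
    (h : ((W.map fun p => φ (wt p.1) ^ p.2).prod) ^ 2 = 1) :
    (((mkList W 1).map (Phi φ)).prod) ^ 2 = (((mkList W (-1)).map (Phi φ)).prod) ^ 2 := by
  have h0 : (W.map fun p => φ (wt p.1) ^ p.2).prod ≠ 0 := by
    intro h1
    rw [h1] at h
    simp at h
  rw [prod_mkList, prod_mkList, prod_contr φ W hW h0]
  have : ∀ a b c d : K, (a * (b * (c * d))) ^ 2 = (a * (b * d)) ^ 2 * c ^ 2 := by
    intro a b c d; ring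
  rw [this, h, mul_one]

end Prod

/-! ### lengths -/

theorem length_eu {u v : ℕ} (h : v ≠ 0) : (eu u v).length = (eu u (u % v)).length + 1 := by
  rw [eu_pos h]
  rfl

theorem sum_filter_len (L : List (List ℕ)) :
    ((L.filter (fun c => !c.isEmpty)).map List.length).sum = (L.map List.length).sum := by
  induction L with
  | nil => rfl
  | cons c L ih =>
    cases c with
    | nil => simp [ih]
    | cons a c => simp [ih]

/-- length contribution of one pair -/
def lcontr (s : ℤ) (p : (ℕ × ℕ) × ℤ) : ℕ :=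
  (s * p.2).toNat * (eu p.1.2 p.1.1).length +
    (-(s * p.2)).toNat * (eu p.1.2 (p.1.2 % p.1.1)).length

theorem sum_mkList (W : List ((ℕ × ℕ) × ℤ)) (s : ℤ) :
    ((mkList W s).map List.length).sum = 1 + (1 + (W.map (lcontr s)).sum) := by
  unfold mkList
  rw [sum_filter_len]
  simp only [List.map_cons, List.sum_cons, List.length_cons, List.length_nil]
  congr 2
  induction W with
  | nil => rfl
  | cons p W ih =>
    simp only [List.flatMap_cons, List.map_append, List.sum_append, List.map_cons,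
      List.sum_cons]
    rw [ih]
    congr 1
    simp [chainsOf, lcontr]

theorem lcontr_sub {p : (ℕ × ℕ) × ℤ} (h : 0 < p.1.1) :
    (lcontr 1 p : ℤ) = p.2 + lcontr (-1) p := by
  unfold lcontr
  rw [length_eu h.ne']
  generalize (eu p.1.2 (p.1.2 % p.1.1)).length = m
  generalize p.2 = n
  rcases le_or_gt 0 n with hn | hn
  · lift n to ℕ using hn
    have h0 : (-(n : ℤ)).toNat = 0 := by omega
    simp [h0]
    ring
  · obtain ⟨k, hk⟩ : ∃ k : ℕ, n = -(k : ℤ) := ⟨(-n).toNat, by omega⟩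
    subst hk
    have h0 : (-(k : ℤ)).toNat = 0 := by omega
    simp [h0]
    ring

theorem sum_lcontr (W : List ((ℕ × ℕ) × ℤ)) (hW : Adm W) :
    ((W.map (lcontr 1)).sum : ℤ) = (W.map Prod.snd).sum + (W.map (lcontr (-1))).sum := by
  induction W with
  | nil => simp
  | cons p W ih =>
    simp only [List.map_cons, List.sum_cons]
    have h := lcontr_sub (hW p (List.mem_cons_self ..)).1
    have h2 := ih (fun q hq => hW q (List.mem_cons_of_mem _ hq))
    rw [Nat.cast_add, Nat.cast_add, h, h2]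
    ring

/-! ### assembly -/

theorem prod_get {K : Type} [CommMonoid K] (L : List (List ℕ)) (φ : List ℕ → K) :
    ∏ i, φ (L.get i) = (L.map φ).prod := by
  simp only [List.get_eq_getElem]
  exact Fin.prod_univ_fun_getElem L φ

theorem sum_get (L : List (List ℕ)) : ∑ i, (L.get i).length = (L.map List.length).sum := by
  simp only [List.get_eq_getElem]
  exact Fin.sum_univ_fun_getElem L List.length

theorem not_coprime {κ : ℕ} (h : ¬ κ.Coprime 14367) : 3 ∣ κ ∨ 4789 ∣ κ := by
  by_contra h1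
  push Not at h1
  apply h
  have h3 : Nat.Coprime 3 κ := (Nat.Prime.coprime_iff_not_dvd (by norm_num)).mpr h1.1
  have h4 : Nat.Coprime 4789 κ := (Nat.Prime.coprime_iff_not_dvd (by norm_num)).mpr h1.2
  have : (14367 : ℕ) = 3 * 4789 := by norm_num
  rw [this]
  exact (h3.mul_left h4).symm

theorem killer_mem (W : List ((ℕ × ℕ) × ℤ)) (s : ℤ) {κ : ℕ} (h : ¬ κ.Coprime 14367) :
    ∃ i q, (mkList W s).get i = [q] ∧ q ∣ κ := by
  rcases not_coprime h with h1 | h1
  · have : [3] ∈ mkList W s := by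
      unfold mkList
      simp
    obtain ⟨i, hi⟩ := List.get_of_mem this
    exact ⟨i, 3, hi, h1⟩
  · have : [4789] ∈ mkList W s := by
      unfold mkList
      simp
    obtain ⟨i, hi⟩ := List.get_of_mem this
    exact ⟨i, 4789, hi, h1⟩

theorem partA_aux (hD : Odd 14367) (W : List ((ℕ × ℕ) × ℤ)) (hW : Adm W)
    (hsum : 0 < (W.map Prod.snd).sum)
    (hpsi : ∀ k : ℕ, ((W.map fun p => psi k (wt p.1) ^ p.2).prod) ^ 2 = 1)
    (hcot : ∀ κ : ℕ, κ.Coprime 14367 → Odd κ →
      ((W.map fun p => Real.cot (Real.pi * κ * (wt p.1 : ℝ) / 2) ^ p.2).prod) ^ 2 = 1) :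
    ∃ (a b : ℕ) (f : Fin a → List ℕ) (g : Fin b → List ℕ)
    (hf : ∀ i, ChainOK 14367 (f i)) (hg : ∀ i, ChainOK 14367 (g i)),
    (∀ i, ∃ (l : List ℕ) (x : ℕ), f i = l ++ [x] ∧ 3 ≤ x) ∧
    (∑ i, (g i).length < ∑ i, (f i).length) ∧
    GForm.Iso
      (((sumForm 14367 hD f hf).mul (sumForm 14367 hD f hf)).map
        (Int.castRingHom ℝ))
      (((sumForm 14367 hD g hg).mul (sumForm 14367 hD g hg)).map
        (Int.castRingHom ℝ)) := by
  have g1 := good_mem hW 1
  have g2 := good_mem hW (-1)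
  have G1 : ∀ i, GoodChain ((mkList W 1).get i) := fun i => g1 _ (List.get_mem _ _)
  have G2 : ∀ i, GoodChain ((mkList W (-1)).get i) := fun i => g2 _ (List.get_mem _ _)
  refine ⟨(mkList W 1).length, (mkList W (-1)).length, (mkList W 1).get, (mkList W (-1)).get,
    fun i => good_ok (G1 i), fun i => good_ok (G2 i), fun i => good_last (G1 i), ?_, ?_⟩
  · rw [sum_get, sum_get, sum_mkList, sum_mkList]
    have := sum_lcontr W hW
    omega
  · refine iso_of_num hD _ _ _ _ (fun i => good_int (G1 i)) (fun i => good_int (G2 i)) ?_ ?_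
    · intro k
      have := prod_sq_eq (psi k) W hW (hpsi k)
      rw [← prod_get, ← prod_get] at this
      exact this
    · intro k
      by_cases hc : (2 * k + 14367).Coprime 14367
      · right
        refine ⟨fun i => good_den (G1 i) hc, fun i => good_den (G2 i) hc, ?_⟩
        have hodd : Odd (2 * k + 14367) := ⟨k + 7183, by ring⟩
        have := prod_sq_eq (fun w : ℚ => Real.cot (Real.pi * ((2 * k + 14367 : ℕ) : ℝ) * (w : ℝ) / 2))
          W hW (hcot _ hc hodd)
        rw [← prod_get, ← prod_get] at this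
        exact this
      · left
        exact ⟨killer_mem W 1 hc, killer_mem W (-1) hc⟩

/-- Part A: the real coincidence, `D = 3 * 4789`. -/
theorem partA : ∃ (a b : ℕ) (f : Fin a → List ℕ) (g : Fin b → List ℕ)
    (hf : ∀ i, ChainOK 14367 (f i)) (hg : ∀ i, ChainOK 14367 (g i)),
    (∀ i, ∃ (l : List ℕ) (x : ℕ), f i = l ++ [x] ∧ 3 ≤ x) ∧
    (∑ i, (g i).length < ∑ i, (f i).length) ∧
    GForm.Iso
      (((sumForm 14367 (by decide) f hf).mul (sumForm 14367 (by decide) f hf)).map
        (Int.castRingHom ℝ))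
      (((sumForm 14367 (by decide) g hg).mul (sumForm 14367 (by decide) g hg)).map
        (Int.castRingHom ℝ)) :=
  partA_aux _ wList wList_range wList_sum wList_psi wList_cot

end Vale.Agent.P268.Z
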