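import Vale.Agent.P268.Z.N.N
import Vale.Agent.P268.Z.B6b
import Vale.Agent.P268.Z.PartA
import Vale.Agent.P268.Z.ChainBar
import Vale.Agent.P268.Z.B1
import Vale.Agent.P268.Z.B2a
import Vale.Agent.P268.Z.B2b
import Vale.Agent.P268.Z.B3
import Vale.Agent.P268.Z.B5
import Vale.Agent.P268.Z.B6a
import Vale.Agent.P268.Z.FinalStmt
import Vale.Agent.P268.Z.AsmSt
import Vale.Agent.P268.Z.AsmFam

/-!
# P268: assembly of the blocks
-/

namespace Vale.Agent.P268.Z

open Matrix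

set_option synthInstance.maxSize 2000

/-! ## Small facts -/

section Small

theorem exists_uniform (S : Finset ℕ) (P : ℕ → ℕ → Prop)
    (h : ∀ p ∈ S, ∃ s₀, ∀ s, s₀ ≤ s → P p s) : ∃ r, ∀ p ∈ S, P p r := by
  choose! s hs using h
  exact ⟨S.sup s, fun p hp => hs p hp _ (Finset.le_sup hp)⟩

/-- Reindexing a representation. -/
def repReindex {R : Type} [CommRing R] {G : Type} [CommGroup G] {ι κ : Type} [Fintype ι]
    [DecidableEq ι] [Fintype κ] [DecidableEq κ] (e : ι ≃ κ) (ρ : G →* Matrix ι ι R) :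
    G →* Matrix κ κ R where
  toFun a := (ρ a).submatrix e.symm e.symm
  map_one' := by rw [map_one, submatrix_one_equiv]
  map_mul' a b := by rw [map_mul, submatrix_mul_equiv]

theorem exists_fin_rep {R : Type} [CommRing R] {G : Type} [CommGroup G] {ι : Type} [Fintype ι]
    [DecidableEq ι] (ρ : G →* Matrix ι ι R) :
    ∃ (n : ℕ) (σ : G →* Matrix (Fin n) (Fin n) R), RepIso ρ σ :=
  ⟨Fintype.card ι, repReindex (Fintype.equivFin ι) ρ,
    RepIso.of_equiv (Fintype.equivFin ι) fun a i j => by simp [repReindex]⟩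

theorem E5_bar_rep : RepIso (repBar E5.ρ) E5.ρ := by
  have h := chain_bar 5 (by decide) [5] chainOK_five
  rw [if_pos (by decide)] at h
  exact h.rep

theorem E5_sharp_rep : RepIso (repSharp E5.ρ) E5.ρ := by
  have h := (GForm.rep_dual E5).bar
  rw [repBar_dual] at h
  exact h.symm.trans E5_bar_rep

variable {D : ℕ} [NeZero D]

theorem asm_Lam_sharp : RepIso (repSharp (Lam D)) (Lam D) := by
  have h : RepIso (repSharp (repExt (repReg ℤ (Cyc D)) E5.ρ)) (repExt (repReg ℤ (Cyc D)) E5.ρ) := by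
    rw [repSharp_ext]
    exact repReg_sharp.ext E5_sharp_rep
  exact h

theorem Lam_copies_sharp (r : ℕ) :
    RepIso (repSharp (repCopies (Fin r) (Lam D))) (repCopies (Fin r) (Lam D)) := by
  rw [repSharp_repCopies]
  exact repCopies_congr asm_Lam_sharp

theorem Lam_absorb {α : Type} [Fintype α] [DecidableEq α] (X : Cyc D →* Matrix α α ℤ) :
    RepIso (repTensor (X.comp (MonoidHom.fst (Cyc D) (Cyc 5))) (Lam D)) (repCopies α (Lam D)) :=
  repTensor_ext_reg X E5.ρ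

end Small

/-! ## The tensor square of a sum of chains -/

section Sq

variable {D : ℕ} [NeZero D] {α : Type} [Fintype α] [DecidableEq α]

/-- The tensor square of the form of a sum of chains. -/
noncomputable def sqForm (D : ℕ) [NeZero D] (hD : Odd D) {α : Type} [Fintype α] [DecidableEq α]
    (f : α → List ℕ) (hf : ∀ i, ChainOK D (f i)) :
    GForm ℤ (Cyc D) 1 (((i : α) → Fin (mu (f i))) × ((i : α) → Fin (mu (f i)))) :=
  ((sumForm D hD f hf).mul (sumForm D hD f hf)).castE (Int.units_mul_self _)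

theorem sqForm_bar (hD : Odd D) (f : α → List ℕ) (hf : ∀ i, ChainOK D (f i)) :
    (sqForm D hD f hf).bar.Iso (sqForm D hD f hf) := by
  have h : (sumForm D hD f hf).BarPM := by
    refine GForm.BarPM.pi _ fun i => ?_
    have h1 := chain_bar D hD (f i) (hf i)
    split_ifs at h1
    · exact GForm.BarPM.of_iso_neg h1
    · exact GForm.BarPM.of_iso h1
  exact h.sq

theorem sqForm_nonempty (f : α → List ℕ) (hf : ∀ i, ChainOK D (f i)) :
    Nonempty (((i : α) → Fin (mu (f i))) × ((i : α) → Fin (mu (f i)))) :=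
  ⟨(fun i => ⟨0, (asm_mu_pos (hf i).two).1⟩, fun i => ⟨0, (asm_mu_pos (hf i).two).1⟩)⟩

end Sq

/-! ## Adding hyperbolic forms -/

section AddHyp

variable {R : Type} [CommRing R] {G : Type} [CommGroup G] {e : ℤˣ} {ι κ μ : Type} [Fintype ι]
  [DecidableEq ι] [Fintype κ] [DecidableEq κ] [Fintype μ] [DecidableEq μ]

theorem rep_add_hyp {ρ : G →* Matrix ι ι R} {σ : G →* Matrix κ κ R} {τ : G →* Matrix μ μ R}
    (h : RepIso (repSum ρ τ) (repSum σ τ)) :
    RepIso (repSum ρ (repSum τ (repDual τ))) (repSum σ (repSum τ (repDual τ))) :=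
  (repSum_assoc _ _ _).symm.trans ((h.sum (RepIso.refl _)).trans (repSum_assoc _ _ _))

theorem add_hyp_hyp (X : GForm R G e ι) (ρ : G →* Matrix κ κ R) (σ : G →* Matrix μ μ R) :
    ((X.add (GForm.hyp e ρ)).add (GForm.hyp e σ)).Iso (X.add (GForm.hyp e (repSum ρ σ))) :=
  (GForm.add_assoc _ _ _).trans ((GForm.Iso.refl X).add (GForm.hyp_sum ρ σ).symm)

end AddHyp

section Main

variable {D : ℕ} [NeZero D] {α β : Type} [Fintype α] [DecidableEq α] [Fintype β] [DecidableEq β]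
  {e : ℤˣ} {ι κ : Type} [Fintype ι] [DecidableEq ι] [Fintype κ] [DecidableEq κ]

theorem sqForm_trace (hD : Odd D) (f : α → List ℕ) (g : β → List ℕ) (hf : ∀ i, ChainOK D (f i))
    (hg : ∀ i, ChainOK D (g i))
    (hR : GForm.Iso ((sqForm D hD f hf).map (Int.castRingHom ℝ))
      ((sqForm D hD g hg).map (Int.castRingHom ℝ))) (k : ℕ) (a : Cyc D) :
    ((GForm.pow (Fin k) (sqForm D hD f hf)).ρ a).trace =
      ((GForm.pow (Fin k) (sqForm D hD g hg)).ρ a).trace := by
  have h1 : GForm.Iso ((GForm.pow (Fin k) (sqForm D hD f hf)).map (Int.castRingHom ℝ))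
      ((GForm.pow (Fin k) (sqForm D hD g hg)).map (Int.castRingHom ℝ)) :=
    (GForm.map_pow _ _).trans (hR.pow.trans (GForm.map_pow _ _).symm)
  have h2 := h1.rep.trace_eq a
  change (((GForm.pow (Fin k) (sqForm D hD f hf)).ρ a).map (Int.castRingHom ℝ)).trace =
    (((GForm.pow (Fin k) (sqForm D hD g hg)).ρ a).map (Int.castRingHom ℝ)).trace at h2
  have h3 : ∀ {ι : Type} [Fintype ι] (M : Matrix ι ι ℤ),
      (M.map (Int.castRingHom ℝ)).trace = ((M.trace : ℤ) : ℝ) := by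
    intro ι _ M
    simp [Matrix.trace]
  rw [h3, h3] at h2
  exact_mod_cast h2

theorem sqForm_stable (hD : Odd D) (hsq : Squarefree D) (f : α → List ℕ) (g : β → List ℕ)
    (hf : ∀ i, ChainOK D (f i)) (hg : ∀ i, ChainOK D (g i))
    (htr : ∀ a, ((sqForm D hD f hf).ρ a).trace = ((sqForm D hD g hg).ρ a).trace)
    (p : ℕ) [Fact p.Prime] (hp : p ∣ D) (k : ℕ) :
    StIso (repMap (Int.castRingHom ℤ_[p]) (Lam D))
      (repMap (Int.castRingHom ℤ_[p]) ((GForm.pow (Fin k) (sqForm D hD f hf)).ext E5).ρ)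
      (repMap (Int.castRingHom ℤ_[p]) ((GForm.pow (Fin k) (sqForm D hD g hg)).ext E5).ρ) := by
  obtain ⟨s, hs⟩ := B2a hD hsq f g hf hg htr p hp
  rw [repMap_repSum, repMap_repSum, repMap_repCopies, repMap_reg] at hs
  have h1 : StIso (repReg ℤ_[p] (Cyc D))
      (repMap (Int.castRingHom ℤ_[p]) (sqForm D hD f hf).ρ)
      (repMap (Int.castRingHom ℤ_[p]) (sqForm D hD g hg).ρ) := StIso.mk s hs
  have h2 := (h1.pow _ _ _ k).ext (repMap (Int.castRingHom ℤ_[p]) E5.ρ)
  rw [← repMap_ext, ← repMap_ext] at h2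
  have h3 : repExt (repReg ℤ_[p] (Cyc D)) (repMap (Int.castRingHom ℤ_[p]) E5.ρ) =
      repMap (Int.castRingHom ℤ_[p]) (repExt (repReg ℤ (Cyc D)) E5.ρ) := by
    rw [repMap_ext, repMap_reg]
  rw [h3] at h2
  exact h2

theorem middle_p (hD : Odd D) (hD5 : ¬ 5 ∣ D) (X : GForm ℤ (Cyc D × Cyc 5) e ι)
    (Y : GForm ℤ (Cyc D × Cyc 5) e κ)
    (hX : Phi5 X.ρ) (hY : Phi5 Y.ρ) (r : ℕ) (p : ℕ) [Fact p.Prime] (hpD : p ∣ D)
    (h1 : RepIso
      (repSum (repMap (Int.castRingHom ℤ_[p]) X.ρ)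
        (repCopies (Fin r) (repMap (Int.castRingHom ℤ_[p]) (Lam D))))
      (repSum (repMap (Int.castRingHom ℤ_[p]) Y.ρ)
        (repCopies (Fin r) (repMap (Int.castRingHom ℤ_[p]) (Lam D))))) :
    GForm.Iso
      ((X.add (GForm.hyp _ (repCopies (Fin r) (Lam D)))).map (Int.castRingHom ℤ_[p]))
      ((Y.add (GForm.hyp _ (repCopies (Fin r) (Lam D)))).map (Int.castRingHom ℤ_[p])) := by
  have hA' : Phi5 (X.add (GForm.hyp _ (repCopies (Fin r) (Lam D)))).ρ :=
    Phi5.add hX (Phi5.hyp (Phi5.copies _ phi5_Lam))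
  have hB' : Phi5 (Y.add (GForm.hyp _ (repCopies (Fin r) (Lam D)))).ρ :=
    Phi5.add hY (Phi5.hyp (Phi5.copies _ phi5_Lam))
  have hp2 : p ≠ 2 := by
    rintro rfl
    exact (Nat.not_even_iff_odd.mpr hD) (even_iff_two_dvd.mpr hpD)
  have hp5 : p ≠ 5 := by
    rintro rfl
    exact hD5 hpD
  refine B2b' p hp2 hp5 _ _ (Phi5.mapForm _ hA') ?_
  rw [← repMap_repCopies] at h1
  have h2 := rep_add_hyp h1
  rw [← repMap_dual, ← repMap_repSum, ← repMap_repSum, ← repMap_repSum] at h2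
  exact h2

theorem middle (hD : Odd D) (hD5 : ¬ 5 ∣ D) (X : GForm ℤ (Cyc D × Cyc 5) e ι)
    (Y : GForm ℤ (Cyc D × Cyc 5) e κ)
    (hX : Phi5 X.ρ) (hY : Phi5 Y.ρ)
    (hQ : GForm.Iso (X.map (Int.castRingHom ℚ)) (Y.map (Int.castRingHom ℚ)))
    (hS : ∀ (p : ℕ) [Fact p.Prime], p ∣ D → StIso (repMap (Int.castRingHom ℤ_[p]) (Lam D))
      (repMap (Int.castRingHom ℤ_[p]) X.ρ) (repMap (Int.castRingHom ℤ_[p]) Y.ρ)) :
    ∃ (n r : ℕ) (σ : Cyc D × Cyc 5 →* Matrix (Fin n) (Fin n) ℤ),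
      GForm.Iso (X.add (GForm.hyp e (repCopies (Fin r) (Lam D)))) (Y.add (GForm.hyp e σ)) ∧
      (∃ a : ℕ, RepIso (repSum σ (repSharp σ)) (repCopies (Fin a) (Lam D))) ∧
      (∀ (α β : Type) [Fintype α] [DecidableEq α] [Fintype β] [DecidableEq β]
        (X : Cyc D →* Matrix α α ℤ) (Y : Cyc D →* Matrix β β ℤ),
        (∀ a, (X a).trace = (Y a).trace) → ∃ a : ℕ, RepIso
          (repSum (repTensor (X.comp (MonoidHom.fst _ _)) σ) (repCopies (Fin a) (Lam D)))
          (repSum (repTensor (Y.comp (MonoidHom.fst _ _)) σ) (repCopies (Fin a) (Lam D)))) := by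
  -- the number of free summands
  obtain ⟨r, hr⟩ := exists_uniform D.primeFactors (fun p s => ∀ [Fact p.Prime], RepIso
      (repSum (repMap (Int.castRingHom ℤ_[p]) X.ρ)
        (repCopies (Fin s) (repMap (Int.castRingHom ℤ_[p]) (Lam D))))
      (repSum (repMap (Int.castRingHom ℤ_[p]) Y.ρ)
        (repCopies (Fin s) (repMap (Int.castRingHom ℤ_[p]) (Lam D))))) (by
    intro p hp
    have : Fact p.Prime := ⟨Nat.prime_of_mem_primeFactors hp⟩
    obtain ⟨s₀, hs₀⟩ := hS p (Nat.dvd_of_mem_primeFactors hp)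
    exact ⟨s₀, fun s hs _ => hs₀ s hs⟩)
  have hA' : Phi5 (X.add (GForm.hyp _ (repCopies (Fin r) (Lam D)))).ρ :=
    Phi5.add hX (Phi5.hyp (Phi5.copies _ phi5_Lam))
  have hB' : Phi5 (Y.add (GForm.hyp _ (repCopies (Fin r) (Lam D)))).ρ :=
    Phi5.add hY (Phi5.hyp (Phi5.copies _ phi5_Lam))
  have hQ' : GForm.Iso
      ((X.add (GForm.hyp _ (repCopies (Fin r) (Lam D)))).map (Int.castRingHom ℚ))
      ((Y.add (GForm.hyp _ (repCopies (Fin r) (Lam D)))).map (Int.castRingHom ℚ)) :=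
    (GForm.map_add _ _ _).trans ((hQ.add (GForm.Iso.refl _)).trans (GForm.map_add _ _ _).symm)
  have hp' : ∀ p ∈ D.primeFactors, ∀ [Fact p.Prime], GForm.Iso
      ((X.add (GForm.hyp _ (repCopies (Fin r) (Lam D)))).map (Int.castRingHom ℤ_[p]))
      ((Y.add (GForm.hyp _ (repCopies (Fin r) (Lam D)))).map (Int.castRingHom ℤ_[p])) :=
    fun p hp _ => middle_p hD hD5 X Y hX hY r p (Nat.dvd_of_mem_primeFactors hp) (hr p hp)
  obtain ⟨P, Q, hQP, hPQ, hPg, hPρ, hden⟩ := B3 D.primeFactors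
    (fun p hp => Nat.prime_of_mem_primeFactors hp) _ _ hA' hB' hQ' hp'
  have hPc : ∀ i j, (P i j).den.Coprime D := fun i j => by
    refine (Nat.coprime_of_dvd fun p hp hpd hpD => ?_)
    exact (hden p (Nat.mem_primeFactors.mpr ⟨hp, hpD, NeZero.ne D⟩)).1 i j hpd
  have hQc : ∀ i j, (Q i j).den.Coprime D := fun i j => by
    refine (Nat.coprime_of_dvd fun p hp hpd hpD => ?_)
    exact (hden p (Nat.mem_primeFactors.mpr ⟨hp, hpD, NeZero.ne D⟩)).2 i j hpd
  obtain ⟨n, r', σ, h1, h2, h3⟩ := N hD5 _ _ hA' hB' P Q hQP hPQ hPg hPρ hPc hQc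
  -- collect the hyperbolic parts
  obtain ⟨n', σ', hσ⟩ := exists_fin_rep (repSum (repCopies (Fin r) (Lam D)) σ)
  refine ⟨n', r + r', σ', ?_, ?_, ?_⟩
  · refine GForm.Iso.trans ?_ (h1.trans ?_)
    · exact ((GForm.Iso.refl X).add (GForm.hyp_congr (repCopies_add r r' (Lam D)))).trans
        (add_hyp_hyp _ _ _).symm
    · exact (add_hyp_hyp _ _ _).trans ((GForm.Iso.refl Y).add (GForm.hyp_congr hσ))
  · obtain ⟨a, ha⟩ := h2
    refine ⟨(r + r) + a, ?_⟩
    have h4 := hσ.sharp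
    rw [repSharp_repSum] at h4
    refine (hσ.symm.sum h4.symm).trans ?_
    refine (repSum_comm4 _ _ _ _).trans ?_
    refine RepIso.trans ?_ (repCopies_add (r + r) a (Lam D)).symm
    refine RepIso.sum ?_ ha
    exact ((RepIso.refl _).sum (Lam_copies_sharp r)).trans (repCopies_add r r (Lam D)).symm
  · intro α' β' _ _ _ _ X' Y' htr'
    have hcard : Fintype.card α' = Fintype.card β' := by
      have := htr' 1
      rw [map_one, map_one, Matrix.trace_one, Matrix.trace_one] at this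
      exact_mod_cast this
    obtain ⟨a, ha⟩ := h3 α' β' X' Y' htr'
    refine ⟨a, ?_⟩
    have key : ∀ {γ : Type} [Fintype γ] [DecidableEq γ] (Z : Cyc D →* Matrix γ γ ℤ),
        RepIso (repSum (repTensor (Z.comp (MonoidHom.fst (Cyc D) (Cyc 5))) σ')
          (repCopies (Fin a) (Lam D)))
        (repSum (repCopies (Fin (r * Fintype.card γ)) (Lam D))
          (repSum (repTensor (Z.comp (MonoidHom.fst (Cyc D) (Cyc 5))) σ)
          (repCopies (Fin a) (Lam D)))) := by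
      intro γ _ _ Z
      refine RepIso.trans (RepIso.sum ?_ (RepIso.refl _)) (repSum_assoc _ _ _)
      refine ((RepIso.refl _).tensor hσ.symm).trans ((repTensor_sum _ _ _).trans
        (RepIso.sum ?_ (RepIso.refl _)))
      exact tensor_copies_absorb _ (Lam_absorb Z) r
    refine (key X').trans (RepIso.trans ?_ (key Y').symm)
    rw [hcard]
    exact (RepIso.refl _).sum ha

theorem assembly (hD : Odd D) (hD5 : ¬ 5 ∣ D) (hsq : Squarefree D) (h5 : 5 ≤ D)
    (f : α → List ℕ) (g : β → List ℕ) (hf : ∀ i, ChainOK D (f i)) (hg : ∀ i, ChainOK D (g i))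
    (hR : GForm.Iso (((sumForm D hD f hf).mul (sumForm D hD f hf)).map (Int.castRingHom ℝ))
      (((sumForm D hD g hg).mul (sumForm D hD g hg)).map (Int.castRingHom ℝ))) :
    ∃ k m : ℕ, 0 < k ∧ CongR (seifert (bigFam k m D f)) (seifert (bigFam k m D g)) := by
  have hR' : GForm.Iso ((sqForm D hD f hf).map (Int.castRingHom ℝ))
      ((sqForm D hD g hg).map (Int.castRingHom ℝ)) := hR
  have htr : ∀ a, ((sqForm D hD f hf).ρ a).trace = ((sqForm D hD g hg).ρ a).trace := by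
    intro a
    have h1 := sqForm_trace hD f g hf hg hR' 1 a
    have h2 := ((GForm.pow_congr_idx (Equiv.ofUnique (Fin 1) Unit) (sqForm D hD f hf)).trans
      (GForm.pow_unit _)).rep.trace_eq a
    have h3 := ((GForm.pow_congr_idx (Equiv.ofUnique (Fin 1) Unit) (sqForm D hD g hg)).trans
      (GForm.pow_unit _)).rep.trace_eq a
    rw [← h2, ← h3, h1]
  have hcop : D.Coprime 5 := ((Nat.Prime.coprime_iff_not_dvd Nat.prime_five).mpr hD5).symm
  obtain ⟨k, hk, hQ⟩ := B1 hD hcop (sqForm D hD f hf) (sqForm D hD g hg) hR'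
  obtain ⟨n', r, σ', h1', h2', h3'⟩ := middle hD hD5 _ _ (phi5_ext _) (phi5_ext _) hQ
    fun p _ hp => sqForm_stable hD hsq f g hf hg htr p hp k
  obtain ⟨s, hs⟩ := B5 (GForm.pow (Fin k) (sqForm D hD f hf))
    (GForm.pow (Fin k) (sqForm D hD g hg)) (sqForm_trace hD f g hf hg hR' k)
    (GForm.bar_pow_iso (sqForm_bar hD f hf)) (GForm.bar_pow_iso (sqForm_bar hD g hg))
    n' r σ' h1' h2' h3'
  obtain ⟨n0, C0, hC0⟩ := B6a (D := D) hD (by omega) h5
  obtain ⟨m, hm⟩ := B6b hD _ _ s hs (by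
    have := sqForm_nonempty f hf
    infer_instance) (C3 D hD (by omega)) n0 C0 hC0
  refine ⟨k, m, hk, ?_⟩
  exact (bigFam_congR hD (by omega) f hf k m (Int.units_mul_self _)).trans
    (hm.seif5.trans (bigFam_congR hD (by omega) g hg k m (Int.units_mul_self _)).symm)

end Main

/-- **Theorem (⋆)**: two sums of chain polynomials in the same number of variables, of orders
`3` and `2`, with isomorphic integral Seifert forms. -/
theorem star : Star := by
  obtain ⟨a, b, f, g, hf, hg, hlast, hlt, hR⟩ := partA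
  have hsq : Squarefree 14367 := by
    rw [show 14367 = 3 * 4789 by norm_num, Nat.squarefree_mul (by norm_num)]
    exact ⟨(Nat.prime_iff.mp (by norm_num)).squarefree, (Nat.prime_iff.mp (by norm_num)).squarefree⟩
  obtain ⟨k, m, hk, h⟩ := assembly (D := 14367) (by decide) (by norm_num) hsq
    (by norm_num) f g hf hg hR
  obtain ⟨q, hq⟩ : ∃ q, q = 4 * k * (∑ i, (f i).length - ∑ i, (g i).length) := ⟨_, rfl⟩
  have hq4 : 4 ≤ q := by
    rw [hq]
    have : 1 ≤ k * (∑ i, (f i).length - ∑ i, (g i).length) := Nat.mul_pos hk (by omega)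
    calc 4 = 4 * 1 := rfl
      _ ≤ 4 * (k * (∑ i, (f i).length - ∑ i, (g i).length)) := Nat.mul_le_mul_left _ this
      _ = _ := by ring
  let F0 : BigIdx k m (Fin a) ⊕ Fin 2 → List ℕ :=
    Sum.elim (bigFam k m 14367 f) fun _ => [3]
  let G0 : (BigIdx k m (Fin b) ⊕ Fin 2) ⊕ Fin q → List ℕ :=
    Sum.elim (Sum.elim (bigFam k m 14367 g) fun _ => [3]) fun _ => [2]
  have hF0 : ∀ i, F0 i ≠ [] ∧ ∀ x ∈ F0 i, 2 ≤ x := by
    rintro (i | i)
    · exact bigFam_forall k m _ f (fun c => c ≠ [] ∧ ∀ x ∈ c, 2 ≤ x)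
        (fun i => ⟨(hf i).ne, (hf i).two⟩) (by simp) (by simp) i
    · simp [F0]
  have hG0 : ∀ i, G0 i ≠ [] ∧ ∀ x ∈ G0 i, 2 ≤ x := by
    rintro ((i | i) | i)
    · exact bigFam_forall k m _ g (fun c => c ≠ [] ∧ ∀ x ∈ c, 2 ≤ x)
        (fun i => ⟨(hg i).ne, (hg i).two⟩) (by simp) (by simp) i
    · simp [G0]
    · simp [G0]
  have hF0l : ∀ i, ∃ (l : List ℕ) (x : ℕ), F0 i = l ++ [x] ∧ 3 ≤ x := by
    rintro (i | i)
    · exact bigFam_forall k m _ f (fun c => ∃ (l : List ℕ) (x : ℕ), c = l ++ [x] ∧ 3 ≤ x)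
        hlast ⟨[], 14367, rfl, by norm_num⟩ ⟨[], 5, rfl, by norm_num⟩ i
    · exact ⟨[], 3, rfl, le_rfl⟩
  have hlenF : ∑ i, (F0 i).length = 4 * k * ∑ i, (f i).length + 3 * m + 3 := by
    rw [Fintype.sum_sum_type]
    change ∑ i, (bigFam k m 14367 f i).length + ∑ i : Fin 2, [3].length = _
    rw [bigFam_length]
    simp
  have hlenG : ∑ i, (G0 i).length = 4 * k * ∑ i, (g i).length + 3 * m + 3 + q := by
    rw [Fintype.sum_sum_type, Fintype.sum_sum_type]
    change ∑ i, (bigFam k m 14367 g i).length + ∑ i : Fin 2, [3].length +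
      ∑ i : Fin q, [2].length = _
    rw [bigFam_length]
    simp
  have hcong : CongR (seifert F0) (seifert G0) := by
    refine CongR.trans ?_ (seifert_add_two (ν := Fin q)
      (Sum.elim (bigFam k m 14367 g) fun _ : Fin 2 => [3])).symm
    exact (seifert_sum _ _).trans ((h.kron (CongR.refl _)).trans (seifert_sum _ _).symm)
  refine Star.of_fintype F0 G0 ?_ ?_ (fun i => (hF0 i).1) (fun i => (hG0 i).1)
    (fun i => (hF0 i).2) (fun i => (hG0 i).2) hF0l ⟨Sum.inr 0, rfl⟩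
    ⟨Sum.inr ⟨0, by omega⟩, rfl⟩ ?_ ?_ hcong
  · rw [Fintype.card_sum, Fintype.card_fin]
    omega
  · rw [Fintype.card_sum, Fintype.card_fin]
    omega
  · rw [hlenF, hlenG, hq, Nat.mul_sub]
    have : 4 * k * ∑ i, (g i).length ≤ 4 * k * ∑ i, (f i).length :=
      Nat.mul_le_mul_left _ hlt.le
    omega
  · rw [hlenF]
    have : 1 ≤ k * ∑ i, (f i).length := Nat.mul_pos hk (by omega)
    nlinarith

end Vale.Agent.P268.Z
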