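import Vale.Agent.P268.Z.CycConj
import Vale.Agent.P268.Z.Seif

/-!
# P268: representations of `C_D` over `ℤ` and over local rings with `p ∤ D`: equal traces give
isomorphic reductions, with equivariant lifts
-/

namespace Vale.Agent.P268.Z

open Polynomial Matrix

section Field

variable {K : Type} [Field K] {α β : Type} [Fintype α] [DecidableEq α] [Fintype β]
  [DecidableEq β]

theorem mat_of_equiv (T : Matrix α α K) (S : Matrix β β K)
    (E : (α → K) ≃ₗ[K] (β → K)) (hE : ∀ x, E (T.toLin' x) = S.toLin' (E x)) :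
    ∃ (P : Matrix β α K) (Q : Matrix α β K), Q * P = 1 ∧ P * Q = 1 ∧ P * T = S * P := by
  refine ⟨LinearMap.toMatrix' E.toLinearMap, LinearMap.toMatrix' E.symm.toLinearMap, ?_, ?_, ?_⟩
  · rw [← LinearMap.toMatrix'_comp]
    simp
  · rw [← LinearMap.toMatrix'_comp]
    simp
  · apply Matrix.toLin'.injective
    rw [Matrix.toLin'_mul, Matrix.toLin'_mul, Matrix.toLin'_toMatrix']
    exact LinearMap.ext hE

theorem conj_of_charpoly (D : ℕ) (hD : (D : K) ≠ 0) (T : Matrix α α K) (S : Matrix β β K)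
    (hT : T ^ D = 1) (hS : S ^ D = 1) (hc : T.charpoly = S.charpoly) :
    ∃ (P : Matrix β α K) (Q : Matrix α β K), Q * P = 1 ∧ P * Q = 1 ∧ P * T = S * P := by
  obtain ⟨E, hE⟩ := conj_of_charpoly_aux D hD _ (α → K) (β → K) T.toLin' S.toLin' le_rfl
    (by rw [← Matrix.toLin'_pow, hT, Matrix.toLin'_one]; rfl)
    (by rw [← Matrix.toLin'_pow, hS, Matrix.toLin'_one]; rfl)
    (by rw [Matrix.charpoly_toLin', Matrix.charpoly_toLin', hc])
  exact mat_of_equiv T S E hE

theorem conj_of_trace [CharZero K] (D : ℕ) (hD : (D : K) ≠ 0) (T : Matrix α α K)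
    (S : Matrix β β K) (hT : T ^ D = 1) (hS : S ^ D = 1)
    (hc : ∀ k : ℕ, (T ^ k).trace = (S ^ k).trace) :
    ∃ (P : Matrix β α K) (Q : Matrix α β K), Q * P = 1 ∧ P * Q = 1 ∧ P * T = S * P := by
  obtain ⟨E, hE⟩ := conj_of_trace_aux D hD _ (α → K) (β → K) T.toLin' S.toLin' le_rfl
    (by rw [← Matrix.toLin'_pow, hT, Matrix.toLin'_one]; rfl)
    (by rw [← Matrix.toLin'_pow, hS, Matrix.toLin'_one]; rfl)
    (fun k => by
      rw [← Matrix.toLin'_pow, ← Matrix.toLin'_pow, Matrix.trace_toLin'_eq,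
        Matrix.trace_toLin'_eq, hc])
  exact mat_of_equiv T S E hE

end Field

section

variable {R : Type} [CommRing R] {α β : Type} [Fintype α] [DecidableEq α] [Fintype β]
  [DecidableEq β]

theorem charpoly_of_conj (T : Matrix α α R) (S : Matrix β β R) (P : Matrix β α R)
    (Q : Matrix α β R) (hQP : Q * P = 1) (hPQ : P * Q = 1) (h : P * T = S * P) :
    T.charpoly = S.charpoly := by
  nontriviality R
  have hc : Fintype.card α = Fintype.card β := by
    exact Matrix.square_of_invertible _ _ hQP hPQ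
  have h1 : S = P * T * Q := by rw [h, Matrix.mul_assoc, hPQ, Matrix.mul_one]
  have := Matrix.charpoly_mul_comm' (P * T) Q
  rw [← h1, ← Matrix.mul_assoc, hQP, Matrix.one_mul, hc] at this
  exact ((monic_X_pow (R := R) (Fintype.card β)).isRegular.left this).symm

/-- Equal traces of powers give equal characteristic polynomials. -/
theorem charpoly_of_trace [IsDomain R] [CharZero R] (D : ℕ) (hD : D ≠ 0) (T : Matrix α α R)
    (S : Matrix β β R) (hT : T ^ D = 1) (hS : S ^ D = 1)
    (hc : ∀ k : ℕ, (T ^ k).trace = (S ^ k).trace) : T.charpoly = S.charpoly := by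
  let φ : R →+* FractionRing R := algebraMap R (FractionRing R)
  have hφ : Function.Injective φ := IsFractionRing.injective R (FractionRing R)
  have : CharZero (FractionRing R) := charZero_of_injective_algebraMap hφ
  obtain ⟨P, Q, hQP, hPQ, h⟩ := conj_of_trace (K := FractionRing R) D (by exact_mod_cast hD)
    (φ.mapMatrix T) (φ.mapMatrix S) (by rw [← map_pow, hT, map_one])
    (by rw [← map_pow, hS, map_one]) (fun k => by
      rw [← map_pow, ← map_pow]
      have := congrArg φ (hc k)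
      simpa [Matrix.trace] using this)
  have h1 := charpoly_of_conj _ _ P Q hQP hPQ h
  rw [RingHom.mapMatrix_apply, RingHom.mapMatrix_apply, Matrix.charpoly_map,
    Matrix.charpoly_map] at h1
  exact Polynomial.map_injective φ hφ h1

end

/-- Averaging. -/
theorem avg_comm {R : Type} [CommRing R] {G : Type} [CommGroup G] [Fintype G]
    {α β : Type} [Fintype α] [DecidableEq α] [Fintype β] [DecidableEq β]
    (X : G →* Matrix α α R) (Y : G →* Matrix β β R) (P : Matrix β α R) (a : G) :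
    (∑ b : G, Y b * P * X b⁻¹) * X a = Y a * (∑ b : G, Y b * P * X b⁻¹) := by
  rw [Matrix.sum_mul, Matrix.mul_sum]
  refine Fintype.sum_equiv (Equiv.mulLeft a⁻¹) _ _ fun b => ?_
  rw [Equiv.coe_mulLeft, ← Matrix.mul_assoc, ← Matrix.mul_assoc, ← map_mul, mul_inv_cancel_left,
    Matrix.mul_assoc _ (X b⁻¹), ← map_mul]
  congr 2
  rw [mul_inv, inv_inv, mul_comm]

/-- Lifting an equivariant isomorphism along a surjection `R → K`, `D` invertible in `K`. -/
theorem exists_lift {R : Type} [CommRing R] {K : Type} [Field K] (φ : R →+* K)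
    (hφ : Function.Surjective φ) {D : ℕ} [NeZero D] (hD : (D : K) ≠ 0)
    {α β : Type} [Fintype α] [DecidableEq α] [Fintype β] [DecidableEq β]
    (X : Cyc D →* Matrix α α R) (Y : Cyc D →* Matrix β β R)
    (hc : (φ.mapMatrix (X (Cyc.gen D))).charpoly = (φ.mapMatrix (Y (Cyc.gen D))).charpoly) :
    ∃ (F : Matrix β α R) (F' : Matrix α β R), (∀ a, F * X a = Y a * F) ∧
      (∀ a, F' * Y a = X a * F') ∧ φ.mapMatrix (F' * F) = 1 ∧ φ.mapMatrix (F * F') = 1 := by
  have hgen : ∀ a : Cyc D, a = (Cyc.gen D) ^ (Multiplicative.toAdd a).val := by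
    intro a
    apply Multiplicative.toAdd.injective
    rw [toAdd_pow, Cyc.gen, toAdd_ofAdd, nsmul_eq_mul, mul_one, ZMod.natCast_zmod_val]
  have hcard : (Cyc.gen D) ^ D = 1 := by
    apply Multiplicative.toAdd.injective
    rw [toAdd_pow, Cyc.gen, toAdd_ofAdd, nsmul_eq_mul, mul_one, ZMod.natCast_self, toAdd_one]
  obtain ⟨P, Q, hQP, hPQ, h⟩ := conj_of_charpoly D hD (φ.mapMatrix (X (Cyc.gen D)))
    (φ.mapMatrix (Y (Cyc.gen D))) (by rw [← map_pow, ← map_pow, hcard, map_one, map_one])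
    (by rw [← map_pow, ← map_pow, hcard, map_one, map_one]) hc
  have hP : ∀ a, P * φ.mapMatrix (X a) = φ.mapMatrix (Y a) * P := by
    intro a
    rw [hgen a, map_pow, map_pow, map_pow, map_pow]
    generalize (Multiplicative.toAdd a).val = k
    induction k with
    | zero => simp
    | succ k ih => rw [pow_succ, ← Matrix.mul_assoc, ih, Matrix.mul_assoc, h, pow_succ,
        Matrix.mul_assoc]
  have hQ : ∀ a, Q * φ.mapMatrix (Y a) = φ.mapMatrix (X a) * Q := by
    intro a
    have := congrArg (fun M => Q * M * Q) (hP a)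
    beta_reduce at this
    rw [← Matrix.mul_assoc, hQP, Matrix.one_mul, ← Matrix.mul_assoc, Matrix.mul_assoc _ P, hPQ,
      Matrix.mul_one] at this
    exact this.symm
  obtain ⟨D', hD'⟩ := hφ ((D : K)⁻¹)
  choose s hs using hφ
  have hmap : ∀ {γ δ : Type} [Fintype γ] [Fintype δ] (M : Matrix γ δ K), (M.map s).map φ = M := by
    intro γ δ _ _ M
    ext i j
    simp [hs]
  have hcardD : Fintype.card (Cyc D) = D := by
    rw [Fintype.card_multiplicative, ZMod.card]
  have key : ∀ {γ δ : Type} [Fintype γ] [DecidableEq γ] [Fintype δ] [DecidableEq δ]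
      (X : Cyc D →* Matrix γ γ R) (Y : Cyc D →* Matrix δ δ R) (P : Matrix δ γ K),
      (∀ a, P * φ.mapMatrix (X a) = φ.mapMatrix (Y a) * P) →
      (D' • ∑ b : Cyc D, Y b * (P.map s) * X b⁻¹).map φ = P := by
    intro γ δ _ _ _ _ X Y P hP
    have h1 : (∑ b : Cyc D, Y b * (P.map s) * X b⁻¹).map φ = (D : K) • P := by
      have h2 : (∑ b : Cyc D, Y b * (P.map s) * X b⁻¹).map φ =
          ∑ b : Cyc D, (Y b * (P.map s) * X b⁻¹).map φ := by
        ext i j
        rw [Matrix.map_apply, Matrix.sum_apply, Matrix.sum_apply, map_sum]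
        rfl
      rw [h2]
      have h3 : ∀ b : Cyc D, (Y b * (P.map s) * X b⁻¹).map φ = P := by
        intro b
        rw [Matrix.map_mul, Matrix.map_mul, hmap]
        have := hP b
        rw [RingHom.mapMatrix_apply, RingHom.mapMatrix_apply] at this
        rw [← this, Matrix.mul_assoc, ← Matrix.map_mul, ← map_mul, mul_inv_cancel, map_one]
        simp
      rw [Finset.sum_congr rfl fun b _ => h3 b, Finset.sum_const, Finset.card_univ, hcardD,
        Nat.cast_smul_eq_nsmul]
    have h4 : (D' • ∑ b : Cyc D, Y b * (P.map s) * X b⁻¹).map φ =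
        φ D' • (∑ b : Cyc D, Y b * (P.map s) * X b⁻¹).map φ := by
      ext i j
      rw [Matrix.map_apply, Matrix.smul_apply, Matrix.smul_apply, Matrix.map_apply, smul_eq_mul,
        map_mul, smul_eq_mul]
    rw [h4, h1, hD', smul_smul, inv_mul_cancel₀ hD, one_smul]
  have e1 := key X Y P hP
  have e2 := key Y X Q hQ
  refine ⟨D' • ∑ b : Cyc D, Y b * (P.map s) * X b⁻¹, D' • ∑ b : Cyc D, X b * (Q.map s) * Y b⁻¹,
    ?_, ?_, ?_, ?_⟩
  · intro a
    rw [Matrix.smul_mul, avg_comm, Matrix.mul_smul]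
  · intro a
    rw [Matrix.smul_mul, avg_comm, Matrix.mul_smul]
  · rw [RingHom.mapMatrix_apply, Matrix.map_mul, e1, e2, hQP]
  · rw [RingHom.mapMatrix_apply, Matrix.map_mul, e1, e2, hPQ]

/-- Over a local domain of characteristic zero with residue characteristic prime to `D`,
representations of `C_D` with equal traces are isomorphic. -/
theorem repIso_of_trace {R : Type} [CommRing R] [IsDomain R] [CharZero R] {K : Type} [Field K]
    (φ : R →+* K) (hφ : Function.Surjective φ) (hu : ∀ x, φ x ≠ 0 → IsUnit x)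
    {D : ℕ} [NeZero D] (hD : (D : K) ≠ 0)
    {α β : Type} [Fintype α] [DecidableEq α] [Fintype β] [DecidableEq β]
    (X : Cyc D →* Matrix α α R) (Y : Cyc D →* Matrix β β R)
    (htr : ∀ a, (X a).trace = (Y a).trace) : RepIso X Y := by
  have hcard : (Cyc.gen D) ^ D = 1 := by
    apply Multiplicative.toAdd.injective
    rw [toAdd_pow, Cyc.gen, toAdd_ofAdd, nsmul_eq_mul, mul_one, ZMod.natCast_self, toAdd_one]
  have hc := charpoly_of_trace D (NeZero.ne D) (X (Cyc.gen D)) (Y (Cyc.gen D))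
    (by rw [← map_pow, hcard, map_one]) (by rw [← map_pow, hcard, map_one])
    (fun k => by rw [← map_pow, ← map_pow, htr])
  obtain ⟨F, F', h1, h2, h3, h4⟩ := exists_lift φ hφ hD X Y (by
    rw [RingHom.mapMatrix_apply, RingHom.mapMatrix_apply, Matrix.charpoly_map,
      Matrix.charpoly_map, hc])
  have u1 : IsUnit (F' * F).det := by
    apply hu
    rw [RingHom.map_det, h3, Matrix.det_one]
    exact one_ne_zero
  have u2 : IsUnit (F * F').det := by
    apply hu
    rw [RingHom.map_det, h4, Matrix.det_one]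
    exact one_ne_zero
  have h5 : (F' * F)⁻¹ * F' * F = 1 := by
    rw [Matrix.mul_assoc]
    exact Matrix.nonsing_inv_mul _ u1
  have h6 : F * (F' * (F * F')⁻¹) = 1 := by
    rw [← Matrix.mul_assoc]
    exact Matrix.mul_nonsing_inv _ u2
  have h7 : (F' * F)⁻¹ * F' = F' * (F * F')⁻¹ := by
    calc (F' * F)⁻¹ * F' = (F' * F)⁻¹ * F' * (F * (F' * (F * F')⁻¹)) := by rw [h6, Matrix.mul_one]
      _ = ((F' * F)⁻¹ * F' * F) * (F' * (F * F')⁻¹) := by rw [Matrix.mul_assoc _ F]
      _ = _ := by rw [h5, Matrix.one_mul]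
  exact ⟨F, (F' * F)⁻¹ * F', h5, by rw [h7, h6], h1⟩

/-- The `p`-adic case. -/
theorem repIso_padic (p : ℕ) [Fact p.Prime] {D : ℕ} [NeZero D] (hD : ¬ p ∣ D)
    {α β : Type} [Fintype α] [DecidableEq α] [Fintype β] [DecidableEq β]
    (X : Cyc D →* Matrix α α ℤ_[p]) (Y : Cyc D →* Matrix β β ℤ_[p])
    (htr : ∀ a, (X a).trace = (Y a).trace) : RepIso X Y := by
  refine repIso_of_trace (PadicInt.toZMod (p := p)) ?_ ?_ ?_ X Y htr
  · intro x
    obtain ⟨n, rfl⟩ := ZMod.natCast_zmod_surjective x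
    exact ⟨n, map_natCast _ n⟩
  · intro x hx
    by_contra h
    apply hx
    rw [← RingHom.mem_ker, PadicInt.ker_toZMod]
    exact h
  · rwa [Ne, ZMod.natCast_eq_zero_iff]

/-- The integral case: equivariant maps inverse to each other modulo `p`. -/
theorem exists_lift_int (p : ℕ) (hp : p.Prime) {D : ℕ} [NeZero D] (hD : ¬ p ∣ D)
    {α β : Type} [Fintype α] [DecidableEq α] [Fintype β] [DecidableEq β]
    (X : Cyc D →* Matrix α α ℤ) (Y : Cyc D →* Matrix β β ℤ)
    (htr : ∀ a, (X a).trace = (Y a).trace) :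
    ∃ (F : Matrix β α ℤ) (F' : Matrix α β ℤ) (E : Matrix α α ℤ) (E' : Matrix β β ℤ),
      (∀ a, F * X a = Y a * F) ∧ (∀ a, F' * Y a = X a * F') ∧
      1 - F' * F = (p : ℤ) • E ∧ 1 - F * F' = (p : ℤ) • E' := by
  have hcard : (Cyc.gen D) ^ D = 1 := by
    apply Multiplicative.toAdd.injective
    rw [toAdd_pow, Cyc.gen, toAdd_ofAdd, nsmul_eq_mul, mul_one, ZMod.natCast_self, toAdd_one]
  have hc := charpoly_of_trace D (NeZero.ne D) (X (Cyc.gen D)) (Y (Cyc.gen D))
    (by rw [← map_pow, hcard, map_one]) (by rw [← map_pow, hcard, map_one])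
    (fun k => by rw [← map_pow, ← map_pow, htr])
  have : Fact p.Prime := ⟨hp⟩
  obtain ⟨F, F', h1, h2, h3, h4⟩ := exists_lift (Int.castRingHom (ZMod p))
    (ZMod.intCast_surjective) (D := D) (by rwa [Ne, ZMod.natCast_eq_zero_iff]) X Y (by
    rw [RingHom.mapMatrix_apply, RingHom.mapMatrix_apply, Matrix.charpoly_map,
      Matrix.charpoly_map, hc])
  have key : ∀ {γ : Type} [Fintype γ] [DecidableEq γ] (M : Matrix γ γ ℤ),
      (Int.castRingHom (ZMod p)).mapMatrix M = 1 → ∃ E : Matrix γ γ ℤ, 1 - M = (p : ℤ) • E := by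
    intro γ _ _ M hM
    refine ⟨Matrix.of fun i j => (1 - M) i j / p, ?_⟩
    ext i j
    rw [Matrix.smul_apply, Matrix.of_apply, smul_eq_mul]
    refine (Int.mul_ediv_cancel' ?_).symm
    rw [← ZMod.intCast_zmod_eq_zero_iff_dvd]
    have h5 : ((M i j : ℤ) : ZMod p) = (1 : Matrix γ γ (ZMod p)) i j :=
      congrFun (congrFun hM i) j
    have h6 : (((1 : Matrix γ γ ℤ) i j : ℤ) : ZMod p) = (1 : Matrix γ γ (ZMod p)) i j := by
      rw [Matrix.one_apply, Matrix.one_apply]
      split_ifs <;> simp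
    rw [Matrix.sub_apply, Int.cast_sub, h5, h6, sub_self]
  obtain ⟨E, hE⟩ := key _ h3
  obtain ⟨E', hE'⟩ := key _ h4
  exact ⟨F, F', E, E', h1, h2, hE, hE'⟩

end Vale.Agent.P268.Z
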