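import Vale.Agent.P268.Z.B2aPerm
import Vale.Agent.P268.Z.CycRep

/-!
# P268 / B2a: assembly (relative to the syzygy module and the complement lemma)
-/

namespace Vale.Agent.P268.Z

set_option linter.unusedSectionVars false

open Matrix Polynomial

/-- The Chinese remainder isomorphism of cyclic groups. -/
noncomputable def crt (p n : ℕ) (h : p.Coprime n) : Cyc p × Cyc n ≃* Cyc (p * n) where
  toFun x := Multiplicative.ofAdd
    ((ZMod.chineseRemainder h).symm (Multiplicative.toAdd x.1, Multiplicative.toAdd x.2))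
  invFun y := (Multiplicative.ofAdd (ZMod.chineseRemainder h (Multiplicative.toAdd y)).1,
    Multiplicative.ofAdd (ZMod.chineseRemainder h (Multiplicative.toAdd y)).2)
  left_inv x := by simp
  right_inv y := by simp
  map_mul' x y := by
    rw [← ofAdd_add, ← map_add]
    simp

section

variable {R : Type} [CommRing R] {ν : Type} [Fintype ν] [DecidableEq ν]

theorem chRep_apply (D : ℕ) [NeZero D] (c : List ℕ) (h : (Tc c ^ dl c) ^ D = 1) (x : Cyc D) :
    chRep D c h x = Tc c ^ (dl c * (Multiplicative.toAdd x).val) := by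
  rw [chRep, cycRep_apply, pow_mul]

theorem TT_chain (p n : ℕ) [NeZero p] [NeZero n] [NeZero (p * n)] (hp : p.Prime)
    (hpn : p.Coprime n) (hH : IsUnit ((Fintype.card (Cyc n) : ℕ) : R))
    {J : Cyc p →* Matrix ν ν R} (SJ : Syz (Cyc p) J) (f : ℤ →+* R)
    (φ : Cyc p × Cyc n ≃* Cyc (p * n)) (c : List ℕ) (h2 : ∀ a ∈ c, 2 ≤ a)
    (hc : c.prod ∣ dl c * (p * n)) (h1 : (Tc c ^ dl c) ^ (p * n) = 1) :
    TT J ((repMap f (chRep (p * n) c h1)).comp (φ : Cyc p × Cyc n →* Cyc (p * n))) := by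
  induction c with
  | nil =>
    apply TT.of_trivial
    intro g
    change ((chRep (p * n) [] h1) (φ (g, 1))).map f = 1
    rw [chRep_apply]
    simp [dl]
  | cons a t ih =>
    have hP : Pos (a :: t) := fun b hb => lt_of_lt_of_le two_pos (h2 b hb)
    have h2' : ∀ a ∈ t, 2 ≤ a := fun b hb => h2 b (List.mem_cons_of_mem _ hb)
    by_cases hn : (a :: t).prod ∣ dl (a :: t) * n
    · apply TT.of_trivial
      intro g
      change ((chRep (p * n) (a :: t) h1) (φ (g, 1))).map f = 1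
      rw [chRep_apply]
      set k := (Multiplicative.toAdd (φ (g, 1))).val with hk
      have h3 : (φ (g, 1)) ^ p = 1 := by
        rw [← map_pow]
        have : ((g, 1) : Cyc p × Cyc n) ^ p = 1 := by
          ext
          · rw [Prod.pow_fst, ← gen_pow_val g, ← pow_mul, mul_comm, pow_mul, gen_pow_card,
              one_pow]
            rfl
          · simp
        rw [this, map_one]
      have h4 : p * n ∣ k * p := by
        rw [← gen_pow_val (φ (g, 1)), ← hk, ← pow_mul, gen_pow] at h3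
        have h5 : ((k * p : ℕ) : ZMod (p * n)) = 0 := by
          have := congrArg Multiplicative.toAdd h3
          simpa using this
        exact (ZMod.natCast_eq_zero_iff _ _).mp h5
      have h6 : n ∣ k := by
        rw [mul_comm k p] at h4
        exact Nat.dvd_of_mul_dvd_mul_left hp.pos h4
      have h7 : Tc (a :: t) ^ (dl (a :: t) * k) = 1 :=
        Tc_pow_one_of_dvd hP (dvd_trans hn (Nat.mul_dvd_mul_left _ h6))
      rw [h7]
      simp
    · have ht := tail_dvd hP hc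
      have h3 : (Tc t ^ dl t) ^ (p * n) = 1 := by
        rw [← pow_mul]; exact Tc_pow_one_of_dvd hP.tail ht
      have ih := ih h2' ht h3
      have hb : 0 < a * t.prod := by have := hP.prod; rwa [List.prod_cons] at this
      let _ : NeZero (a * t.prod) := ⟨hb.ne'⟩
      have hc' : a * t.prod ∣ mu t * (p * n) := by rwa [List.prod_cons] at hc
      have hn' : ¬ a * t.prod ∣ mu t * n := by rwa [List.prod_cons] at hn
      have h4 : (Sb (a * t.prod) ^ mu t) ^ (p * n) = 1 := by
        rw [← pow_mul]; exact Sb_pow_one_of_dvd hb hc'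
      obtain ⟨S⟩ := chain_ses (p * n) hP hc h3 h4 h1
      have hE := PP_shift p n (p * n) (a * t.prod) (mu t) hp hpn rfl hc' hn' h4 f φ
      refine TT.shift hH SJ ((S.map f).comp (φ : Cyc p × Cyc n →* Cyc (p * n))) hE ?_
      have h5 : (repMap f (repBar (chRep (p * n) t h3))).comp
          (φ : Cyc p × Cyc n →* Cyc (p * n)) = repBar ((repMap f (chRep (p * n) t h3)).comp
          (φ : Cyc p × Cyc n →* Cyc (p * n))) := by
        refine MonoidHom.ext fun x => ?_
        simp [repBar, repMap, map_inv]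
      rw [h5]
      exact ih.bar hH SJ

theorem cycRep_congr (D : ℕ) [NeZero D] {ι : Type} [Fintype ι] [DecidableEq ι]
    {T T' : Matrix ι ι R} (h : T = T') (h1 : T ^ D = 1) (h2 : T' ^ D = 1) :
    cycRep D T h1 = cycRep D T' h2 := by subst h; rfl

theorem chainForm_rho (D : ℕ) [NeZero D] (hD : Odd D) (c : List ℕ) (h : ChainOK D c)
    (h1 : (Tc c ^ dl c) ^ D = 1) : (chainForm D hD c h).ρ = chRep D c h1 := by
  have hP : Pos c := fun b hb => lt_of_lt_of_le two_pos (h.two b hb)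
  exact cycRep_congr D (mono_eq_Tc_pow hP) h.ord h1

theorem ChainOK.Tc_pow {D : ℕ} {c : List ℕ} (h : ChainOK D c) : (Tc c ^ dl c) ^ D = 1 := by
  have hP : Pos c := fun b hb => lt_of_lt_of_le two_pos (h.two b hb)
  rw [← mono_eq_Tc_pow hP]
  exact h.ord

theorem ChainOK.dvd {D : ℕ} {c : List ℕ} (h : ChainOK D c) : c.prod ∣ dl c * D := by
  apply dvd_of_Tc_pow h.two
  rw [pow_mul]
  exact h.Tc_pow

theorem repMap_pi {S : Type} [CommRing S] {G : Type} [CommGroup G] {α : Type} [Fintype α]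
    [DecidableEq α] {ι : α → Type} [∀ k, Fintype (ι k)] [∀ k, DecidableEq (ι k)] (f : R →+* S)
    (ρ : ∀ k, G →* Matrix (ι k) (ι k) R) :
    repMap f (repPi ρ) = repPi fun k => repMap f (ρ k) := by
  refine MonoidHom.ext fun x => ?_
  ext i j
  change f (∏ k, ρ k x (i k) (j k)) = ∏ k, f (ρ k x (i k) (j k))
  rw [map_prod]

theorem repMap_tensor {S : Type} [CommRing S] {G : Type} [CommGroup G] {ι κ : Type} [Fintype ι]
    [DecidableEq ι] [Fintype κ] [DecidableEq κ] (f : R →+* S) (ρ : G →* Matrix ι ι R)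
    (σ : G →* Matrix κ κ R) :
    repMap f (repTensor ρ σ) = repTensor (repMap f ρ) (repMap f σ) := by
  refine MonoidHom.ext fun x => ?_
  ext i j
  change f (ρ x i.1 j.1 * σ x i.2 j.2) = f (ρ x i.1 j.1) * f (σ x i.2 j.2)
  rw [map_mul]

theorem repMap_sum' {S : Type} [CommRing S] {G : Type} [CommGroup G] {ι κ : Type} [Fintype ι]
    [DecidableEq ι] [Fintype κ] [DecidableEq κ] (f : R →+* S) (ρ : G →* Matrix ι ι R)
    (σ : G →* Matrix κ κ R) :
    repMap f (repSum ρ σ) = repSum (repMap f ρ) (repMap f σ) := by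
  refine MonoidHom.ext fun x => ?_
  change (fromBlocks (ρ x) 0 0 (σ x)).map f = fromBlocks ((ρ x).map f) 0 0 ((σ x).map f)
  rw [fromBlocks_map]
  simp

theorem repMap_copies {S : Type} [CommRing S] {G : Type} [CommGroup G] {ι κ : Type} [Fintype ι]
    [DecidableEq ι] [Fintype κ] [DecidableEq κ] (f : R →+* S) (ρ : G →* Matrix ι ι R) :
    repMap f (repCopies κ ρ) = repCopies κ (repMap f ρ) := by
  rw [repCopies, repMap_tensor, repCopies]
  congr 1
  refine MonoidHom.ext fun x => ?_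
  change (1 : Matrix κ κ R).map f = 1
  simp

theorem TT_sumForm (p n : ℕ) [NeZero p] [NeZero n] [NeZero (p * n)] (hp : p.Prime)
    (hpn : p.Coprime n) (hH : IsUnit ((Fintype.card (Cyc n) : ℕ) : R))
    {J : Cyc p →* Matrix ν ν R} (SJ : Syz (Cyc p) J) (f : ℤ →+* R)
    (φ : Cyc p × Cyc n ≃* Cyc (p * n)) (hD : Odd (p * n)) {α : Type} [Fintype α]
    [DecidableEq α] (F : α → List ℕ) (hF : ∀ i, ChainOK (p * n) (F i)) :
    TT J ((repMap f (sumForm (p * n) hD F hF).ρ).comp
      (φ : Cyc p × Cyc n →* Cyc (p * n))) := by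
  have h1 : (repMap f (sumForm (p * n) hD F hF).ρ).comp (φ : Cyc p × Cyc n →* Cyc (p * n)) =
      repPi fun i => (repMap f (chRep (p * n) (F i) (hF i).Tc_pow)).comp
        (φ : Cyc p × Cyc n →* Cyc (p * n)) := by
    have h2 : (sumForm (p * n) hD F hF).ρ = repPi fun i => chRep (p * n) (F i) (hF i).Tc_pow := by
      change repPi (fun i => (chainForm (p * n) hD (F i) (hF i)).ρ) = _
      congr 1
      funext i
      exact chainForm_rho _ hD _ _ _
    rw [h2, repMap_pi]
    rfl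
  rw [h1]
  exact TT.pi hH SJ α _ _ fun i => TT_chain p n hp hpn hH SJ f φ (F i) (hF i).two (hF i).dvd _

end

theorem B2a_of (hSyz : ∀ (p : ℕ) [Fact p.Prime] [NeZero p], ∃ (ν : Type) (_ : Fintype ν)
      (_ : DecidableEq ν) (J : Cyc p →* Matrix ν ν ℤ_[p]), Nonempty (Syz (Cyc p) J))
    (hC : ∀ (p : ℕ) [Fact p.Prime] (n : ℕ) [NeZero n], IsUnit ((n : ℕ) : ℤ_[p]) →
      ∀ (α : Type) [Fintype α] [DecidableEq α] (X : Cyc n →* Matrix α α ℤ_[p]),
      ∃ (β : Type) (_ : Fintype β) (_ : DecidableEq β) (Y : Cyc n →* Matrix β β ℤ_[p]),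
        RepIso (repSum X Y) (repCopies α (repReg ℤ_[p] (Cyc n))))
    {D : ℕ} [NeZero D] (hD : Odd D) (hD2 : Squarefree D) {α β : Type} [Fintype α] [DecidableEq α]
    [Fintype β] [DecidableEq β] (f : α → List ℕ) (g : β → List ℕ)
    (hf : ∀ i, ChainOK D (f i)) (hg : ∀ i, ChainOK D (g i))
    (htr : ∀ a, (((sumForm D hD f hf).mul (sumForm D hD f hf)).ρ a).trace =
      (((sumForm D hD g hg).mul (sumForm D hD g hg)).ρ a).trace)
    (p : ℕ) [Fact p.Prime] (hp : p ∣ D) :
    ∃ s : ℕ, RepIso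
      (repMap (Int.castRingHom ℤ_[p]) (repSum ((sumForm D hD f hf).mul (sumForm D hD f hf)).ρ
        (repCopies (Fin s) (repReg ℤ (Cyc D)))))
      (repMap (Int.castRingHom ℤ_[p]) (repSum ((sumForm D hD g hg).mul (sumForm D hD g hg)).ρ
        (repCopies (Fin s) (repReg ℤ (Cyc D))))) := by
  obtain ⟨n, rfl⟩ := hp
  have hpp : p.Prime := Fact.out
  let _ : NeZero p := ⟨hpp.ne_zero⟩
  have hn0 : n ≠ 0 := by
    rintro rfl
    exact NeZero.ne (p * 0) (mul_zero p)
  let _ : NeZero n := ⟨hn0⟩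
  have hpn : p.Coprime n := by
    rw [Nat.squarefree_mul_iff] at hD2
    exact hD2.1
  have hunit : IsUnit ((n : ℕ) : ℤ_[p]) := by
    rw [PadicInt.isUnit_iff]
    have h1 : ¬ p ∣ n := (Nat.Prime.coprime_iff_not_dvd hpp).mp hpn
    have h2 := (PadicInt.norm_int_lt_one_iff_dvd (p := p) (n : ℤ))
    have h3 : ¬ ‖((n : ℤ) : ℤ_[p])‖ < 1 := by
      rw [h2]; exact_mod_cast h1
    have h4 : ‖((n : ℤ) : ℤ_[p])‖ = 1 :=
      le_antisymm (PadicInt.norm_le_one _) (not_lt.mp h3)
    exact_mod_cast h4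
  have hcard : Fintype.card (Cyc n) = n := by
    rw [Fintype.card_multiplicative, ZMod.card]
  have hcardp : Fintype.card (Cyc p) = p := by
    rw [Fintype.card_multiplicative, ZMod.card]
  have hH : IsUnit ((Fintype.card (Cyc n) : ℕ) : ℤ_[p]) := by rw [hcard]; exact hunit
  obtain ⟨ν, _, _, J, ⟨SJ⟩⟩ := hSyz p
  set φ := crt p n hpn with hφ
  set ic := Int.castRingHom ℤ_[p] with hic
  obtain ⟨κ, _, _, X, hX⟩ := (TT_sumForm p n hpp hpn hH SJ ic φ hD f hf).sq hH SJ
  obtain ⟨κ', _, _, Y, hY⟩ := (TT_sumForm p n hpp hpn hH SJ ic φ hD g hg).sq hH SJ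
  have htr' : ∀ a, (repTensor ((repMap ic (sumForm (p * n) hD f hf).ρ).comp
      (φ : Cyc p × Cyc n →* Cyc (p * n))) ((repMap ic (sumForm (p * n) hD f hf).ρ).comp
      (φ : Cyc p × Cyc n →* Cyc (p * n))) a).trace =
      (repTensor ((repMap ic (sumForm (p * n) hD g hg).ρ).comp
      (φ : Cyc p × Cyc n →* Cyc (p * n))) ((repMap ic (sumForm (p * n) hD g hg).ρ).comp
      (φ : Cyc p × Cyc n →* Cyc (p * n))) a).trace := by
    intro a
    have h1 := congrArg ic (htr (φ a))
    have h0 : ∀ {ι : Type} [Fintype ι] [DecidableEq ι] (M : Matrix ι ι ℤ),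
        ic M.trace = (ic.mapMatrix M).trace := by
      intro ι _ _ M
      simp [Matrix.trace]
    rw [h0, h0] at h1
    have h2 : ∀ {ι : Type} [Fintype ι] [DecidableEq ι] (ρ : Cyc (p * n) →* Matrix ι ι ℤ),
        repTensor ((repMap ic ρ).comp (φ : Cyc p × Cyc n →* Cyc (p * n)))
          ((repMap ic ρ).comp (φ : Cyc p × Cyc n →* Cyc (p * n))) a =
        ic.mapMatrix (repTensor ρ ρ (φ a)) := by
      intro ι _ _ ρ
      ext i j
      change ic (ρ (φ a) i.1 j.1) * ic (ρ (φ a) i.2 j.2) = ic (ρ (φ a) i.1 j.1 * ρ (φ a) i.2 j.2)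
      rw [map_mul]
    rw [h2, h2]
    exact h1
  have hNT : Nontrivial (Cyc p) := by
    have : Fact (1 < p) := ⟨hpp.one_lt⟩
    exact inferInstanceAs (Nontrivial (ZMod p))
  obtain ⟨s, hs⟩ := stab_final (G := Cyc p) (H := Cyc n) (R := ℤ_[p])
    (fun x y hxy => by
      rw [hcardp] at hxy
      have : ((p : ℕ) : ℤ_[p]) ≠ 0 := by exact_mod_cast hpp.ne_zero
      exact mul_left_cancel₀ this hxy)
    (fun α β _ _ _ _ X Y h => repIso_padic p ((Nat.Prime.coprime_iff_not_dvd hpp).mp hpn) X Y h)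
    (fun α _ _ X => hC p n hunit α X) hX hY htr'
  refine ⟨s, ?_⟩
  have hs' := hs.comp (φ.symm : Cyc (p * n) →* Cyc p × Cyc n)
  -- transport back
  have hreg : RepIso ((repReg ℤ_[p] (Cyc p × Cyc n)).comp
      (φ.symm : Cyc (p * n) →* Cyc p × Cyc n)) (repReg ℤ_[p] (Cyc (p * n))) := by
    refine RepIso.of_equiv φ.toEquiv fun a i j => ?_
    change (if i = φ.symm a * j then (1 : ℤ_[p]) else 0) = if φ i = a * φ j then 1 else 0
    have : (i = φ.symm a * j) ↔ (φ i = a * φ j) := by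
      rw [← φ.apply_eq_iff_eq, map_mul, MulEquiv.apply_symm_apply]
    by_cases h1 : i = φ.symm a * j
    · rw [if_pos h1, if_pos (this.mp h1)]
    · rw [if_neg h1, if_neg (fun h => h1 (this.mpr h))]
  have key : ∀ {ι : Type} [Fintype ι] [DecidableEq ι] (ρ : Cyc (p * n) →* Matrix ι ι ℤ),
      RepIso ((repSum (repTensor ((repMap ic ρ).comp (φ : Cyc p × Cyc n →* Cyc (p * n)))
          ((repMap ic ρ).comp (φ : Cyc p × Cyc n →* Cyc (p * n))))
        (repCopies (Fin s) (repReg ℤ_[p] (Cyc p × Cyc n)))).comp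
          (φ.symm : Cyc (p * n) →* Cyc p × Cyc n))
        (repMap ic (repSum (repTensor ρ ρ) (repCopies (Fin s) (repReg ℤ (Cyc (p * n)))))) := by
    intro ι _ _ ρ
    rw [repMap_sum', repMap_tensor, repMap_copies, repMap_reg]
    have e1 : (repSum (repTensor ((repMap ic ρ).comp (φ : Cyc p × Cyc n →* Cyc (p * n)))
          ((repMap ic ρ).comp (φ : Cyc p × Cyc n →* Cyc (p * n))))
        (repCopies (Fin s) (repReg ℤ_[p] (Cyc p × Cyc n)))).comp
          (φ.symm : Cyc (p * n) →* Cyc p × Cyc n) =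
        repSum (repTensor (repMap ic ρ) (repMap ic ρ)) (repCopies (Fin s)
          ((repReg ℤ_[p] (Cyc p × Cyc n)).comp (φ.symm : Cyc (p * n) →* Cyc p × Cyc n))) := by
      refine MonoidHom.ext fun x => ?_
      simp [repSum, repTensor, repCopies]
    rw [e1]
    exact (RepIso.refl _).sum ((RepIso.refl _).tensor hreg)
  exact ((key _).symm.trans hs').trans (key _)

end Vale.Agent.P268.Z
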