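import Vale.Agent.P268.Z.Form

/-!
# P268 / B2a: split exact sequences of representations, dual Schanuel lemma
-/

namespace Vale.Agent.P268.Z

open Matrix

section

variable {R : Type} [CommRing R] {G : Type} [CommGroup G]
  {κ ε μ κ' ε' μ' ι : Type} [Fintype κ] [DecidableEq κ] [Fintype ε] [DecidableEq ε]
  [Fintype μ] [DecidableEq μ] [Fintype κ'] [DecidableEq κ'] [Fintype ε'] [DecidableEq ε']
  [Fintype μ'] [DecidableEq μ'] [Fintype ι] [DecidableEq ι]

/-- An exact sequence `0 → K → E → M → 0` of representations, split over `R`. -/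
structure SES (K : G →* Matrix κ κ R) (E : G →* Matrix ε ε R) (M : G →* Matrix μ μ R) where
  i : Matrix ε κ R
  q : Matrix μ ε R
  r : Matrix κ ε R
  s : Matrix ε μ R
  ri : r * i = 1
  qs : q * s = 1
  irsq : i * r + s * q = 1
  hi : ∀ a, i * K a = E a * i
  hq : ∀ a, q * E a = M a * q

namespace SES

variable {K : G →* Matrix κ κ R} {E : G →* Matrix ε ε R} {M : G →* Matrix μ μ R}

theorem qi (S : SES K E M) : S.q * S.i = 0 := by
  have h := congrArg (fun X => S.q * X * S.i) S.irsq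
  simp only [Matrix.mul_add, Matrix.add_mul, Matrix.mul_one] at h
  have h1 : S.q * (S.i * S.r) * S.i = S.q * S.i := by
    rw [Matrix.mul_assoc, Matrix.mul_assoc, S.ri, Matrix.mul_one]
  have h2 : S.q * (S.s * S.q) * S.i = S.q * S.i := by
    rw [← Matrix.mul_assoc, S.qs, Matrix.one_mul]
  rw [h1, h2] at h
  simpa using h

theorem rs (S : SES K E M) : S.r * S.s = 0 := by
  have h := congrArg (fun X => S.r * X * S.s) S.irsq
  simp only [Matrix.mul_add, Matrix.add_mul, Matrix.mul_one] at h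
  have h1 : S.r * (S.i * S.r) * S.s = S.r * S.s := by
    rw [← Matrix.mul_assoc, S.ri, Matrix.one_mul]
  have h2 : S.r * (S.s * S.q) * S.s = S.r * S.s := by
    rw [Matrix.mul_assoc, Matrix.mul_assoc, S.qs, Matrix.mul_one]
  rw [h1, h2] at h
  simpa using h

theorem sq (S : SES K E M) : S.s * S.q = 1 - S.i * S.r := by
  rw [← S.irsq]; abel

end SES

/-- Higman's criterion for relative projectivity. -/
def Hig [Fintype G] (E : G →* Matrix ε ε R) : Prop :=
  ∃ F : Matrix ε ε R, ∑ a, E a * F * E a⁻¹ = 1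

/-- Extension of an equivariant map `K → E'` to `E`, when `E'` satisfies Higman's criterion. -/
theorem SES.extend [Fintype G] {K : G →* Matrix κ κ R} {E : G →* Matrix ε ε R}
    {M : G →* Matrix μ μ R} (S : SES K E M) {E' : G →* Matrix ε' ε' R} (hE' : Hig E')
    (f : Matrix ε' κ R) (hf : ∀ a, f * K a = E' a * f) :
    ∃ α : Matrix ε' ε R, α * S.i = f ∧ ∀ a, α * E a = E' a * α := by
  obtain ⟨F, hF⟩ := hE'
  refine ⟨∑ a, E' a * F * (f * S.r) * E a⁻¹, ?_, fun b => ?_⟩
  · rw [Matrix.sum_mul]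
    have : ∀ a ∈ Finset.univ, E' a * F * (f * S.r) * E a⁻¹ * S.i = E' a * F * E' a⁻¹ * f := by
      intro a _
      rw [Matrix.mul_assoc _ (E a⁻¹) S.i, ← S.hi, Matrix.mul_assoc, Matrix.mul_assoc f,
        ← Matrix.mul_assoc S.r, S.ri, Matrix.one_mul, hf, ← Matrix.mul_assoc]
    rw [Finset.sum_congr rfl this, ← Matrix.sum_mul, hF, Matrix.one_mul]
  · rw [Matrix.sum_mul, Matrix.mul_sum]
    refine Fintype.sum_equiv (Equiv.mulLeft b⁻¹ |>.trans (Equiv.refl _)) _ _ fun a => ?_
    simp only [Equiv.trans_apply, Equiv.coe_mulLeft, Equiv.refl_apply]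
    rw [Matrix.mul_assoc _ (E a⁻¹) (E b), ← map_mul, ← Matrix.mul_assoc (E' b),
      ← Matrix.mul_assoc (E' b), ← Matrix.mul_assoc (E' b), ← map_mul]
    congr 2
    · simp
    · simp [mul_comm]

/-- Dual Schanuel lemma. -/
theorem SES.schanuel [Fintype G] {K : G →* Matrix κ κ R} {E : G →* Matrix ε ε R}
    {M : G →* Matrix μ μ R} {E' : G →* Matrix ε' ε' R} {M' : G →* Matrix μ' μ' R}
    (S : SES K E M) (S' : SES K E' M') (hE : Hig E) (hE' : Hig E') :
    RepIso (repSum M E') (repSum M' E) := by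
  obtain ⟨α, hα, hαe⟩ := S.extend hE' S'.i S'.hi
  obtain ⟨β, hβ, hβe⟩ := S'.extend hE S.i S.hi
  -- the off-diagonal pieces
  have hu : (1 - β * α) * S.s * S.q = 1 - β * α := by
    rw [Matrix.mul_assoc, S.sq, Matrix.mul_sub, Matrix.mul_one, ← Matrix.mul_assoc,
      Matrix.sub_mul, Matrix.one_mul, Matrix.mul_assoc β, hα, hβ, sub_self, Matrix.zero_mul,
      sub_zero]
  have hv : S'.q * α * S.s * S.q = S'.q * α := by
    rw [Matrix.mul_assoc _ S.s, S.sq, Matrix.mul_sub, Matrix.mul_one, ← Matrix.mul_assoc,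
      Matrix.mul_assoc _ α, hα, S'.qi, Matrix.zero_mul, sub_zero]
  have hu' : (1 - α * β) * S'.s * S'.q = 1 - α * β := by
    rw [Matrix.mul_assoc, S'.sq, Matrix.mul_sub, Matrix.mul_one, ← Matrix.mul_assoc,
      Matrix.sub_mul, Matrix.one_mul, Matrix.mul_assoc α, hβ, hα, sub_self, Matrix.zero_mul,
      sub_zero]
  have hv' : S.q * β * S'.s * S'.q = S.q * β := by
    rw [Matrix.mul_assoc _ S'.s, S'.sq, Matrix.mul_sub, Matrix.mul_one, ← Matrix.mul_assoc,
      Matrix.mul_assoc _ β, hβ, S.qi, Matrix.zero_mul, sub_zero]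
  refine ⟨fromBlocks (-(S'.q * α * S.s)) S'.q ((1 - β * α) * S.s) β,
    fromBlocks (-(S.q * β * S'.s)) S.q ((1 - α * β) * S'.s) α, ?_, ?_, fun a => ?_⟩
  · rw [fromBlocks_multiply, ← fromBlocks_one]
    congr 1
    · rw [Matrix.neg_mul, Matrix.mul_neg, neg_neg]
      have e1 : S.q * β * S'.s * (S'.q * α * S.s) = S.q * β * α * S.s := by
        rw [← Matrix.mul_assoc, ← Matrix.mul_assoc, hv']
      rw [e1, Matrix.sub_mul, Matrix.one_mul, Matrix.mul_sub, S.qs]
      simp only [Matrix.mul_assoc]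
      abel
    · rw [Matrix.neg_mul, hv', neg_add_cancel]
    · rw [Matrix.mul_neg, ← Matrix.mul_assoc, ← Matrix.mul_assoc, hu']
      simp only [Matrix.sub_mul, Matrix.one_mul, Matrix.mul_sub, Matrix.mul_assoc]
      abel
    · rw [hu']
      abel
  · rw [fromBlocks_multiply, ← fromBlocks_one]
    congr 1
    · rw [Matrix.neg_mul, Matrix.mul_neg, neg_neg]
      have e1 : S'.q * α * S.s * (S.q * β * S'.s) = S'.q * α * β * S'.s := by
        rw [← Matrix.mul_assoc, ← Matrix.mul_assoc, hv]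
      rw [e1, Matrix.sub_mul, Matrix.one_mul, Matrix.mul_sub, S'.qs]
      simp only [Matrix.mul_assoc]
      abel
    · rw [Matrix.neg_mul, hv, neg_add_cancel]
    · rw [Matrix.mul_neg, ← Matrix.mul_assoc, ← Matrix.mul_assoc, hu]
      simp only [Matrix.sub_mul, Matrix.one_mul, Matrix.mul_sub, Matrix.mul_assoc]
      abel
    · rw [hu]
      abel
  · simp only [repSum, MonoidHom.coe_mk, OneHom.coe_mk, fromBlocks_multiply, Matrix.mul_zero,
      Matrix.zero_mul, add_zero, zero_add]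
    congr 1
    · have e1 : S'.q * α * S.s * M a * S.q = M' a * (S'.q * α * S.s) * S.q := by
        rw [Matrix.mul_assoc _ (M a), ← S.hq, ← Matrix.mul_assoc, hv, Matrix.mul_assoc _ α,
          hαe, ← Matrix.mul_assoc, S'.hq, Matrix.mul_assoc (M' a) _ S.q, hv]
        simp only [Matrix.mul_assoc]
      have e2 := congrArg (fun X => X * S.s) e1
      rw [Matrix.mul_assoc _ S.q, S.qs, Matrix.mul_one, Matrix.mul_assoc _ S.q, S.qs,
        Matrix.mul_one] at e2
      rw [Matrix.neg_mul, e2, Matrix.mul_neg]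
    · exact S'.hq a
    · have e1 : (1 - β * α) * S.s * M a * S.q = E a * ((1 - β * α) * S.s) * S.q := by
        rw [Matrix.mul_assoc _ (M a), ← S.hq, ← Matrix.mul_assoc, hu, Matrix.mul_assoc (E a), hu,
          Matrix.sub_mul, Matrix.mul_sub, Matrix.one_mul, Matrix.mul_one, Matrix.mul_assoc β,
          hαe, ← Matrix.mul_assoc β, hβe, Matrix.mul_assoc]
      have e2 := congrArg (fun X => X * S.s) e1
      rwa [Matrix.mul_assoc _ S.q, S.qs, Matrix.mul_one, Matrix.mul_assoc _ S.q, S.qs,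
        Matrix.mul_one] at e2
    · exact hβe a

/-- A sequence whose kernel satisfies Higman's criterion splits. -/
theorem SES.split [Fintype G] {K : G →* Matrix κ κ R} {E : G →* Matrix ε ε R}
    {M : G →* Matrix μ μ R} (S : SES K E M) (hK : Hig K) : RepIso E (repSum K M) := by
  obtain ⟨r, hr, hre⟩ := S.extend hK 1 (fun a => by simp)
  -- section `s' = s - i r s`
  refine ⟨fromRows r S.q, fromCols S.i (S.s - S.i * (r * S.s)), ?_, ?_, fun a => ?_⟩
  · rw [fromCols_mul_fromRows, Matrix.sub_mul, S.sq]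
    have : S.i * (r * S.s) * S.q = S.i * r - S.i * S.r := by
      rw [Matrix.mul_assoc, Matrix.mul_assoc, S.sq, Matrix.mul_sub, Matrix.mul_one,
        ← Matrix.mul_assoc r, hr, Matrix.one_mul, Matrix.mul_sub]
    rw [this]
    abel
  · rw [fromRows_mul_fromCols, ← fromBlocks_one]
    congr 1
    · rw [Matrix.mul_sub, ← Matrix.mul_assoc, hr, Matrix.one_mul, sub_self]
    · exact S.qi
    · rw [Matrix.mul_sub, ← Matrix.mul_assoc, S.qi, Matrix.zero_mul, S.qs, sub_zero]
  · simp only [repSum, MonoidHom.coe_mk, OneHom.coe_mk]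
    rw [fromRows_mul, fromBlocks_mul_fromRows]
    simp only [Matrix.zero_mul, add_zero, zero_add]
    rw [hre, S.hq]

/-- Tensoring a sequence on the left. -/
def SES.tensor {K : G →* Matrix κ κ R} {E : G →* Matrix ε ε R}
    {M : G →* Matrix μ μ R} (T : G →* Matrix ι ι R) (S : SES K E M) :
    SES (repTensor T K) (repTensor T E) (repTensor T M) where
  i := kroneckerMap (· * ·) (1 : Matrix ι ι R) S.i
  q := kroneckerMap (· * ·) (1 : Matrix ι ι R) S.q
  r := kroneckerMap (· * ·) (1 : Matrix ι ι R) S.r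
  s := kroneckerMap (· * ·) (1 : Matrix ι ι R) S.s
  ri := by rw [← Matrix.mul_kronecker_mul, S.ri, Matrix.one_mul, Matrix.one_kronecker_one]
  qs := by rw [← Matrix.mul_kronecker_mul, S.qs, Matrix.one_mul, Matrix.one_kronecker_one]
  irsq := by
    rw [← Matrix.mul_kronecker_mul, ← Matrix.mul_kronecker_mul, Matrix.one_mul,
      ← Matrix.kronecker_add, S.irsq, Matrix.one_kronecker_one]
  hi a := by
    simp only [repTensor, MonoidHom.coe_mk, OneHom.coe_mk]
    rw [← Matrix.mul_kronecker_mul, ← Matrix.mul_kronecker_mul, Matrix.one_mul, Matrix.mul_one,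
      S.hi]
  hq a := by
    simp only [repTensor, MonoidHom.coe_mk, OneHom.coe_mk]
    rw [← Matrix.mul_kronecker_mul, ← Matrix.mul_kronecker_mul, Matrix.one_mul, Matrix.mul_one,
      S.hq]

end

end Vale.Agent.P268.Z
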