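import Vale.Agent.P268.Z.A0T
import Vale.Agent.P268.Z.B2aSES

/-!
# P268 / B2a: the exact sequence `0 → M_t → ℤ[ℤ/b] → M_{a :: t} → 0` of a chain
-/

namespace Vale.Agent.P268.Z

open Matrix Polynomial

/-- coordinates of `g` modulo the monic polynomial `f` of degree `m` -/
noncomputable def cg (f : ℤ[X]) (m : ℕ) (g : ℤ[X]) : Fin m → ℤ := fun i => (g %ₘ f).coeff i

theorem divByMonic_add' {p : ℤ[X]} (hp : p.Monic) (x y : ℤ[X]) :
    (x + y) /ₘ p = x /ₘ p + y /ₘ p := by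
  refine (div_modByMonic_unique (f := x + y) (x /ₘ p + y /ₘ p) (x %ₘ p + y %ₘ p) hp ⟨?_, ?_⟩).1
  · have h1 := modByMonic_add_div x p
    have h2 := modByMonic_add_div y p
    linear_combination h1 + h2
  · exact lt_of_le_of_lt (degree_add_le _ _)
      (max_lt (degree_modByMonic_lt _ hp) (degree_modByMonic_lt _ hp))

theorem divByMonic_smul' {p : ℤ[X]} (hp : p.Monic) (a : ℤ) (x : ℤ[X]) :
    (a • x) /ₘ p = a • (x /ₘ p) := by
  refine (div_modByMonic_unique (f := a • x) (a • (x /ₘ p)) (a • (x %ₘ p)) hp ⟨?_, ?_⟩).1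
  · have h1 := modByMonic_add_div x p
    conv_rhs => rw [← h1]
    rw [smul_add, mul_smul_comm]
  · exact lt_of_le_of_lt (degree_smul_le _ _) (degree_modByMonic_lt _ hp)

theorem cg_add (f : ℤ[X]) (m : ℕ) (g h : ℤ[X]) : cg f m (g + h) = cg f m g + cg f m h := by
  ext i; simp [cg, add_modByMonic]

theorem cg_smul (f : ℤ[X]) (m : ℕ) (a : ℤ) (g : ℤ[X]) : cg f m (a • g) = a • cg f m g := by
  ext i
  rw [cg, smul_modByMonic, coeff_smul]
  rfl

theorem cg_sum (f : ℤ[X]) (m : ℕ) {α : Type} (s : Finset α) (g : α → ℤ[X]) :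
    cg f m (∑ a ∈ s, g a) = ∑ a ∈ s, cg f m (g a) := by
  classical
  induction s using Finset.induction_on with
  | empty => ext i; simp [cg]
  | insert a s ha ih => rw [Finset.sum_insert ha, Finset.sum_insert ha, cg_add, ih]

theorem cg_congr {f : ℤ[X]} (hf : f.Monic) (m : ℕ) {g h : ℤ[X]} (hfg : f ∣ g - h) :
    cg f m g = cg f m h := by
  have h1 : g %ₘ f = h %ₘ f := by
    have h2 := (modByMonic_eq_zero_iff_dvd hf).mpr hfg
    rw [sub_modByMonic] at h2
    exact sub_eq_zero.mp h2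
  ext i
  rw [cg, cg, h1]

theorem mod_eq_sum' {f : ℤ[X]} (hf : f.Monic) {m : ℕ} (hm : f.natDegree = m) (g : ℤ[X]) :
    g %ₘ f = ∑ j : Fin m, cg f m g j • (X : ℤ[X]) ^ (j : ℕ) := by
  have hlt : (g %ₘ f).degree < m := by
    have := degree_modByMonic_lt g hf
    rwa [degree_eq_natDegree hf.ne_zero, hm] at this
  ext n
  simp only [finsetSum_coeff, coeff_smul, coeff_X_pow, smul_eq_mul]
  by_cases hn : n < m
  · rw [Finset.sum_eq_single ⟨n, hn⟩]
    · simp [cg]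
    · intro j _ hj
      have : n ≠ (j : ℕ) := fun h' => hj (Fin.ext h'.symm)
      simp [this]
    · simp
  · rw [Finset.sum_eq_zero]
    · apply coeff_eq_zero_of_degree_lt
      exact lt_of_lt_of_le hlt (by exact_mod_cast not_lt.mp hn)
    · intro j _
      have : n ≠ (j : ℕ) := by have := j.2; omega
      simp [this]

theorem cg_basis {f : ℤ[X]} (hf : f.Monic) {m : ℕ} (hm : f.natDegree = m) (j : Fin m) :
    cg f m (X ^ (j : ℕ)) = Pi.single j 1 := by
  ext i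
  have h1 : (X ^ (j : ℕ) : ℤ[X]) %ₘ f = X ^ (j : ℕ) := by
    rw [modByMonic_eq_self_iff hf, degree_eq_natDegree hf.ne_zero, hm, degree_X_pow]
    exact_mod_cast j.2
  rw [cg, h1, coeff_X_pow, Pi.single_apply]
  by_cases hij : i = j
  · subst hij; simp
  · have : (i : ℕ) ≠ j := fun h' => hij (Fin.ext h')
    simp [hij, this]

/-- The matrix, in the bases `1, X, …`, of an additive map `φ : ℤ[X] → ℤ[X]`. -/
noncomputable def mm (m : ℕ) (f' : ℤ[X]) (m' : ℕ) (φ : ℤ[X] → ℤ[X]) :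
    Matrix (Fin m') (Fin m) ℤ := fun i j => cg f' m' (φ (X ^ (j : ℕ))) i

theorem mm_mulVec {f : ℤ[X]} (hf : f.Monic) {m : ℕ} (hm : f.natDegree = m) {f' : ℤ[X]}
    {m' : ℕ} (φ : ℤ[X] → ℤ[X]) (hadd : ∀ x y, φ (x + y) = φ x + φ y)
    (hsmul : ∀ (a : ℤ) x, φ (a • x) = a • φ x) (g : ℤ[X]) :
    mm m f' m' φ *ᵥ cg f m g = cg f' m' (φ (g %ₘ f)) := by
  have hsum : ∀ s : Finset (Fin m), φ (∑ j ∈ s, cg f m g j • (X : ℤ[X]) ^ (j : ℕ)) =
      ∑ j ∈ s, cg f m g j • φ (X ^ (j : ℕ)) := by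
    intro s
    classical
    induction s using Finset.induction_on with
    | empty =>
      have := hsmul 0 0
      simpa using this
    | insert a s ha ih => rw [Finset.sum_insert ha, Finset.sum_insert ha, hadd, ih, hsmul]
  rw [mod_eq_sum' hf hm g, hsum, cg_sum]
  ext i
  rw [Finset.sum_apply, Matrix.mulVec, dotProduct]
  refine Finset.sum_congr rfl fun j _ => ?_
  rw [cg_smul, Pi.smul_apply, smul_eq_mul, mm, mul_comm]

/-- Two matrices with the same values on the coordinate vectors are equal. -/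
theorem mat_ext {f : ℤ[X]} (hf : f.Monic) {m : ℕ} (hm : f.natDegree = m) {ι : Type}
    [Fintype ι] {A B : Matrix ι (Fin m) ℤ}
    (h : ∀ j : Fin m, A *ᵥ cg f m (X ^ (j : ℕ)) = B *ᵥ cg f m (X ^ (j : ℕ))) : A = B := by
  ext i j
  have := congrFun (h j) i
  rw [cg_basis hf hm] at this
  simpa using this

section chain

variable {a : ℕ} {t : List ℕ} (h : Pos (a :: t))

/-- the polynomial `X ^ b - 1` -/
noncomputable def Xb (b : ℕ) : ℤ[X] := X ^ b - 1

theorem Xb_monic {b : ℕ} (hb : 0 < b) : (Xb b).Monic := monic_X_pow_sub_one hb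

theorem Xb_deg {b : ℕ} : (Xb b).natDegree = b := natDegree_X_pow_sub_one'

/-- The cyclic shift. -/
noncomputable def Sb (b : ℕ) : Matrix (Fin b) (Fin b) ℤ := mm b (Xb b) b (fun x => X * x)

theorem Sb_mulVec {b : ℕ} (hb : 0 < b) (g : ℤ[X]) :
    Sb b *ᵥ cg (Xb b) b g = cg (Xb b) b (X * g) := by
  rw [Sb, mm_mulVec (Xb_monic hb) Xb_deg _ (fun x y => mul_add _ _ _)
    (fun a x => mul_smul_comm _ _ _)]
  apply cg_congr (Xb_monic hb)
  rw [← mul_sub]
  refine Dvd.dvd.mul_left ?_ _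
  rw [modByMonic_eq_sub_mul_div]
  exact ⟨-(g /ₘ Xb b), by ring⟩

theorem Sb_pow_mulVec {b : ℕ} (hb : 0 < b) (k : ℕ) (g : ℤ[X]) :
    (Sb b ^ k) *ᵥ cg (Xb b) b g = cg (Xb b) b (X ^ k * g) := by
  induction k with
  | zero => simp
  | succ k ih =>
    rw [pow_succ', ← Matrix.mulVec_mulVec, ih, Sb_mulVec hb, ← mul_assoc, ← pow_succ']

theorem Sb_pow_self {b : ℕ} (hb : 0 < b) : Sb b ^ b = 1 := by
  apply mat_ext (Xb_monic hb) Xb_deg
  intro j
  rw [Sb_pow_mulVec hb, Matrix.one_mulVec]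
  apply cg_congr (Xb_monic hb)
  exact ⟨X ^ (j : ℕ), by rw [Xb]; ring⟩

theorem Sb_apply {b : ℕ} (hb : 0 < b) (i j : Fin b) :
    Sb b i j = if (i : ℕ) = ((j : ℕ) + 1) % b then 1 else 0 := by
  have h1 : cg (Xb b) b (X * X ^ (j : ℕ)) =
      cg (Xb b) b (X ^ (((⟨((j : ℕ) + 1) % b, Nat.mod_lt _ hb⟩ : Fin b)) : ℕ)) := by
    apply cg_congr (Xb_monic hb)
    have h2 : (j : ℕ) + 1 = b * (((j : ℕ) + 1) / b) + ((j : ℕ) + 1) % b :=
      (Nat.div_add_mod _ _).symm
    have h3 : Xb b ∣ (X : ℤ[X]) ^ (b * (((j : ℕ) + 1) / b)) - 1 := by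
      rw [Xb, pow_mul]
      exact sub_one_dvd_pow_sub_one _ _
    rw [← pow_succ']
    simp only
    generalize ((j : ℕ) + 1) / b = u at h2 h3
    generalize ((j : ℕ) + 1) % b = v at h2
    rw [h2, pow_add]
    obtain ⟨w, hw⟩ := h3
    exact ⟨w * X ^ v, by linear_combination (X : ℤ[X]) ^ v * hw⟩
  rw [Sb, mm, h1, cg_basis (Xb_monic hb) Xb_deg, Pi.single_apply]
  congr 1
  rw [Fin.ext_iff]

theorem cf_eq_cg (c : List ℕ) (g : ℤ[X]) : cf c g = cg (pq c).1 (mu c) g := rfl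

include h in
/-- The exact sequence of a chain, with the operator `T`. -/
theorem chain_ses_T :
    ∃ (i : Matrix (Fin (a * t.prod)) (Fin (mu t)) ℤ)
      (q : Matrix (Fin (mu (a :: t))) (Fin (a * t.prod)) ℤ)
      (r : Matrix (Fin (mu t)) (Fin (a * t.prod)) ℤ)
      (s : Matrix (Fin (a * t.prod)) (Fin (mu (a :: t))) ℤ),
      r * i = 1 ∧ q * s = 1 ∧ i * r + s * q = 1 ∧ i * Tc t = Sb (a * t.prod) * i ∧
        q * Sb (a * t.prod) = Tc (a :: t) * q := by
  set b := a * t.prod with hb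
  set p := (pq (a :: t)).1 with hp
  set p' := (pq t).1 with hp'
  have hb0 : 0 < b := by have := h.prod; rwa [List.prod_cons] at this
  have hpm : p.Monic := (pq_monic h).1
  have hp'm : p'.Monic := (pq_monic h.tail).1
  have hpd : p.natDegree = mu (a :: t) := (pq_deg h).1
  have hp'd : p'.natDegree = mu t := (pq_deg h.tail).1
  have hsum : mu (a :: t) + mu t = b := by
    have := (pq_deg h).2.2
    rwa [List.prod_cons] at this
  have hmul : p * p' = Xb b := by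
    have := pq_mul (a :: t)
    rw [List.prod_cons] at this
    exact this
  have hXm := Xb_monic hb0
  have hXd : (Xb b).natDegree = b := Xb_deg
  -- the four maps
  let I := mm (mu t) (Xb b) b (fun x => p * x)
  let Q := mm b p (mu (a :: t)) (fun x => x)
  let Rr := mm b p' (mu t) (fun x => x /ₘ p)
  let Ss := mm (mu (a :: t)) (Xb b) b (fun x => x)
  have hI : ∀ g, I *ᵥ cg p' (mu t) g = cg (Xb b) b (p * g) := by
    intro g
    rw [mm_mulVec hp'm hp'd _ (fun x y => mul_add _ _ _) (fun a x => mul_smul_comm _ _ _)]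
    apply cg_congr hXm
    rw [modByMonic_eq_sub_mul_div, ← hmul]
    exact ⟨-(g /ₘ p'), by ring⟩
  have hQ : ∀ g, Q *ᵥ cg (Xb b) b g = cg p (mu (a :: t)) g := by
    intro g
    rw [mm_mulVec hXm hXd _ (fun x y => rfl) (fun a x => rfl)]
    apply cg_congr hpm
    rw [modByMonic_eq_sub_mul_div]
    exact ⟨-(p' * (g /ₘ Xb b)), by rw [← hmul]; ring⟩
  have hR : ∀ g, Rr *ᵥ cg (Xb b) b g = cg p' (mu t) ((g %ₘ Xb b) /ₘ p) := by
    intro g
    rw [mm_mulVec hXm hXd _ (fun x y => divByMonic_add' hpm _ _)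
      (fun a x => divByMonic_smul' hpm _ _)]
  have hS : ∀ g, Ss *ᵥ cg p (mu (a :: t)) g = cg (Xb b) b (g %ₘ p) := by
    intro g
    rw [mm_mulVec hpm hpd _ (fun x y => rfl) (fun a x => rfl)]
  have hT : ∀ g, Tc t *ᵥ cg p' (mu t) g = cg p' (mu t) (X * g) := fun g => Tc_mulVec h.tail g
  have hT' : ∀ g, Tc (a :: t) *ᵥ cg p (mu (a :: t)) g = cg p (mu (a :: t)) (X * g) :=
    fun g => Tc_mulVec h g
  have hlt : ∀ j : Fin b, (X ^ (j : ℕ) : ℤ[X]) %ₘ Xb b = X ^ (j : ℕ) := by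
    intro j
    rw [modByMonic_eq_self_iff hXm, degree_eq_natDegree hXm.ne_zero, hXd, degree_X_pow]
    exact_mod_cast j.2
  refine ⟨I, Q, Rr, Ss, ?_, ?_, ?_, ?_, ?_⟩
  · apply mat_ext hp'm hp'd
    intro j
    rw [← Matrix.mulVec_mulVec, hI, hR, Matrix.one_mulVec]
    congr 1
    have h1 : (p * X ^ (j : ℕ)) %ₘ Xb b = p * X ^ (j : ℕ) := by
      rw [modByMonic_eq_self_iff hXm, degree_eq_natDegree hXm.ne_zero, hXd, degree_mul,
        degree_X_pow, degree_eq_natDegree hpm.ne_zero, hpd]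
      have := j.2
      exact_mod_cast (by omega : mu (a :: t) + (j : ℕ) < b)
    rw [h1, mul_divByMonic_cancel_left _ hpm]
  · apply mat_ext hpm hpd
    intro j
    rw [← Matrix.mulVec_mulVec, hS, hQ, Matrix.one_mulVec]
    apply cg_congr hpm
    rw [modByMonic_eq_sub_mul_div]
    exact ⟨-(X ^ (j : ℕ) /ₘ p), by ring⟩
  · apply mat_ext hXm hXd
    intro j
    rw [Matrix.add_mulVec, ← Matrix.mulVec_mulVec, ← Matrix.mulVec_mulVec, hR, hI, hQ, hS,
      Matrix.one_mulVec, hlt, ← cg_add]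
    congr 1
    rw [modByMonic_eq_sub_mul_div]
    ring
  · apply mat_ext hp'm hp'd
    intro j
    rw [← Matrix.mulVec_mulVec, ← Matrix.mulVec_mulVec, hT, hI, hI, Sb_mulVec hb0]
    congr 1
    ring
  · apply mat_ext hXm hXd
    intro j
    rw [← Matrix.mulVec_mulVec, ← Matrix.mulVec_mulVec, Sb_mulVec hb0, hQ, hQ, hT']

end chain

end Vale.Agent.P268.Z
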