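import Vale.Agent.P268.Z.B2aStab

/-!
# P268 / B2a: stable equivalence of representations of `G × H`
-/

namespace Vale.Agent.P268.Z

set_option linter.unusedSectionVars false

open Matrix

section

variable {R : Type} [CommRing R] {G H : Type} [CommGroup G] [Fintype G] [DecidableEq G]
  [CommGroup H]
  {κ ε μ κ' ε' μ' ι τ : Type} [Fintype κ] [DecidableEq κ] [Fintype ε] [DecidableEq ε]
  [Fintype μ] [DecidableEq μ] [Fintype κ'] [DecidableEq κ'] [Fintype ε'] [DecidableEq ε']
  [Fintype μ'] [DecidableEq μ'] [Fintype ι] [DecidableEq ι] [Fintype τ] [DecidableEq τ]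

/-- Stable equivalence: isomorphism after adding induced representations. -/
def StEq (ρ : G × H →* Matrix ι ι R) (σ : G × H →* Matrix κ κ R) : Prop :=
  ∃ (α : Type) (_ : Fintype α) (_ : DecidableEq α) (β : Type) (_ : Fintype β)
    (_ : DecidableEq β) (P : G × H →* Matrix α α R) (Q : G × H →* Matrix β β R),
    PP P ∧ PP Q ∧ RepIso (repSum ρ P) (repSum σ Q)

variable {ρ : G × H →* Matrix ι ι R} {σ : G × H →* Matrix κ κ R} {ω : G × H →* Matrix μ μ R}

theorem StEq.of_iso (h : RepIso ρ σ) : StEq ρ σ :=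
  ⟨_, _, _, _, _, _, _, _, PP_reg, PP_reg, h.sum (RepIso.refl _)⟩

theorem StEq.refl (ρ : G × H →* Matrix ι ι R) : StEq ρ ρ := StEq.of_iso (RepIso.refl _)

theorem StEq.symm (h : StEq ρ σ) : StEq σ ρ := by
  obtain ⟨_, _, _, _, _, _, P, Q, hP, hQ, h⟩ := h
  exact ⟨_, _, _, _, _, _, Q, P, hQ, hP, h.symm⟩

theorem repSum_right_comm (ρ : G × H →* Matrix ι ι R) (σ : G × H →* Matrix κ κ R)
    (ω : G × H →* Matrix μ μ R) :
    RepIso (repSum (repSum ρ σ) ω) (repSum (repSum ρ ω) σ) :=
  (repSum_assoc ρ σ ω).trans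
    (((RepIso.refl ρ).sum (repSum_comm σ ω)).trans (repSum_assoc ρ ω σ).symm)

theorem StEq.trans (h : StEq ρ σ) (h' : StEq σ ω) : StEq ρ ω := by
  obtain ⟨_, _, _, _, _, _, P, Q, hP, hQ, h⟩ := h
  obtain ⟨_, _, _, _, _, _, P', Q', hP', hQ', h'⟩ := h'
  refine ⟨_, _, _, _, _, _, repSum P P', repSum Q' Q, hP.sum hP', hQ'.sum hQ, ?_⟩
  exact (repSum_assoc ρ P P').symm.trans ((h.sum (RepIso.refl P')).trans
    ((repSum_right_comm σ Q P').trans ((h'.sum (RepIso.refl Q)).trans (repSum_assoc ω Q' Q))))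

theorem StEq.tensor_left (h : StEq ρ σ) (ω : G × H →* Matrix μ μ R) :
    StEq (repTensor ω ρ) (repTensor ω σ) := by
  obtain ⟨_, _, _, _, _, _, P, Q, hP, hQ, h⟩ := h
  refine ⟨_, _, _, _, _, _, repTensor ω P, repTensor ω Q, hP.tensor_left ω, hQ.tensor_left ω, ?_⟩
  exact (repTensor_sum ω ρ P).symm.trans
    (((RepIso.refl ω).tensor h).trans (repTensor_sum ω σ Q))

theorem StEq.tensor_right (h : StEq ρ σ) (ω : G × H →* Matrix μ μ R) :
    StEq (repTensor ρ ω) (repTensor σ ω) :=
  ((StEq.of_iso (repTensor_comm ρ ω)).trans (h.tensor_left ω)).trans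
    (StEq.of_iso (repTensor_comm ω σ))

theorem StEq.tensor {ρ' : G × H →* Matrix ε ε R} {σ' : G × H →* Matrix τ τ R} (h : StEq ρ σ)
    (h' : StEq ρ' σ') : StEq (repTensor ρ ρ') (repTensor σ σ') :=
  (h.tensor_right ρ').trans (h'.tensor_left σ)

theorem PP.bar (h : PP ρ) : PP (repBar ρ) := by
  obtain ⟨_, _, _, X, h⟩ := h
  refine ⟨_, _, _, repBar X, h.bar.trans ?_⟩
  have : RepIso (repTensor ((repBar (repReg R G)).comp (MonoidHom.fst G H))
      ((repBar X).comp (MonoidHom.snd G H))) (indH G (repBar X)) :=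
    (repReg_bar.comp _).tensor (RepIso.refl _)
  exact this

theorem StEq.bar (h : StEq ρ σ) : StEq (repBar ρ) (repBar σ) := by
  obtain ⟨_, _, _, _, _, _, P, Q, hP, hQ, h⟩ := h
  exact ⟨_, _, _, _, _, _, repBar P, repBar Q, hP.bar, hQ.bar, h.bar⟩

/-! ## sequences -/

/-- Pull back a sequence along a homomorphism. -/
def SES.comp {G' : Type} [CommGroup G'] {K : G →* Matrix κ κ R} {E : G →* Matrix ε ε R}
    {M : G →* Matrix μ μ R} (S : SES K E M) (φ : G' →* G) :
    SES (K.comp φ) (E.comp φ) (M.comp φ) where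
  i := S.i
  q := S.q
  r := S.r
  s := S.s
  ri := S.ri
  qs := S.qs
  irsq := S.irsq
  hi a := S.hi (φ a)
  hq a := S.hq (φ a)

/-- The data of the syzygy module `J = R[G] / R`. -/
structure Syz (G : Type) [CommGroup G] [Fintype G] [DecidableEq G] {ν : Type} [Fintype ν]
    [DecidableEq ν] (J : G →* Matrix ν ν R) where
  S1 : SES (1 : G →* Matrix Unit Unit R) (repReg R G) J
  S2 : SES J (repReg R G) (1 : G →* Matrix Unit Unit R)

variable [Fintype H] {ν : Type} [Fintype ν] [DecidableEq ν]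

theorem StEq.of_SES (hH : IsUnit ((Fintype.card H : ℕ) : R)) {J : G →* Matrix ν ν R}
    (SJ : Syz G J) {K : G × H →* Matrix κ κ R} {E : G × H →* Matrix ε ε R}
    {M : G × H →* Matrix μ μ R} (S : SES K E M) (hE : PP E) :
    StEq M (repTensor K (J.comp (MonoidHom.fst G H))) := by
  have S' := (SJ.S1.comp (MonoidHom.fst G H)).tensor K
  have hE' : PP (repTensor K ((repReg R G).comp (MonoidHom.fst G H))) := PP_reg.tensor_left K
  -- replace the kernel `K ⊗ 1` by `K`
  obtain ⟨P, Q, hQP, hPQ, he⟩ : RepIso K (repTensor K (1 : G × H →* Matrix Unit Unit R)) :=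
    ((repTensor_comm K _).trans (repTensor_trivial K)).symm
  have hK1 : (1 : G →* Matrix Unit Unit R).comp (MonoidHom.fst G H) = 1 := rfl
  rw [hK1] at S'
  have he' : ∀ a, Q * repTensor K (1 : G × H →* Matrix Unit Unit R) a = K a * Q := by
    intro a
    have : Q * (repTensor K (1 : G × H →* Matrix Unit Unit R) a * P) * Q = Q * (P * K a) * Q := by
      rw [he]
    rw [Matrix.mul_assoc, Matrix.mul_assoc, hPQ, Matrix.mul_one, ← Matrix.mul_assoc Q,
      hQP, Matrix.one_mul] at this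
    exact this
  let S'' : SES K (repTensor K ((repReg R G).comp (MonoidHom.fst G H)))
      (repTensor K (J.comp (MonoidHom.fst G H))) :=
    { i := S'.i * P
      q := S'.q
      r := Q * S'.r
      s := S'.s
      ri := by rw [Matrix.mul_assoc, ← Matrix.mul_assoc S'.r, S'.ri, Matrix.one_mul, hQP]
      qs := S'.qs
      irsq := by
        rw [Matrix.mul_assoc, ← Matrix.mul_assoc P, hPQ, Matrix.one_mul, S'.irsq]
      hi := fun a => by rw [Matrix.mul_assoc, he, ← Matrix.mul_assoc, S'.hi, Matrix.mul_assoc]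
      hq := S'.hq }
  exact ⟨_, _, _, _, _, _, _, _, hE', hE, S.schanuel S'' (hE.hig hH) (hE'.hig hH)⟩

theorem Syz.sq (hH : IsUnit ((Fintype.card H : ℕ) : R)) {J : G →* Matrix ν ν R}
    (SJ : Syz G J) : StEq (repTensor (J.comp (MonoidHom.fst G H)) (J.comp (MonoidHom.fst G H)))
      (1 : G × H →* Matrix Unit Unit R) :=
  (StEq.of_SES hH SJ (SJ.S2.comp (MonoidHom.fst G H)) PP_reg).symm

theorem Syz.bar (hH : IsUnit ((Fintype.card H : ℕ) : R)) {J : G →* Matrix ν ν R}
    (SJ : Syz G J) : StEq (repBar (J.comp (MonoidHom.fst G H))) (J.comp (MonoidHom.fst G H)) := by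
  have S := (SJ.S1.comp (MonoidHom.fst G H)).comp (invMonoidHom : G × H →* G × H)
  refine (StEq.of_SES hH SJ S ?_).trans ?_
  · exact PP_reg.bar
  · exact StEq.of_iso (repTensor_trivial _)

/-- The class of representations stably equivalent to `X ∘ snd` or `J ⊠ X`. -/
def TT (J : G →* Matrix ν ν R) (ρ : G × H →* Matrix ι ι R) : Prop :=
  ∃ (κ : Type) (_ : Fintype κ) (_ : DecidableEq κ) (X : H →* Matrix κ κ R),
    StEq ρ (X.comp (MonoidHom.snd G H)) ∨ StEq ρ (repExt J X)

theorem TT.stEq {J : G →* Matrix ν ν R} (h : TT J ρ) (e : StEq σ ρ) : TT J σ := by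
  obtain ⟨_, _, _, X, h | h⟩ := h
  · exact ⟨_, _, _, X, Or.inl (e.trans h)⟩
  · exact ⟨_, _, _, X, Or.inr (e.trans h)⟩

theorem repTensor_snd (X : H →* Matrix κ κ R) (Y : H →* Matrix μ μ R) :
    repTensor (X.comp (MonoidHom.snd G H)) (Y.comp (MonoidHom.snd G H)) =
      (repTensor X Y).comp (MonoidHom.snd G H) := rfl

theorem JJ (hH : IsUnit ((Fintype.card H : ℕ) : R)) {J : G →* Matrix ν ν R}
    (SJ : Syz G J) (X : H →* Matrix κ κ R) (Y : H →* Matrix μ μ R) :
    StEq (repTensor (repExt J X) (repExt J Y)) ((repTensor X Y).comp (MonoidHom.snd G H)) := by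
  -- (J ⊗ X) ⊗ (J ⊗ Y) ≅ (J ⊗ J) ⊗ (X ⊗ Y)
  have e1 : RepIso (repTensor (repExt J X) (repExt J Y))
      (repTensor (repTensor (J.comp (MonoidHom.fst G H)) (J.comp (MonoidHom.fst G H)))
        (repTensor (X.comp (MonoidHom.snd G H)) (Y.comp (MonoidHom.snd G H)))) := by
    refine (repTensor_assoc _ _ _).trans ?_
    refine RepIso.trans ?_ (repTensor_assoc _ _ _).symm
    refine (RepIso.refl _).tensor ?_
    refine (repTensor_assoc _ _ _).symm.trans ?_
    refine RepIso.trans ?_ (repTensor_assoc _ _ _)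
    exact (repTensor_comm _ _).tensor (RepIso.refl _)
  refine (StEq.of_iso e1).trans (((Syz.sq hH SJ).tensor_right _).trans ?_)
  exact StEq.of_iso (repTensor_trivial _)

theorem JX (J : G →* Matrix ν ν R) (X : H →* Matrix κ κ R) (Y : H →* Matrix μ μ R) :
    RepIso (repTensor (repExt J X) (Y.comp (MonoidHom.snd G H))) (repExt J (repTensor X Y)) :=
  repTensor_assoc _ _ _

theorem TT.tensor (hH : IsUnit ((Fintype.card H : ℕ) : R)) {J : G →* Matrix ν ν R}
    (SJ : Syz G J) (h : TT J ρ) (h' : TT J σ) : TT J (repTensor ρ σ) := by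
  obtain ⟨_, _, _, X, h | h⟩ := h <;> obtain ⟨_, _, _, Y, h' | h'⟩ := h'
  · have h2 := h.tensor h'
    rw [repTensor_snd] at h2
    exact ⟨_, inferInstance, inferInstance, repTensor X Y, Or.inl h2⟩
  · have h2 := (h.tensor h').trans (StEq.of_iso ((repTensor_comm _ _).trans (JX J Y X)))
    exact ⟨_, inferInstance, inferInstance, repTensor Y X, Or.inr h2⟩
  · have h2 := (h.tensor h').trans (StEq.of_iso (JX J X Y))
    exact ⟨_, inferInstance, inferInstance, repTensor X Y, Or.inr h2⟩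
  · have h2 := (h.tensor h').trans (JJ hH SJ X Y)
    exact ⟨_, inferInstance, inferInstance, repTensor X Y, Or.inl h2⟩

theorem TT.sq (hH : IsUnit ((Fintype.card H : ℕ) : R)) {J : G →* Matrix ν ν R}
    (SJ : Syz G J) (h : TT J ρ) :
    ∃ (κ : Type) (_ : Fintype κ) (_ : DecidableEq κ) (X : H →* Matrix κ κ R),
      StEq (repTensor ρ ρ) (X.comp (MonoidHom.snd G H)) := by
  obtain ⟨_, _, _, X, h | h⟩ := h
  · have h2 := h.tensor h
    rw [repTensor_snd] at h2
    exact ⟨_, inferInstance, inferInstance, repTensor X X, h2⟩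
  · have h2 := (h.tensor h).trans (JJ hH SJ X X)
    exact ⟨_, inferInstance, inferInstance, repTensor X X, h2⟩

theorem TT.bar (hH : IsUnit ((Fintype.card H : ℕ) : R)) {J : G →* Matrix ν ν R}
    (SJ : Syz G J) (h : TT J ρ) : TT J (repBar ρ) := by
  obtain ⟨_, _, _, X, h | h⟩ := h
  · exact ⟨_, _, _, repBar X, Or.inl h.bar⟩
  · refine ⟨_, _, _, repBar X, Or.inr (h.bar.trans ?_)⟩
    exact (Syz.bar hH SJ).tensor_right ((repBar X).comp (MonoidHom.snd G H))

theorem TT.shift (hH : IsUnit ((Fintype.card H : ℕ) : R)) {J : G →* Matrix ν ν R}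
    (SJ : Syz G J) {K : G × H →* Matrix κ κ R} {E : G × H →* Matrix ε ε R}
    {M : G × H →* Matrix μ μ R} (S : SES K E M) (hE : PP E) (hK : TT J K) : TT J M := by
  have h1 : TT J (J.comp (MonoidHom.fst G H)) := by
    refine ⟨Unit, inferInstance, inferInstance, 1, Or.inr (StEq.of_iso ?_)⟩
    exact ((repTensor_comm _ _).trans (repTensor_trivial _)).symm
  exact (hK.tensor hH SJ h1).stEq (StEq.of_SES hH SJ S hE)

theorem TT.of_trivial {J : G →* Matrix ν ν R} (h : ∀ g : G, ρ (g, 1) = 1) : TT J ρ := by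
  refine ⟨_, _, _, ρ.comp (MonoidHom.inr G H), Or.inl ?_⟩
  have : (ρ.comp (MonoidHom.inr G H)).comp (MonoidHom.snd G H) = ρ := by
    ext1 ⟨g, b⟩
    have h2 : ρ (g, b) = ρ (g, 1) * ρ (1, b) := by rw [← map_mul]; simp
    rw [h2, h g, one_mul]
    rfl
  rw [this]
  exact StEq.refl ρ

/-! ## conclusion -/

omit [CommGroup H] [Fintype H] [Fintype G] [DecidableEq G] [CommGroup G] in
theorem trace_repSum2 {G : Type} [CommGroup G] (ρ : G →* Matrix ι ι R) (σ : G →* Matrix κ κ R)
    (a : G) : (repSum ρ σ a).trace = (ρ a).trace + (σ a).trace := by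
  simp [repSum, Matrix.trace, Fintype.sum_sum_type]

theorem ind_sum (X : H →* Matrix κ κ R) (Y : H →* Matrix μ μ R) :
    RepIso (repSum (indH G X) (indH G Y)) (indH G (repSum X Y)) :=
  (repTensor_sum ((repReg R G).comp (MonoidHom.fst G H)) (X.comp (MonoidHom.snd G H))
    (Y.comp (MonoidHom.snd G H))).symm

theorem stab_final [DecidableEq H] [Nontrivial G]
    (hpz : ∀ x y : R, ((Fintype.card G : ℕ) : R) * x = ((Fintype.card G : ℕ) : R) * y → x = y)
    (hK : ∀ (α β : Type) [Fintype α] [DecidableEq α] [Fintype β] [DecidableEq β]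
      (X : H →* Matrix α α R) (Y : H →* Matrix β β R), (∀ a, (X a).trace = (Y a).trace) →
      RepIso X Y)
    (hC : ∀ (α : Type) [Fintype α] [DecidableEq α] (X : H →* Matrix α α R),
      ∃ (β : Type) (_ : Fintype β) (_ : DecidableEq β) (Y : H →* Matrix β β R),
        RepIso (repSum X Y) (repCopies α (repReg R H)))
    {X : H →* Matrix ε ε R} {Y : H →* Matrix τ τ R}
    (hρ : StEq ρ (X.comp (MonoidHom.snd G H))) (hσ : StEq σ (Y.comp (MonoidHom.snd G H)))
    (htr : ∀ a, (ρ a).trace = (σ a).trace) :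
    ∃ s : ℕ, RepIso (repSum ρ (repCopies (Fin s) (repReg R (G × H))))
      (repSum σ (repCopies (Fin s) (repReg R (G × H)))) := by
  obtain ⟨g, hg⟩ := exists_ne (1 : G)
  obtain ⟨_, _, _, _, _, _, P, Q, hP, hQ, h1⟩ := hρ
  obtain ⟨_, _, _, _, _, _, P', Q', hP', hQ', h2⟩ := hσ
  have hXY : RepIso X Y := by
    refine hK _ _ X Y fun b => ?_
    have t1 := h1.trace_eq (g, b)
    have t2 := h2.trace_eq (g, b)
    simp only [trace_repSum2,
      hP.trace g hg, hQ.trace g hg, hP'.trace g hg, hQ'.trace g hg, add_zero] at t1 t2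
    rw [MonoidHom.comp_apply] at t1 t2
    exact t1.symm.trans ((htr _).trans t2)
  -- ρ ⊕ (P ⊕ Q') ≅ σ ⊕ (P' ⊕ Q)
  have h3 : RepIso (repSum ρ (repSum P Q')) (repSum σ (repSum P' Q)) := by
    refine (repSum_assoc _ _ _).symm.trans ?_
    refine (h1.sum (RepIso.refl Q')).trans ?_
    refine (repSum_right_comm _ _ _).trans ?_
    refine (((hXY.comp (MonoidHom.snd G H)).sum (RepIso.refl Q')).sum (RepIso.refl Q)).trans ?_
    refine (h2.symm.sum (RepIso.refl Q)).trans ?_
    exact repSum_assoc _ _ _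
  obtain ⟨u1, _, _, U, hU⟩ := hP.sum hQ'
  obtain ⟨_, _, _, V, hV⟩ := hP'.sum hQ
  have hUV : RepIso U V := by
    refine hK _ _ U V fun b => hpz _ _ ?_
    have t3 := h3.trace_eq (1, b)
    have t4 := hU.trace_eq (1, b)
    have t5 := hV.trace_eq (1, b)
    simp only [trace_repSum2] at t3 t4 t5
    rw [t4, t5, htr] at t3
    have t6 := add_left_cancel t3
    simp only [indH, repExt, repTensor, MonoidHom.coe_mk, OneHom.coe_mk, MonoidHom.comp_apply,
      MonoidHom.coe_fst, MonoidHom.coe_snd, Matrix.trace_kronecker, map_one,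
      Matrix.trace_one] at t6
    exact t6
  obtain ⟨β, _, _, W, hW⟩ := hC _ U
  -- free module
  have hfree : ∀ (α : Type) [Fintype α] [DecidableEq α],
      RepIso (indH G (repCopies α (repReg R H)))
        (repCopies (Fin (Fintype.card α)) (repReg R (G × H))) := by
    intro α _ _
    have e1 : RepIso (indH G (repCopies α (repReg R H)))
        (repCopies α (indH G (repReg R H))) :=
      repTensor_copies ((repReg R G).comp (MonoidHom.fst G H))
        ((repReg R H).comp (MonoidHom.snd G H))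
    have e2 : indH G (repReg R H) = repReg R (G × H) := by
      ext1 ⟨a, b⟩
      ext ⟨x, y⟩ ⟨x', y'⟩
      simp only [indH, repExt, repTensor, repReg, MonoidHom.coe_mk, OneHom.coe_mk,
        MonoidHom.comp_apply, MonoidHom.coe_fst, MonoidHom.coe_snd, kroneckerMap_apply,
        Matrix.of_apply, Prod.mk_mul_mk, Prod.mk.injEq]
      by_cases h1 : x = a * x' <;> by_cases h2 : y = b * y' <;> simp [h1, h2]
    rw [e2] at e1
    exact e1.trans (repCopies_congr_idx (Fintype.equivFin α) _)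
  have hs : RepIso (repSum (repSum P Q') (indH G W))
      (repCopies (Fin (Fintype.card u1)) (repReg R (G × H))) :=
    ((hU.sum (RepIso.refl _)).trans ((ind_sum U W).trans (by
      exact ((RepIso.refl _).tensor (hW.comp (MonoidHom.snd G H)))))).trans (hfree _)
  have hs' : RepIso (repSum (repSum P' Q) (indH G W))
      (repCopies (Fin (Fintype.card u1)) (repReg R (G × H))) := by
    refine RepIso.trans ?_ hs
    refine RepIso.sum ?_ (RepIso.refl _)
    refine hV.trans (RepIso.trans ?_ hU.symm)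
    exact (RepIso.refl _).tensor (hUV.symm.comp (MonoidHom.snd G H))
  refine ⟨Fintype.card u1, ?_⟩
  exact ((RepIso.refl ρ).sum hs.symm).trans ((repSum_assoc _ _ _).symm.trans
    ((h3.sum (RepIso.refl _)).trans ((repSum_assoc _ _ _).trans ((RepIso.refl σ).sum hs'))))

end

end Vale.Agent.P268.Z
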