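import Vale.Agent.P268.Z.B2aRep

/-!
# P268 / B2a: translation representations are induced
-/

namespace Vale.Agent.P268.Z

set_option linter.unusedSectionVars false

open Matrix Polynomial

section

variable {R : Type} [CommRing R] {G H B : Type} [CommGroup G] [Fintype G] [DecidableEq G]
  [CommGroup H] [CommGroup B] [Fintype B] [DecidableEq B]

/-- The translation representation of a homomorphism to a finite abelian group. -/
def trRep {K : Type} [CommGroup K] (R : Type) [CommRing R] (θ : K →* B) :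
    K →* Matrix B B R := (repReg R B).comp θ

theorem trRep_apply {K : Type} [CommGroup K] (θ : K →* B) (a : K) (x y : B) :
    trRep R θ a x y = if x = θ a * y then 1 else 0 := rfl

theorem exists_lam (θ : G × H →* B) (hθ : ∀ u v, θ (u, v) = 1 → u = 1) :
    ∃ lam : B → G, ∀ (a : G × H) (s : B), lam (θ a * s) = a.1 * lam s := by
  classical
  have hex : ∀ s : B, ∃ x : G × H, s = θ x * (Quotient.out (s : B ⧸ θ.range)) := by
    intro s
    obtain ⟨⟨t, ht⟩, hs⟩ := QuotientGroup.mk_out_eq_mul θ.range s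
    obtain ⟨y, hy⟩ := ht
    refine ⟨y⁻¹, ?_⟩
    rw [hs, map_inv, hy]
    simp [mul_comm]
  choose x hx using hex
  refine ⟨fun s => (x s).1, fun a s => ?_⟩
  have h1 := hx (θ a * s)
  have h2 : ((θ a * s : B) : B ⧸ θ.range) = (s : B ⧸ θ.range) := by
    rw [mul_comm, QuotientGroup.mk_mul_of_mem]
    exact ⟨a, rfl⟩
  rw [h2] at h1
  have h3 := hx s
  have h4 : θ ((x (θ a * s))⁻¹ * (a * x s)) = 1 := by
    rw [map_mul, map_inv, map_mul]
    have h5 : θ a * (θ (x s) * (Quotient.out (s : B ⧸ θ.range))) =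
        θ (x (θ a * s)) * (Quotient.out (s : B ⧸ θ.range)) := by rw [← h3, ← h1]
    rw [← mul_assoc] at h5
    have h6 := mul_right_cancel h5
    rw [h6]
    simp
  have h7 := hθ ((x (θ a * s))⁻¹ * (a * x s)).1 ((x (θ a * s))⁻¹ * (a * x s)).2 h4
  simp only [Prod.fst_mul, Prod.fst_inv] at h7
  rw [inv_mul_eq_one] at h7
  exact h7

theorem PP_trRep (θ : G × H →* B) (hθ : ∀ u v, θ (u, v) = 1 → u = 1) : PP (trRep R θ) := by
  classical
  obtain ⟨lam, hlam⟩ := exists_lam θ hθ
  -- the representation of `H` on the fibre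
  let Y := {s : B // lam s = 1}
  have hY : ∀ (b : H) (s : Y), lam (θ (1, b) * s.1) = 1 := by
    intro b s
    rw [hlam, one_mul, s.2]
  let X : H →* Matrix Y Y R :=
    { toFun := fun b => Matrix.of fun x y => if x.1 = θ (1, b) * y.1 then 1 else 0
      map_one' := by
        ext x y
        have : θ ((1 : G), (1 : H)) = 1 := map_one θ
        simp only [this, one_mul, Matrix.of_apply, Matrix.one_apply]
        by_cases hxy : x = y
        · rw [if_pos hxy, if_pos (congrArg Subtype.val hxy)]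
        · rw [if_neg hxy, if_neg (fun h => hxy (Subtype.ext h))]
      map_mul' := by
        intro a b
        ext x y
        rw [Matrix.mul_apply]
        simp only [Matrix.of_apply]
        rw [Finset.sum_eq_single (⟨θ (1, b) * y.1, hY b y⟩ : Y)]
        · have : θ ((1 : G), a * b) = θ (1, a) * θ (1, b) := by rw [← map_mul]; simp
          simp [this, mul_assoc]
        · intro z _ hz
          rw [if_neg (c := z.1 = θ (1, b) * y.1) (fun h => hz (Subtype.ext h)), mul_zero]
        · intro h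
          exact absurd (Finset.mem_univ _) h }
  have key : ∀ s : B, lam (θ ((lam s)⁻¹, 1) * s) = 1 := by
    intro s; rw [hlam]; simp
  let e : B ≃ G × Y :=
    { toFun := fun s => (lam s, ⟨θ ((lam s)⁻¹, 1) * s, key s⟩)
      invFun := fun z => θ (z.1, 1) * z.2.1
      left_inv := by
        intro s
        simp only
        rw [← mul_assoc, ← map_mul]
        have : ((lam s), (1 : H)) * ((lam s)⁻¹, 1) = 1 := by simp
        rw [this, map_one, one_mul]
      right_inv := by
        rintro ⟨g, y, hy⟩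
        have h1 : lam (θ (g, 1) * y) = g := by rw [hlam, hy, mul_one]
        refine Prod.ext h1 (Subtype.ext ?_)
        simp only [h1]
        rw [← mul_assoc, ← map_mul]
        have : (g⁻¹, (1 : H)) * (g, 1) = 1 := by simp
        rw [this, map_one, one_mul] }
  refine ⟨Y, inferInstance, inferInstance, X, RepIso.of_equiv e fun a i j => ?_⟩
  obtain ⟨g, b⟩ := a
  simp only [indH, repExt, repTensor, repReg, MonoidHom.coe_mk, OneHom.coe_mk,
    MonoidHom.comp_apply, MonoidHom.coe_fst, MonoidHom.coe_snd, kroneckerMap_apply,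
    Matrix.of_apply, trRep_apply, e, X, Equiv.coe_fn_mk]
  by_cases h1 : i = θ (g, b) * j
  · have h2 : lam i = g * lam j := by rw [h1, hlam]
    have h3 : θ ((lam i)⁻¹, 1) * i = θ (1, b) * (θ ((lam j)⁻¹, 1) * j) := by
      rw [h2, h1, ← mul_assoc, ← mul_assoc, ← map_mul, ← map_mul]
      congr 2
      simp [mul_comm]
    rw [if_pos h1, if_pos h2, if_pos h3, one_mul]
  · rw [if_neg h1]
    by_cases h2 : lam i = g * lam j
    · rw [if_pos h2, one_mul, if_neg]
      intro h3
      apply h1
      have h4 := congrArg (fun z => θ (lam i, 1) * z) h3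
      simp only [← mul_assoc, ← map_mul] at h4
      have e1 : ((lam i, (1 : H)) * ((lam i)⁻¹, 1)) = 1 := by simp
      rw [e1, map_one, one_mul] at h4
      rw [h4, h2]
      congr 2
      ext
      · simp [mul_assoc]
      · simp
    · rw [if_neg h2, zero_mul]

end

/-! ## the cyclic shift -/

theorem Sb_pow_apply {b : ℕ} (hb : 0 < b) (k : ℕ) (i j : Fin b) :
    (Sb b ^ k) i j = if (i : ℕ) = ((j : ℕ) + k) % b then 1 else 0 := by
  have h1 := congrFun (Sb_pow_mulVec hb k (X ^ (j : ℕ))) i
  rw [cg_basis (Xb_monic hb) Xb_deg, Matrix.mulVec_single_one] at h1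
  change (Sb b ^ k) i j = _ at h1
  rw [h1, ← pow_add]
  have h2 : cg (Xb b) b (X ^ (k + (j : ℕ))) =
      cg (Xb b) b (X ^ (((⟨((j : ℕ) + k) % b, Nat.mod_lt _ hb⟩ : Fin b)) : ℕ)) := by
    apply cg_congr (Xb_monic hb)
    have h2 : k + (j : ℕ) = b * (((j : ℕ) + k) / b) + ((j : ℕ) + k) % b := by
      rw [add_comm k]; exact (Nat.div_add_mod _ _).symm
    have h3 : Xb b ∣ (X : ℤ[X]) ^ (b * (((j : ℕ) + k) / b)) - 1 := by
      rw [Xb, pow_mul]
      exact sub_one_dvd_pow_sub_one _ _
    simp only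
    generalize ((j : ℕ) + k) / b = u at h2 h3
    generalize ((j : ℕ) + k) % b = v at h2
    rw [h2, pow_add]
    obtain ⟨w, hw⟩ := h3
    exact ⟨w * X ^ v, by linear_combination (X : ℤ[X]) ^ v * hw⟩
  rw [h2, cg_basis (Xb_monic hb) Xb_deg, Pi.single_apply]
  congr 1
  rw [Fin.ext_iff]

/-- Multiplication by `e` as a homomorphism `C_D → ℤ/b` (if `b ∣ e D`). -/
def mulHom (D b e : ℕ) [NeZero D] (h : b ∣ e * D) : Cyc D →* Multiplicative (ZMod b) where
  toFun x := Multiplicative.ofAdd ((e * (Multiplicative.toAdd x).val : ℕ) : ZMod b)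
  map_one' := by simp
  map_mul' x y := by
    rw [← ofAdd_add, toAdd_mul, ZMod.val_add]
    congr 1
    have h1 := Nat.div_add_mod ((Multiplicative.toAdd x).val + (Multiplicative.toAdd y).val) D
    have h2 : ((e * D : ℕ) : ZMod b) = 0 := (ZMod.natCast_eq_zero_iff _ _).mpr h
    rw [← Nat.cast_add, ← mul_add]
    conv_rhs => rw [← h1]
    push_cast at h2 ⊢
    linear_combination (-(((Multiplicative.toAdd x).val + (Multiplicative.toAdd y).val) / D : ℕ) :
      ZMod b) * h2

variable {R : Type} [CommRing R]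

theorem shift_iso (D b e : ℕ) [NeZero D] [NeZero b] (h : b ∣ e * D) (h2 : (Sb b ^ e) ^ D = 1)
    (f : ℤ →+* R) :
    RepIso (repMap f (cycRep D (Sb b ^ e) h2)) (trRep R (mulHom D b e h)) := by
  have hb : 0 < b := Nat.pos_of_ne_zero (NeZero.ne b)
  refine RepIso.of_equiv ((ZMod.finEquiv b).toEquiv.trans Multiplicative.ofAdd) fun a i j => ?_
  change f (((Sb b ^ e) ^ (Multiplicative.toAdd a).val) i j) = _
  rw [← pow_mul, Sb_pow_apply hb, trRep_apply]
  have h3 : ((i : ℕ) = ((j : ℕ) + e * (Multiplicative.toAdd a).val) % b) ↔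
      (((ZMod.finEquiv b).toEquiv.trans Multiplicative.ofAdd) i =
        (mulHom D b e h) a * ((ZMod.finEquiv b).toEquiv.trans Multiplicative.ofAdd) j) := by
    have hv : ∀ i : Fin b, (ZMod.finEquiv b i : ZMod b) = ((i : ℕ) : ZMod b) := by
      intro i
      obtain ⟨m, rfl⟩ : ∃ m, b = m + 1 := ⟨b - 1, by omega⟩
      change (i : Fin (m + 1)) = _
      exact (Fin.cast_val_eq_self i).symm
    simp only [Equiv.trans_apply, RingEquiv.toEquiv_eq_coe, EquivLike.coe_coe, hv]
    rw [mulHom, MonoidHom.coe_mk, OneHom.coe_mk, ← ofAdd_add,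
      Multiplicative.ofAdd.injective.eq_iff, ← Nat.cast_add, ZMod.natCast_eq_natCast_iff,
      Nat.ModEq, Nat.mod_eq_of_lt i.2, add_comm]
  by_cases h4 : (i : ℕ) = ((j : ℕ) + e * (Multiplicative.toAdd a).val) % b
  · rw [if_pos h4, if_pos (h3.mp h4), map_one]
  · rw [if_neg h4, if_neg (fun h5 => h4 (h3.mpr h5)), map_zero]

/-- The permutation module is induced from `C_n` if `p` divides the order of the shift. -/
theorem PP_shift (p n D b e : ℕ) [NeZero D] [NeZero b] [NeZero p] [NeZero n] (hp : p.Prime)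
    (hpn : p.Coprime n) (hD : D = p * n) (h : b ∣ e * D) (hn : ¬ b ∣ e * n)
    (h2 : (Sb b ^ e) ^ D = 1) (f : ℤ →+* R) (φ : Cyc p × Cyc n ≃* Cyc D) :
    PP ((repMap f (cycRep D (Sb b ^ e) h2)).comp (φ : Cyc p × Cyc n →* Cyc D)) := by
  refine PP.iso (PP_trRep ((mulHom D b e h).comp (φ : Cyc p × Cyc n →* Cyc D)) ?_)
    ((shift_iso D b e h h2 f).comp _)
  intro u v huv
  by_contra hu
  apply hn
  set k := (Multiplicative.toAdd (φ (u, v))).val with hk
  have h3 : b ∣ e * k := by
    rw [MonoidHom.comp_apply, mulHom, MonoidHom.coe_mk, OneHom.coe_mk] at huv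
    have := Multiplicative.ofAdd.injective huv
    exact (ZMod.natCast_eq_zero_iff _ _).mp this
  have hpk : ¬ p ∣ k := by
    rintro ⟨m, hm⟩
    have h4 : (φ (u, v)) ^ n = 1 := by
      rw [← gen_pow_val (φ (u, v)), ← hk, hm, ← pow_mul]
      have : p * m * n = D * m := by rw [hD]; ring
      rw [this, pow_mul, gen_pow_card, one_pow]
    rw [← map_pow, MulEquiv.map_eq_one_iff] at h4
    have h5 : u ^ n = 1 := congrArg Prod.fst h4
    have h6 : u ^ p = 1 := by
      rw [← gen_pow_val u, ← pow_mul, mul_comm, pow_mul, gen_pow_card, one_pow]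
    have h7 : orderOf u ∣ 1 := by
      rw [← Nat.Coprime.gcd_eq_one hpn]
      exact Nat.dvd_gcd (orderOf_dvd_of_pow_eq_one h6) (orderOf_dvd_of_pow_eq_one h5)
    exact hu (orderOf_eq_one_iff.mp (Nat.dvd_one.mp h7))
  have h8 : Nat.gcd k D ∣ n := by
    have h9 : Nat.Coprime (Nat.gcd k D) p := by
      have h10 : Nat.Coprime p k := (Nat.Prime.coprime_iff_not_dvd hp).mpr hpk
      exact (Nat.Coprime.coprime_dvd_right (Nat.gcd_dvd_left k D) h10).symm
    have h11 : Nat.gcd k D ∣ p * n := hD ▸ Nat.gcd_dvd_right k D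
    exact h9.dvd_of_dvd_mul_left h11
  have h12 : b ∣ e * Nat.gcd k D := by
    rw [← Nat.gcd_mul_left]
    exact Nat.dvd_gcd h3 h
  exact dvd_trans h12 (Nat.mul_dvd_mul_left e h8)

end Vale.Agent.P268.Z
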