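import Vale.Agent.P268.Z.B2aChain
import Vale.Agent.P268.Z.B2aEq

/-!
# P268 / B2a: chains as representations, order of the monodromy, families
-/

namespace Vale.Agent.P268.Z

set_option linter.unusedSectionVars false

open Matrix Polynomial

/-! ## the cyclic group -/

theorem gen_pow (D : ℕ) (k : ℕ) : (Cyc.gen D) ^ k = Multiplicative.ofAdd (k : ZMod D) := by
  rw [Cyc.gen, ← ofAdd_nsmul]
  simp

theorem gen_pow_val {D : ℕ} [NeZero D] (x : Cyc D) :
    (Cyc.gen D) ^ (Multiplicative.toAdd x).val = x := by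
  rw [gen_pow]
  simp

theorem gen_pow_card (D : ℕ) : (Cyc.gen D) ^ D = 1 := by
  rw [gen_pow]; simp

theorem cyc_hom_ext {D : ℕ} [NeZero D] {M : Type} [Monoid M] {f g : Cyc D →* M}
    (h : f (Cyc.gen D) = g (Cyc.gen D)) : f = g := by
  refine MonoidHom.ext fun x => ?_
  rw [← gen_pow_val x, map_pow, map_pow, h]

section

variable {R : Type} [CommRing R] {ι κ ε : Type} [Fintype ι] [DecidableEq ι]
  [Fintype κ] [DecidableEq κ] [Fintype ε] [DecidableEq ε]

theorem cycRep_apply (D : ℕ) [NeZero D] (T : Matrix ι ι R) (h : T ^ D = 1) (x : Cyc D) :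
    cycRep D T h x = T ^ (Multiplicative.toAdd x).val := rfl

theorem cycRep_gen_b2a (D : ℕ) [NeZero D] (T : Matrix ι ι R) (h : T ^ D = 1) :
    cycRep D T h (Cyc.gen D) = T := by
  rw [cycRep_apply, Cyc.gen, toAdd_ofAdd]
  rcases Nat.lt_or_ge 1 D with h1 | h1
  · have : (1 : ZMod D).val = 1 := ZMod.val_one'' (by omega)
    rw [this, pow_one]
  · have h2 : D = 1 := by have := NeZero.ne D; omega
    subst h2
    have : (1 : ZMod 1).val = 0 := by decide
    rw [this, pow_zero]
    rw [pow_one] at h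
    exact h.symm

/-- Intertwiners of `cycRep`s. -/
theorem cycRep_intertwine {D : ℕ} [NeZero D] {T : Matrix ι ι R} {hT : T ^ D = 1}
    {S : Matrix κ κ R} {hS : S ^ D = 1} {i : Matrix κ ι R} (h : i * T = S * i) (a : Cyc D) :
    i * cycRep D T hT a = cycRep D S hS a * i := by
  rw [cycRep_apply, cycRep_apply]
  induction (Multiplicative.toAdd a).val with
  | zero => simp
  | succ k ih =>
    rw [pow_succ, pow_succ, ← Matrix.mul_assoc, ih, Matrix.mul_assoc, h, ← Matrix.mul_assoc]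

theorem intertwine_pow {T : Matrix ι ι R} {S : Matrix κ κ R} {i : Matrix κ ι R}
    (h : i * T = S * i) (k : ℕ) : i * T ^ k = S ^ k * i := by
  induction k with
  | zero => simp
  | succ k ih =>
    rw [pow_succ, pow_succ, ← Matrix.mul_assoc, ih, Matrix.mul_assoc, h, ← Matrix.mul_assoc]

/-- Base change of sequences. -/
def SES.map {S : Type} [CommRing S] {G : Type} [CommGroup G] (f : R →+* S)
    {K : G →* Matrix κ κ R} {E : G →* Matrix ε ε R} {M : G →* Matrix ι ι R} (s : SES K E M) :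
    SES (repMap f K) (repMap f E) (repMap f M) where
  i := s.i.map f
  q := s.q.map f
  r := s.r.map f
  s := s.s.map f
  ri := by rw [← Matrix.map_mul, s.ri]; simp
  qs := by rw [← Matrix.map_mul, s.qs]; simp
  irsq := by
    rw [← Matrix.map_mul, ← Matrix.map_mul, ← Matrix.map_add f (map_add f), s.irsq]; simp
  hi a := by
    change s.i.map f * (K a).map f = (E a).map f * s.i.map f
    rw [← Matrix.map_mul, ← Matrix.map_mul, s.hi]
  hq a := by
    change s.q.map f * (E a).map f = (M a).map f * s.q.map f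
    rw [← Matrix.map_mul, ← Matrix.map_mul, s.hq]

end

/-! ## the order of the monodromy -/

theorem exists_prim_root {a : ℕ} {t : List ℕ} (h : Pos (a :: t)) (ha : 2 ≤ a) :
    ∃ z ∈ Zr (a :: t), ∀ k : ℕ, z ^ k = 1 → (a :: t).prod ∣ k := by
  have hω := Complex.isPrimitiveRoot_exp (a :: t).prod h.prod.ne'
  refine ⟨_, ?_, fun k hk => (hω.pow_eq_one_iff_dvd k).mp hk⟩
  rcases root_or (c := a :: t) hω.pow_eq_one with h1 | h1
  · exact (mem_Zr h).mpr h1
  · exfalso
    have h2 := Zr_pow h.tail ((mem_Zr h.tail).mpr h1)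
    have h3 := (hω.pow_eq_one_iff_dvd _).mp h2
    have h4 := Nat.le_of_dvd h.tail.prod h3
    rw [List.prod_cons] at h4
    have h5 := h.tail.prod
    have h6 : 2 * t.prod ≤ a * t.prod := Nat.mul_le_mul_right _ ha
    omega

theorem dvd_of_Tc_pow {c : List ℕ} (h2 : ∀ a ∈ c, 2 ≤ a) {N : ℕ} (hN : Tc c ^ N = 1) :
    c.prod ∣ N := by
  cases c with
  | nil => simp
  | cons a t =>
    have h : Pos (a :: t) := fun b hb => lt_of_lt_of_le two_pos (h2 b hb)
    have ha : 2 ≤ a := h2 a List.mem_cons_self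
    obtain ⟨z, hz, hzk⟩ := exists_prim_root h ha
    apply hzk
    have hmu : 0 < mu (a :: t) := mu_pos h2
    have h3 : Vm (a :: t) * ((Tc (a :: t)) ^ N).map (Int.cast : ℤ → ℂ) =
        diagonal (fun z : Zr (a :: t) => (z : ℂ) ^ N) * Vm (a :: t) := by
      rw [Tc_pow_spec h, ← Matrix.mul_assoc, ← Matrix.mul_assoc, Vm_mul_Wm h, Matrix.one_mul]
    rw [hN] at h3
    have h4 := congrFun (congrFun h3 ⟨z, hz⟩) ⟨0, hmu⟩
    have h5 : (1 : Matrix (Fin (mu (a :: t))) (Fin (mu (a :: t))) ℤ).map (Int.cast : ℤ → ℂ) = 1 :=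
      by simp
    rw [h5, Matrix.mul_one, Matrix.diagonal_mul] at h4
    simpa [Vm] using h4.symm

/-- The representation of a chain. -/
noncomputable def chRep (D : ℕ) [NeZero D] (c : List ℕ) (h : (Tc c ^ dl c) ^ D = 1) :
    Cyc D →* Matrix (Fin (mu c)) (Fin (mu c)) ℤ := cycRep D (Tc c ^ dl c) h

theorem Tc_pow_one_of_dvd {c : List ℕ} (h : Pos c) {N : ℕ} (hN : c.prod ∣ N) :
    Tc c ^ N = 1 := by
  obtain ⟨k, rfl⟩ := hN
  rw [pow_mul, Tc_pow_prod h, one_pow]

theorem Sb_pow_one_of_dvd {b : ℕ} (h : 0 < b) {N : ℕ} (hN : b ∣ N) : Sb b ^ N = 1 := by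
  obtain ⟨k, rfl⟩ := hN
  rw [pow_mul, Sb_pow_self h, one_pow]

theorem tail_dvd {a : ℕ} {t : List ℕ} (h : Pos (a :: t)) {N : ℕ}
    (hN : (a :: t).prod ∣ dl (a :: t) * N) : t.prod ∣ dl t * N := by
  have h1 : t.prod ∣ mu t * N :=
    dvd_trans (by rw [List.prod_cons]; exact dvd_mul_left _ _) hN
  have h2 := (pq_deg h.tail).2.2
  have h3 : t.prod ∣ mu t * N + dl t * N := by
    rw [← add_mul, h2]; exact dvd_mul_right _ _
  exact (Nat.dvd_add_right h1).mp h3

/-- The exact sequence of a chain, as representations of the cyclic group. -/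
theorem chain_ses (D : ℕ) [NeZero D] {a : ℕ} {t : List ℕ} (h : Pos (a :: t))
    (hD : (a :: t).prod ∣ dl (a :: t) * D) (h1 : (Tc t ^ dl t) ^ D = 1)
    (h2 : (Sb (a * t.prod) ^ mu t) ^ D = 1) (h3 : (Tc (a :: t) ^ dl (a :: t)) ^ D = 1) :
    Nonempty (SES (repBar (chRep D t h1)) (cycRep D (Sb (a * t.prod) ^ mu t) h2)
      (chRep D (a :: t) h3)) := by
  obtain ⟨i, q, r, s, hri, hqs, hirsq, hi, hq⟩ := chain_ses_T h
  have h4 : (Tc t ^ mu t) ^ D = 1 := by
    rw [← pow_mul]
    refine Tc_pow_one_of_dvd h.tail ?_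
    exact dvd_trans (by rw [List.prod_cons]; exact dvd_mul_left _ _) hD
  have h5 : repBar (chRep D t h1) = cycRep D (Tc t ^ mu t) h4 := by
    apply cyc_hom_ext
    rw [cycRep_gen_b2a]
    have h6 : repBar (chRep D t h1) (Cyc.gen D) * chRep D t h1 (Cyc.gen D) = 1 := by
      rw [repBar, MonoidHom.comp_apply, ← map_mul]
      simp
    have h7 : Tc t ^ mu t * chRep D t h1 (Cyc.gen D) = 1 := by
      rw [chRep, cycRep_gen_b2a, ← pow_add, (pq_deg h.tail).2.2, Tc_pow_prod h.tail]
    have h8 : chRep D t h1 (Cyc.gen D) * repBar (chRep D t h1) (Cyc.gen D) = 1 := by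
      rw [repBar, MonoidHom.comp_apply, ← map_mul]
      simp
    calc repBar (chRep D t h1) (Cyc.gen D)
        = (Tc t ^ mu t * chRep D t h1 (Cyc.gen D)) * repBar (chRep D t h1) (Cyc.gen D) := by
          rw [h7, one_mul]
      _ = Tc t ^ mu t := by rw [mul_assoc, h8, mul_one]
  rw [h5]
  refine ⟨⟨i, q, r, s, hri, hqs, hirsq, ?_, ?_⟩⟩
  · exact fun a => cycRep_intertwine (intertwine_pow hi _) a
  · exact fun a => cycRep_intertwine (intertwine_pow hq _) a

/-! ## families -/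

section fam

variable {R : Type} [CommRing R] {G H : Type} [CommGroup G] [Fintype G] [DecidableEq G]
  [CommGroup H] [Fintype H] {ν : Type} [Fintype ν] [DecidableEq ν]

theorem repPi_equiv {α β : Type} [Fintype α] [DecidableEq α] [Fintype β] [DecidableEq β]
    {G : Type} [CommGroup G] (e : α ≃ β) {ι : β → Type} [∀ k, Fintype (ι k)]
    [∀ k, DecidableEq (ι k)] (ρ : ∀ k, G →* Matrix (ι k) (ι k) R) :
    RepIso (repPi fun a => ρ (e a)) (repPi ρ) := by
  refine RepIso.of_equiv (Equiv.piCongrLeft ι e) fun a x y => ?_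
  simp only [repPi, MonoidHom.coe_mk, OneHom.coe_mk, piMat_apply]
  rw [← Equiv.prod_comp e]
  simp

theorem repPi_option {α : Type} [Fintype α] [DecidableEq α] [DecidableEq (Option α)]
    {G : Type} [CommGroup G] {ι : Option α → Type} [∀ k, Fintype (ι k)]
    [∀ k, DecidableEq (ι k)] (ρ : ∀ k, G →* Matrix (ι k) (ι k) R) :
    RepIso (repPi ρ) (repTensor (ρ none) (repPi fun a => ρ (some a))) := by
  refine RepIso.of_equiv (Equiv.piOptionEquivProd) fun a x y => ?_
  simp only [repPi, MonoidHom.coe_mk, OneHom.coe_mk, piMat_apply, repTensor, kroneckerMap_apply,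
    Equiv.piOptionEquivProd, Equiv.coe_fn_mk]
  rw [Fintype.prod_option]

theorem TT.pi (hH : IsUnit ((Fintype.card H : ℕ) : R)) {J : G →* Matrix ν ν R}
    (SJ : Syz G J) (α : Type) [hα : Fintype α] [DecidableEq α] (ι : α → Type)
    [∀ k, Fintype (ι k)] [∀ k, DecidableEq (ι k)] (ρ : ∀ k, G × H →* Matrix (ι k) (ι k) R)
    (h : ∀ k, TT J (ρ k)) : TT J (repPi ρ) := by
  revert ι
  refine Fintype.induction_empty_option
    (P := fun α _ => ∀ [DecidableEq α] (ι : α → Type)
      [∀ k, Fintype (ι k)] [∀ k, DecidableEq (ι k)] (ρ : ∀ k, G × H →* Matrix (ι k) (ι k) R),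
      (∀ k, TT J (ρ k)) → TT J (repPi ρ)) ?_ ?_ ?_ α
  · intro α β _ e ih _ ι _ _ ρ h
    let _ : Fintype α := Fintype.ofEquiv β e.symm
    classical
    have h1 := ih (fun a => ι (e a)) (fun a => ρ (e a)) (fun a => h (e a))
    exact h1.stEq (StEq.of_iso (repPi_equiv e ρ).symm)
  · intro _ ι _ _ ρ _
    apply TT.of_trivial
    intro g
    ext x y
    have : x = y := Subsingleton.elim _ _
    subst this
    simp [repPi, piMat_apply]
  · intro α _ ih _ ι _ _ ρ h
    classical
    have h1 := ih (fun a => ι (some a)) (fun a => ρ (some a)) (fun a => h (some a))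
    exact ((h none).tensor hH SJ h1).stEq (StEq.of_iso (repPi_option ρ))

end fam

end Vale.Agent.P268.Z
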