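import Vale.Agent.P268.Z.B2aSES
import Vale.Agent.P268.Z.ApiRep

/-!
# P268 / B2a: induced representations and stable equivalence
-/

namespace Vale.Agent.P268.Z

open Matrix

section

variable {R : Type} [CommRing R] {G H : Type} [CommGroup G] [Fintype G] [DecidableEq G]
  [CommGroup H]
  {κ ε μ κ' ε' μ' ι : Type} [Fintype κ] [DecidableEq κ] [Fintype ε] [DecidableEq ε]
  [Fintype μ] [DecidableEq μ] [Fintype κ'] [DecidableEq κ'] [Fintype ε'] [DecidableEq ε']
  [Fintype μ'] [DecidableEq μ'] [Fintype ι] [DecidableEq ι]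

/-- The representation induced from `H` to `G × H`. -/
abbrev indH (G : Type) [CommGroup G] [Fintype G] [DecidableEq G] (X : H →* Matrix κ κ R) :
    G × H →* Matrix (G × κ) (G × κ) R := repExt (repReg R G) X

/-- Isomorphic to an induced representation. -/
def PP (ρ : G × H →* Matrix ι ι R) : Prop :=
  ∃ (κ : Type) (_ : Fintype κ) (_ : DecidableEq κ) (X : H →* Matrix κ κ R), RepIso ρ (indH G X)

theorem PP.iso {ρ : G × H →* Matrix ι ι R} {σ : G × H →* Matrix κ κ R} (h : PP ρ)
    (e : RepIso σ ρ) : PP σ := by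
  obtain ⟨α, _, _, X, hX⟩ := h
  exact ⟨α, _, _, X, e.trans hX⟩

theorem PP.sum {ρ : G × H →* Matrix ι ι R} {σ : G × H →* Matrix κ κ R} (h : PP ρ)
    (h' : PP σ) : PP (repSum ρ σ) := by
  obtain ⟨α, _, _, X, hX⟩ := h
  obtain ⟨β, _, _, Y, hY⟩ := h'
  refine ⟨α ⊕ β, inferInstance, inferInstance, repSum X Y, (hX.sum hY).trans ?_⟩
  exact (repTensor_sum ((repReg R G).comp (MonoidHom.fst G H)) (X.comp (MonoidHom.snd G H))
    (Y.comp (MonoidHom.snd G H))).symm.trans (by
      have : (repSum X Y).comp (MonoidHom.snd G H) =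
          repSum (X.comp (MonoidHom.snd G H)) (Y.comp (MonoidHom.snd G H)) := rfl
      exact RepIso.refl _)

/-- Untwisting: `ρ ⊗ Ind X ≅ Ind (ρ|_H ⊗ X)`. -/
theorem untwist (ρ : G × H →* Matrix ι ι R) (X : H →* Matrix κ κ R) :
    RepIso (repTensor ρ (indH G X)) (indH G (repTensor (ρ.comp (MonoidHom.inr G H)) X)) := by
  refine ⟨Matrix.of fun (a : G × (ι × κ)) (b : ι × (G × κ)) =>
      if a.1 = b.2.1 ∧ a.2.2 = b.2.2 then ρ (a.1⁻¹, 1) a.2.1 b.1 else 0,
    Matrix.of fun (b : ι × (G × κ)) (a : G × (ι × κ)) =>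
      if a.1 = b.2.1 ∧ a.2.2 = b.2.2 then ρ (a.1, 1) b.1 a.2.1 else 0, ?_, ?_, ?_⟩
  · ext ⟨i, g, k⟩ ⟨i', g', k'⟩
    rw [Matrix.mul_apply]
    simp only [Matrix.of_apply, Fintype.sum_prod_type]
    rw [Finset.sum_eq_single g]
    · have : ∀ x : ι, ∑ y : κ, (if g = g ∧ y = k then ρ (g, 1) i x else 0) *
          (if g = g' ∧ y = k' then ρ (g⁻¹, 1) x i' else 0) =
          if g = g' ∧ k = k' then ρ (g, 1) i x * ρ (g⁻¹, 1) x i' else 0 := by
        intro x
        rw [Finset.sum_eq_single k]
        · by_cases h : g = g' ∧ k = k' <;> simp [h]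
        · intro y _ hy; simp [hy]
        · simp
      rw [Finset.sum_congr rfl fun x _ => this x]
      by_cases h : g = g' ∧ k = k'
      · obtain ⟨rfl, rfl⟩ := h
        simp only [and_self, if_true]
        rw [← Matrix.mul_apply, ← map_mul]
        have h1 : (g, (1 : H)) * (g⁻¹, 1) = 1 := by simp
        rw [h1, map_one]
        simp [Matrix.one_apply]
      · rw [Matrix.one_apply, if_neg]
        · simp [h]
        · intro h3
          simp only [Prod.mk.injEq] at h3
          exact h ⟨h3.2.1, h3.2.2⟩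
    · intro x _ hx
      refine Finset.sum_eq_zero fun y _ => Finset.sum_eq_zero fun z _ => ?_
      rw [if_neg (fun h => hx h.1), zero_mul]
    · simp
  · ext ⟨g, i, k⟩ ⟨g', i', k'⟩
    rw [Matrix.mul_apply]
    simp only [Matrix.of_apply, Fintype.sum_prod_type]
    have : ∀ x : ι, ∑ y : G, ∑ z : κ, (if g = y ∧ k = z then ρ (g⁻¹, 1) i x else 0) *
          (if g' = y ∧ k' = z then ρ (g', 1) x i' else 0) =
          if g = g' ∧ k = k' then ρ (g⁻¹, 1) i x * ρ (g', 1) x i' else 0 := by
      intro x
      rw [Finset.sum_eq_single g, Finset.sum_eq_single k]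
      · by_cases h : g = g' ∧ k = k'
        · simp [h]
        · rw [if_neg h]
          have h2 : ¬ (g' = g ∧ k' = k) := fun h3 => h ⟨h3.1.symm, h3.2.symm⟩
          rw [if_neg h2, mul_zero]
      · intro z _ hz
        rw [if_neg (fun h => hz h.2.symm), zero_mul]
      · simp
      · intro y _ hy
        refine Finset.sum_eq_zero fun z _ => ?_
        rw [if_neg (fun h => hy h.1.symm), zero_mul]
      · simp
    rw [Finset.sum_congr rfl fun x _ => this x]
    by_cases h : g = g' ∧ k = k'
    · obtain ⟨rfl, rfl⟩ := h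
      simp only [and_self, if_true]
      rw [← Matrix.mul_apply, ← map_mul]
      have h1 : (g⁻¹, (1 : H)) * (g, 1) = 1 := by simp
      rw [h1, map_one]
      simp [Matrix.one_apply]
    · rw [Matrix.one_apply, if_neg]
      · simp [h]
      · intro h3
        simp only [Prod.mk.injEq] at h3
        exact h ⟨h3.1, h3.2.2⟩
  · rintro ⟨a, b⟩
    ext ⟨g, i, k⟩ ⟨i', g', k'⟩
    rw [Matrix.mul_apply, Matrix.mul_apply]
    simp only [Fintype.sum_prod_type, Matrix.of_apply, indH, repExt, repTensor, repReg,
      MonoidHom.coe_mk, OneHom.coe_mk, MonoidHom.comp_apply, MonoidHom.coe_fst, MonoidHom.coe_snd,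
      kroneckerMap_apply, MonoidHom.inr_apply]
    have e1 : ∀ x : ι, ∑ y : G, ∑ z : κ, (if g = y ∧ k = z then ρ (g⁻¹, 1) i x else 0) *
        (ρ (a, b) x i' * ((if y = a * g' then 1 else 0) * X b z k')) =
        if g = a * g' then ρ (g⁻¹, 1) i x * ρ (a, b) x i' * X b k k' else 0 := by
      intro x
      rw [Finset.sum_eq_single g, Finset.sum_eq_single k]
      · by_cases h : g = a * g'
        · simp [h, mul_assoc]
        · simp [h]
      · intro z _ hz
        rw [if_neg (fun h => hz h.2.symm), zero_mul]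
      · simp
      · intro y _ hy
        refine Finset.sum_eq_zero fun z _ => ?_
        rw [if_neg (fun h => hy h.1.symm), zero_mul]
      · simp
    rw [Finset.sum_congr rfl fun x _ => e1 x]
    have e2 : ∑ x : G, ∑ x_1 : ι, ∑ x_2 : κ,
        (if g = a * x then 1 else 0) * (ρ (1, b) i x_1 * X b k x_2) *
          (if x = g' ∧ x_2 = k' then ρ (x⁻¹, 1) x_1 i' else 0) =
        ∑ x_1 : ι, if g = a * g' then ρ (1, b) i x_1 * ρ (g'⁻¹, 1) x_1 i' * X b k k' else 0 := by
      rw [Finset.sum_eq_single g']
      · refine Finset.sum_congr rfl fun x _ => ?_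
        rw [Finset.sum_eq_single k']
        · by_cases h : g = a * g'
          · simp [h]; ring
          · simp [h]
        · intro z _ hz
          simp [hz]
        · simp
      · intro y _ hy
        refine Finset.sum_eq_zero fun x _ => Finset.sum_eq_zero fun z _ => ?_
        simp [hy]
      · simp
    rw [e2]
    by_cases h : g = a * g'
    · simp only [h, if_true]
      rw [← Finset.sum_mul, ← Finset.sum_mul, ← Matrix.mul_apply, ← Matrix.mul_apply, ← map_mul,
        ← map_mul]
      simp
    · simp [h]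

theorem PP.tensor_left (σ : G × H →* Matrix κ κ R) {ρ : G × H →* Matrix ι ι R} (h : PP ρ) :
    PP (repTensor σ ρ) := by
  obtain ⟨α, _, _, X, hX⟩ := h
  exact ⟨_, _, _, _, ((RepIso.refl σ).tensor hX).trans (untwist σ X)⟩

theorem PP.tensor_right (σ : G × H →* Matrix κ κ R) {ρ : G × H →* Matrix ι ι R} (h : PP ρ) :
    PP (repTensor ρ σ) := (h.tensor_left σ).iso (repTensor_comm ρ σ)

theorem PP_reg : PP ((repReg R G).comp (MonoidHom.fst G H)) := by
  refine ⟨Unit, inferInstance, inferInstance, 1, ?_⟩
  refine RepIso.of_equiv (Equiv.prodPUnit G).symm fun a i j => ?_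
  simp [indH, repExt, repTensor]

theorem PP.trace {ρ : G × H →* Matrix ι ι R} (h : PP ρ) (g : G) (hg : g ≠ 1) (b : H) :
    (ρ (g, b)).trace = 0 := by
  obtain ⟨α, _, _, X, hX⟩ := h
  rw [hX.trace_eq]
  simp only [indH, repExt, repTensor, MonoidHom.coe_mk, OneHom.coe_mk, MonoidHom.comp_apply,
    MonoidHom.coe_fst, MonoidHom.coe_snd, Matrix.trace_kronecker]
  have : (repReg R G g).trace = 0 := by
    simp only [Matrix.trace, repReg, MonoidHom.coe_mk, OneHom.coe_mk, Matrix.diag_apply,
      Matrix.of_apply]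
    refine Finset.sum_eq_zero fun x _ => if_neg fun h => hg ?_
    simpa using h
  rw [this, zero_mul]

/-- Higman's criterion for induced representations. -/
theorem PP.hig [Fintype H] (hH : IsUnit ((Fintype.card H : ℕ) : R)) {ρ : G × H →* Matrix ι ι R}
    (h : PP ρ) : Hig ρ := by
  obtain ⟨α, _, _, X, P, Q, hQP, hPQ, he⟩ := h
  obtain ⟨u, hu⟩ := hH
  let F : Matrix (G × α) (G × α) R :=
    Matrix.of fun a b => if a.1 = 1 ∧ b.1 = 1 ∧ a.2 = b.2 then ((u⁻¹ : Rˣ) : R) else 0
  have hF : ∑ a, (indH G X) a * F * (indH G X) a⁻¹ = 1 := by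
    ext ⟨g, i⟩ ⟨g', i'⟩
    rw [Matrix.sum_apply, Fintype.sum_prod_type]
    have e1 : ∀ (x : G) (y : H), ((indH G X) (x, y) * F * (indH G X) (x, y)⁻¹) (g, i) (g', i') =
        if g = x ∧ g' = x then ((u⁻¹ : Rˣ) : R) * (X y * X y⁻¹) i i' else 0 := by
      intro x y
      rw [Matrix.mul_apply, Fintype.sum_prod_type]
      have e2 : ∀ (z : G) (j : α), ((indH G X) (x, y) * F) (g, i) (z, j) =
          if g = x ∧ z = 1 then ((u⁻¹ : Rˣ) : R) * X y i j else 0 := by
        intro z j
        rw [Matrix.mul_apply, Fintype.sum_prod_type, Finset.sum_eq_single 1,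
          Finset.sum_eq_single j]
        · simp only [indH, repExt, repTensor, repReg, MonoidHom.coe_mk, OneHom.coe_mk,
            MonoidHom.comp_apply, MonoidHom.coe_fst, MonoidHom.coe_snd, kroneckerMap_apply,
            Matrix.of_apply, F, mul_one]
          by_cases h1 : g = x <;> by_cases h2 : z = 1 <;> simp [h1, h2, mul_comm]
        · intro k _ hk
          simp [F, hk]
        · simp
        · intro w _ hw
          refine Finset.sum_eq_zero fun k _ => ?_
          simp [F, hw]
        · simp
      rw [Finset.sum_eq_single 1]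
      · simp only [e2, and_true]
        by_cases h1 : g = x
        · simp only [h1, true_and, if_true]
          by_cases h2 : g' = x
          · simp only [h2, if_true, Matrix.mul_apply, Finset.mul_sum]
            refine Finset.sum_congr rfl fun j _ => ?_
            simp [indH, repExt, repTensor, repReg, mul_assoc]
          · rw [if_neg h2]
            refine Finset.sum_eq_zero fun j _ => ?_
            have h3 : ¬ (1 : G) = x⁻¹ * g' := by
              intro h4
              exact h2 (by rw [eq_comm, inv_mul_eq_one] at h4; exact h4.symm)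
            simp [indH, repExt, repTensor, repReg, h3]
        · simp [h1]
      · intro z _ hz
        refine Finset.sum_eq_zero fun j _ => ?_
        rw [e2, if_neg (fun h => hz h.2), zero_mul]
      · simp
    simp only [e1]
    have e3 : ∀ y : H, (X y * X y⁻¹) i i' = (1 : Matrix α α R) i i' := by
      intro y; rw [← map_mul]; simp
    simp only [e3]
    rw [Finset.sum_eq_single g]
    · simp only [true_and, Finset.sum_const, Finset.card_univ, nsmul_eq_mul]
      by_cases h : g' = g
      · subst h
        simp only [if_true]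
        rw [← hu, ← mul_assoc, Units.mul_inv, one_mul]
        by_cases h2 : i = i'
        · subst h2; simp
        · rw [Matrix.one_apply_ne h2, Matrix.one_apply_ne]
          simpa using h2
      · rw [if_neg h, mul_zero, Matrix.one_apply_ne]
        intro h2
        exact h (congrArg Prod.fst h2).symm
    · intro x _ hx
      refine Finset.sum_eq_zero fun y _ => ?_
      rw [if_neg (fun h => hx h.1.symm)]
    · simp
  have he' : ∀ a, ρ a * Q = Q * indH G X a := by
    intro a
    have : Q * (P * ρ a) * Q = Q * (indH G X a * P) * Q := by rw [he]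
    rw [← Matrix.mul_assoc, hQP, Matrix.one_mul, Matrix.mul_assoc Q, Matrix.mul_assoc _ P Q, hPQ,
      Matrix.mul_one] at this
    exact this
  refine ⟨Q * F * P, ?_⟩
  have : ∀ a ∈ Finset.univ, ρ a * (Q * F * P) * ρ a⁻¹ =
      Q * ((indH G X) a * F * (indH G X) a⁻¹) * P := by
    intro a _
    rw [Matrix.mul_assoc Q F P, ← Matrix.mul_assoc (ρ a), he', Matrix.mul_assoc _ (F * P),
      Matrix.mul_assoc F P, he]
    simp only [Matrix.mul_assoc]
  rw [Finset.sum_congr rfl this, ← Matrix.sum_mul, ← Matrix.mul_sum, hF, Matrix.mul_one, hQP]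

end

end Vale.Agent.P268.Z
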