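import Mathlib

/-!
# P268, block B2b, part 1: sums of two squares in finite rings, `p`-powers near `1`
-/

namespace Vale.Agent.P268.Z

/-- In a finite field of odd characteristic `a² + d b² = c` is solvable for `d ≠ 0`. -/
theorem b2b_field {K : Type} [Field K] [Finite K] (h2 : (2 : K) ≠ 0) (c d : K) (hd : d ≠ 0) :
    ∃ a b : K, a ^ 2 + d * b ^ 2 = c := by
  classical
  let _ : Fintype K := Fintype.ofFinite K
  have hodd : Fintype.card K % 2 = 1 := by
    apply FiniteField.odd_card_of_char_ne_two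
    intro h
    apply h2
    have := ringChar.Nat.cast_ringChar (R := K)
    rw [h] at this
    exact_mod_cast this
  have hf : (Polynomial.X ^ 2 - Polynomial.C c : Polynomial K).degree = 2 := by
    exact Polynomial.degree_X_pow_sub_C (by norm_num) c
  have hg : (Polynomial.C d * Polynomial.X ^ 2 : Polynomial K).degree = 2 := by
    exact Polynomial.degree_C_mul_X_pow 2 hd
  obtain ⟨a, b, h⟩ := FiniteField.exists_root_sum_quadratic hf hg hodd
  refine ⟨a, b, ?_⟩
  simp only [Polynomial.eval_sub, Polynomial.eval_pow, Polynomial.eval_X, Polynomial.eval_C,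
    Polynomial.eval_mul] at h
  linear_combination h

/-- In a finite commutative ring of odd residue characteristics `a² + d b² - c` is nilpotent for
suitable `a, b`, if `d` is a unit. -/
theorem b2b_finite {K : Type} [CommRing K] [Finite K] (h2 : IsUnit (2 : K)) (c d : K)
    (hd : IsUnit d) : ∃ a b : K, IsNilpotent (a ^ 2 + d * b ^ 2 - c) := by
  classical
  have : Finite (K ⧸ nilradical K) :=
    Finite.of_surjective _ (Ideal.Quotient.mk_surjective (I := nilradical K))
  have : IsReduced (K ⧸ nilradical K) :=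
    (Ideal.isRadical_iff_quotient_reduced _).mp (Ideal.radical_isRadical _)
  have : IsArtinianRing (K ⧸ nilradical K) := inferInstance
  set K' := K ⧸ nilradical K with hK'
  set e := IsArtinianRing.equivPi K' with he
  have key : ∀ I : MaximalSpectrum K', ∃ a b : K' ⧸ I.asIdeal,
      a ^ 2 + (e (Ideal.Quotient.mk _ d)) I * b ^ 2 = (e (Ideal.Quotient.mk _ c)) I := by
    intro I
    have := I.isMaximal
    let _ : Field (K' ⧸ I.asIdeal) := Ideal.Quotient.field I.asIdeal
    have : Finite (K' ⧸ I.asIdeal) :=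
      Finite.of_surjective _ (Ideal.Quotient.mk_surjective (I := I.asIdeal))
    have u2 : IsUnit (2 : K' ⧸ I.asIdeal) := by
      have := h2.map ((Ideal.Quotient.mk I.asIdeal).comp (Ideal.Quotient.mk (nilradical K)))
      rw [map_ofNat] at this
      exact this
    have ud : IsUnit ((e (Ideal.Quotient.mk _ d)) I) := by
      have h := (hd.map (Ideal.Quotient.mk (nilradical K))).map e
      exact h.map (Pi.evalRingHom _ I)
    exact b2b_field u2.ne_zero _ _ ud.ne_zero
  choose a b hab using key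
  obtain ⟨a', ha'⟩ := e.surjective a
  obtain ⟨b', hb'⟩ := e.surjective b
  obtain ⟨a'', rfl⟩ := Ideal.Quotient.mk_surjective a'
  obtain ⟨b'', rfl⟩ := Ideal.Quotient.mk_surjective b'
  refine ⟨a'', b'', ?_⟩
  rw [← mem_nilradical, ← Ideal.Quotient.eq_zero_iff_mem, map_sub, sub_eq_zero]
  apply e.injective
  funext I
  rw [← hab I]
  simp only [map_add, map_mul, map_pow, Pi.add_apply, Pi.mul_apply, Pi.pow_apply, ha', hb']

/-- If `x ≡ 1 mod p^i`, `i ≥ 1`, then `x^p ≡ 1 mod p^(i+1)` (noncommutative ring). -/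
theorem b2b_step {M : Type} [Ring M] (p i : ℕ) (hi : 1 ≤ i) (x y : M)
    (h : x = 1 + (p : M) ^ i * y) : ∃ z : M, x ^ p = 1 + (p : M) ^ (i + 1) * z := by
  have hc : ∀ (t : M) (n : ℕ), Commute ((p : M) ^ n) t := fun t n =>
    (Nat.cast_commute p t).pow_left n
  have hpow : ∀ j : ℕ, ∃ w : M, x ^ j = 1 + (p : M) * w := by
    intro j
    induction j with
    | zero => exact ⟨0, by simp⟩
    | succ j ih =>
      obtain ⟨w, hw⟩ := ih
      obtain ⟨i', rfl⟩ : ∃ i', i = i' + 1 := ⟨i - 1, by omega⟩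
      refine ⟨w + (p : M) ^ i' * y + w * ((p : M) ^ (i' + 1) * y), ?_⟩
      rw [pow_succ, hw, h]
      simp only [add_mul, mul_add, one_mul, mul_one, pow_succ', mul_assoc]
      abel
  choose w hw using hpow
  have hsum : ∑ j ∈ Finset.range p, x ^ j = (p : M) * (1 + ∑ j ∈ Finset.range p, w j) := by
    simp only [hw, Finset.sum_add_distrib, Finset.sum_const, Finset.card_range, nsmul_eq_mul,
      mul_one, mul_add, Finset.mul_sum]
  refine ⟨y * (1 + ∑ j ∈ Finset.range p, w j), ?_⟩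
  have hg := mul_geom_sum x p
  rw [hsum] at hg
  have hx1 : x - 1 = (p : M) ^ i * y := by rw [h]; abel
  rw [hx1] at hg
  have : x ^ p = 1 + (p : M) ^ i * y * ((p : M) * (1 + ∑ j ∈ Finset.range p, w j)) := by
    rw [hg]; abel
  rw [this]
  congr 1
  have h1 : y * (p : M) = (p : M) * y := (Nat.cast_commute p y).eq.symm
  rw [pow_succ]
  simp only [mul_assoc]
  congr 1
  rw [← mul_assoc y, h1, mul_assoc]

/-- If `r^m ≡ 0 mod p`, the elements `(1 + r)^(p^k)` tend to `1`. -/
theorem b2b_pow {M : Type} [Ring M] (p : ℕ) (hp : p.Prime) (r y : M) (m : ℕ)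
    (h : r ^ m = (p : M) * y) (n : ℕ) :
    ∃ k : ℕ, ∃ z : M, (1 + r) ^ p ^ k = 1 + (p : M) ^ n * z := by
  obtain ⟨k0, hk0⟩ : ∃ k0, m ≤ p ^ k0 := ⟨m, (Nat.lt_pow_self hp.one_lt).le⟩
  have base : ∃ z : M, (1 + r) ^ p ^ k0 = 1 + (p : M) ^ 1 * z := by
    obtain ⟨t, ht⟩ := (Commute.one_left r).exists_add_pow_prime_pow_eq hp k0
    obtain ⟨l, hl⟩ := Nat.exists_eq_add_of_le hk0
    refine ⟨y * r ^ l + r * t, ?_⟩
    have hr : r ^ p ^ k0 = (p : M) * y * r ^ l := by rw [hl, pow_add, h]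
    rw [ht, one_pow, pow_one, hr, mul_one]
    simp only [mul_add, mul_assoc]
    abel
  have step : ∀ n : ℕ, ∃ z : M, (1 + r) ^ p ^ (k0 + n) = 1 + (p : M) ^ (n + 1) * z := by
    intro n
    induction n with
    | zero => simpa using base
    | succ n ih =>
      obtain ⟨z, hz⟩ := ih
      obtain ⟨z', hz'⟩ := b2b_step p (n + 1) (by omega) _ z hz
      refine ⟨z', ?_⟩
      rw [← add_assoc, pow_succ p, pow_mul, hz']
  obtain ⟨z, hz⟩ := step n
  refine ⟨k0 + n, (p : M) * z, ?_⟩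
  rw [hz, pow_succ, mul_assoc]

/-- The finite-level statement for a commutative ring which maps to a finite ring of
characteristic `p`. -/
theorem b2b_alg0 {T M' : Type} [CommRing T] [Ring M'] [Finite M'] (p : ℕ) (hp : p.Prime)
    (hp2 : p ≠ 2) (hp5 : p ≠ 5) (f : T →+* M') (hπ : ((p : ℕ) : M') = 0) (cT θT : T)
    (hdT : (3 + θT) * (2 - θT) = 5) :
    ∃ A B : T, ∃ m : ℕ, f ((A ^ 2 + (3 + θT) * B ^ 2 - cT) ^ m) = 0 := by
  have hfin : Finite (T ⧸ RingHom.ker f) :=
    Finite.of_injective (RingHom.kerLift f) (RingHom.kerLift_injective f)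
  have hpK : ((p : ℕ) : T ⧸ RingHom.ker f) = 0 := by
    have h1 : ((p : ℕ) : T ⧸ RingHom.ker f) = Ideal.Quotient.mk _ ((p : ℕ) : T) := by simp
    rw [h1, Ideal.Quotient.eq_zero_iff_mem, RingHom.mem_ker, map_natCast, hπ]
  have hunit : ∀ q : ℕ, Nat.Coprime q p → IsUnit ((q : ℕ) : T ⧸ RingHom.ker f) := by
    intro q hq
    have h1 := Nat.gcd_eq_gcd_ab q p
    rw [hq.gcd_eq_one] at h1
    have h2 : (1 : T ⧸ RingHom.ker f) = (q : T ⧸ RingHom.ker f) * (Nat.gcdA q p : ℤ) := by
      have h3 := congrArg (Int.cast : ℤ → T ⧸ RingHom.ker f) h1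
      push_cast at h3
      rw [hpK, zero_mul, add_zero] at h3
      exact h3
    exact IsUnit.of_mul_eq_one _ h2.symm
  have h2K : IsUnit (2 : T ⧸ RingHom.ker f) := by
    have := hunit 2 ((Nat.coprime_primes Nat.prime_two hp).2 (Ne.symm hp2))
    exact_mod_cast this
  have h5K : IsUnit (5 : T ⧸ RingHom.ker f) := by
    have := hunit 5 ((Nat.coprime_primes Nat.prime_five hp).2 (Ne.symm hp5))
    exact_mod_cast this
  have hdK : IsUnit (Ideal.Quotient.mk (RingHom.ker f) (3 + θT)) := by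
    have h1 : Ideal.Quotient.mk (RingHom.ker f) (3 + θT) *
        Ideal.Quotient.mk (RingHom.ker f) (2 - θT) = 5 := by
      rw [← map_mul, hdT, map_ofNat]
    exact isUnit_of_mul_isUnit_left (h1 ▸ h5K)
  obtain ⟨a, b, m, hab⟩ := b2b_finite h2K (Ideal.Quotient.mk (RingHom.ker f) cT) _ hdK
  obtain ⟨α, rfl⟩ := Ideal.Quotient.mk_surjective a
  obtain ⟨β, rfl⟩ := Ideal.Quotient.mk_surjective b
  have hker : (α ^ 2 + (3 + θT) * β ^ 2 - cT) ^ m ∈ RingHom.ker f := by
    rw [← Ideal.Quotient.eq_zero_iff_mem]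
    simpa using hab
  exact ⟨α, β, m, hker⟩

/-- The finite-level statement for a commutative subring `T` of a ring `M` which maps to a finite
ring of characteristic `p`. -/
theorem b2b_alg {M M' : Type} [Ring M] [Ring M'] [Finite M'] (p : ℕ) (hp : p.Prime) (hp2 : p ≠ 2)
    (hp5 : p ≠ 5) (π : M →+* M') (hπ : ((p : ℕ) : M') = 0) (T : Subring M)
    (hT : ∀ s ∈ T, ∀ t ∈ T, s * t = t * s) (c θ : M) (hc : c ∈ T) (hθ : θ ∈ T)
    (hd : (3 + θ) * (2 - θ) = 5) :
    ∃ A ∈ T, ∃ B ∈ T, ∃ m : ℕ, π ((A ^ 2 + (3 + θ) * B ^ 2 - c) ^ m) = 0 := by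
  let f0 : T →+* M' := π.comp T.subtype
  let inst : CommRing T :=
    { (inferInstance : Ring T) with mul_comm := fun s t => Subtype.ext (hT s s.2 t t.2) }
  obtain ⟨A, B, m, h⟩ := @b2b_alg0 T M' inst _ _ p hp hp2 hp5 f0 hπ ⟨c, hc⟩ ⟨θ, hθ⟩
    (Subtype.ext hd)
  exact ⟨A, A.2, B, B.2, m, h⟩

end Vale.Agent.P268.Z
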