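import Mathlib

/-!
# P268, block B3: weak approximation for `ℚ` at a finite family of primes
-/

namespace Vale.Agent.P268.Z.B3

open Filter Topology

section

variable {I : Type} [Fintype I] [DecidableEq I] (q : I → ℕ) [∀ i, Fact (q i).Prime]

/-- product of the other primes -/
def others (i : I) : ℕ := ∏ j ∈ Finset.univ.erase i, q j

theorem coprime_others (hq : Function.Injective q) (i : I) : (others q i).Coprime (q i) := by
  refine Nat.Coprime.prod_left fun j hj => ?_
  have hne : q j ≠ q i := fun h => (Finset.ne_of_mem_erase hj) (hq h)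
  exact (Nat.coprime_primes (Fact.out) (Fact.out)).mpr hne

/-- the approximate idempotents -/
def idem (i : I) (n : ℕ) : ℕ := (others q i) ^ ((q i ^ n).totient * n)

theorem idem_self (hq : Function.Injective q) (i : I) :
    Tendsto (fun n => ((idem q i n : ℕ) : ℚ_[q i])) atTop (𝓝 1) := by
  rw [tendsto_iff_norm_sub_tendsto_zero]
  have hp : (1 : ℝ) < (q i : ℝ) := by exact_mod_cast (Fact.out : (q i).Prime).one_lt
  have hz : Tendsto (fun n : ℕ => ((q i : ℝ)⁻¹) ^ n) atTop (𝓝 0) :=
    tendsto_pow_atTop_nhds_zero_of_lt_one (by positivity) (inv_lt_one_of_one_lt₀ hp)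
  refine squeeze_zero (fun _ => norm_nonneg _) (fun n => ?_) hz
  have hmod : (idem q i n) ≡ 1 [MOD (q i ^ n)] := by
    have h := Nat.ModEq.pow_totient ((coprime_others q hq i).pow_right n)
    have h2 := h.pow n
    rwa [one_pow, ← pow_mul] at h2
  have hdvd : ((q i ^ n : ℕ) : ℤ) ∣ ((idem q i n : ℕ) : ℤ) - 1 := by
    have := (Nat.modEq_iff_dvd.mp hmod.symm)
    simpa using this
  have h3 : ((idem q i n : ℕ) : ℚ_[q i]) - 1 = (((idem q i n : ℕ) : ℤ) - 1 : ℤ) := by push_cast; ring
  rw [h3]
  have h4 := (Padic.norm_int_le_pow_iff_dvd (p := q i) (((idem q i n : ℕ) : ℤ) - 1) n).mpr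
    (by exact_mod_cast hdvd)
  refine h4.trans (le_of_eq ?_)
  rw [zpow_neg, zpow_natCast, inv_pow]

theorem idem_other {i j : I} (hij : i ≠ j) :
    Tendsto (fun n => ((idem q i n : ℕ) : ℚ_[q j])) atTop (𝓝 0) := by
  rw [tendsto_zero_iff_norm_tendsto_zero]
  have hp : (1 : ℝ) < (q j : ℝ) := by exact_mod_cast (Fact.out : (q j).Prime).one_lt
  have hz : Tendsto (fun n : ℕ => ((q j : ℝ)⁻¹) ^ n) atTop (𝓝 0) :=
    tendsto_pow_atTop_nhds_zero_of_lt_one (by positivity) (inv_lt_one_of_one_lt₀ hp)
  refine squeeze_zero (fun _ => norm_nonneg _) (fun n => ?_) hz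
  have hdvd : ((q j ^ n : ℕ) : ℤ) ∣ ((idem q i n : ℕ) : ℤ) := by
    have h1 : q j ∣ others q i := Finset.dvd_prod_of_mem _ (by simp [hij.symm])
    have h2 : q j ^ n ∣ idem q i n := by
      rw [idem, pow_mul]
      refine pow_dvd_pow_of_dvd ?_ n
      refine h1.trans (dvd_pow_self _ ?_)
      exact (Nat.totient_pos.mpr (pow_pos (Fact.out : (q i).Prime).pos n)).ne'
    exact_mod_cast h2
  have h3 : ((idem q i n : ℕ) : ℚ_[q j]) = (((idem q i n : ℕ) : ℤ) : ℚ_[q j]) := by push_cast; ring
  rw [h3]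
  have h4 := (Padic.norm_int_le_pow_iff_dvd (p := q j) (((idem q i n : ℕ) : ℤ)) n).mpr
    (by exact_mod_cast hdvd)
  refine h4.trans (le_of_eq ?_)
  rw [zpow_neg, zpow_natCast, inv_pow]

/-- the diagonal map -/
noncomputable def diagQ : ℚ →+ (∀ i, ℚ_[q i]) where
  toFun r i := (r : ℚ_[q i])
  map_zero' := by ext; simp
  map_add' a b := by ext; simp

theorem single_mem (hq : Function.Injective q) (i : I) (r : ℚ) :
    (Pi.single i (r : ℚ_[q i]) : ∀ i, ℚ_[q i]) ∈ (diagQ q).range.topologicalClosure := by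
  have hlim : Tendsto (fun n => diagQ q ((idem q i n : ℕ) * r)) atTop
      (𝓝 (Pi.single i (r : ℚ_[q i]) : ∀ i, ℚ_[q i])) := by
    rw [tendsto_pi_nhds]
    intro j
    by_cases hij : i = j
    · subst hij
      rw [Pi.single_eq_same]
      have := (idem_self q hq i).mul_const (r : ℚ_[q i])
      rw [one_mul] at this
      refine this.congr fun n => ?_
      simp [diagQ]
    · rw [Pi.single_eq_of_ne' hij]
      have := (idem_other q hij).mul_const (r : ℚ_[q j])
      rw [zero_mul] at this
      refine this.congr fun n => ?_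
      simp [diagQ]
  exact mem_closure_of_tendsto hlim (Eventually.of_forall fun n => ⟨_, rfl⟩)

theorem closure_eq_top (hq : Function.Injective q) :
    (diagQ q).range.topologicalClosure = ⊤ := by
  rw [eq_top_iff]
  intro x _
  have hx : x = ∑ i, Pi.single i (x i) := (Finset.univ_sum_single x).symm
  rw [hx]
  refine sum_mem fun i _ => ?_
  have hcl : IsClosed {t : ℚ_[q i] | (Pi.single i t : ∀ i, ℚ_[q i]) ∈
      (diagQ q).range.topologicalClosure} := by
    refine IsClosed.preimage ?_ (AddSubgroup.isClosed_topologicalClosure _)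
    exact continuous_single (A := fun j => ℚ_[q j]) i
  have hd := Padic.denseRange_ratCast (q i)
  exact hd.induction_on (x i) hcl (fun r => single_mem q hq i r)

theorem denseRange_diagQ (hq : Function.Injective q) : DenseRange (diagQ q) := by
  intro x
  have := closure_eq_top q hq
  have hx : x ∈ (diagQ q).range.topologicalClosure := by rw [this]; trivial
  exact hx

/-- Weak approximation for finitely many coordinates. -/
theorem weak_approx (hq : Function.Injective q) {α : Type} [Finite α]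
    (x : ∀ i, α → ℚ_[q i]) (U : ∀ i, Set (α → ℚ_[q i])) (hU : ∀ i, U i ∈ 𝓝 (x i)) :
    ∃ y : α → ℚ, ∀ i, (fun a => (y a : ℚ_[q i])) ∈ U i := by
  have hd : DenseRange (fun (y : α → ℚ) (a : α) => diagQ q (y a)) := by
    exact DenseRange.piMap fun _ => denseRange_diagQ q hq
  -- the swapped neighbourhood
  have hmem : {z : α → ∀ i, ℚ_[q i] | ∀ i, (fun a => z a i) ∈ U i} ∈
      𝓝 (fun a i => x i a) := by
    have : {z : α → ∀ i, ℚ_[q i] | ∀ i, (fun a => z a i) ∈ U i} =
        ⋂ i, (fun z : α → ∀ i, ℚ_[q i] => (fun a => z a i)) ⁻¹' U i := by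
      ext z; simp
    rw [this, Filter.iInter_mem]
    intro i
    have hc : Continuous (fun z : α → ∀ i, ℚ_[q i] => (fun a => z a i)) := by fun_prop
    exact hc.continuousAt (hU i)
  obtain ⟨z, hz⟩ := hd.exists_mem_open isOpen_interior ⟨_, mem_interior_iff_mem_nhds.mpr hmem⟩
  exact ⟨z, fun i => interior_subset hz i⟩

end

end Vale.Agent.P268.Z.B3
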