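import Mathlib

/-!
# P268, block B3: Cayley transform and central twists
-/

namespace Vale.Agent.P268.Z.B3

open Matrix

section Cay

variable {K : Type} [Field K] {ι : Type} [Fintype ι] [DecidableEq ι]

/-- Cayley transform. -/
noncomputable def cay (X : Matrix ι ι K) : Matrix ι ι K := (1 - X) * (1 + X)⁻¹

theorem one_add_cay (X : Matrix ι ι K) (h : IsUnit (1 + X).det) :
    1 + cay X = (2 : K) • (1 + X)⁻¹ := by
  have h1 : (1 + X) * (1 + X)⁻¹ = 1 := Matrix.mul_nonsing_inv _ h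
  have h2 : 1 + cay X = ((1 + X) + (1 - X)) * (1 + X)⁻¹ := by
    rw [Matrix.add_mul, h1, cay]
  rw [h2, show (1 + X) + (1 - X) = (2 : K) • (1 : Matrix ι ι K) by
    rw [two_smul]; abel, Matrix.smul_mul, Matrix.one_mul]

theorem one_sub_cay (X : Matrix ι ι K) (h : IsUnit (1 + X).det) :
    1 - cay X = (2 : K) • (X * (1 + X)⁻¹) := by
  have h1 : (1 + X) * (1 + X)⁻¹ = 1 := Matrix.mul_nonsing_inv _ h
  have h2 : 1 - cay X = ((1 + X) - (1 - X)) * (1 + X)⁻¹ := by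
    rw [Matrix.sub_mul, h1, cay]
  rw [h2, show (1 + X) - (1 - X) = (2 : K) • X by
    rw [two_smul]; abel, Matrix.smul_mul]

theorem cay_cay [CharZero K] (g : Matrix ι ι K) (h : IsUnit (1 + g).det) :
    IsUnit (1 + cay g).det ∧ cay (cay g) = g := by
  have h2 : IsUnit (2 : K) := isUnit_iff_ne_zero.mpr two_ne_zero
  have hinv : IsUnit (1 + g)⁻¹.det := by
    rw [Matrix.isUnit_nonsing_inv_det_iff]; exact h
  have hu : IsUnit (1 + cay g).det := by
    rw [one_add_cay g h, det_smul]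
    exact (h2.pow _).mul hinv
  refine ⟨hu, ?_⟩
  have h3 : (1 + cay g) * ((2 : K)⁻¹ • (1 + g)) = 1 := by
    rw [one_add_cay g h, Matrix.smul_mul, Matrix.mul_smul, smul_smul, mul_inv_cancel₀ two_ne_zero,
      one_smul, Matrix.nonsing_inv_mul _ h]
  have h4 : (1 + cay g)⁻¹ = (2 : K)⁻¹ • (1 + g) := Matrix.inv_eq_right_inv h3
  rw [show cay (cay g) = (1 - cay g) * (1 + cay g)⁻¹ from rfl, h4, one_sub_cay g h,
    Matrix.smul_mul, Matrix.mul_smul, smul_smul, mul_inv_cancel₀ two_ne_zero, one_smul,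
    Matrix.mul_assoc, Matrix.nonsing_inv_mul _ h, Matrix.mul_one]

theorem cay_comm' (X a : Matrix ι ι K) (hc : X * a = a * X) (h : IsUnit (1 + X).det) :
    cay X * a = a * cay X := by
  have h0 : a * (1 + X) = (1 + X) * a := by
    rw [Matrix.mul_add, Matrix.add_mul, hc]; simp
  have h1 : (1 + X)⁻¹ * a = a * (1 + X)⁻¹ := by
    calc (1 + X)⁻¹ * a = (1 + X)⁻¹ * (a * (1 + X)) * (1 + X)⁻¹ := by
          rw [Matrix.mul_assoc, Matrix.mul_assoc a, Matrix.mul_nonsing_inv _ h, Matrix.mul_one]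
      _ = a * (1 + X)⁻¹ := by
          rw [h0, ← Matrix.mul_assoc (1 + X)⁻¹, Matrix.nonsing_inv_mul _ h, Matrix.one_mul]
  rw [cay, Matrix.mul_assoc, h1, ← Matrix.mul_assoc, Matrix.sub_mul, Matrix.one_mul, hc,
    ← Matrix.mul_assoc, Matrix.mul_sub, Matrix.mul_one]

theorem cay_comm (X a : Matrix ι ι K) (hc : X * a = a * X) (h : IsUnit (1 + X).det) :
    cay X * a = a * cay X := cay_comm' X a hc h

theorem cay_skew (G g : Matrix ι ι K) (hG : gᵀ * G * g = G) (h : IsUnit (1 + g).det) :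
    (cay g)ᵀ * G + G * cay g = 0 := by
  -- multiply by `(1 + g)ᵀ` on the left and `1 + g` on the right
  have hu : IsUnit (1 + g)ᵀ.det := by rw [det_transpose]; exact h
  have h1 : (1 + g)⁻¹ * (1 + g) = 1 := Matrix.nonsing_inv_mul _ h
  have e1 : (1 + g)ᵀ * ((cay g)ᵀ * G + G * cay g) * (1 + g) =
      (1 - g)ᵀ * G * (1 + g) + (1 + g)ᵀ * G * (1 - g) := by
    have a1 : (1 + g)ᵀ * (cay g)ᵀ = (1 - g)ᵀ := by
      rw [← transpose_mul, cay, Matrix.mul_assoc, h1, Matrix.mul_one]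
    have a2 : cay g * (1 + g) = 1 - g := by
      rw [cay, Matrix.mul_assoc, h1, Matrix.mul_one]
    calc (1 + g)ᵀ * ((cay g)ᵀ * G + G * cay g) * (1 + g)
        = ((1 + g)ᵀ * (cay g)ᵀ) * G * (1 + g) + (1 + g)ᵀ * G * (cay g * (1 + g)) := by
          generalize 1 + g = N
          rw [Matrix.mul_add, Matrix.add_mul]
          simp only [Matrix.mul_assoc]
      _ = _ := by rw [a1, a2]
  have e2 : (1 - g)ᵀ * G * (1 + g) + (1 + g)ᵀ * G * (1 - g) = 0 := by
    rw [transpose_sub, transpose_add, transpose_one]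
    simp only [Matrix.sub_mul, Matrix.add_mul, Matrix.mul_sub, Matrix.mul_add, Matrix.one_mul,
      Matrix.mul_one, hG]
    abel
  rw [e2] at e1
  have e3 : ((1 + g)ᵀ)⁻¹ * ((1 + g)ᵀ * ((cay g)ᵀ * G + G * cay g) * (1 + g)) * (1 + g)⁻¹ = 0 := by
    rw [e1]; simp
  rw [Matrix.mul_assoc (1 + g)ᵀ, ← Matrix.mul_assoc ((1 + g)ᵀ)⁻¹, Matrix.nonsing_inv_mul _ hu,
    Matrix.one_mul, Matrix.mul_assoc, Matrix.mul_nonsing_inv _ h, Matrix.mul_one] at e3
  exact e3

theorem cay_isom (G X : Matrix ι ι K) (hX : Xᵀ * G + G * X = 0) (h : IsUnit (1 + X).det) :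
    (cay X)ᵀ * G * cay X = G := by
  have hu : IsUnit (1 + X)ᵀ.det := by rw [det_transpose]; exact h
  have h1 : (1 + X)⁻¹ * (1 + X) = 1 := Matrix.nonsing_inv_mul _ h
  have hX' : Xᵀ * G = - (G * X) := eq_neg_of_add_eq_zero_left hX
  have a1 : (1 + X)ᵀ * (cay X)ᵀ = (1 - X)ᵀ := by
    rw [← transpose_mul, cay, Matrix.mul_assoc, h1, Matrix.mul_one]
  have a2 : cay X * (1 + X) = 1 - X := by
    rw [cay, Matrix.mul_assoc, h1, Matrix.mul_one]
  have e1 : (1 + X)ᵀ * ((cay X)ᵀ * G * cay X) * (1 + X) = (1 + X)ᵀ * G * (1 + X) := by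
    calc (1 + X)ᵀ * ((cay X)ᵀ * G * cay X) * (1 + X)
        = ((1 + X)ᵀ * (cay X)ᵀ) * G * (cay X * (1 + X)) := by simp only [Matrix.mul_assoc]
      _ = (1 - X)ᵀ * G * (1 - X) := by rw [a1, a2]
      _ = (1 + X)ᵀ * G * (1 + X) := by
          rw [transpose_sub, transpose_add, transpose_one]
          simp only [Matrix.sub_mul, Matrix.add_mul, Matrix.mul_sub, Matrix.mul_add,
            Matrix.one_mul, Matrix.mul_one, hX', Matrix.neg_mul]
          abel
  have e2 := congrArg (fun M => ((1 + X)ᵀ)⁻¹ * M * (1 + X)⁻¹) e1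
  rw [Matrix.mul_assoc (1 + X)ᵀ, ← Matrix.mul_assoc ((1 + X)ᵀ)⁻¹, Matrix.nonsing_inv_mul _ hu,
    Matrix.one_mul, Matrix.mul_assoc _ (1 + X), Matrix.mul_nonsing_inv _ h, Matrix.mul_one,
    Matrix.mul_assoc (1 + X)ᵀ, ← Matrix.mul_assoc ((1 + X)ᵀ)⁻¹, Matrix.nonsing_inv_mul _ hu,
    Matrix.one_mul, Matrix.mul_assoc _ (1 + X), Matrix.mul_nonsing_inv _ h, Matrix.mul_one] at e2
  exact e2

/-- the inverse of the Cayley transform -/
theorem cay_isUnit (G X : Matrix ι ι K) (hX : Xᵀ * G + G * X = 0) (hG : IsUnit G.det)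
    (h : IsUnit (1 + X).det) : IsUnit (cay X).det := by
  have := congrArg Matrix.det (cay_isom G X hX h)
  rw [det_mul, det_mul, det_transpose] at this
  rw [isUnit_iff_ne_zero] at hG ⊢
  intro h0
  rw [h0] at this
  simp at this
  exact hG this.symm

end Cay

end Vale.Agent.P268.Z.B3
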