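import Vale.Agent.P268.Z.E5
import Vale.Agent.P268.Defs

/-!
# P268: interface of all blocks (statements only; NOT to be imported by the final file)
-/

namespace Vale.Agent.P268.Z

open Matrix

section

variable {D : ℕ} [NeZero D] {e : ℤˣ} {ι κ : Type} [Fintype ι] [DecidableEq ι] [Fintype κ]
  [DecidableEq κ]

/-! ## B1: rational isometry -/

theorem B1 (A : GForm ℤ (Cyc D) e ι) (B : GForm ℤ (Cyc D) e κ) (he : e = 1)
    (h : GForm.Iso (A.map (Int.castRingHom ℝ)) (B.map (Int.castRingHom ℝ))) :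
    ∃ k : ℕ, 0 < k ∧ GForm.Iso
      (((GForm.pow (Fin k) A).ext E5).map (Int.castRingHom ℚ))
      (((GForm.pow (Fin k) B).ext E5).map (Int.castRingHom ℚ)) := sorry

/-! ## B2a: stable isomorphism of the representations at `p ∣ D` -/

theorem B2a (hD : Odd D) (hD2 : Squarefree D) {α β : Type} [Fintype α] [DecidableEq α]
    [Fintype β] [DecidableEq β] (f : α → List ℕ) (g : β → List ℕ)
    (hf : ∀ i, ChainOK D (f i)) (hg : ∀ i, ChainOK D (g i))
    (htr : ∀ a, (((sumForm D hD f hf).mul (sumForm D hD f hf)).ρ a).trace =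
      (((sumForm D hD g hg).mul (sumForm D hD g hg)).ρ a).trace)
    (p : ℕ) [Fact p.Prime] (hp : p ∣ D) :
    ∃ s : ℕ, RepIso
      (repMap (Int.castRingHom ℤ_[p]) (repSum ((sumForm D hD f hf).mul (sumForm D hD f hf)).ρ
        (repCopies (Fin s) (repReg ℤ (Cyc D)))))
      (repMap (Int.castRingHom ℤ_[p]) (repSum ((sumForm D hD g hg).mul (sumForm D hD g hg)).ρ
        (repCopies (Fin s) (repReg ℤ (Cyc D))))) := sorry

/-! ## B2b: hermitian forms at `p ≠ 2, 5` are determined by the representation -/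

theorem B2b (p : ℕ) [Fact p.Prime] (hp2 : p ≠ 2) (hp5 : p ≠ 5)
    (A : GForm ℤ_[p] (Cyc D × Cyc 5) e ι) (B : GForm ℤ_[p] (Cyc D × Cyc 5) e κ)
    (hA : Phi5 A.ρ) (hB : Phi5 B.ρ) (h : RepIso A.ρ B.ρ) : A.Iso B := sorry

/-! ## B3: weak approximation -/

theorem B3 (S : Finset ℕ) (hS : ∀ p ∈ S, p.Prime)
    (A : GForm ℤ (Cyc D × Cyc 5) e ι) (B : GForm ℤ (Cyc D × Cyc 5) e κ)
    (hA : Phi5 A.ρ) (hB : Phi5 B.ρ)
    (hQ : GForm.Iso (A.map (Int.castRingHom ℚ)) (B.map (Int.castRingHom ℚ)))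
    (hp : ∀ p ∈ S, ∀ [Fact p.Prime],
      GForm.Iso (A.map (Int.castRingHom ℤ_[p])) (B.map (Int.castRingHom ℤ_[p]))) :
    ∃ (P : Matrix κ ι ℚ) (Q : Matrix ι κ ℚ), Q * P = 1 ∧ P * Q = 1 ∧
      Pᵀ * (B.map (Int.castRingHom ℚ)).g * P = (A.map (Int.castRingHom ℚ)).g ∧
      (∀ a, P * (A.map (Int.castRingHom ℚ)).ρ a = (B.map (Int.castRingHom ℚ)).ρ a * P) ∧
      ∀ p ∈ S, (∀ i j, ¬ p ∣ (P i j).den) ∧ (∀ i j, ¬ p ∣ (Q i j).den) := sorry

/-! ## N: neighbours -/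

theorem N (hD5 : ¬ 5 ∣ D)
    (A : GForm ℤ (Cyc D × Cyc 5) e ι) (B : GForm ℤ (Cyc D × Cyc 5) e κ)
    (hA : Phi5 A.ρ) (hB : Phi5 B.ρ)
    (P : Matrix κ ι ℚ) (Q : Matrix ι κ ℚ) (hQP : Q * P = 1) (hPQ : P * Q = 1)
    (hg : Pᵀ * (B.map (Int.castRingHom ℚ)).g * P = (A.map (Int.castRingHom ℚ)).g)
    (hρ : ∀ a, P * (A.map (Int.castRingHom ℚ)).ρ a = (B.map (Int.castRingHom ℚ)).ρ a * P)
    (hP : ∀ i j, (P i j).den.Coprime D) (hQ : ∀ i j, (Q i j).den.Coprime D) :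
    ∃ (n r : ℕ) (σ : Cyc D × Cyc 5 →* Matrix (Fin n) (Fin n) ℤ),
      GForm.Iso (A.add (GForm.hyp e (repCopies (Fin r) (Lam D)))) (B.add (GForm.hyp e σ)) ∧
      (∃ a : ℕ, RepIso (repSum σ (repSharp σ)) (repCopies (Fin a) (Lam D))) ∧
      (∀ (α β : Type) [Fintype α] [DecidableEq α] [Fintype β] [DecidableEq β]
        (X : Cyc D →* Matrix α α ℤ) (Y : Cyc D →* Matrix β β ℤ),
        (∀ a, (X a).trace = (Y a).trace) → ∃ a : ℕ, RepIso
          (repSum (repTensor (X.comp (MonoidHom.fst _ _)) σ) (repCopies (Fin a) (Lam D)))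
          (repSum (repTensor (Y.comp (MonoidHom.fst _ _)) σ) (repCopies (Fin a) (Lam D)))) :=
  sorry

/-! ## B5: killing `σ` -/

theorem B5 (A : GForm ℤ (Cyc D) e ι) (B : GForm ℤ (Cyc D) e κ)
    (htr : ∀ a, (A.ρ a).trace = (B.ρ a).trace)
    (hA : A.bar.Iso A) (hB : B.bar.Iso B)
    (n r : ℕ) (σ : Cyc D × Cyc 5 →* Matrix (Fin n) (Fin n) ℤ)
    (h1 : GForm.Iso ((A.ext E5).add (GForm.hyp _ (repCopies (Fin r) (Lam D))))
      ((B.ext E5).add (GForm.hyp _ σ)))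
    (h2 : ∃ a : ℕ, RepIso (repSum σ (repSharp σ)) (repCopies (Fin a) (Lam D)))
    (h3 : ∀ (α β : Type) [Fintype α] [DecidableEq α] [Fintype β] [DecidableEq β]
        (X : Cyc D →* Matrix α α ℤ) (Y : Cyc D →* Matrix β β ℤ),
        (∀ a, (X a).trace = (Y a).trace) → ∃ a : ℕ, RepIso
          (repSum (repTensor (X.comp (MonoidHom.fst _ _)) σ) (repCopies (Fin a) (Lam D)))
          (repSum (repTensor (Y.comp (MonoidHom.fst _ _)) σ) (repCopies (Fin a) (Lam D)))) :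
    ∃ s : ℕ, GForm.Iso
      (((A.mul A).ext E5).add (GForm.hyp _ (repCopies (Fin s) (Lam D))))
      (((B.mul B).ext E5).add (GForm.hyp _ (repCopies (Fin s) (Lam D)))) := sorry

/-! ## B6: the absorbing factor -/

theorem B6a (hD : Odd D) (hD3 : 3 ≤ D) (hD5 : 5 ≤ D) :
    ∃ (n : ℕ) (C0 : GForm ℤ (Cyc D) (∏ _k : Fin 3, sgn [D]) (Fin n)),
      (C3 D hD hD3).Iso (C0.add (GForm.hyp _ (repReg ℤ (Cyc D)))) := sorry

theorem B6b (hD : Odd D) (A : GForm ℤ (Cyc D) e ι) (B : GForm ℤ (Cyc D) e κ) (s : ℕ)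
    (h : GForm.Iso ((A.ext E5).add (GForm.hyp _ (repCopies (Fin s) (Lam D))))
      ((B.ext E5).add (GForm.hyp _ (repCopies (Fin s) (Lam D)))))
    (hne : Nonempty ι)
    {e' : ℤˣ} {μ : Type} [Fintype μ] [DecidableEq μ] (C : GForm ℤ (Cyc D) e' μ) (n : ℕ)
    (C0 : GForm ℤ (Cyc D) e' (Fin n))
    (hC : C.Iso (C0.add (GForm.hyp _ (repReg ℤ (Cyc D))))) :
    ∃ m : ℕ, GForm.Iso ((A.mul (GForm.pow (Fin m) C)).ext E5)
      ((B.mul (GForm.pow (Fin m) C)).ext E5) := sorry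

end

/-! ## Part A -/

/-- the weights of a chain (last variable first) -/
def weights : List ℕ → List ℚ
  | [] => []
  | a :: c => (mu c : ℚ) / (a * c.prod) :: weights c

/-- basic facts on chains -/
theorem chainSeifert_det (c : List ℕ) : (chainSeifert c).det = 1 := sorry

theorem chain_order (D : ℕ) (c : List ℕ) (hc : c ≠ []) (h2 : ∀ a ∈ c, 2 ≤ a)
    (hw : ∀ w ∈ weights c, ∃ z : ℤ, (D : ℚ) * w = z) :
    (mono (sgn c) (chainSeifert c)) ^ D = 1 := sorry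

theorem chain_trace (c : List ℕ) (h2 : ∀ a ∈ c, 2 ≤ a) (k : ℕ) :
    (((mono (sgn c) (chainSeifert c)) ^ k).trace : ℚ) =
      ((weights c).map fun w => if ((k : ℚ) * w).den = 1 then 1 / w - 1 else -1).prod := sorry

theorem chain_bar (D : ℕ) [NeZero D] (hD : Odd D) (c : List ℕ) (h : ChainOK D c) :
    (chainForm D hD c h).bar.Iso
      (if Odd c.length then (chainForm D hD c h).neg else chainForm D hD c h) := sorry

/-- Spectral data: a basis of `ℂ^ι` of common eigenvectors, orthogonal for the sesquilinear form,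
compatible with complex conjugation. -/
structure SpecData {ι : Type} [Fintype ι] [DecidableEq ι] (g t : Matrix ι ι ℤ)
    (X : Type) [Fintype X] [DecidableEq X] where
  /-- phase -/
  u : X → ℂ
  /-- eigenvalue -/
  lam : X → ℂ
  /-- complex conjugation -/
  bar : X → X
  /-- eigenvectors -/
  P : Matrix ι X ℂ
  Q : Matrix X ι ℂ
  hQP : Q * P = 1
  hPQ : P * Q = 1
  hg : Pᴴ * g.map (Int.cast : ℤ → ℂ) * P = diagonal u
  ht : t.map (Int.cast : ℤ → ℂ) * P = P * diagonal lam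
  hbar : ∀ x, bar (bar x) = x
  hP : ∀ i x, P i (bar x) = star (P i x)
  hu : ∀ x, ‖u x‖ = 1

theorem chain_spec (D : ℕ) [NeZero D] (hD : Odd D) (c : List ℕ) (h : ChainOK D c)
    (hw : ∀ w ∈ weights c, ∃ z : ℤ, (D : ℚ) * w = z) :
    ∃ (X : Type) (_ : Fintype X) (_ : DecidableEq X)
      (S : SpecData (chainForm D hD c h).g ((chainForm D hD c h).ρ (Cyc.gen D)) X),
      (∀ x, S.u x ^ 4 = 1) ∧
      (∀ k : ℕ, (∀ w ∈ weights c, ((((2 * k + D : ℕ) : ℚ)) * w).den ≠ 1) →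
        ∑ x, S.u x * S.lam x ^ k =
          ((weights c).map fun w : ℚ =>
            (-(Real.cot (Real.pi * (2 * k + D : ℕ) * (w : ℝ) / 2) : ℂ))).prod) ∧
      (∀ q k : ℕ, c = [q] → q ∣ 2 * k + D → ∑ x, S.u x * S.lam x ^ k = 0) := sorry

theorem real_iso {D : ℕ} [NeZero D] (hD : Odd D) {ι κ : Type} [Fintype ι] [DecidableEq ι]
    [Fintype κ] [DecidableEq κ]
    {e e' : ℤˣ} (he : e = 1) (he' : e' = 1)
    (A : GForm ℤ (Cyc D) e ι) (B : GForm ℤ (Cyc D) e' κ)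
    (X Y : Type) [Fintype X] [DecidableEq X] [Fintype Y] [DecidableEq Y]
    (S : SpecData A.g (A.ρ (Cyc.gen D)) X) (T : SpecData B.g (B.ρ (Cyc.gen D)) Y)
    (htr : ∀ k : ℕ, ∑ x, S.lam x ^ k = ∑ y, T.lam y ^ k)
    (hsg : ∀ k : ℕ, ∑ x, S.u x * S.lam x ^ k = ∑ y, T.u y * T.lam y ^ k) :
    GForm.Iso (A.map (Int.castRingHom ℝ)) (B.map (Int.castRingHom ℝ)) := sorry

/-- Part A: the real coincidence, `D = 3 * 4789`. -/
theorem partA : ∃ (a b : ℕ) (f : Fin a → List ℕ) (g : Fin b → List ℕ)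
    (hf : ∀ i, ChainOK 14367 (f i)) (hg : ∀ i, ChainOK 14367 (g i)),
    (∀ i, ∃ (l : List ℕ) (x : ℕ), f i = l ++ [x] ∧ 3 ≤ x) ∧
    (∑ i, (g i).length < ∑ i, (f i).length) ∧
    GForm.Iso
      (((sumForm 14367 (by decide) f hf).mul (sumForm 14367 (by decide) f hf)).map
        (Int.castRingHom ℝ))
      (((sumForm 14367 (by decide) g hg).mul (sumForm 14367 (by decide) g hg)).map
        (Int.castRingHom ℝ)) := sorry

end Vale.Agent.P268.Z
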