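import Vale.Agent.P268.Z.Api

/-!
# P268: isometry classes of forms (commutative semigroup under orthogonal sum)
-/

namespace Vale.Agent.P268.Z

open Matrix

section Cls

variable {R : Type} [CommRing R] {G : Type} [CommGroup G] {e e' : ℤˣ}

/-- A form together with its index type. -/
structure FObj (R : Type) [CommRing R] (G : Type) [CommGroup G] (e : ℤˣ) where
  /-- index type -/
  ι : Type
  [fin : Fintype ι]
  [dec : DecidableEq ι]
  /-- the form -/
  form : GForm R G e ι

attribute [instance] FObj.fin FObj.dec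

/-- isometry -/
instance fobjSetoid (R : Type) [CommRing R] (G : Type) [CommGroup G] (e : ℤˣ) :
    Setoid (FObj R G e) where
  r A B := A.form.Iso B.form
  iseqv := ⟨fun A => GForm.Iso.refl A.form, fun h => GForm.Iso.symm h,
    fun h h' => GForm.Iso.trans h h'⟩

/-- Isometry classes. -/
def FCls (R : Type) [CommRing R] (G : Type) [CommGroup G] (e : ℤˣ) : Type 1 :=
  Quotient (fobjSetoid R G e)

/-- The class of a form. -/
def GForm.cls {ι : Type} [Fintype ι] [DecidableEq ι] (A : GForm R G e ι) : FCls R G e :=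
  Quotient.mk _ ⟨ι, A⟩

theorem GForm.cls_eq {ι κ : Type} [Fintype ι] [DecidableEq ι] [Fintype κ] [DecidableEq κ]
    {A : GForm R G e ι} {B : GForm R G e κ} : A.cls = B.cls ↔ A.Iso B :=
  ⟨fun h => Quotient.exact h, fun h => Quotient.sound h⟩

theorem GForm.Iso.cls {ι κ : Type} [Fintype ι] [DecidableEq ι] [Fintype κ] [DecidableEq κ]
    {A : GForm R G e ι} {B : GForm R G e κ} (h : A.Iso B) : A.cls = B.cls := GForm.cls_eq.2 h

instance : Add (FCls R G e) where
  add := Quotient.map₂ (fun A B => ⟨A.ι ⊕ B.ι, A.form.add B.form⟩)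
    (fun _ _ h _ _ h' => GForm.Iso.add h h')

theorem GForm.cls_add {ι κ : Type} [Fintype ι] [DecidableEq ι] [Fintype κ] [DecidableEq κ]
    (A : GForm R G e ι) (B : GForm R G e κ) : (A.add B).cls = A.cls + B.cls := rfl

instance : AddCommSemigroup (FCls R G e) where
  add_assoc := by
    rintro ⟨A⟩ ⟨B⟩ ⟨C⟩
    exact Quotient.sound (GForm.add_assoc A.form B.form C.form)
  add_comm := by
    rintro ⟨A⟩ ⟨B⟩
    exact Quotient.sound (GForm.add_comm A.form B.form)

end Cls

end Vale.Agent.P268.Z
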