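import Vale.Agent.P268.Z.E5

/-!
# P268: forms with an action of a cyclic group of odd order versus Seifert matrices
-/

namespace Vale.Agent.P268.Z

open Matrix

/-! ## Congruence over a ring -/

section CongR

variable {R S : Type} [CommRing R] [CommRing S] {α β γ δ : Type} [Fintype α] [DecidableEq α]
  [Fintype β] [DecidableEq β] [Fintype γ] [DecidableEq γ] [Fintype δ] [DecidableEq δ]

/-- Two bilinear forms over `R` (given by square matrices) are isomorphic. -/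
def CongR (A : Matrix α α R) (B : Matrix β β R) : Prop :=
  ∃ (P : Matrix β α R) (Q : Matrix α β R), Q * P = 1 ∧ P * Q = 1 ∧ Pᵀ * B * P = A

theorem congruent_iff (A : Matrix α α ℤ) (B : Matrix β β ℤ) : Congruent A B ↔ CongR A B :=
  Iff.rfl

theorem CongR.refl (A : Matrix α α R) : CongR A A := ⟨1, 1, by simp, by simp, by simp⟩

theorem CongR.symm {A : Matrix α α R} {B : Matrix β β R} (h : CongR A B) : CongR B A := by
  obtain ⟨P, Q, h1, h2, h3⟩ := h
  refine ⟨Q, P, h2, h1, ?_⟩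
  have h4 : Qᵀ * Pᵀ = 1 := by rw [← transpose_mul, h2, transpose_one]
  calc Qᵀ * A * Q = (Qᵀ * Pᵀ) * B * (P * Q) := by rw [← h3]; simp only [Matrix.mul_assoc]
    _ = B := by rw [h4, h2, Matrix.one_mul, Matrix.mul_one]

theorem CongR.trans {A : Matrix α α R} {B : Matrix β β R} {C : Matrix γ γ R} (h : CongR A B)
    (h' : CongR B C) : CongR A C := by
  obtain ⟨P, Q, h1, h2, h3⟩ := h
  obtain ⟨P', Q', h1', h2', h3'⟩ := h'
  refine ⟨P' * P, Q * Q', ?_, ?_, ?_⟩
  · calc Q * Q' * (P' * P) = Q * (Q' * P') * P := by simp only [Matrix.mul_assoc]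
      _ = 1 := by rw [h1', Matrix.mul_one, h1]
  · calc P' * P * (Q * Q') = P' * (P * Q) * Q' := by simp only [Matrix.mul_assoc]
      _ = 1 := by rw [h2, Matrix.mul_one, h2']
  · calc (P' * P)ᵀ * C * (P' * P) = Pᵀ * (P'ᵀ * C * P') * P := by
          rw [transpose_mul]; simp only [Matrix.mul_assoc]
      _ = A := by rw [h3', h3]

theorem CongR.of_equiv {A : Matrix α α R} {B : Matrix β β R} (f : α ≃ β)
    (h : ∀ i j, A i j = B (f i) (f j)) : CongR A B := by
  refine ⟨Matrix.of fun i j => if i = f j then 1 else 0,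
    Matrix.of fun i j => if f i = j then 1 else 0, ?_, ?_, ?_⟩
  · ext i j
    simp [Matrix.mul_apply, Matrix.one_apply]
  · ext i j
    rw [Matrix.mul_apply, Finset.sum_eq_single (f.symm j)]
    · simp [Matrix.one_apply]
    · intro b _ hb
      have : f b ≠ j := fun h => hb (by rw [← h, Equiv.symm_apply_apply])
      simp [this]
    · simp
  · ext i j
    simp [Matrix.mul_apply, h]

theorem CongR.map (f : R →+* S) {A : Matrix α α R} {B : Matrix β β R} (h : CongR A B) :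
    CongR (A.map f) (B.map f) := by
  obtain ⟨P, Q, h1, h2, h3⟩ := h
  refine ⟨P.map f, Q.map f, ?_, ?_, ?_⟩
  · rw [← Matrix.map_mul, h1, Matrix.map_one _ (map_zero f) (map_one f)]
  · rw [← Matrix.map_mul, h2, Matrix.map_one _ (map_zero f) (map_one f)]
  · rw [← h3, Matrix.map_mul, Matrix.map_mul, Matrix.transpose_map]

theorem CongR.kron {A : Matrix α α R} {B : Matrix β β R} {C : Matrix γ γ R} {E : Matrix δ δ R}
    (h : CongR A B) (h' : CongR C E) :
    CongR (kroneckerMap (· * ·) A C) (kroneckerMap (· * ·) B E) := by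
  obtain ⟨P, Q, h1, h2, h3⟩ := h
  obtain ⟨P', Q', h1', h2', h3'⟩ := h'
  refine ⟨kroneckerMap (· * ·) P P', kroneckerMap (· * ·) Q Q', ?_, ?_, ?_⟩
  · rw [← Matrix.mul_kronecker_mul, h1, h1', Matrix.one_kronecker_one]
  · rw [← Matrix.mul_kronecker_mul, h2, h2', Matrix.one_kronecker_one]
  · rw [← kroneckerMap_transpose, ← Matrix.mul_kronecker_mul, ← Matrix.mul_kronecker_mul, h3, h3']

end CongR

/-! ## Forms and Seifert matrices -/

section General

variable {R : Type} [CommRing R] {G : Type} [CommGroup G] {e : ℤˣ} {ι κ : Type}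
  [Fintype ι] [DecidableEq ι] [Fintype κ] [DecidableEq κ]

theorem GForm.isUnit_det_rho (A : GForm R G e ι) (a : G) : IsUnit (A.ρ a).det := by
  refine IsUnit.of_mul_eq_one (A.ρ a⁻¹).det ?_
  rw [← det_mul, ← map_mul, mul_inv_cancel, map_one, det_one]

theorem GForm.isUnit_det_mul (A : GForm R G e ι) (a : G) : IsUnit (A.g * A.ρ a).det := by
  rw [det_mul]; exact A.unimod.mul (A.isUnit_det_rho a)

theorem GForm.rho_transpose_mul (A : GForm R G e ι) (a : G) :
    (A.ρ a)ᵀ * A.g = A.g * A.ρ a⁻¹ := by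
  have h := A.inv a
  calc (A.ρ a)ᵀ * A.g = (A.ρ a)ᵀ * A.g * (A.ρ a * A.ρ a⁻¹) := by
        rw [← map_mul, mul_inv_cancel, map_one, Matrix.mul_one]
    _ = A.g * A.ρ a⁻¹ := by rw [← Matrix.mul_assoc, h]

theorem GForm.mul_rho_transpose (A : GForm R G e ι) (a : G) :
    (A.g * A.ρ a)ᵀ = ((e : ℤ) : R) • (A.g * A.ρ a * A.ρ (a⁻¹ ^ 2)) := by
  rw [transpose_mul, A.symm, Matrix.mul_smul, A.rho_transpose_mul, Matrix.mul_assoc, ← map_mul]
  congr 3
  rw [pow_two, mul_inv_cancel_left]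

theorem cong_mul {X T' : Matrix κ κ R} {Y T : Matrix ι ι R} {P : Matrix κ ι R}
    (h3 : Pᵀ * X * P = Y) (h4 : P * T = T' * P) : Pᵀ * (X * T') * P = Y * T := by
  rw [← h3]
  calc Pᵀ * (X * T') * P = Pᵀ * X * (T' * P) := by simp only [Matrix.mul_assoc]
    _ = Pᵀ * X * P * T := by rw [← h4]; simp only [Matrix.mul_assoc]

theorem mul_left_cancel_of_det {X : Matrix κ κ R} (hX : IsUnit X.det) {Y Z : Matrix κ ι R}
    (h : X * Y = X * Z) : Y = Z := by
  calc Y = X⁻¹ * (X * Y) := by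
        rw [← Matrix.mul_assoc, Matrix.nonsing_inv_mul _ hX, Matrix.one_mul]
    _ = X⁻¹ * (X * Z) := by rw [h]
    _ = Z := by rw [← Matrix.mul_assoc, Matrix.nonsing_inv_mul _ hX, Matrix.one_mul]

/-- A unimodular form with an action of `G` is determined by the matrix `g * ρ a` if the group
is generated by `a ^ (-2)`. -/
theorem GForm.iso_iff_cong (a : G) (ha : ∀ b : G, ∃ n : ℕ, b = (a⁻¹ ^ 2) ^ n)
    (A : GForm R G e ι) (B : GForm R G e κ) :
    A.Iso B ↔ CongR (A.g * A.ρ a) (B.g * B.ρ a) := by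
  constructor
  · rintro ⟨P, Q, h1, h2, h3, h4⟩
    exact ⟨P, Q, h1, h2, cong_mul h3 (h4 a)⟩
  · rintro ⟨P, Q, h1, h2, h3⟩
    have hPt : Qᵀ * Pᵀ = 1 := by rw [← transpose_mul, h2, transpose_one]
    have hdB := B.isUnit_det_mul a
    -- the generator is intertwined
    have key : P * A.ρ (a⁻¹ ^ 2) = B.ρ (a⁻¹ ^ 2) * P := by
      have h5 := congrArg Matrix.transpose h3
      rw [transpose_mul, transpose_mul, transpose_transpose, A.mul_rho_transpose,
        B.mul_rho_transpose, ← h3, Matrix.smul_mul, Matrix.mul_smul] at h5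
      have h6 := congrArg (fun M => ((e : ℤ) : R) • M) h5
      simp only [smul_smul, sign_mul_self, one_smul] at h6
      have h7 : Qᵀ * (Pᵀ * (B.g * B.ρ a * B.ρ (a⁻¹ ^ 2) * P)) =
          Qᵀ * (Pᵀ * (B.g * B.ρ a) * P * A.ρ (a⁻¹ ^ 2)) := by rw [h6]
      have h8 : (B.g * B.ρ a) * (B.ρ (a⁻¹ ^ 2) * P) =
          (B.g * B.ρ a) * (P * A.ρ (a⁻¹ ^ 2)) := by
        calc (B.g * B.ρ a) * (B.ρ (a⁻¹ ^ 2) * P) =
            (Qᵀ * Pᵀ) * ((B.g * B.ρ a) * (B.ρ (a⁻¹ ^ 2) * P)) := by rw [hPt, Matrix.one_mul]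
          _ = Qᵀ * (Pᵀ * (B.g * B.ρ a * B.ρ (a⁻¹ ^ 2) * P)) := by simp only [Matrix.mul_assoc]
          _ = Qᵀ * (Pᵀ * (B.g * B.ρ a) * P * A.ρ (a⁻¹ ^ 2)) := h7
          _ = (Qᵀ * Pᵀ) * ((B.g * B.ρ a) * (P * A.ρ (a⁻¹ ^ 2))) := by
            simp only [Matrix.mul_assoc]
          _ = _ := by rw [hPt, Matrix.one_mul]
      exact (mul_left_cancel_of_det hdB h8).symm
    have key2 : ∀ b, P * A.ρ b = B.ρ b * P := by
      intro b
      obtain ⟨n, rfl⟩ := ha b
      induction n with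
      | zero => simp
      | succ n ih =>
        rw [pow_succ, map_mul, map_mul, ← Matrix.mul_assoc, ih, Matrix.mul_assoc, key,
          Matrix.mul_assoc]
    refine ⟨P, Q, h1, h2, ?_, key2⟩
    have h10 : ∀ {μ : Type} [Fintype μ] [DecidableEq μ] (C : GForm R G e μ),
        C.g = C.g * C.ρ a * C.ρ a⁻¹ := by
      intro μ _ _ C
      rw [Matrix.mul_assoc, ← map_mul, mul_inv_cancel, map_one, Matrix.mul_one]
    rw [h10 A, h10 B]
    exact cong_mul h3 (key2 _)

end General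

section Cyclic

variable {R S : Type} [CommRing R] [CommRing S] {D : ℕ} [NeZero D] {e e' : ℤˣ} {ι κ : Type}
  [Fintype ι] [DecidableEq ι] [Fintype κ] [DecidableEq κ]

theorem Cyc.gen_pow (D n : ℕ) : Cyc.gen D ^ n = Multiplicative.ofAdd (n : ZMod D) := by
  rw [Cyc.gen, ← ofAdd_nsmul]; simp

theorem Cyc.gen_pow_self (D : ℕ) : Cyc.gen D ^ D = 1 := by
  rw [Cyc.gen_pow]; simp

theorem Cyc.exists_pow (D : ℕ) [NeZero D] (a : Cyc D) : ∃ n : ℕ, a = Cyc.gen D ^ n :=
  ⟨(Multiplicative.toAdd a).val, by rw [Cyc.gen_pow, ZMod.natCast_zmod_val, ofAdd_toAdd]⟩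

/-- The element `a₀` of the cyclic group with `a₀ ^ (-2)` the generator. -/
def Cyc.half (D : ℕ) : Cyc D := Cyc.gen D ^ ((D - 1) / 2)

theorem Cyc.half_inv_sq (hD : Odd D) : (Cyc.half D)⁻¹ ^ 2 = Cyc.gen D := by
  obtain ⟨m, rfl⟩ := hD
  rw [Cyc.half, show (2 * m + 1 - 1) / 2 = m by omega, inv_pow, ← pow_mul, inv_eq_iff_mul_eq_one,
    ← pow_succ, show m * 2 + 1 = 2 * m + 1 by ring, Cyc.gen_pow_self]

/-- The Seifert matrix of a form with an action of the cyclic group of odd order `D`. -/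
def GForm.seif (A : GForm R (Cyc D) e ι) : Matrix ι ι R := A.g * A.ρ (Cyc.half D)

theorem GForm.seif_det (A : GForm R (Cyc D) e ι) : IsUnit A.seif.det := A.isUnit_det_mul _

theorem GForm.seif_transpose (hD : Odd D) (A : GForm R (Cyc D) e ι) :
    A.seifᵀ = ((e : ℤ) : R) • (A.seif * A.ρ (Cyc.gen D)) := by
  rw [GForm.seif, A.mul_rho_transpose, Cyc.half_inv_sq hD]

/-- The monodromy of the Seifert matrix is the action of the generator. -/
theorem GForm.mono_seif (hD : Odd D) (A : GForm R (Cyc D) e ι) :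
    mono e A.seif = A.ρ (Cyc.gen D) := by
  rw [mono, A.seif_transpose hD, Matrix.mul_smul, smul_smul, sign_mul_self, one_smul,
    ← Matrix.mul_assoc, Matrix.nonsing_inv_mul _ A.seif_det, Matrix.one_mul]

/-- Forms (with an action of the cyclic group of odd order) are isomorphic if and only if their
Seifert matrices are congruent. -/
theorem GForm.iso_iff_seif (hD : Odd D) (A : GForm R (Cyc D) e ι) (B : GForm R (Cyc D) e κ) :
    A.Iso B ↔ CongR A.seif B.seif := by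
  refine GForm.iso_iff_cong (Cyc.half D) (fun b => ?_) A B
  obtain ⟨n, hn⟩ := Cyc.exists_pow D b
  exact ⟨n, by rw [Cyc.half_inv_sq hD, hn]⟩

theorem GForm.Iso.seif {A : GForm R (Cyc D) e ι} {B : GForm R (Cyc D) e' κ} (h : A.Iso B) :
    CongR A.seif B.seif := by
  obtain ⟨P, Q, h1, h2, h3, h4⟩ := h
  exact ⟨P, Q, h1, h2, cong_mul h3 (h4 _)⟩

theorem GForm.mul_seif (A : GForm R (Cyc D) e ι) (B : GForm R (Cyc D) e' κ) :
    (A.mul B).seif = kroneckerMap (· * ·) A.seif B.seif := by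
  change kroneckerMap (· * ·) A.g B.g * kroneckerMap (· * ·) (A.ρ _) (B.ρ _) = _
  rw [← Matrix.mul_kronecker_mul]; rfl

theorem GForm.map_seif (f : R →+* S) (A : GForm R (Cyc D) e ι) :
    (A.map f).seif = A.seif.map f := by
  change A.g.map f * (A.ρ _).map f = (A.g * A.ρ _).map f
  rw [Matrix.map_mul]

theorem GForm.pi_seif {ν : Type} [Fintype ν] [DecidableEq ν] {ι : ν → Type}
    [∀ k, Fintype (ι k)] [∀ k, DecidableEq (ι k)] {e : ν → ℤˣ}
    (A : ∀ k, GForm R (Cyc D) (e k) (ι k)) :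
    (GForm.pi A).seif = piMat fun k => (A k).seif := by
  change piMat (fun k => (A k).g) * piMat (fun k => (A k).ρ _) = _
  rw [← piMat_mul]; rfl

theorem ofSeifert_seif (hD : Odd D) (e : ℤˣ) (L : Matrix ι ι ℤ) (hL : IsUnit L.det)
    (hh : (mono e L) ^ D = 1) : (ofSeifert D hD e L hL hh).seif = L := by
  obtain ⟨m, rfl⟩ := hD
  change L * (mono e L) ^ ((2 * m + 1 + 1) / 2) *
    (mono e L) ^ (Multiplicative.toAdd (Cyc.half (2 * m + 1))).val = L
  have h1 : (Multiplicative.toAdd (Cyc.half (2 * m + 1))).val = m := by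
    rw [Cyc.half, show (2 * m + 1 - 1) / 2 = m by omega, Cyc.gen_pow, toAdd_ofAdd,
      ZMod.val_natCast, Nat.mod_eq_of_lt (by omega)]
  rw [h1, show (2 * m + 1 + 1) / 2 = m + 1 by omega, Matrix.mul_assoc, ← pow_add,
    show m + 1 + m = 2 * m + 1 by ring, hh, Matrix.mul_one]

theorem chainForm_seif (hD : Odd D) (c : List ℕ) (h : ChainOK D c) :
    (chainForm D hD c h).seif = chainSeifert c := ofSeifert_seif hD _ _ _ _

theorem sumForm_seif (hD : Odd D) {α : Type} [Fintype α] [DecidableEq α] (F : α → List ℕ)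
    (h : ∀ i, ChainOK D (F i)) : (sumForm D hD F h).seif = seifert F := by
  rw [sumForm, GForm.pi_seif]
  simp only [chainForm_seif]
  rfl

/-! ### The group `C_D × C_5` -/

/-- The Seifert matrix of a form with an action of `C_D × C_5`. -/
def GForm.seif5 (A : GForm R (Cyc D × Cyc 5) e ι) : Matrix ι ι R :=
  A.g * A.ρ (Cyc.half D, Cyc.half 5)

/-- Forms with an action of `C_D × C_5` (`D` odd and prime to `5`) are isomorphic if and only if
their Seifert matrices are congruent. -/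
theorem GForm.iso_iff_seif5 (hD : Odd D) (hD5 : D.Coprime 5) (A : GForm R (Cyc D × Cyc 5) e ι)
    (B : GForm R (Cyc D × Cyc 5) e κ) : A.Iso B ↔ CongR A.seif5 B.seif5 := by
  refine GForm.iso_iff_cong (Cyc.half D, Cyc.half 5) (fun b => ?_) A B
  obtain ⟨b1, b2⟩ := b
  obtain ⟨n1, hn1⟩ := Cyc.exists_pow D b1
  obtain ⟨n2, hn2⟩ := Cyc.exists_pow 5 b2
  obtain ⟨n, h1, h2⟩ := Nat.chineseRemainder hD5 n1 n2
  refine ⟨n, ?_⟩
  have h3 : ((Cyc.half D, Cyc.half 5) : Cyc D × Cyc 5)⁻¹ ^ 2 = (Cyc.gen D, Cyc.gen 5) := by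
    rw [Prod.inv_mk, Prod.pow_mk, Cyc.half_inv_sq hD, Cyc.half_inv_sq (by decide)]
  rw [h3, Prod.pow_mk, hn1, hn2, Cyc.gen_pow, Cyc.gen_pow, Cyc.gen_pow, Cyc.gen_pow,
    (ZMod.natCast_eq_natCast_iff _ _ _).mpr h1, (ZMod.natCast_eq_natCast_iff _ _ _).mpr h2]

theorem GForm.Iso.seif5 {A : GForm R (Cyc D × Cyc 5) e ι} {B : GForm R (Cyc D × Cyc 5) e' κ}
    (h : A.Iso B) : CongR A.seif5 B.seif5 := by
  obtain ⟨P, Q, h1, h2, h3, h4⟩ := h
  exact ⟨P, Q, h1, h2, cong_mul h3 (h4 _)⟩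

theorem GForm.ext_seif5 (A : GForm R (Cyc D) e ι) (B : GForm R (Cyc 5) e' κ) :
    (A.ext B).seif5 = kroneckerMap (· * ·) A.seif B.seif := by
  change kroneckerMap (· * ·) A.g B.g * kroneckerMap (· * ·) (A.ρ _) (B.ρ _) = _
  rw [← Matrix.mul_kronecker_mul]; rfl

theorem GForm.map_seif5 (f : R →+* S) (A : GForm R (Cyc D × Cyc 5) e ι) :
    (A.map f).seif5 = A.seif5.map f := by
  change A.g.map f * (A.ρ _).map f = (A.g * A.ρ _).map f
  rw [Matrix.map_mul]

theorem E5_seif : E5.seif = chainSeifert [5] := chainForm_seif _ _ _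

theorem ext_E5_seif5 (A : GForm ℤ (Cyc D) e ι) :
    (A.ext E5).seif5 = kroneckerMap (· * ·) A.seif (chainSeifert [5]) := by
  rw [GForm.ext_seif5, E5_seif]

end Cyclic

end Vale.Agent.P268.Z
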