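import Vale.Agent.P268.Z.Conv

/-!
# P268: isomorphism of the final forms gives congruent Seifert matrices of sums of chains
-/

namespace Vale.Agent.P268.Z

open Matrix

section SeifOf

variable {ι κ : Type} [Fintype ι] [DecidableEq ι] [Fintype κ] [DecidableEq κ]
  {α β ν : Type} [Fintype α] [Fintype β] [Fintype ν]

/-- `L` is, up to renumbering the basis, the Seifert matrix of the sum of chains `F`. -/
def SeifOf (L : Matrix ι ι ℤ) (F : α → List ℕ) : Prop :=
  ∃ f : ι ≃ ((i : α) → Fin (mu (F i))), ∀ i j, L i j = seifert F (f i) (f j)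

theorem SeifOf.self (F : α → List ℕ) [DecidableEq α] : SeifOf (seifert F) F :=
  ⟨Equiv.refl _, fun _ _ => rfl⟩

theorem SeifOf.kron {L : Matrix ι ι ℤ} {M : Matrix κ κ ℤ} {F : α → List ℕ} {G : β → List ℕ}
    (hL : SeifOf L F) (hM : SeifOf M G) :
    SeifOf (kroneckerMap (· * ·) L M) (Sum.elim F G) := by
  obtain ⟨f, hf⟩ := hL
  obtain ⟨g, hg⟩ := hM
  refine ⟨(Equiv.prodCongr f g).trans (Equiv.sumPiEquivProdPi
    (fun i : α ⊕ β => Fin (mu (Sum.elim F G i)))).symm, ?_⟩
  rintro ⟨i, i'⟩ ⟨j, j'⟩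
  simp only [kroneckerMap_apply, hf, hg, seifert, Fintype.prod_sum_type]
  rfl

theorem SeifOf.pi [DecidableEq ν] {L : Matrix ι ι ℤ} {F : α → List ℕ}
    (hL : SeifOf L F) :
    SeifOf (piMat fun _ : ν => L) (fun p : ν × α => F p.2) := by
  obtain ⟨f, hf⟩ := hL
  refine ⟨{ toFun := fun x p => f (x p.1) p.2
            invFun := fun y k => f.symm fun i => y (k, i)
            left_inv := fun x => by simp
            right_inv := fun y => by simp }, ?_⟩
  intro x y
  simp only [piMat_apply, hf, seifert, Fintype.prod_prod_type]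
  rfl

theorem SeifOf.reindex {L : Matrix ι ι ℤ} {F : α → List ℕ} (hL : SeifOf L F) (e : β ≃ α) :
    SeifOf L (fun b => F (e b)) := by
  obtain ⟨f, hf⟩ := hL
  refine ⟨f.trans (Equiv.piCongrLeft' (fun i => Fin (mu (F i))) e.symm), ?_⟩
  intro i j
  rw [hf]
  simp only [seifert]
  exact (Equiv.prod_comp e (fun a => chainSeifert (F a) (f i a) (f j a))).symm

theorem mu_two : mu [2] = 1 := by simp [mu]

theorem SeifOf.two {L : Matrix ι ι ℤ} {F : α → List ℕ} (hL : SeifOf L F) :
    SeifOf L (Sum.elim F (fun _ : β => [2])) := by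
  obtain ⟨f, hf⟩ := hL
  have hu : ∀ x y : Fin (mu [2]), x = y := fun x y =>
    Fin.ext (by have h := mu_two; have := x.2; have := y.2; omega)
  let z : Fin (mu [2]) := ⟨0, by rw [mu_two]; omega⟩
  have hz : ∀ x y : Fin (mu [2]), chainSeifert [2] x y = 1 := fun x y => by
    rw [hu x y, chainSeifert_single, if_pos rfl]
  let g : ((i : α) → Fin (mu (F i))) ≃ ((i : α ⊕ β) → Fin (mu (Sum.elim F (fun _ => [2]) i))) :=
    { toFun := fun x p => match p with
        | Sum.inl a => x a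
        | Sum.inr _ => z
      invFun := fun y a => y (Sum.inl a)
      left_inv := fun x => rfl
      right_inv := fun y => by
        funext p
        rcases p with a | b
        · rfl
        · exact hu _ _ }
  refine ⟨f.trans g, ?_⟩
  intro i j
  rw [hf]
  simp only [seifert, Fintype.prod_sum_type]
  have h1 : ∀ b : β, chainSeifert (Sum.elim F (fun _ : β => [2]) (Sum.inr b))
      ((f.trans g) i (Sum.inr b)) ((f.trans g) j (Sum.inr b)) = 1 := fun b => hz _ _
  rw [Finset.prod_congr rfl (fun b _ => h1 b), Finset.prod_const_one, mul_one]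
  rfl

theorem SeifOf.single (c : List ℕ) : SeifOf (chainSeifert c) (fun _ : Unit => c) := by
  refine ⟨(Equiv.funUnique Unit (Fin (mu c))).symm, ?_⟩
  intro i j
  simp [seifert]

theorem SeifOf.congruent [DecidableEq α] [DecidableEq β] {L : Matrix ι ι ℤ} {M : Matrix κ κ ℤ}
    {F : α → List ℕ} {G : β → List ℕ}
    (hL : SeifOf L F) (hM : SeifOf M G) (h : CongR L M) :
    Congruent (seifert F) (seifert G) := by
  obtain ⟨f, hf⟩ := hL
  obtain ⟨g, hg⟩ := hM
  exact ((CongR.of_equiv f hf).symm.trans h).trans (CongR.of_equiv g hg)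

end SeifOf

section Final

variable {D : ℕ} [NeZero D]

theorem sumForm_seifOf (hD : Odd D) {α : Type} [Fintype α] [DecidableEq α] (F : α → List ℕ)
    (h : ∀ i, ChainOK D (F i)) : SeifOf (sumForm D hD F h).seif F := by
  rw [sumForm_seif]; exact SeifOf.self F

theorem C3_seifOf (hD : Odd D) (hD3 : 3 ≤ D) :
    SeifOf (C3 D hD hD3).seif (fun _ : Fin 3 => [D]) :=
  sumForm_seifOf hD (fun _ : Fin 3 => [D]) (fun _ => chainOK_single hD hD3)

theorem mul_seifOf {e e' : ℤˣ} {ι κ α β : Type} [Fintype ι] [DecidableEq ι] [Fintype κ]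
    [DecidableEq κ] [Fintype α] [Fintype β] {A : GForm ℤ (Cyc D) e ι} {B : GForm ℤ (Cyc D) e' κ}
    {F : α → List ℕ} {G : β → List ℕ} (hA : SeifOf A.seif F) (hB : SeifOf B.seif G) :
    SeifOf (A.mul B).seif (Sum.elim F G) := by
  rw [GForm.mul_seif]; exact hA.kron hB

theorem pow_seifOf {e : ℤˣ} {ι α ν : Type} [Fintype ι] [DecidableEq ι] [Fintype α] [Fintype ν]
    [DecidableEq ν] {A : GForm ℤ (Cyc D) e ι} {F : α → List ℕ} (hA : SeifOf A.seif F) :
    SeifOf (GForm.pow ν A).seif (fun p : ν × α => F p.2) := by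
  rw [GForm.pow, GForm.pi_seif]; exact hA.pi

theorem ext_seifOf {e : ℤˣ} {ι α : Type} [Fintype ι] [DecidableEq ι] [Fintype α]
    {A : GForm ℤ (Cyc D) e ι} {F : α → List ℕ} (hA : SeifOf A.seif F) :
    SeifOf (A.ext E5).seif5 (Sum.elim F (fun _ : Unit => [5])) := by
  rw [ext_E5_seif5]; exact hA.kron (SeifOf.single [5])

theorem sq_seifOf (hD : Odd D) {a : ℕ} (f : Fin a → List ℕ) (hf : ∀ i, ChainOK D (f i)) :
    SeifOf ((sumForm D hD f hf).mul (sumForm D hD f hf)).seif (Sum.elim f f) :=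
  mul_seifOf (sumForm_seifOf hD f hf) (sumForm_seifOf hD f hf)

/-- The index type of the final family. -/
abbrev FIdx (a k m : ℕ) : Type :=
  (((Fin k × (Fin a ⊕ Fin a)) ⊕ (Fin k × (Fin a ⊕ Fin a))) ⊕ (Fin m × Fin 3)) ⊕ Unit

/-- The final family: `4 k` copies of `f`, `3 m` copies of `[D]`, one chain `[5]`. -/
def finFam (D : ℕ) {a : ℕ} (f : Fin a → List ℕ) (k m : ℕ) : FIdx a k m → List ℕ :=
  Sum.elim (Sum.elim (Sum.elim (fun p : Fin k × (Fin a ⊕ Fin a) => Sum.elim f f p.2)
    (fun p : Fin k × (Fin a ⊕ Fin a) => Sum.elim f f p.2))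
    (fun _ : Fin m × Fin 3 => [D])) (fun _ : Unit => [5])

theorem finFam_seifOf (hD : Odd D) (hD3 : 3 ≤ D) {a : ℕ} (f : Fin a → List ℕ) (k m : ℕ)
    {e : ℤˣ} {ι : Type} [Fintype ι] [DecidableEq ι] (A : GForm ℤ (Cyc D) e ι)
    (hA : SeifOf A.seif (Sum.elim f f)) :
    SeifOf ((((GForm.pow (Fin k) A).mul (GForm.pow (Fin k) A)).mul
      (GForm.pow (Fin m) (C3 D hD hD3))).ext E5).seif5 (finFam D f k m) := by
  have hP := pow_seifOf (ν := Fin k) hA
  have hC := pow_seifOf (ν := Fin m) (C3_seifOf hD hD3)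
  exact ext_seifOf (mul_seifOf (mul_seifOf hP hP) hC)

theorem finFam_sum (D : ℕ) {a : ℕ} (f : Fin a → List ℕ) (k m : ℕ) :
    ∑ i, (finFam D f k m i).length = 4 * k * (∑ i, (f i).length) + 3 * m + 1 := by
  simp only [finFam, Fintype.sum_sum_type, Sum.elim_inl, Sum.elim_inr, Fintype.sum_prod_type,
    Finset.sum_const, Finset.card_univ, Fintype.card_fin, Fintype.card_prod, smul_eq_mul,
    List.length_singleton, Fintype.card_unit, mul_one]
  ring

theorem finFam_mem (D : ℕ) {a : ℕ} (f : Fin a → List ℕ) (k m : ℕ) (i : FIdx a k m) :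
    (∃ j, finFam D f k m i = f j) ∨ finFam D f k m i = [D] ∨ finFam D f k m i = [5] := by
  rcases i with ((⟨_, j | j⟩ | ⟨_, j | j⟩) | _) | _
  · exact Or.inl ⟨j, rfl⟩
  · exact Or.inl ⟨j, rfl⟩
  · exact Or.inl ⟨j, rfl⟩
  · exact Or.inl ⟨j, rfl⟩
  · exact Or.inr (Or.inl rfl)
  · exact Or.inr (Or.inr rfl)

/-- From the isomorphism of the final forms to congruent Seifert matrices of two sums of chains
in the same number of variables. Here `A = (sumForm f).mul (sumForm f)`, and the same for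
`B`, `g` (see `sq_seifOf`). -/
theorem conv_final (hD : Odd D) (hD3 : 3 ≤ D) {a b : ℕ} (f : Fin a → List ℕ) (g : Fin b → List ℕ)
    {e e' : ℤˣ} {ι κ : Type} [Fintype ι] [DecidableEq ι] [Fintype κ] [DecidableEq κ]
    (A : GForm ℤ (Cyc D) e ι) (B : GForm ℤ (Cyc D) e' κ)
    (hA : SeifOf A.seif (Sum.elim f f)) (hB : SeifOf B.seif (Sum.elim g g))
    (hlt : ∑ i, (g i).length < ∑ i, (f i).length) (k m : ℕ) (hk : 0 < k)
    (h : GForm.Iso
      ((((GForm.pow (Fin k) A).mul (GForm.pow (Fin k) A)).mul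
        (GForm.pow (Fin m) (C3 D hD hD3))).ext E5)
      ((((GForm.pow (Fin k) B).mul (GForm.pow (Fin k) B)).mul
        (GForm.pow (Fin m) (C3 D hD hD3))).ext E5)) :
    ∃ (p q : ℕ) (F : Fin p → List ℕ) (G : Fin q → List ℕ),
      Congruent (seifert F) (seifert G) ∧
      (∀ i, (∃ j, F i = f j) ∨ F i = [D] ∨ F i = [5]) ∧
      (∀ i, (∃ j, G i = g j) ∨ G i = [D] ∨ G i = [5] ∨ G i = [2]) ∧
      (∃ i, G i = [2]) ∧
      ∑ i, (F i).length = ∑ i, (G i).length ∧
      4 ≤ ∑ i, (F i).length := by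
  obtain ⟨r, hr⟩ : ∃ r, ∑ i, (f i).length = ∑ i, (g i).length + r := ⟨_, (by omega :
    ∑ i, (f i).length = ∑ i, (g i).length + (∑ i, (f i).length - ∑ i, (g i).length))⟩
  have hr0 : 0 < r := by omega
  have hF := (finFam_seifOf hD hD3 f k m A hA).reindex (Fintype.equivFin _).symm
  have hG := ((finFam_seifOf hD hD3 g k m B hB).two (β := Fin (4 * k * r))).reindex
    (Fintype.equivFin _).symm
  refine ⟨_, _, _, _, hF.congruent hG h.seif5, ?_, ?_, ?_, ?_, ?_⟩
  · intro i; exact finFam_mem D f k m _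
  · intro i
    rcases (Fintype.equivFin (FIdx b k m ⊕ Fin (4 * k * r))).symm i with j | j
    · rcases finFam_mem D g k m j with h | h | h
      · exact Or.inl h
      · exact Or.inr (Or.inl h)
      · exact Or.inr (Or.inr (Or.inl h))
    · exact Or.inr (Or.inr (Or.inr rfl))
  · have hpos : 0 < 4 * k * r := by positivity
    refine ⟨Fintype.equivFin (FIdx b k m ⊕ Fin (4 * k * r)) (Sum.inr ⟨0, hpos⟩), ?_⟩
    rw [Equiv.symm_apply_apply]; rfl
  · have h2 : ∑ _j : Fin (4 * k * r), (([2] : List ℕ)).length = 4 * k * r := by simp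
    have h3 := finFam_sum D f k m
    have h4 := finFam_sum D g k m
    have h5 : ∑ i : FIdx b k m ⊕ Fin (4 * k * r),
        (Sum.elim (finFam D g k m) (fun _ => [2]) i).length =
        ∑ i, (finFam D g k m i).length + ∑ _j : Fin (4 * k * r), (([2] : List ℕ)).length :=
      Fintype.sum_sum_type _
    rw [Equiv.sum_comp (Fintype.equivFin (FIdx a k m)).symm (fun i => (finFam D f k m i).length),
      Equiv.sum_comp (Fintype.equivFin (FIdx b k m ⊕ Fin (4 * k * r))).symm
        (fun i => (Sum.elim (finFam D g k m) (fun _ => [2]) i).length), h5, h2, h3, h4, hr]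
    ring
  · rw [Equiv.sum_comp (Fintype.equivFin (FIdx a k m)).symm (fun i => (finFam D f k m i).length),
      finFam_sum]
    have h1 : 1 ≤ ∑ i, (f i).length := by omega
    have h2 : 1 ≤ k * ∑ i, (f i).length := Nat.mul_pos hk h1
    rw [Nat.mul_assoc]
    omega

end Final

end Vale.Agent.P268.Z
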