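import Vale.Agent.P268.Z.Conv2
import Vale.Agent.P268.Z.FinalStmt

/-!
# P268: `Star` from the isomorphism of the final forms
-/

namespace Vale.Agent.P268.Z

open Matrix

theorem star_of_iso {D : ℕ} [NeZero D] (hD : Odd D) (hD3 : 3 ≤ D) {a b : ℕ}
    (f : Fin a → List ℕ) (g : Fin b → List ℕ)
    (hf : ∀ i, ChainOK D (f i)) (hg : ∀ i, ChainOK D (g i))
    (hf3 : ∀ i, ∃ (l : List ℕ) (x : ℕ), f i = l ++ [x] ∧ 3 ≤ x)
    {e e' : ℤˣ} {ι κ : Type} [Fintype ι] [DecidableEq ι] [Fintype κ] [DecidableEq κ]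
    (A : GForm ℤ (Cyc D) e ι) (B : GForm ℤ (Cyc D) e' κ)
    (hA : SeifOf A.seif (Sum.elim f f)) (hB : SeifOf B.seif (Sum.elim g g))
    (hlt : ∑ i, (g i).length < ∑ i, (f i).length) (k m : ℕ) (hk : 0 < k)
    (h : GForm.Iso
      ((((GForm.pow (Fin k) A).mul (GForm.pow (Fin k) A)).mul
        (GForm.pow (Fin m) (C3 D hD hD3))).ext E5)
      ((((GForm.pow (Fin k) B).mul (GForm.pow (Fin k) B)).mul
        (GForm.pow (Fin m) (C3 D hD hD3))).ext E5)) : Star := by
  obtain ⟨p, q, F, G, hFG, hF, hG, ⟨j, hj⟩, hN, h4⟩ :=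
    conv_final hD hD3 f g A B hA hB hlt k m hk h
  have hp : 1 ≤ p := by
    rcases Nat.eq_zero_or_pos p with rfl | hp
    · simp at h4
    · exact hp
  have hq : 1 ≤ q := by
    have := j.2; omega
  refine Star.of_fintype (Sum.elim F (fun _ : Unit => [3])) (Sum.elim G (fun _ : Unit => [3]))
    (by simp; omega) (by simp; omega) ?_ ?_ ?_ ?_ ?_ ⟨Sum.inr (), rfl⟩ ⟨Sum.inl j, hj⟩ ?_ ?_ ?_
  · rintro (i | i)
    · change F i ≠ []
      rcases hF i with ⟨j, h⟩ | h | h
      · rw [h]; exact (hf j).ne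
      · rw [h]; simp
      · rw [h]; simp
    · simp
  · rintro (i | i)
    · change G i ≠ []
      rcases hG i with ⟨j, h⟩ | h | h | h
      · rw [h]; exact (hg j).ne
      · rw [h]; simp
      · rw [h]; simp
      · rw [h]; simp
    · simp
  · rintro (i | i)
    · change ∀ a ∈ F i, 2 ≤ a
      rcases hF i with ⟨j, h⟩ | h | h
      · rw [h]; exact (hf j).two
      · rw [h]; intro a ha; simp at ha; omega
      · rw [h]; intro a ha; simp at ha; omega
    · intro a ha; simp at ha; omega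
  · rintro (i | i)
    · change ∀ a ∈ G i, 2 ≤ a
      rcases hG i with ⟨j, h⟩ | h | h | h
      · rw [h]; exact (hg j).two
      · rw [h]; intro a ha; simp at ha; omega
      · rw [h]; intro a ha; simp at ha; omega
      · rw [h]; intro a ha; simp at ha; omega
    · intro a ha; simp at ha; omega
  · rintro (i | i)
    · change ∃ (l : List ℕ) (x : ℕ), F i = l ++ [x] ∧ 3 ≤ x
      rcases hF i with ⟨j, h⟩ | h | h
      · rw [h]; exact hf3 j
      · exact ⟨[], D, by rw [h]; rfl, hD3⟩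
      · exact ⟨[], 5, by rw [h]; rfl, by norm_num⟩
    · exact ⟨[], 3, rfl, le_rfl⟩
  · rw [Fintype.sum_sum_type, Fintype.sum_sum_type]
    simp [hN]
  · rw [Fintype.sum_sum_type]
    simp only [Sum.elim_inl]
    omega
  · exact SeifOf.congruent ((SeifOf.self F).kron (SeifOf.single [3]))
      ((SeifOf.self G).kron (SeifOf.single [3])) (CongR.kron hFG (CongR.refl _))

end Vale.Agent.P268.Z
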