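import Vale.Agent.P268.Z.Mult

/-!
# P268: the origin is the only critical point of a sum of chain polynomials
-/

open Set Filter Metric Topology

namespace Vale.Agent.P268.Z

/-- Directional derivative of a chain polynomial. -/
noncomputable def chainD (c : List ℕ) (x v : Fin c.length → ℂ) : ℂ :=
  ∑ l : Fin c.length, (((c.get l : ℂ) * x l ^ (c.get l - 1) * v l) *
    (if h : (l : ℕ) + 1 < c.length then x ⟨l + 1, h⟩ else 1) +
      x l ^ (c.get l) * (if h : (l : ℕ) + 1 < c.length then v ⟨l + 1, h⟩ else 0))

theorem hasDerivAt_chainFun (c : List ℕ) (x v : Fin c.length → ℂ) :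
    HasDerivAt (fun t : ℂ => chainFun c (fun l => x l + t * v l)) (chainD c x v) 0 := by
  apply HasDerivAt.fun_sum
  intro l _
  have h1 : ∀ k : Fin c.length, HasDerivAt (fun t : ℂ => x k + t * v k) (v k) 0 := by
    intro k
    simpa using ((hasDerivAt_id (0 : ℂ)).mul_const (v k)).const_add (x k)
  have h2 : HasDerivAt (fun t : ℂ => (x l + t * v l) ^ (c.get l))
      ((c.get l : ℂ) * x l ^ (c.get l - 1) * v l) 0 := by
    simpa using (h1 l).fun_pow (c.get l)
  by_cases h : (l : ℕ) + 1 < c.length
  · simp only [h, dif_pos]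
    have h3 := h2.fun_mul (h1 ⟨l + 1, h⟩)
    simpa using h3
  · simp only [h, dif_neg, not_false_iff, mul_one, mul_zero, add_zero]
    exact h2

theorem chainD_zero (c : List ℕ) (x : Fin c.length → ℂ) : chainD c x (fun _ => 0) = 0 := by
  simp [chainD]

theorem chainD_single (c : List ℕ) (x : Fin c.length → ℂ) (j : Fin c.length) :
    chainD c x (fun l => if l = j then 1 else 0) =
      (c.get j : ℂ) * x j ^ (c.get j - 1) *
        (if h : (j : ℕ) + 1 < c.length then x ⟨j + 1, h⟩ else 1) +
      (if h : (j : ℕ) = 0 then 0 else x ⟨j - 1, by omega⟩ ^ (c.get ⟨j - 1, by omega⟩)) := by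
  rw [chainD, Finset.sum_add_distrib]
  congr 1
  · rw [Fintype.sum_eq_single j]
    · simp
    · intro l hl
      simp [hl]
  · by_cases hj : (j : ℕ) = 0
    · rw [dif_pos hj]
      apply Finset.sum_eq_zero
      intro l _
      by_cases h : (l : ℕ) + 1 < c.length
      · have : ¬ (⟨l + 1, h⟩ : Fin c.length) = j := fun h' => by
          have := congrArg Fin.val h'
          simp only at this
          omega
        simp [h, this]
      · simp [h]
    · rw [dif_neg hj, Fintype.sum_eq_single ⟨j - 1, by omega⟩]
      · have h : (j : ℕ) - 1 + 1 < c.length := by omega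
        have : (⟨(j : ℕ) - 1 + 1, h⟩ : Fin c.length) = j := Fin.ext (by simp only; omega)
        simp [h, this]
      · intro l hl
        by_cases h : (l : ℕ) + 1 < c.length
        · have : ¬ (⟨l + 1, h⟩ : Fin c.length) = j := fun h' => by
            have := congrArg Fin.val h'
            simp only at this
            exact hl (Fin.ext (by simp only; omega))
          simp [h, this]
        · simp [h]

/-- A critical point of a chain polynomial is zero. -/
theorem chain_crit {c : List ℕ} (hc : ∀ a ∈ c, 2 ≤ a) (x : Fin c.length → ℂ)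
    (h : ∀ j : Fin c.length, chainD c x (fun l => if l = j then 1 else 0) = 0) :
    ∀ j, x j = 0 := by
  have hc1 : ∀ j : Fin c.length, 2 ≤ c.get j := fun j => hc _ (List.get_mem _ j)
  have main : ∀ n : ℕ, ∀ j : Fin c.length, (j : ℕ) = n → x j = 0 := by
    intro n
    induction n using Nat.strong_induction_on with
    | _ n ih =>
      intro j hjn
      have e1 := h j
      rw [chainD_single] at e1
      have hprev : (if h : (j : ℕ) = 0 then (0 : ℂ) else
          x ⟨j - 1, by omega⟩ ^ (c.get ⟨j - 1, by omega⟩)) = 0 := by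
        by_cases hj : (j : ℕ) = 0
        · rw [dif_pos hj]
        · rw [dif_neg hj, ih (n - 1) (by omega) ⟨j - 1, by omega⟩ (by simp only; omega)]
          have := hc1 ⟨j - 1, by omega⟩
          exact zero_pow (by omega)
      rw [hprev, add_zero] at e1
      have hcj := hc1 j
      have hcast : (c.get j : ℂ) ≠ 0 := Nat.cast_ne_zero.2 (by omega)
      by_cases hlt : (j : ℕ) + 1 < c.length
      · rw [dif_pos hlt] at e1
        rcases mul_eq_zero.1 e1 with e2 | e2
        · rcases mul_eq_zero.1 e2 with e3 | e3
          · exact absurd e3 hcast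
          · exact (pow_eq_zero_iff (by omega)).1 e3
        · have e4 := h ⟨j + 1, hlt⟩
          rw [chainD_single] at e4
          have h5 := hc1 ⟨j + 1, hlt⟩
          rw [e2, zero_pow (by omega), mul_zero, zero_mul, zero_add,
            dif_neg (by simp only; omega)] at e4
          have h6 : (⟨((⟨(j : ℕ) + 1, hlt⟩ : Fin c.length) : ℕ) - 1, by simp only; omega⟩ :
              Fin c.length) = j := Fin.ext (by simp only; omega)
          simp only [h6] at e4
          exact (pow_eq_zero_iff (by omega)).1 e4
      · rw [dif_neg hlt, mul_one] at e1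
        rcases mul_eq_zero.1 e1 with e3 | e3
        · exact absurd e3 hcast
        · exact (pow_eq_zero_iff (by omega)).1 e3
  exact fun j => main j j rfl

/-- The origin is the only critical point of a sum of chain polynomials. -/
theorem sumFun_crit {ι : Type} [Fintype ι] (F : ι → List ℕ) {N : ℕ} (e : Vars F ≃ Fin N)
    (hF : ∀ i, ∀ a ∈ F i, 2 ≤ a) (z : Fin N → ℂ)
    (hz : fderiv ℂ (fun z : Fin N → ℂ => sumFun F (z ∘ e)) z = 0) : z = 0 := by
  classical
  have key : ∀ v : Vars F → ℂ, ∑ i, chainD (F i) (fun j => z (e ⟨i, j⟩)) (fun j => v ⟨i, j⟩) = 0 := by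
    intro v
    have hd : HasFDerivAt (fun z : Fin N → ℂ => sumFun F (z ∘ e)) (0 : (Fin N → ℂ) →L[ℂ] ℂ) z := by
      rw [← hz]
      exact (analyticAt_sumFun F e z).differentiableAt.hasFDerivAt
    have hl : HasDerivAt (fun t : ℂ => z + t • (fun k => v (e.symm k))) (fun k => v (e.symm k)) 0 := by
      simpa using ((hasDerivAt_id (0 : ℂ)).smul_const (fun k => v (e.symm k))).const_add z
    have hz' : z = z + (0 : ℂ) • (fun k => v (e.symm k)) := by simp
    rw [hz'] at hd
    have h1 := hd.comp_hasDerivAt (0 : ℂ) hl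
    have h2 : HasDerivAt (fun t : ℂ => ∑ i, chainFun (F i)
        (fun j => z (e ⟨i, j⟩) + t * v ⟨i, j⟩))
        (∑ i, chainD (F i) (fun j => z (e ⟨i, j⟩)) (fun j => v ⟨i, j⟩)) 0 :=
      HasDerivAt.fun_sum fun i _ => hasDerivAt_chainFun _ _ _
    have h3 : (fun t : ℂ => ∑ i, chainFun (F i) (fun j => z (e ⟨i, j⟩) + t * v ⟨i, j⟩)) =
        (fun z : Fin N → ℂ => sumFun F (z ∘ e)) ∘
          (fun t : ℂ => z + t • (fun k => v (e.symm k))) := by
      funext t
      simp [sumFun]
    rw [h3] at h2
    simpa using h2.unique h1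
  have hx : ∀ i, ∀ j : Fin (F i).length, z (e ⟨i, j⟩) = 0 := by
    intro i
    apply chain_crit (hF i)
    intro j
    have h1 := key (fun q => if q = ⟨i, j⟩ then 1 else 0)
    rw [Fintype.sum_eq_single i] at h1
    · refine Eq.trans ?_ h1
      congr 1
      funext l
      simp
    · intro k hk
      refine Eq.trans ?_ (chainD_zero (F k) (fun j => z (e ⟨k, j⟩)))
      congr 1
      funext l
      have : ¬ (⟨k, l⟩ : Vars F) = ⟨i, j⟩ := fun h' => hk (congrArg Sigma.fst h')
      simp [this]
  funext k
  have h1 := hx (e.symm k).1 (e.symm k).2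
  simpa using h1

end Vale.Agent.P268.Z
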