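import Mathlib

/-!
# P268: endomorphisms of finite order prime to the characteristic are determined, up to
conjugation, by their characteristic polynomials
-/

namespace Vale.Agent.P268.Z

open Polynomial Module

section Split

variable {K : Type} [Field K] {V W : Type} [AddCommGroup V] [Module K V]
  [AddCommGroup W] [Module K W]

/-- The cyclic map `q ↦ q(f) v`. -/
noncomputable def cyc (f : End K V) (v : V) : K[X] →ₗ[K] V :=
  (LinearMap.applyₗ v).comp (aeval f).toLinearMap

theorem cyc_apply (f : End K V) (v : V) (q : K[X]) : cyc f v q = aeval f q v := rfl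

theorem cyc_X_mul (f : End K V) (v : V) (q : K[X]) : cyc f v (X * q) = f (cyc f v q) := by
  simp [cyc_apply]

theorem aeval_eq_zero_iff_dvd {h : K[X]} (hi : Irreducible h) (f : End K V) {v : V} (hv : v ≠ 0)
    (hh : aeval f h v = 0) (q : K[X]) : aeval f q v = 0 ↔ h ∣ q := by
  constructor
  · intro hq
    by_contra hd
    obtain ⟨a, b, hab⟩ := (hi.coprime_iff_not_dvd.mpr hd : IsCoprime h q)
    apply hv
    have := congrArg (fun r => aeval f r v) hab
    simpa [hh, hq] using this.symm
  · rintro ⟨k, rfl⟩
    rw [mul_comm, map_mul, Module.End.mul_apply, hh, map_zero]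

theorem ker_cyc_eq {h : K[X]} (hi : Irreducible h) (f : End K V) {v : V} (hv : v ≠ 0)
    (hh : aeval f h v = 0) (g : End K W) {w : W} (hw : w ≠ 0) (hh' : aeval g h w = 0) :
    LinearMap.ker (cyc f v) = LinearMap.ker (cyc g w) := by
  ext q
  rw [LinearMap.mem_ker, LinearMap.mem_ker, cyc_apply, cyc_apply,
    aeval_eq_zero_iff_dvd hi f hv hh, aeval_eq_zero_iff_dvd hi g hw hh']

/-- The isomorphism of two simple cyclic modules. -/
noncomputable def cycEquiv {h : K[X]} (hi : Irreducible h) (f : End K V) {v : V} (hv : v ≠ 0)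
    (hh : aeval f h v = 0) (g : End K W) {w : W} (hw : w ≠ 0) (hh' : aeval g h w = 0) :
    LinearMap.range (cyc f v) ≃ₗ[K] LinearMap.range (cyc g w) :=
  (cyc f v).quotKerEquivRange.symm ≪≫ₗ
    (Submodule.quotEquivOfEq _ _ (ker_cyc_eq hi f hv hh g hw hh')) ≪≫ₗ
    (cyc g w).quotKerEquivRange

theorem cycEquiv_apply {h : K[X]} (hi : Irreducible h) (f : End K V) {v : V} (hv : v ≠ 0)
    (hh : aeval f h v = 0) (g : End K W) {w : W} (hw : w ≠ 0) (hh' : aeval g h w = 0) (q : K[X])
    (hq : cyc f v q ∈ LinearMap.range (cyc f v)) :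
    (cycEquiv hi f hv hh g hw hh' ⟨cyc f v q, hq⟩ : W) = cyc g w q := by
  have : (⟨cyc f v q, hq⟩ : LinearMap.range (cyc f v)) =
      (cyc f v).quotKerEquivRange (Submodule.Quotient.mk q) := by
    ext
    rw [LinearMap.quotKerEquivRange_apply_mk]
  rw [this, cycEquiv, LinearEquiv.trans_apply, LinearEquiv.trans_apply,
    LinearEquiv.symm_apply_apply, Submodule.quotEquivOfEq_mk, LinearMap.quotKerEquivRange_apply_mk]

theorem range_cyc_inv (f : End K V) (v : V) (x : V) (hx : x ∈ LinearMap.range (cyc f v)) :
    f x ∈ LinearMap.range (cyc f v) := by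
  obtain ⟨q, rfl⟩ := hx
  exact ⟨X * q, cyc_X_mul f v q⟩

theorem semisimple_of_pow [FiniteDimensional K V] (f : End K V) (D : ℕ) (hD : (D : K) ≠ 0)
    (hf : f ^ D = 1) : f.IsSemisimple := by
  refine Module.End.isSemisimple_of_squarefree_aeval_eq_zero (p := X ^ D - C (1 : K))
    (separable_X_pow_sub_C 1 hD one_ne_zero).squarefree ?_
  simp [hf]

/-- Splitting off a common simple factor. -/
theorem exists_split [FiniteDimensional K V] [FiniteDimensional K W] (D : ℕ) (hD : (D : K) ≠ 0)
    (f : End K V) (g : End K W) (hf : f ^ D = 1) (hg : g ^ D = 1) (h : K[X]) (hi : Irreducible h)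
    (v : V) (hv : v ≠ 0) (hh : aeval f h v = 0) (w : W) (hw : w ≠ 0) (hh' : aeval g h w = 0) :
    ∃ (p q : Submodule K V) (p' q' : Submodule K W) (hp : ∀ x ∈ p, f x ∈ p)
      (_hq : ∀ x ∈ q, f x ∈ q) (hp' : ∀ x ∈ p', g x ∈ p') (_hq' : ∀ x ∈ q', g x ∈ q')
      (_ : IsCompl p q) (_ : IsCompl p' q') (e : p ≃ₗ[K] p'),
      p ≠ ⊥ ∧ ∀ x, e (f.restrict hp x) = g.restrict hp' (e x) := by
  obtain ⟨q, hq, hc⟩ := (Module.End.isSemisimple_iff.mp (semisimple_of_pow f D hD hf))
    (LinearMap.range (cyc f v)) (fun x hx => range_cyc_inv f v x hx)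
  obtain ⟨q', hq', hc'⟩ := (Module.End.isSemisimple_iff.mp (semisimple_of_pow g D hD hg))
    (LinearMap.range (cyc g w)) (fun x hx => range_cyc_inv g w x hx)
  refine ⟨_, q, _, q', range_cyc_inv f v, hq, range_cyc_inv g w, hq', hc, hc',
    cycEquiv hi f hv hh g hw hh', ?_, ?_⟩
  · intro hb
    apply hv
    have : cyc f v 1 ∈ LinearMap.range (cyc f v) := ⟨1, rfl⟩
    rw [hb, Submodule.mem_bot] at this
    simpa [cyc_apply] using this
  · rintro ⟨x, hx⟩
    have hx' := hx
    obtain ⟨q, rfl⟩ := hx'
    apply Subtype.ext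
    have e1 : (f.restrict (range_cyc_inv f v)) ⟨cyc f v q, hx⟩ =
        ⟨cyc f v (X * q), LinearMap.mem_range_self _ _⟩ :=
      Subtype.ext (cyc_X_mul f v q).symm
    rw [e1]
    refine (cycEquiv_apply hi f hv hh g hw hh' (X * q) _).trans ?_
    rw [cyc_X_mul, ← cycEquiv_apply hi f hv hh g hw hh' q hx]
    rfl

/-- Gluing. -/
theorem exists_glue (f : End K V) (g : End K W) {p q : Submodule K V} {p' q' : Submodule K W}
    (hp : ∀ x ∈ p, f x ∈ p) (hq : ∀ x ∈ q, f x ∈ q) (hp' : ∀ x ∈ p', g x ∈ p')
    (hq' : ∀ x ∈ q', g x ∈ q') (hc : IsCompl p q) (hc' : IsCompl p' q') (e : p ≃ₗ[K] p')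
    (he : ∀ x, e (f.restrict hp x) = g.restrict hp' (e x)) (e' : q ≃ₗ[K] q')
    (he' : ∀ x, e' (f.restrict hq x) = g.restrict hq' (e' x)) :
    ∃ E : V ≃ₗ[K] W, ∀ x, E (f x) = g (E x) := by
  refine ⟨(Submodule.prodEquivOfIsCompl p q hc).symm ≪≫ₗ (e.prodCongr e') ≪≫ₗ
    Submodule.prodEquivOfIsCompl p' q' hc', ?_⟩
  intro x
  obtain ⟨⟨a, b⟩, rfl⟩ := (Submodule.prodEquivOfIsCompl p q hc).surjective x
  have h1 : f (Submodule.prodEquivOfIsCompl p q hc (a, b)) =
      Submodule.prodEquivOfIsCompl p q hc (f.restrict hp a, f.restrict hq b) := by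
    simp
  rw [h1]
  simp only [LinearEquiv.trans_apply, LinearEquiv.symm_apply_apply, LinearEquiv.prodCongr_apply,
    he, he']
  simp

theorem charpoly_split [FiniteDimensional K V] (f : End K V) {p q : Submodule K V}
    (hp : ∀ x ∈ p, f x ∈ p) (hq : ∀ x ∈ q, f x ∈ q) (hc : IsCompl p q) :
    f.charpoly = (f.restrict hp).charpoly * (f.restrict hq).charpoly := by
  rw [← LinearMap.charpoly_prodMap,
    ← LinearEquiv.charpoly_conj (Submodule.prodEquivOfIsCompl p q hc)
      ((f.restrict hp).prodMap (f.restrict hq))]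
  congr 1
  ext x
  obtain ⟨⟨a, b⟩, rfl⟩ := (Submodule.prodEquivOfIsCompl p q hc).surjective x
  rw [LinearEquiv.conj_apply_apply, LinearEquiv.symm_apply_apply]
  simp

theorem trace_split [FiniteDimensional K V] (f : End K V) {p q : Submodule K V}
    (hp : ∀ x ∈ p, f x ∈ p) (hq : ∀ x ∈ q, f x ∈ q) (hc : IsCompl p q) :
    LinearMap.trace K V f = LinearMap.trace K p (f.restrict hp) +
      LinearMap.trace K q (f.restrict hq) := by
  rw [← LinearMap.trace_prodMap', 
    ← LinearMap.trace_conj' ((f.restrict hp).prodMap (f.restrict hq))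
      (Submodule.prodEquivOfIsCompl p q hc)]
  congr 1
  ext x
  obtain ⟨⟨a, b⟩, rfl⟩ := (Submodule.prodEquivOfIsCompl p q hc).surjective x
  rw [LinearEquiv.conj_apply_apply, LinearEquiv.symm_apply_apply]
  simp

theorem restrict_pow (f : End K V) {p : Submodule K V} (hp : ∀ x ∈ p, f x ∈ p) (D : ℕ)
    (hf : f ^ D = 1) : (f.restrict hp) ^ D = 1 := by
  ext x
  rw [Module.End.pow_restrict D]
  simp [hf]

/-- An irreducible factor of the characteristic polynomial has a kernel. -/
theorem exists_ker_of_dvd_charpoly [FiniteDimensional K V] (f : End K V) (h : K[X])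
    (hi : Irreducible h) (hd : h ∣ f.charpoly) : ∃ v : V, v ≠ 0 ∧ aeval f h v = 0 := by
  by_contra hcon
  push Not at hcon
  have hinj : Function.Injective (aeval f h) := by
    rw [injective_iff_map_eq_zero]
    intro v hv
    by_contra h0
    exact hcon v h0 hv
  have hbij : Function.Bijective (aeval f h) :=
    ⟨hinj, (LinearMap.injective_iff_surjective (f := (aeval f h : End K V))).mp hinj⟩
  obtain ⟨k, hk⟩ : ∃ k : End K V, k * aeval f h = 1 := by
    refine ⟨(LinearEquiv.ofBijective _ hbij).symm.toLinearMap, ?_⟩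
    ext x
    exact (LinearEquiv.ofBijective _ hbij).symm_apply_apply x
  have : Fact (Irreducible h) := ⟨hi⟩
  let L := AdjoinRoot h
  have hroot : IsRoot (f.baseChange L).charpoly (AdjoinRoot.root h) := by
    rw [LinearMap.charpoly_baseChange, IsRoot.def, eval_map_algebraMap]
    obtain ⟨q, hq⟩ := hd
    rw [hq, map_mul, AdjoinRoot.aeval_eq, AdjoinRoot.mk_self, zero_mul]
  have hev : Module.End.HasEigenvalue (f.baseChange L) (AdjoinRoot.root h) :=
    (Module.End.hasEigenvalue_iff_isRoot_charpoly (f.baseChange L) (AdjoinRoot.root h)).mpr hroot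
  obtain ⟨x, hx⟩ := hev.exists_hasEigenvector
  have h1 : aeval (f.baseChange L) h x = 0 := by
    have := Module.End.aeval_apply_of_hasEigenvector (p := h.map (algebraMap K L)) hx
    rw [aeval_map_algebraMap, eval_map_algebraMap, AdjoinRoot.aeval_eq, AdjoinRoot.mk_self,
      zero_smul] at this
    exact this
  have h2 : aeval (f.baseChange L) h = (aeval f h : End K V).baseChange L :=
    Polynomial.aeval_algHom_apply (Module.End.baseChangeHom K L V) f h
  have h3 : k.baseChange L ((aeval f h : End K V).baseChange L x) = x := by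
    have : k.baseChange L * (aeval f h : End K V).baseChange L = 1 := by
      rw [← LinearMap.baseChange_mul, hk, LinearMap.baseChange_one]
    exact congrArg (fun r => r x) this
  rw [← h2, h1, map_zero] at h3
  exact hx.2 h3.symm

/-- A power-of-order `D` endomorphisms with equal characteristic polynomials are conjugate. -/
theorem conj_of_charpoly_aux (D : ℕ) (hD : (D : K) ≠ 0) : ∀ (n : ℕ) (V W : Type)
    [AddCommGroup V] [Module K V] [FiniteDimensional K V]
    [AddCommGroup W] [Module K W] [FiniteDimensional K W] (f : End K V) (g : End K W),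
    finrank K V ≤ n → f ^ D = 1 → g ^ D = 1 → f.charpoly = g.charpoly →
    ∃ E : V ≃ₗ[K] W, ∀ x, E (f x) = g (E x) := by
  intro n
  induction n with
  | zero =>
    intro V W _ _ _ _ _ _ f g hn hf hg hc
    have h1 : finrank K V = finrank K W := by
      rw [← f.charpoly_natDegree, ← g.charpoly_natDegree, hc]
    have h0 : finrank K V = 0 := by omega
    have hW : finrank K W = 0 := by omega
    have := finrank_zero_iff.mp hW
    exact ⟨LinearEquiv.ofFinrankEq V W h1, fun x => Subsingleton.elim _ _⟩
  | succ n ih =>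
    intro V W _ _ _ _ _ _ f g hn hf hg hc
    have h1 : finrank K V = finrank K W := by
      rw [← f.charpoly_natDegree, ← g.charpoly_natDegree, hc]
    by_cases h0 : finrank K V = 0
    · have hW : finrank K W = 0 := by omega
      have := finrank_zero_iff.mp hW
      exact ⟨LinearEquiv.ofFinrankEq V W h1, fun x => Subsingleton.elim _ _⟩
    · obtain ⟨h, hi, hd⟩ : ∃ h : K[X], Irreducible h ∧ h ∣ f.charpoly := by
        apply Polynomial.exists_irreducible_of_natDegree_ne_zero
        rwa [f.charpoly_natDegree]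
      obtain ⟨v, hv, hv'⟩ := exists_ker_of_dvd_charpoly f h hi hd
      obtain ⟨w, hw, hw'⟩ := exists_ker_of_dvd_charpoly g h hi (hc ▸ hd)
      obtain ⟨p, q, p', q', hp, hq, hp', hq', hcp, hcp', e, hb, he⟩ :=
        exists_split D hD f g hf hg h hi v hv hv' w hw hw'
      have h2 : (f.restrict hp).charpoly = (g.restrict hp').charpoly := by
        rw [← LinearEquiv.charpoly_conj e (f.restrict hp)]
        congr 1
        ext x
        obtain ⟨y, rfl⟩ := e.surjective x
        rw [LinearEquiv.conj_apply_apply, LinearEquiv.symm_apply_apply, he]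
      have h3 : (f.restrict hq).charpoly = (g.restrict hq').charpoly := by
        rw [charpoly_split f hp hq hcp, charpoly_split g hp' hq' hcp', h2] at hc
        exact mul_left_cancel₀ (LinearMap.charpoly_monic _).ne_zero hc
      have h4 : finrank K q ≤ n := by
        have := Submodule.finrank_add_eq_of_isCompl hcp
        have : 0 < finrank K p := by
          rw [pos_iff_ne_zero]
          intro h
          exact hb (Submodule.finrank_eq_zero.mp h)
        omega
      obtain ⟨e', he'⟩ := ih q q' (f.restrict hq) (g.restrict hq') h4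
        (restrict_pow f hq D hf) (restrict_pow g hq' D hg) h3
      exact exists_glue f g hp hq hp' hq' hcp hcp' e he e' he'

/-- A common kernel from equality of traces. -/
theorem exists_ker_of_trace [CharZero K] [FiniteDimensional K V] [FiniteDimensional K W] (D : ℕ)
    (hD : (D : K) ≠ 0) (f : End K V) (g : End K W) (hf : f ^ D = 1) (hg : g ^ D = 1)
    (htr : ∀ k : ℕ, LinearMap.trace K V (f ^ k) = LinearMap.trace K W (g ^ k))
    (h : K[X]) (hi : Irreducible h) (v : V) (hv : v ≠ 0) (hv' : aeval f h v = 0) :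
    ∃ w : W, w ≠ 0 ∧ aeval g h w = 0 := by
  by_contra hcon
  push Not at hcon
  have hinj : Function.Injective (aeval g h) := by
    rw [injective_iff_map_eq_zero]
    intro w hw
    by_contra h0
    exact hcon w h0 hw
  have hd : h ∣ X ^ D - C (1 : K) := by
    rw [← aeval_eq_zero_iff_dvd hi f hv hv']
    simp [hf]
  obtain ⟨k, hk⟩ := hd
  have hsep : (X ^ D - C (1 : K)).Separable := separable_X_pow_sub_C 1 hD one_ne_zero
  obtain ⟨a, b, hab⟩ : IsCoprime h k := by
    rw [hk] at hsep
    exact hsep.isCoprime
  have hgk : aeval g k = 0 := by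
    ext x
    apply hinj
    rw [← Module.End.mul_apply, ← map_mul, ← hk]
    simp [hg]
  have hfk : aeval f h * aeval f k = 0 := by
    rw [← map_mul, ← hk]
    simp [hf]
  have htr' : ∀ q : K[X], LinearMap.trace K V (aeval f q) = LinearMap.trace K W (aeval g q) := by
    intro q
    simp only [aeval_eq_sum_range, map_sum, map_smul, htr]
  have hidem : IsIdempotentElem (aeval f (b * k)) := by
    have : (b * k) * (b * k) = b * k - a * b * (h * k) := by
      linear_combination (b * k) * hab
    rw [IsIdempotentElem, ← map_mul, this, map_sub, map_mul (aeval f) (a * b), map_mul (aeval f) h,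
      hfk, mul_zero, sub_zero]
  have h0 : aeval f (b * k) = 0 := by
    apply (LinearMap.IsIdempotentElem.trace_eq_zero_iff hidem).mp
    rw [htr', map_mul, hgk, mul_zero, map_zero]
  apply hv
  have := congrArg (fun r => aeval f r v) hab
  rw [map_add, h0, add_zero, map_mul, Module.End.mul_apply, hv', map_zero, map_one] at this
  exact this.symm

/-- Endomorphisms of order `D` with equal traces of powers are conjugate (characteristic zero). -/
theorem conj_of_trace_aux [CharZero K] (D : ℕ) (hD : (D : K) ≠ 0) : ∀ (n : ℕ) (V W : Type)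
    [AddCommGroup V] [Module K V] [FiniteDimensional K V]
    [AddCommGroup W] [Module K W] [FiniteDimensional K W] (f : End K V) (g : End K W),
    finrank K V ≤ n → f ^ D = 1 → g ^ D = 1 →
    (∀ k : ℕ, LinearMap.trace K V (f ^ k) = LinearMap.trace K W (g ^ k)) →
    ∃ E : V ≃ₗ[K] W, ∀ x, E (f x) = g (E x) := by
  intro n
  have key : ∀ (V W : Type) [AddCommGroup V] [Module K V] [FiniteDimensional K V]
    [AddCommGroup W] [Module K W] [FiniteDimensional K W] (f : End K V) (g : End K W),
    (∀ k : ℕ, LinearMap.trace K V (f ^ k) = LinearMap.trace K W (g ^ k)) →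
      finrank K V = finrank K W := by
    intro V W _ _ _ _ _ _ f g h
    have := h 0
    rw [pow_zero, pow_zero, LinearMap.trace_one, LinearMap.trace_one] at this
    exact_mod_cast this
  induction n with
  | zero =>
    intro V W _ _ _ _ _ _ f g hn hf hg hc
    have h1 := key V W f g hc
    have h0 : finrank K V = 0 := by omega
    have hW : finrank K W = 0 := by omega
    have := finrank_zero_iff.mp hW
    exact ⟨LinearEquiv.ofFinrankEq V W h1, fun x => Subsingleton.elim _ _⟩
  | succ n ih =>
    intro V W _ _ _ _ _ _ f g hn hf hg hc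
    have h1 := key V W f g hc
    by_cases h0 : finrank K V = 0
    · have hW : finrank K W = 0 := by omega
      have := finrank_zero_iff.mp hW
      exact ⟨LinearEquiv.ofFinrankEq V W h1, fun x => Subsingleton.elim _ _⟩
    · obtain ⟨h, hi, hd⟩ : ∃ h : K[X], Irreducible h ∧ h ∣ f.charpoly := by
        apply Polynomial.exists_irreducible_of_natDegree_ne_zero
        rwa [f.charpoly_natDegree]
      obtain ⟨v, hv, hv'⟩ := exists_ker_of_dvd_charpoly f h hi hd
      obtain ⟨w, hw, hw'⟩ := exists_ker_of_trace D hD f g hf hg hc h hi v hv hv'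
      obtain ⟨p, q, p', q', hp, hq, hp', hq', hcp, hcp', e, hb, he⟩ :=
        exists_split D hD f g hf hg h hi v hv hv' w hw hw'
      have h2 : ∀ k : ℕ, LinearMap.trace K p ((f.restrict hp) ^ k) =
          LinearMap.trace K p' ((g.restrict hp') ^ k) := by
        intro k
        rw [← LinearMap.trace_conj' ((f.restrict hp) ^ k) e]
        congr 1
        have h5 : e.conj (f.restrict hp) = g.restrict hp' := by
          ext x
          obtain ⟨y, rfl⟩ := e.surjective x
          rw [LinearEquiv.conj_apply_apply, LinearEquiv.symm_apply_apply, he]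
        rw [← h5]
        exact map_pow e.conjRingEquiv (f.restrict hp) k
      have h3 : ∀ k : ℕ, LinearMap.trace K q ((f.restrict hq) ^ k) =
          LinearMap.trace K q' ((g.restrict hq') ^ k) := by
        intro k
        have e1 := trace_split (f ^ k) (Module.End.pow_apply_mem_of_forall_mem k hp)
          (Module.End.pow_apply_mem_of_forall_mem k hq) hcp
        have e2 := trace_split (g ^ k) (Module.End.pow_apply_mem_of_forall_mem k hp')
          (Module.End.pow_apply_mem_of_forall_mem k hq') hcp'
        rw [← Module.End.pow_restrict k hp, ← Module.End.pow_restrict k hq] at e1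
        rw [← Module.End.pow_restrict k hp', ← Module.End.pow_restrict k hq'] at e2
        rw [hc, e2, h2] at e1
        exact (add_left_cancel e1).symm
      have h4 : finrank K q ≤ n := by
        have := Submodule.finrank_add_eq_of_isCompl hcp
        have : 0 < finrank K p := by
          rw [pos_iff_ne_zero]
          intro h
          exact hb (Submodule.finrank_eq_zero.mp h)
        omega
      obtain ⟨e', he'⟩ := ih q q' (f.restrict hq) (g.restrict hq') h4
        (restrict_pow f hq D hf) (restrict_pow g hq' D hg) h3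
      exact exists_glue f g hp hq hp' hq' hcp hcp' e he e' he'

end Split

end Vale.Agent.P268.Z
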