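import Vale.Agent.P268.Defs
import Vale.Agent.P268.Z.Chain

/-!
# P268: multiplicity and reducedness of sums of chain polynomials
-/

open Set Filter Metric Topology

namespace Vale.Agent.P268.Z

section General

variable {E : Type*} [NormedAddCommGroup E] [NormedSpace ℂ E]

theorem iteratedFDeriv_zero_of_diag {f : E → ℂ} (hf : AnalyticAt ℂ f 0) {k : ℕ}
    (h : ∀ v : E, iteratedFDeriv ℂ k f 0 (fun _ => v) = 0) : iteratedFDeriv ℂ k f 0 = 0 := by
  ext v
  have h1 := ContinuousMultilinearMap.iteratedFDeriv_comp_diagonal (iteratedFDeriv ℂ k f 0) 0 v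
  have h2 : (fun x : E => iteratedFDeriv ℂ k f 0 (fun _ => x)) = fun _ => 0 := by
    ext x; exact h x
  have hcd : ContDiffAt ℂ ⊤ f 0 := hf.contDiffAt
  have h3 : ∀ σ : Equiv.Perm (Fin k), iteratedFDeriv ℂ k f 0 (fun i => v (σ i)) =
      iteratedFDeriv ℂ k f 0 v := by
    intro σ
    exact hcd.iteratedFDeriv_comp_perm v σ
  rw [h2] at h1
  simp only [h3, Finset.sum_const, Finset.card_univ, Fintype.card_perm, Fintype.card_fin,
    nsmul_eq_mul] at h1
  have h4 : iteratedFDeriv ℂ k (fun _ : E => (0:ℂ)) 0 = 0 := by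
    exact congrFun (iteratedFDeriv_fun_zero (𝕜 := ℂ) (E := E) (F := ℂ) (n := k)) 0
  rw [h4] at h1
  simp only [_root_.zero_apply, zero_eq_mul, Nat.cast_eq_zero,
    Nat.factorial_ne_zero, false_or] at h1
  simpa using h1

/-- Iterated derivatives along a line. -/
theorem iteratedDeriv_along {f : E → ℂ} {U : Set E} (hU : IsOpen U) {n : ℕ}
    (hf : ContDiffOn ℂ n f U) {x y : E} {t : ℂ} (ht : x + t • y ∈ U) :
    iteratedDeriv n (fun s : ℂ => f (x + s • y)) t =
      iteratedFDeriv ℂ n f (x + t • y) (fun _ => y) := by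
  induction n generalizing t with
  | zero => simp
  | succ n ih =>
    have hf' : ContDiffOn ℂ n f U := hf.of_le (by exact_mod_cast Nat.le_succ n)
    have hline : Continuous (fun s : ℂ => x + s • y) := by fun_prop
    have hev : ∀ᶠ s in 𝓝 t, x + s • y ∈ U := hline.continuousAt.eventually (hU.mem_nhds ht)
    rw [iteratedDeriv_succ]
    have h1 : iteratedDeriv n (fun s : ℂ => f (x + s • y)) =ᶠ[𝓝 t]
        fun s => iteratedFDeriv ℂ n f (x + s • y) (fun _ => y) := by
      filter_upwards [hev] with s hs using ih hf' hs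
    rw [h1.deriv_eq]
    have hcd : ContDiffAt ℂ (n + 1 : ℕ) f (x + t • y) := hf.contDiffAt (hU.mem_nhds ht)
    have h2 : DifferentiableAt ℂ (iteratedFDeriv ℂ n f) (x + t • y) :=
      hcd.differentiableAt_iteratedFDeriv (by exact_mod_cast Nat.lt_succ_self n)
    have h3 : HasDerivAt (fun s : ℂ => x + s • y) y t := by
      simpa using ((hasDerivAt_id t).smul_const y).const_add x
    have h4 : HasDerivAt (fun s : ℂ => iteratedFDeriv ℂ n f (x + s • y))
        (fderiv ℂ (iteratedFDeriv ℂ n f) (x + t • y) y) t := h2.hasFDerivAt.comp_hasDerivAt t h3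
    have h5 : HasDerivAt (fun s : ℂ => iteratedFDeriv ℂ n f (x + s • y) (fun _ => y))
        ((fderiv ℂ (iteratedFDeriv ℂ n f) (x + t • y) y) (fun _ => y)) t :=
      (ContinuousMultilinearMap.apply ℂ (fun _ : Fin n => E) ℂ (fun _ => y)).hasFDerivAt.comp_hasDerivAt
        t h4
    rw [h5.deriv, iteratedFDeriv_succ_apply_left]
    rfl

theorem iteratedDeriv_smul_along {f : E → ℂ} (hf : AnalyticAt ℂ f 0) (v : E) (j : ℕ) :
    iteratedDeriv j (fun t : ℂ => f (t • v)) 0 = iteratedFDeriv ℂ j f 0 (fun _ => v) := by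
  have hfU : AnalyticOnNhd ℂ f {z | AnalyticAt ℂ f z} := fun _ hz => hz
  have hU : IsOpen {z | AnalyticAt ℂ f z} := isOpen_analyticAt ℂ f
  have hcd : ContDiffOn ℂ j f {z | AnalyticAt ℂ f z} := hfU.contDiffOn hU.uniqueDiffOn
  have := iteratedDeriv_along hU hcd (x := 0) (y := v) (t := 0) (by simpa using hf)
  simpa using this

/-- The multiplicity, computed on lines. -/
theorem mult_eq_of_lines {f : E → ℂ} (hf : AnalyticAt ℂ f 0) {d : ℕ}
    (h : ∀ v : E, ∃ g : ℂ → ℂ, AnalyticAt ℂ g 0 ∧ ∀ t, f (t • v) = t ^ d * g t)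
    (h' : ∃ v : E, ∀ t : ℂ, f (t • v) = t ^ d) : mult f = d := by
  have hline : ∀ v : E, AnalyticAt ℂ (fun t : ℂ => f (t • v)) 0 := by
    intro v
    have h1 : AnalyticAt ℂ (fun t : ℂ => t • v) 0 := analyticAt_id.smul analyticAt_const
    exact AnalyticAt.fun_comp (g := f) (f := fun t : ℂ => t • v) (by simpa using hf) h1
  have hlow : ∀ j < d, iteratedFDeriv ℂ j f 0 = 0 := by
    intro j hj
    apply iteratedFDeriv_zero_of_diag hf
    intro v
    rw [← iteratedDeriv_smul_along hf v j]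
    have h1 : (d : ℕ∞) ≤ analyticOrderAt (fun t : ℂ => f (t • v)) 0 := by
      rw [natCast_le_analyticOrderAt (hline v)]
      obtain ⟨g, hg, hfg⟩ := h v
      exact ⟨g, hg, Eventually.of_forall fun t => by simpa using hfg t⟩
    rw [natCast_le_analyticOrderAt_iff_iteratedDeriv_eq_zero (hline v)] at h1
    exact h1 j hj
  have hup : iteratedFDeriv ℂ d f 0 ≠ 0 := by
    intro h0
    obtain ⟨v, hv⟩ := h'
    have h1 : analyticOrderAt (fun t : ℂ => f (t • v)) 0 = (d : ℕ∞) := by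
      rw [(hline v).analyticOrderAt_eq_natCast]
      exact ⟨fun _ => 1, analyticAt_const, one_ne_zero,
        Eventually.of_forall fun t => by simpa using hv t⟩
    rw [analyticOrderAt_eq_nat_iff_iteratedDeriv_eq_zero (hline v)] at h1
    apply h1.2
    rw [iteratedDeriv_smul_along hf v d, h0]
    rfl
  apply le_antisymm
  · exact Nat.sInf_le hup
  · apply le_csInf ⟨d, hup⟩
    intro k hk
    by_contra hlt
    exact hk (hlow k (not_le.1 hlt))

end General

/-! ### Reducedness -/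

/-- Zeros of holomorphic functions of two variables are not isolated. -/
theorem frequently_zero_two {g : ℂ × ℂ → ℂ} (hg : AnalyticAt ℂ g 0) (h0 : g 0 = 0) :
    ∃ᶠ z in 𝓝[≠] (0 : ℂ × ℂ), g z = 0 := by
  by_contra hcon
  rw [not_frequently, eventually_nhdsWithin_iff] at hcon
  obtain ⟨ε, hε, hball⟩ := Metric.eventually_nhds_iff_ball.1 (hcon.and hg.eventually_analyticAt)
  have hmem : ∀ s w : ℂ, ‖s‖ ≤ ε / 2 → ‖w‖ ≤ ε / 2 → ((s, w) : ℂ × ℂ) ∈ ball (0 : ℂ × ℂ) ε := by
    intro s w hs hw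
    rw [mem_ball_zero_iff, Prod.norm_def]
    exact max_lt (by simp only; linarith) (by simp only; linarith)
  have hne : ∀ s w : ℂ, ‖s‖ ≤ ε / 2 → ‖w‖ ≤ ε / 2 → (s, w) ≠ (0 : ℂ × ℂ) → g (s, w) ≠ 0 :=
    fun s w hs hw h => (hball _ (hmem s w hs hw)).1 h
  have han : ∀ s w : ℂ, ‖s‖ ≤ ε / 2 → ‖w‖ ≤ ε / 2 → AnalyticAt ℂ g (s, w) :=
    fun s w hs hw => (hball _ (hmem s w hs hw)).2
  -- the compact set
  have hK : IsCompact (sphere (0 : ℂ) (ε / 2) ×ˢ closedBall (0 : ℂ) (ε / 2)) :=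
    (isCompact_sphere _ _).prod (isCompact_closedBall _ _)
  have hcont : ContinuousOn (fun z => (g z)⁻¹)
      (sphere (0 : ℂ) (ε / 2) ×ˢ closedBall (0 : ℂ) (ε / 2)) := by
    rintro ⟨s, w⟩ ⟨hs, hw⟩
    rw [mem_sphere_zero_iff_norm] at hs
    rw [mem_closedBall_zero_iff] at hw
    apply ContinuousAt.continuousWithinAt
    apply (han s w hs.le hw).continuousAt.inv₀
    apply hne s w hs.le hw
    intro h
    simp only [Prod.mk_eq_zero] at h
    rw [h.1, norm_zero] at hs
    linarith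
  obtain ⟨C, hC⟩ := hK.exists_bound_of_continuousOn hcont
  have hbound : ∀ w : ℂ, w ≠ 0 → ‖w‖ ≤ ε / 2 → ‖(g (0, w))⁻¹‖ ≤ C := by
    intro w hw0 hw
    have hd : DiffContOnCl ℂ (fun s => (g (s, w))⁻¹) (ball 0 (ε / 2)) := by
      apply DifferentiableOn.diffContOnCl
      rw [closure_ball _ (by positivity)]
      intro s hs
      rw [mem_closedBall_zero_iff] at hs
      apply DifferentiableAt.differentiableWithinAt
      have h1 : DifferentiableAt ℂ (fun s : ℂ => g (s, w)) s := by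
        have h2 := (han s w hs hw).differentiableAt
        exact h2.comp s (by fun_prop : DifferentiableAt ℂ (fun s : ℂ => (s, w)) s)
      apply h1.inv
      apply hne s w hs hw
      intro h
      simp only [Prod.mk_eq_zero] at h
      exact hw0 h.2
    apply Complex.norm_le_of_forall_mem_frontier_norm_le isBounded_ball hd (C := C)
    · intro s hs
      rw [frontier_ball _ (by positivity)] at hs
      exact hC (s, w) ⟨hs, by simpa using hw⟩
    · exact subset_closure (mem_ball_self (by positivity))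
  have htend : Tendsto (fun w : ℂ => ‖g (0, w)‖) (𝓝[≠] 0) (𝓝 0) := by
    have h1 : ContinuousAt (fun w : ℂ => ‖g (0, w)‖) 0 := by
      have h2 : ContinuousAt g ((0 : ℂ), (0 : ℂ)) := hg.continuousAt
      exact (h2.comp (f := fun w : ℂ => ((0 : ℂ), w)) (by fun_prop)).norm
    have h3 : ‖g (0, 0)‖ = 0 := by
      have : g (0, 0) = 0 := h0
      rw [this, norm_zero]
    have h4 := h1.tendsto
    rw [h3] at h4
    exact h4.mono_left nhdsWithin_le_nhds
  have hC0 : 0 < |C| + 1 := by positivity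
  have hsm : ∀ᶠ w in 𝓝[≠] (0 : ℂ), ‖g (0, w)‖ < 1 / (|C| + 1) :=
    htend.eventually (gt_mem_nhds (by positivity))
  have hnb : ∀ᶠ w in 𝓝[≠] (0 : ℂ), ‖w‖ ≤ ε / 2 := by
    apply eventually_nhdsWithin_of_eventually_nhds
    filter_upwards [closedBall_mem_nhds (0 : ℂ) (half_pos hε)] with w hw using by simpa using hw
  obtain ⟨w, ⟨hw1, hw2⟩, hw3⟩ := ((hsm.and hnb).and self_mem_nhdsWithin).exists
  have hw3' : w ≠ 0 := hw3
  have h1 := hbound w hw3' hw2
  have hg0 : 0 < ‖g (0, w)‖ := norm_pos_iff.2 (hne 0 w (by simpa using (half_pos hε).le) hw2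
    (by simp [hw3']))
  rw [norm_inv] at h1
  have h2 : (‖g (0, w)‖)⁻¹ > |C| + 1 := by
    rw [gt_iff_lt, lt_inv_comm₀ hC0 hg0]
    simpa using hw1
  have h3 := le_abs_self C
  linarith

/-- `s ^ (a + 1) + t ^ (b + 1)` is reduced. -/
theorem not_square_two {a b : ℕ} (ha : 1 ≤ a) (hb : 1 ≤ b) {g h : ℂ × ℂ → ℂ}
    (hg : AnalyticAt ℂ g 0) (hh : AnalyticAt ℂ h 0) (h0 : g 0 = 0) :
    ¬ ∀ᶠ z in 𝓝 (0 : ℂ × ℂ), z.1 ^ (a + 1) + z.2 ^ (b + 1) = g z ^ 2 * h z := by
  intro hev
  have hfr := frequently_zero_two hg h0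
  have hev2 : ∀ᶠ z in 𝓝[≠] (0 : ℂ × ℂ),
      (∀ᶠ z' in 𝓝 z, z'.1 ^ (a + 1) + z'.2 ^ (b + 1) = g z' ^ 2 * h z') ∧
        AnalyticAt ℂ g z ∧ AnalyticAt ℂ h z := by
    apply eventually_nhdsWithin_of_eventually_nhds
    exact hev.eventually_nhds.and (hg.eventually_analyticAt.and hh.eventually_analyticAt)
  obtain ⟨z, ⟨hz0, hz1, hz2, hz3⟩, hz4⟩ := ((hfr.and_eventually hev2).and_eventually
    self_mem_nhdsWithin).exists
  have hz4' : z ≠ 0 := hz4
  -- derivative of the right hand side vanishes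
  have hD : HasFDerivAt (fun z => g z ^ 2 * h z) (0 : ℂ × ℂ →L[ℂ] ℂ) z := by
    have h1 := (HasFDerivAt.pow hz2.differentiableAt.hasFDerivAt 2).fun_mul
      hz3.differentiableAt.hasFDerivAt
    refine h1.congr_fderiv ?_
    rw [hz0]
    refine ContinuousLinearMap.ext fun v => ?_
    change (0 : ℂ) ^ 2 * (fderiv ℂ h z) v + h z * ((2 • (0 : ℂ) ^ (2 - 1)) * (fderiv ℂ g z) v) = 0
    simp
  have hD' : HasFDerivAt (fun z : ℂ × ℂ => z.1 ^ (a + 1) + z.2 ^ (b + 1))
      (0 : ℂ × ℂ →L[ℂ] ℂ) z := hD.congr_of_eventuallyEq hz1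
  have hD2 : HasFDerivAt (fun z : ℂ × ℂ => z.1 ^ (a + 1) + z.2 ^ (b + 1))
      ((((a + 1 : ℕ) : ℂ) * z.1 ^ a) • ContinuousLinearMap.fst ℂ ℂ ℂ +
        (((b + 1 : ℕ) : ℂ) * z.2 ^ b) • ContinuousLinearMap.snd ℂ ℂ ℂ) z := by
    have h1 := (HasFDerivAt.pow (hasFDerivAt_fst (𝕜 := ℂ) (p := z)) (a + 1)).fun_add
      (HasFDerivAt.pow (hasFDerivAt_snd (𝕜 := ℂ) (p := z)) (b + 1))
    refine h1.congr_fderiv ?_
    simp
  have hu := hD'.unique hD2
  have ha0 : ((a + 1 : ℕ) : ℂ) ≠ 0 := Nat.cast_ne_zero.2 (Nat.succ_ne_zero a)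
  have hb0 : ((b + 1 : ℕ) : ℂ) ≠ 0 := Nat.cast_ne_zero.2 (Nat.succ_ne_zero b)
  have e1 := congrArg (fun L : ℂ × ℂ →L[ℂ] ℂ => L (1, 0)) hu
  have e2 := congrArg (fun L : ℂ × ℂ →L[ℂ] ℂ => L (0, 1)) hu
  simp only [_root_.zero_apply, _root_.add_apply, _root_.smul_apply,
    ContinuousLinearMap.coe_fst', ContinuousLinearMap.coe_snd', smul_eq_mul, mul_one, mul_zero,
    add_zero, zero_add] at e1 e2
  have e1' : z.1 = 0 := by
    rcases mul_eq_zero.1 e1.symm with h | h
    · exact absurd h ha0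
    · exact pow_eq_zero_iff (by omega) |>.1 h
  have e2' : z.2 = 0 := by
    rcases mul_eq_zero.1 e2.symm with h | h
    · exact absurd h hb0
    · exact pow_eq_zero_iff (by omega) |>.1 h
  exact hz4' (Prod.ext e1' e2')

/-! ### Chain polynomials -/

/-- Only the last variable (the one with exponent `a_1`) is nonzero. -/
theorem chainFun_last {l : List ℕ} {a : ℕ} (hl : ∀ b ∈ l ++ [a], 2 ≤ b) (y : ℂ) :
    chainFun (l ++ [a]) (fun j => if (j : ℕ) = l.length then y else 0) = y ^ a := by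
  have hlen : (l ++ [a]).length = l.length + 1 := by simp
  rw [chainFun, Fintype.sum_eq_single ⟨l.length, by omega⟩]
  · simp
  · intro j hj
    have hj' : (j : ℕ) ≠ l.length := fun h => hj (Fin.ext h)
    have h1 : (l ++ [a]).get j ≠ 0 := by
      have := hl ((l ++ [a]).get j) (List.get_mem _ j)
      omega
    simp only [hj', if_false]
    rw [zero_pow h1, zero_mul]

theorem chainFun_last' {c : List ℕ} (hc : ∀ b ∈ c, 2 ≤ b) (hne : c ≠ []) (y : ℂ) :
    chainFun c (fun j => if (j : ℕ) + 1 = c.length then y else 0) = y ^ (c.getLast hne) := by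
  obtain ⟨l, a, rfl⟩ : ∃ l a, c = l ++ [a] :=
    ⟨c.dropLast, c.getLast hne, (List.dropLast_append_getLast hne).symm⟩
  have := chainFun_last hc y
  simpa using this

theorem chainFun_zero {c : List ℕ} (hc : ∀ a ∈ c, 2 ≤ a) :
    chainFun c (fun _ => 0) = 0 := by
  apply Finset.sum_eq_zero
  intro j _
  have h1 : c.get j ≠ 0 := by
    have := hc (c.get j) (List.get_mem c j)
    omega
  rw [zero_pow h1, zero_mul]

theorem chainFun_line {c : List ℕ} {d : ℕ}
    (hd : ∀ j : Fin c.length, d ≤ c.get j + if (j : ℕ) + 1 < c.length then 1 else 0)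
    (x : Fin c.length → ℂ) :
    ∃ g : ℂ → ℂ, AnalyticAt ℂ g 0 ∧ ∀ t, chainFun c (fun j => t * x j) = t ^ d * g t := by
  refine ⟨fun t => ∑ j : Fin c.length,
    t ^ (c.get j + (if (j : ℕ) + 1 < c.length then 1 else 0) - d) * (x j ^ (c.get j) *
      (if h : (j : ℕ) + 1 < c.length then x ⟨j + 1, h⟩ else 1)), ?_, ?_⟩
  · apply Finset.analyticAt_fun_sum
    intro j _
    exact (analyticAt_id.pow _).mul analyticAt_const
  · intro t
    rw [Finset.mul_sum]
    apply Finset.sum_congr rfl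
    intro j _
    have h1 : t ^ d * t ^ (c.get j + (if (j : ℕ) + 1 < c.length then 1 else 0) - d) =
        t ^ (c.get j + (if (j : ℕ) + 1 < c.length then 1 else 0)) := by
      rw [← pow_add]
      congr 1
      have := hd j
      omega
    rw [← mul_assoc, h1, mul_pow]
    split_ifs with h
    · ring
    · ring

/-- The sum of chain polynomials as a function of `N` numbered variables. -/
theorem analyticAt_sumFun {ι : Type} [Fintype ι] (F : ι → List ℕ) {N : ℕ}
    (e : Vars F ≃ Fin N) (z : Fin N → ℂ) : AnalyticAt ℂ (fun z => sumFun F (z ∘ e)) z := by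
  apply Finset.analyticAt_fun_sum
  intro i _
  apply Finset.analyticAt_fun_sum
  intro j _
  have hp : ∀ k : Fin N, AnalyticAt ℂ (fun z : Fin N → ℂ => z k) z := fun k =>
    (ContinuousLinearMap.proj (R := ℂ) (φ := fun _ : Fin N => ℂ) k).analyticAt z
  apply AnalyticAt.mul ((hp _).pow _)
  split_ifs with h
  · exact hp _
  · exact analyticAt_const

theorem sumFun_zero {ι : Type} [Fintype ι] (F : ι → List ℕ)
    (hF : ∀ i, ∀ a ∈ F i, 2 ≤ a) : sumFun F (fun _ => 0) = 0 :=
  Finset.sum_eq_zero fun i _ => chainFun_zero (hF i)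

theorem sumFun_one {ι : Type} [Fintype ι] [DecidableEq ι] (F : ι → List ℕ)
    (hF : ∀ i, ∀ a ∈ F i, 2 ≤ a) {i : ι} (hi : F i ≠ []) (t : ℂ) :
    sumFun F (fun q => if (q.2 : ℕ) + 1 = (F q.1).length then if q.1 = i then t else 0 else 0) =
      t ^ ((F i).getLast hi) := by
  rw [sumFun, Fintype.sum_eq_single i]
  · simp only [if_true]
    exact chainFun_last' (hF i) hi t
  · intro k hk
    simp only [hk, if_false, ite_self]
    exact chainFun_zero (hF k)

theorem sumFun_two {ι : Type} [Fintype ι] [DecidableEq ι] (F : ι → List ℕ)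
    (hF : ∀ i, ∀ a ∈ F i, 2 ≤ a) {i i' : ι} (hne : i ≠ i') (hi : F i ≠ [])
    (hi' : F i' ≠ []) (s t : ℂ) :
    sumFun F (fun q => if (q.2 : ℕ) + 1 = (F q.1).length then
      if q.1 = i then s else if q.1 = i' then t else 0 else 0) =
      s ^ ((F i).getLast hi) + t ^ ((F i').getLast hi') := by
  rw [sumFun, Fintype.sum_eq_add i i' hne]
  · simp only [if_true, hne.symm, if_false]
    rw [chainFun_last' (hF i) hi s, chainFun_last' (hF i') hi' t]
  · rintro k ⟨hk, hk'⟩
    simp only [hk, hk', if_false, ite_self]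
    exact chainFun_zero (hF k)

theorem mult_sumFun {ι : Type} [Fintype ι] (F : ι → List ℕ) {N : ℕ} (e : Vars F ≃ Fin N)
    (hF : ∀ i, ∀ a ∈ F i, 2 ≤ a) {d : ℕ}
    (hd : ∀ i, ∀ j : Fin (F i).length,
      d ≤ (F i).get j + if (j : ℕ) + 1 < (F i).length then 1 else 0)
    {i : ι} (hi : F i = [d]) : mult (fun z : Fin N → ℂ => sumFun F (z ∘ e)) = d := by
  classical
  apply mult_eq_of_lines (analyticAt_sumFun F e 0)
  · intro v
    choose g hg hfg using fun i => chainFun_line (hd i) (fun j => v (e ⟨i, j⟩))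
    refine ⟨fun t => ∑ i, g i t, ?_, ?_⟩
    · exact Finset.analyticAt_fun_sum _ fun i _ => hg i
    · intro t
      rw [Finset.mul_sum]
      apply Finset.sum_congr rfl
      intro i _
      exact hfg i t
  · have hi0 : F i ≠ [] := by rw [hi]; simp
    refine ⟨fun k => if ((e.symm k).2 : ℕ) + 1 = (F (e.symm k).1).length then
      if (e.symm k).1 = i then 1 else 0 else 0, fun t => ?_⟩
    have h1 : (F i).getLast hi0 = d := by simp [hi]
    rw [← h1, ← sumFun_one F hF hi0 t]
    congr 1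
    funext q
    change t * (if ((e.symm (e q)).2 : ℕ) + 1 = (F (e.symm (e q)).1).length then
      if (e.symm (e q)).1 = i then 1 else 0 else 0) = _
    rw [Equiv.symm_apply_apply]
    split_ifs <;> simp

/-- Multiplicity three. -/
theorem mult_eq_three {ι : Type} [Fintype ι] (F : ι → List ℕ) {N : ℕ} (e : Vars F ≃ Fin N)
    (hF : ∀ i, ∀ a ∈ F i, 2 ≤ a)
    (hl : ∀ i, ∃ (l : List ℕ) (x : ℕ), F i = l ++ [x] ∧ 3 ≤ x)
    (h3 : ∃ i, F i = [3]) : mult (fun z : Fin N → ℂ => sumFun F (z ∘ e)) = 3 := by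
  obtain ⟨i, hi⟩ := h3
  refine mult_sumFun F e hF ?_ hi
  intro i j
  obtain ⟨l, x, hlx, hx⟩ := hl i
  have h2 := hF i ((F i).get j) (List.get_mem _ j)
  split_ifs with h
  · omega
  · have hlen : (F i).length = l.length + 1 := by rw [hlx]; simp
    have hj : (j : ℕ) = l.length := by
      have := j.2
      omega
    have : (F i).get j = x := by
      have h4 : (F i)[l.length]? = some x := by
        rw [hlx]
        simp
      rw [← hj] at h4
      rw [List.get_eq_getElem]
      rw [List.getElem?_eq_getElem j.2] at h4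
      exact Option.some.inj h4
    omega

/-- Multiplicity two. -/
theorem mult_eq_two {ι : Type} [Fintype ι] (F : ι → List ℕ) {N : ℕ} (e : Vars F ≃ Fin N)
    (hF : ∀ i, ∀ a ∈ F i, 2 ≤ a)
    (h2 : ∃ i, F i = [2]) : mult (fun z : Fin N → ℂ => sumFun F (z ∘ e)) = 2 := by
  obtain ⟨i, hi⟩ := h2
  refine mult_sumFun F e hF ?_ hi
  intro i j
  have := hF i ((F i).get j) (List.get_mem _ j)
  omega

/-- Reducedness: a sum of at least two chain polynomials is reduced. -/
theorem red_sumFun {ι : Type} [Fintype ι] (F : ι → List ℕ) {N : ℕ} (e : Vars F ≃ Fin N)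
    (hF : ∀ i, ∀ a ∈ F i, 2 ≤ a) {i i' : ι} (hne : i ≠ i')
    (hi : F i ≠ []) (hi' : F i' ≠ []) : Red (fun z : Fin N → ℂ => sumFun F (z ∘ e)) := by
  classical
  refine ⟨analyticAt_sumFun F e 0, sumFun_zero F hF, ?_⟩
  intro g h hg hh h0 hev
  -- the plane
  let P : ℂ × ℂ →L[ℂ] (Fin N → ℂ) := ContinuousLinearMap.pi fun k =>
    if ((e.symm k).2 : ℕ) + 1 = (F (e.symm k).1).length then
      if (e.symm k).1 = i then ContinuousLinearMap.fst ℂ ℂ ℂ
        else if (e.symm k).1 = i' then ContinuousLinearMap.snd ℂ ℂ ℂ else 0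
    else 0
  have hP0 : P 0 = 0 := map_zero P
  have hPe : ∀ p : ℂ × ℂ, (P p) ∘ e =
      fun q => if (q.2 : ℕ) + 1 = (F q.1).length then
        if q.1 = i then p.1 else if q.1 = i' then p.2 else 0 else 0 := by
    intro p
    funext q
    have hPk : ∀ k, P p k = if ((e.symm k).2 : ℕ) + 1 = (F (e.symm k).1).length then
        if (e.symm k).1 = i then p.1 else if (e.symm k).1 = i' then p.2 else 0 else 0 := by
      intro k
      simp only [P, ContinuousLinearMap.coe_pi']
      split_ifs <;> rfl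
    rw [Function.comp_apply, hPk, Equiv.symm_apply_apply]
  have ha := hF i _ (List.getLast_mem hi)
  have hb := hF i' _ (List.getLast_mem hi')
  obtain ⟨a, ha'⟩ : ∃ a, (F i).getLast hi = a + 1 := ⟨(F i).getLast hi - 1, by omega⟩
  obtain ⟨b, hb'⟩ : ∃ b, (F i').getLast hi' = b + 1 := ⟨(F i').getLast hi' - 1, by omega⟩
  have hPan : AnalyticAt ℂ (fun p => P p) 0 := P.analyticAt 0
  apply not_square_two (a := a) (b := b) (by omega) (by omega) (g := fun p => g (P p))
    (h := fun p => h (P p))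
  · exact AnalyticAt.fun_comp (g := g) (f := fun p => P p) (by simpa [hP0] using hg) hPan
  · exact AnalyticAt.fun_comp (g := h) (f := fun p => P p) (by simpa [hP0] using hh) hPan
  · simp only [hP0, h0]
  · have hcont : Tendsto (fun p => P p) (𝓝 0) (𝓝 0) := by
      have := P.continuous.tendsto 0
      rwa [hP0] at this
    filter_upwards [hcont.eventually hev] with p hp
    rw [← hp, hPe, sumFun_two F hF hne hi hi', ha', hb']

end Vale.Agent.P268.Z
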